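import Vale.Agent.P253W.A.Defs0

/-!
# P253W, block A, row APR: the a priori estimate for the outer factor
-/

open Complex Metric Set Filter Topology MeasureTheory
open scoped Matrix ComplexConjugate ComplexOrder

noncomputable section

namespace Vale.Agent.P253W.A

open WM

namespace Apr

variable {q : Type} [Fintype q] [DecidableEq q]

theorem hf_one (x : q → ℂ) : hf 1 x = ∑ j, ‖x j‖ ^ 2 := by
  simp only [hf, Matrix.one_mulVec, dotProduct, Complex.re_sum, Pi.star_apply]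
  refine Finset.sum_congr rfl fun j _ => ?_
  rw [Complex.star_def, Complex.conj_mul', ← Complex.ofReal_pow, Complex.ofReal_re]

omit [DecidableEq q] in
theorem hf_conj (A Φ : Matrix q q ℂ) (x : q → ℂ) : hf A (Φ *ᵥ x) = hf (Φᴴ * A * Φ) x := by
  simp only [hf, Matrix.star_mulVec, ← Matrix.mulVec_mulVec, Matrix.dotProduct_mulVec,
    Matrix.vecMul_vecMul]

omit [DecidableEq q] in
theorem hf_sub (A B : Matrix q q ℂ) (x : q → ℂ) : hf (A - B) x = hf A x - hf B x := by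
  simp [hf, Matrix.sub_mulVec]

omit [DecidableEq q] in
theorem hf_smul (t : ℝ) (A : Matrix q q ℂ) (x : q → ℂ) : hf ((t : ℂ) • A) x = t * hf A x := by
  simp [hf, Matrix.smul_mulVec]

omit [DecidableEq q] in
theorem hf_nn {A : Matrix q q ℂ} (h : A.PosSemidef) (x : q → ℂ) : 0 ≤ hf A x :=
  (Complex.nonneg_iff.1 (h.dotProduct_mulVec_nonneg x)).1

omit [DecidableEq q] in
theorem hf_cs {A : ℂ → Matrix q q ℂ} {U : ℂ → q → ℂ} (hA : Cs A)
    (hU : ∀ j, ContinuousOn (fun τ => U τ j) (sphere 0 1)) :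
    ContinuousOn (fun τ => hf (A τ) (U τ)) (sphere 0 1) := by
  simp only [hf, dotProduct, Matrix.mulVec, Pi.star_apply]
  exact Complex.continuous_re.comp_continuousOn (continuousOn_finsetSum _ fun i _ =>
    (hU i).star.mul (continuousOn_finsetSum _ fun j _ => (hA i j).mul (hU j)))

theorem av_sub_sq {g : ℂ → ℂ} (hg : DA g) :
    av (fun τ => ‖g τ - g 0‖ ^ 2) = av (fun τ => ‖g τ‖ ^ 2) - ‖g 0‖ ^ 2 := by
  have h1 : DA fun τ => g τ * conj (g 0) := hg.mul (da_const _)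
  have h2 := av_re h1.cs
  rw [h1.av_eq, Complex.mul_conj', ← Complex.ofReal_pow, Complex.ofReal_re] at h2
  have c1 : ContinuousOn (fun τ => ‖g τ‖ ^ 2) (sphere 0 1) := hg.cs.norm.pow 2
  have c2 : ContinuousOn (fun τ => 2 * (g τ * conj (g 0)).re) (sphere 0 1) :=
    continuousOn_const.mul (Complex.continuous_re.comp_continuousOn h1.cs)
  have e : ∀ τ, ‖g τ - g 0‖ ^ 2 = ‖g τ‖ ^ 2 + ‖g 0‖ ^ 2 - 2 * (g τ * conj (g 0)).re := fun τ => by
    simp only [← Complex.normSq_eq_norm_sq]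
    exact Complex.normSq_sub _ _
  simp only [e]
  rw [av_sub (u := fun τ => ‖g τ‖ ^ 2 + ‖g 0‖ ^ 2) (c1.add continuousOn_const) c2, av_add c1 continuousOn_const, av_mul_real, h2,
    av_const]
  ring

omit [DecidableEq q] in
theorem da_mulVec {Φ : ℂ → Matrix q q ℂ} {U : ℂ → q → ℂ} (hΦ : ∀ i j, DA fun τ => Φ τ i j)
    (hU : ∀ j, DA fun τ => U τ j) (i : q) : DA fun τ => (Φ τ *ᵥ U τ) i := by
  simp only [Matrix.mulVec, dotProduct]
  exact DA.sum _ fun j _ => (hΦ i j).mul (hU j)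

theorem key {A Φ : ℂ → Matrix q q ℂ} (hΦ : ∀ i j, DA fun τ => Φ τ i j)
    (hd : ∀ τ ∈ closedBall (0 : ℂ) 1, (Φ τ).det ≠ 0)
    (h1 : ∀ τ ∈ sphere (0 : ℂ) 1, (Φ τ)ᴴ * A τ * Φ τ = 1) (w : q → ℂ) (h : ℝ) :
    av (fun τ => hf (A τ) (Φ (rt h τ) *ᵥ w - Φ τ *ᵥ w)) =
      av (fun τ => hf (A (rt (-h) τ)) (Φ τ *ᵥ w)) - ∑ j, ‖w j‖ ^ 2 := by
  set G : ℂ → q → ℂ := fun τ => (Φ τ)⁻¹ *ᵥ (Φ (rt h τ) *ᵥ w) with hG
  have dG : ∀ j, DA fun τ => G τ j := da_mulVec (DA.matInv hΦ hd)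
    (da_mulVec (fun i j => (hΦ i j).rt h) fun _ => da_const _)
  have G0 : G 0 = w := by
    simp only [hG, rt_zero', Matrix.mulVec_mulVec]
    rw [Matrix.nonsing_inv_mul _ (hd 0 (by simp)).isUnit, Matrix.one_mulVec]
  have eG : ∀ τ ∈ sphere (0 : ℂ) 1, Φ (rt h τ) *ᵥ w = Φ τ *ᵥ G τ := fun τ hτ => by
    simp only [hG]
    rw [Matrix.mulVec_mulVec _ (Φ τ),
      Matrix.mul_nonsing_inv _ (hd τ (sphere_subset_closedBall hτ)).isUnit, Matrix.one_mulVec]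
  have e1 : av (fun τ => hf (A τ) (Φ (rt h τ) *ᵥ w - Φ τ *ᵥ w)) =
      av fun τ => ∑ j, ‖G τ j - G 0 j‖ ^ 2 := av_congr fun τ hτ => by
    rw [eG τ hτ, ← Matrix.mulVec_sub, hf_conj, h1 τ hτ, hf_one, G0]; rfl
  have e2 : av (fun τ => hf (A (rt (-h) τ)) (Φ τ *ᵥ w)) = av fun τ => ∑ j, ‖G τ j‖ ^ 2 := by
    rw [← av_rt _ h]
    refine av_congr fun τ hτ => ?_
    rw [rt_rt, neg_add_cancel, rt_zero, eG τ hτ, hf_conj, h1 τ hτ, hf_one]
  rw [e1, e2, av_sum (u := fun j τ => ‖G τ j - G 0 j‖ ^ 2) _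
      fun j _ => ((dG j).cs.sub continuousOn_const).norm.pow 2,
    av_sum (u := fun j τ => ‖G τ j‖ ^ 2) _ fun j _ => (dG j).cs.norm.pow 2,
    ← Finset.sum_sub_distrib]
  exact Finset.sum_congr rfl fun j _ => by rw [av_sub_sq (dG j), G0]

end Apr

open Apr in
theorem apr : APR := by
  intro q _ _ A Φ μ L δ hμ hL hδ hA hΦ hd H w j
  have dU : ∀ j, DA fun τ => (Φ τ *ᵥ w) j := da_mulVec hΦ fun _ => da_const _
  have lo : ∀ τ ∈ sphere (0 : ℂ) 1, ∀ x : q → ℂ, μ * ∑ j, ‖x j‖ ^ 2 ≤ hf (A τ) x := fun τ hτ x => by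
    have := hf_nn (H τ hτ).1 x
    rw [hf_sub, hf_smul, hf_one] at this
    linarith
  have n0 : ∀ x : q → ℂ, 0 ≤ ∑ j, ‖x j‖ ^ 2 := fun x => Finset.sum_nonneg fun _ _ => sq_nonneg _
  refine Dq.of_small (by positivity) (dU j).cs fun e he => ⟨δ, hδ, fun k hk => ?_⟩
  have k1 := key hΦ hd (fun τ hτ => (H τ hτ).2.1) w k
  have k2 := key hΦ hd (fun τ hτ => (H τ hτ).2.1) w (-k)
  rw [neg_neg] at k2
  have k3 : 0 ≤ av (fun τ => hf (A τ) (Φ (rt (-k) τ) *ᵥ w - Φ τ *ᵥ w)) :=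
    av_nonneg fun τ hτ => (mul_nonneg hμ.le (n0 _)).trans (lo τ hτ _)
  have c1 : ∀ h, ContinuousOn (fun τ => hf (A (rt h τ)) (Φ τ *ᵥ w)) (sphere 0 1) := fun h =>
    hf_cs (A := fun τ => A (rt h τ)) (fun i j => cs_rt (hA i j) h) fun j => (dU j).cs
  have k4 : av (fun τ => hf (A (rt k τ)) (Φ τ *ᵥ w)) + av (fun τ => hf (A (rt (-k) τ)) (Φ τ *ᵥ w)) ≤
      (2 + (L * k) ^ 2) * ∑ j, ‖w j‖ ^ 2 := by
    rw [← av_add (c1 k) (c1 (-k))]
    refine av_le_const ((c1 k).add (c1 (-k))) fun τ hτ => ?_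
    have := hf_nn ((H τ hτ).2.2 k (by rw [abs_of_pos hk.1]; exact hk.2.le)) (Φ τ *ᵥ w)
    rw [hf_sub, hf_sub, hf_smul, hf_conj (A τ), (H τ hτ).2.1, hf_one] at this
    linarith
  have k5 : μ * av (fun τ => dist ((Φ (rt k τ) *ᵥ w) j) ((Φ τ *ᵥ w) j) ^ 2) ≤
      av (fun τ => hf (A τ) (Φ (rt k τ) *ᵥ w - Φ τ *ᵥ w)) := by
    rw [← av_mul_real]
    refine av_mono (continuousOn_const.mul ((cs_dist (dU j).cs k).pow 2))
      (hf_cs hA fun j => (cs_rt (dU j).cs k).sub (dU j).cs) fun τ hτ => le_trans ?_ (lo τ hτ _)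
    rw [dist_eq_norm]
    exact mul_le_mul_of_nonneg_left (Finset.single_le_sum
      (f := fun j => ‖(Φ (rt k τ) *ᵥ w - Φ τ *ᵥ w) j‖ ^ 2) (fun _ _ => sq_nonneg _)
      (Finset.mem_univ j)) hμ.le
  have k6 : av (fun τ => dist ((Φ (rt k τ) *ᵥ w) j) ((Φ τ *ᵥ w) j) ^ 2) ≤
      (L * √(∑ j, ‖w j‖ ^ 2) / √μ * k) ^ 2 := by
    rw [mul_pow, div_pow, mul_pow, Real.sq_sqrt (n0 w), Real.sq_sqrt hμ.le, div_mul_eq_mul_div,
      le_div_iff₀ hμ]
    nlinarith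
  refine k6.trans (pow_le_pow_left₀ (by have := hk.1; positivity) ?_ 2)
  exact mul_le_mul_of_nonneg_right (le_add_of_nonneg_right he.le) hk.1.le

end Vale.Agent.P253W.A
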