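import Vale.Agent.P253W.A.Defs1
import Vale.Agent.P253W.WM.Emb

/-!
# P253W, block A: rows CMP and MIN
-/

open Complex Metric Set Filter Topology MeasureTheory
open scoped Matrix ComplexConjugate ComplexOrder
open Vale.Agent.P272.K (Cm Chart)

noncomputable section

namespace Vale.Agent.P253W.A

open WM

namespace CmpL

/-- lower semicontinuity along a sequence -/
def Ls (a : ℝ) (u : ℕ → ℝ) : Prop := ∀ η : ℝ, 0 < η → ∀ᶠ k in atTop, a ≤ u k + η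

theorem Ls.of_tendsto {a : ℝ} {u : ℕ → ℝ} (h : Tendsto u atTop (𝓝 a)) : Ls a u := fun η hη => by
  filter_upwards [h.eventually (lt_mem_nhds (show a - η < a by linarith))] with k hk
  linarith

theorem Ls.add {a b : ℝ} {u v : ℕ → ℝ} (h : Ls a u) (h' : Ls b v) :
    Ls (a + b) fun k => u k + v k := fun η hη => by
  filter_upwards [h (η / 2) (by positivity), h' (η / 2) (by positivity)] with k h1 h2
  linarith

theorem Ls.sum {ι : Type*} (s : Finset ι) {a : ι → ℝ} {u : ι → ℕ → ℝ}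
    (h : ∀ i ∈ s, Ls (a i) (u i)) : Ls (∑ i ∈ s, a i) fun k => ∑ i ∈ s, u i k := by
  classical
  induction s using Finset.induction_on with
  | empty => exact Ls.of_tendsto (by simp)
  | insert i s hi ih =>
    simp only [Finset.sum_insert hi]
    exact (h i (Finset.mem_insert_self _ _)).add
      (ih fun j hj => h j (Finset.mem_insert_of_mem hj))

theorem Ls.mul {a e : ℝ} {u : ℕ → ℝ} (h : Ls a u) (he : 0 < e) :
    Ls (e * a) fun k => e * u k := fun η hη => by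
  filter_upwards [h (η / e) (by positivity)] with k hk
  have := mul_le_mul_of_nonneg_left hk he.le
  rwa [mul_add, mul_div_cancel₀ _ he.ne'] at this

theorem Ls.log {a : ℝ} {u : ℕ → ℝ} (h : Ls a u) (ha : 0 ≤ a) (hu : ∀ k, 0 ≤ u k) :
    Ls (Real.log (1 + a)) fun k => Real.log (1 + u k) := fun η hη => by
  filter_upwards [h η hη] with k hk
  have h0 := hu k
  have h1 : 1 + a ≤ (1 + u k) * Real.exp η := by
    have := Real.add_one_le_exp η
    nlinarith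
  calc Real.log (1 + a) ≤ Real.log ((1 + u k) * Real.exp η) := Real.log_le_log (by linarith) h1
    _ = _ := by rw [Real.log_mul (by linarith) (Real.exp_pos η).ne', Real.log_exp]

theorem av_tendsto {u : ℕ → ℂ → ℝ} {v : ℂ → ℝ} {M : ℝ}
    (hu : ∀ k, ContinuousOn (u k) (sphere 0 1)) (hb : ∀ k, ∀ τ ∈ sphere (0 : ℂ) 1, ‖u k τ‖ ≤ M)
    (hl : ∀ τ ∈ sphere (0 : ℂ) 1, Tendsto (fun k => u k τ) atTop (𝓝 (v τ))) :
    Tendsto (fun k => av (u k)) atTop (𝓝 (av v)) := by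
  simp only [av, Real.circleAverage]
  refine Tendsto.const_smul ?_ _
  refine intervalIntegral.tendsto_integral_filter_of_dominated_convergence (fun _ => M)
    (Eventually.of_forall fun k => ?_) (Eventually.of_forall fun k => ?_)
    intervalIntegrable_const ?_
  · exact ((hu k).comp_continuous (continuous_circleMap 0 1) cm_mem).aestronglyMeasurable
  · exact Eventually.of_forall fun θ _ => hb k _ (cm_mem θ)
  · exact Eventually.of_forall fun θ _ => hl _ (cm_mem θ)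

theorem av_comp {X : Type*} [TopologicalSpace X] {Q : Set X} (hQ : IsCompact Q) {u : X → ℝ}
    (hu : ContinuousOn u Q) {p : ℕ → ℂ → X} {p' : ℂ → X}
    (hc : ∀ k, ContinuousOn (p k) (sphere 0 1)) (hm : ∀ k, ∀ τ ∈ sphere (0 : ℂ) 1, p k τ ∈ Q)
    (hm' : ∀ τ ∈ sphere (0 : ℂ) 1, p' τ ∈ Q)
    (hl : ∀ τ ∈ sphere (0 : ℂ) 1, Tendsto (fun k => p k τ) atTop (𝓝 (p' τ))) :
    Tendsto (fun k => av fun τ => u (p k τ)) atTop (𝓝 (av fun τ => u (p' τ))) := by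
  obtain ⟨M, hM⟩ := hQ.exists_bound_of_continuousOn hu
  exact av_tendsto (M := M) (fun k => hu.comp (hc k) (hm k)) (fun k τ hτ => hM _ (hm k τ hτ))
    fun τ hτ => (hu _ (hm' τ hτ)).tendsto.comp
      (tendsto_nhdsWithin_iff.2 ⟨hl τ hτ, Eventually.of_forall fun k => hm k τ hτ⟩)

theorem continuous_tm : Continuous tm := by unfold tm; fun_prop

theorem continuous_zc {n : ℕ} : Continuous (zc : Cm (n + n) → Cm n) :=
  continuous_pi fun _ => continuous_apply _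

theorem continuous_vc {n : ℕ} : Continuous (vc : Cm (n + n) → Cm n) :=
  continuous_pi fun _ => continuous_apply _

theorem continuous_det {n m : ℕ} :
    Continuous fun x : (Fin m → ℝ) × (Fin m → Cm n) => (Zm x.1 x.2).det.re := by
  refine Complex.continuous_re.comp (Continuous.matrix_det ?_)
  unfold Zm
  refine continuous_finsetSum _ fun i _ => ?_
  refine continuous_matrix fun a b => ?_
  simp only [Matrix.smul_apply, Matrix.vecMulVec_apply, Pi.star_apply, smul_eq_mul]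
  fun_prop

theorem tendsto_det {n m : ℕ} {γ : ℕ → Fin m → ℝ} {p : ℕ → Fin m → Cm n} {γ' : Fin m → ℝ}
    {p' : Fin m → Cm n} (h : ∀ i, Tendsto (fun k => γ k i) atTop (𝓝 (γ' i)))
    (h' : ∀ i, Tendsto (fun k => p k i) atTop (𝓝 (p' i))) :
    Tendsto (fun k => (Zm (γ k) (p k)).det.re) atTop (𝓝 (Zm γ' p').det.re) := by
  have a : Tendsto (fun k => (γ k, p k)) atTop (𝓝 (γ', p')) :=
    (tendsto_pi_nhds.2 h).prodMk_nhds (tendsto_pi_nhds.2 h')
  have b := (continuous_det.tendsto (γ', p')).comp a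
  simpa only [Function.comp_def] using b

variable {n : ℕ} {N : Type} [TopologicalSpace N] {B : Bs n N} {σ l₀ : ℝ} (P : B.Pen σ l₀)

theorem tm_mem (D : B.Dk) {τ : ℂ} (hτ : τ ∈ sphere (0 : ℂ) 1) : tm (D.ζ τ) ∈ Icc 0 B.S :=
  ⟨(Real.exp_pos _).le, D.le τ (sphere_subset_closedBall hτ)⟩

theorem icc_sub : Icc 0 B.S ⊆ Ico 0 (B.S + 1) := fun _ h => ⟨h.1, by linarith [h.2]⟩

theorem cs_pt (D : B.Dk) : ContinuousOn (fun τ => (tm (D.ζ τ), D.φ τ)) (sphere 0 1) :=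
  (continuous_tm.comp_continuousOn D.da.cs).prodMk (D.dn.1.mono sphere_subset_closedBall)

theorem avb_nonneg {D : B.Dk} (hW : ∀ τ ∈ sphere (0 : ℂ) 1, D.φ τ ∈ P.W) :
    0 ≤ av fun τ => P.b (tm (D.ζ τ)) (D.φ τ) :=
  av_nonneg fun τ hτ => (P.wall _ (tm_mem D hτ) _ (hW τ hτ)).1

theorem pi_nonneg {D : B.Dk} (hW : ∀ τ ∈ sphere (0 : ℂ) 1, D.φ τ ∈ P.W) : 0 ≤ P.Pi D :=
  add_nonneg (avb_nonneg P hW) (P.T_nn _)

theorem wall {D : B.Dk} (hW : ∀ τ ∈ sphere (0 : ℂ) 1, D.φ τ ∈ P.W) :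
    Wall P.C (fun τ => P.F (D.φ τ)) (fun τ => P.d (D.φ τ))
      fun τ => P.b (tm (D.ζ τ)) (D.φ τ) where
  cB := P.cb.comp (cs_pt D) fun τ hτ => ⟨icc_sub (tm_mem D hτ), hW τ hτ⟩
  pos := fun τ hτ => ⟨(P.mem _ (P.WK (hW τ hτ))).1.1 (hW τ hτ),
    (P.wall _ (tm_mem D hτ) _ (hW τ hτ)).1, (P.wall _ (tm_mem D hτ) _ (hW τ hτ)).2.1⟩
  lip := fun τ hτ τ' hτ' => P.lip _ (P.WK (hW τ hτ)) _ (P.WK (hW τ' hτ'))

theorem cont_d (hF : Continuous P.F) : ContinuousOn P.d P.K := fun y hy => by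
  refine tendsto_iff_dist_tendsto_zero.2 (squeeze_zero' (g := fun y' => P.C * ‖P.F y' - P.F y‖)
    (Eventually.of_forall fun _ => dist_nonneg) ?_ ?_)
  · filter_upwards [self_mem_nhdsWithin] with y' hy'
    exact P.lip _ hy' _ hy
  · have : Tendsto (fun y' => P.C * ‖P.F y' - P.F y‖) (𝓝 y) (𝓝 (P.C * ‖P.F y - P.F y‖)) :=
      Continuous.tendsto (by fun_prop) y
    simpa using this.mono_left nhdsWithin_le_nhds

/-- the limit of one disc -/
theorem one [T2Space N] (hB : B.Ok) (h1 : LIPK) (h2 : WAL) {D : ℕ → B.Dk} {q : ℕ → ℝ × Cm n}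
    {C : Set (Cm n)} (hC : IsCompact C) (hCU : C ⊆ B.U) (hq : ∀ k, (q k).2 ∈ C)
    (hat : ∀ k, (D k).At (q k)) (hW : ∀ k, ∀ τ ∈ sphere (0 : ℂ) 1, (D k).φ τ ∈ P.W)
    {g : ℂ → Option (Fin P.L) → ℂ} (hg : HWv g) {A M : ℝ} (hA : ∀ k, Dqv A (P.Y (D k)))
    (hM : ∀ k, P.Pi (D k) ≤ M)
    (hu : TendstoUniformlyOn (fun k => P.Y (D k)) g atTop (closedBall 0 1)) :
    ∃ (D' : B.Dk) (q' : ℝ × Cm n), D'.At q' ∧ Tendsto q atTop (𝓝 q') ∧
      (∀ τ ∈ sphere (0 : ℂ) 1, D'.φ τ ∈ P.W) ∧ EqOn (P.Y D') g (closedBall 0 1) ∧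
      Tendsto (fun k => (D k).γ) atTop (𝓝 D'.γ) ∧ Tendsto (fun k => (D k).p) atTop (𝓝 D'.p) ∧
      Ls (P.Pi D') fun k => P.Pi (D k) := by
  have hF : Continuous P.F := (h1 _ N B.𝒜 _ P.F hB.atl P.ho).1
  have hT : ∀ k, P.T (D k).φ ≤ M := fun k => by
    have := hM k
    have := avb_nonneg P (hW k)
    unfold Bs.Pen.Pi at *
    linarith
  have hb : ∀ k, (av fun τ => P.b (tm ((D k).ζ τ)) ((D k).φ τ)) ≤ M := fun k => by
    have := hM k
    have := P.T_nn (D k).φ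
    unfold Bs.Pen.Pi at *
    linarith
  have huF : TendstoUniformlyOn (fun k τ => P.F ((D k).φ τ)) (fun τ l => g τ (some l)) atTop
      (closedBall 0 1) :=
    (uniformContinuous_pi.2 fun l => Pi.uniformContinuous_proj
      (fun _ : Option (Fin P.L) => ℂ) (some l)).comp_tendstoUniformlyOn hu
  obtain ⟨ψ, hψ, hl, hTl⟩ := P.kn (fun k => (D k).φ) (fun τ l => g τ (some l)) M
    (fun k => ⟨(D k).dn, hT k, fun τ hτ => P.WK (hW k τ hτ)⟩)
    (huF.mono sphere_subset_closedBall)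
  have hζ : ∀ τ ∈ closedBall (0 : ℂ) 1,
      Tendsto (fun k => tm ((D k).ζ τ)) atTop (𝓝 (tm (g τ none))) := fun τ hτ =>
    (continuous_tm.tendsto _).comp ((continuous_apply none).tendsto _ |>.comp (hu.tendsto_at hτ))
  have hK : ∀ τ ∈ sphere (0 : ℂ) 1, ψ τ ∈ P.K := fun τ hτ =>
    P.cpt.isClosed.mem_of_tendsto (hl τ (sphere_subset_closedBall hτ))
      (Eventually.of_forall fun k => P.WK (hW k τ hτ))
  let D' : B.Dk := ⟨ψ, fun τ => g τ none, hψ, (hg none).da,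
    fun τ hτ => le_of_tendsto' (hζ τ hτ) fun k => (D k).le τ hτ, fun τ hτ => P.KO (hK τ hτ)⟩
  obtain ⟨c₀, hc₀, hc⟩ := (h2 (Fin P.L) P.C).2 A M
  have hd : ∀ k, ∀ τ ∈ sphere (0 : ℂ) 1, c₀ ≤ P.d ((D k).φ τ) := fun k =>
    hc _ _ _ (fun l => hA k (some l)) (wall P (hW k)) (hb k)
  have hcl : IsClosed (P.K ∩ P.d ⁻¹' Ici c₀) :=
    (cont_d P hF).preimage_isClosed_of_isClosed P.cpt.isClosed isClosed_Ici
  have hK₀ : IsCompact (P.K ∩ P.d ⁻¹' Ici c₀) := P.cpt.of_isClosed_subset hcl inter_subset_left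
  have hsub : P.K ∩ P.d ⁻¹' Ici c₀ ⊆ P.W := fun y hy => (P.mem y hy.1).1.2 (hc₀.trans_le hy.2)
  have hψ₀ : ∀ τ ∈ sphere (0 : ℂ) 1, ψ τ ∈ P.K ∩ P.d ⁻¹' Ici c₀ := fun τ hτ =>
    hcl.mem_of_tendsto (hl τ (sphere_subset_closedBall hτ))
      (Eventually.of_forall fun k => ⟨P.WK (hW k τ hτ), hd k τ hτ⟩)
  have h0 : (0 : ℂ) ∈ closedBall (0 : ℂ) 1 := mem_closedBall_self zero_le_one
  have hs : ψ 0 ∈ B.e.source :=
    ((hB.cl C hCU hC).mem_of_tendsto (hl 0 h0) (Eventually.of_forall fun k =>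
      ⟨(hat k).1, by rw [(hat k).2.1]; exact hq k⟩)).1
  have he : Tendsto (fun k => B.e ((D k).φ 0)) atTop (𝓝 (B.e (ψ 0))) :=
    (B.e.continuousAt hs).tendsto.comp (hl 0 h0)
  have hpt : ∀ τ ∈ sphere (0 : ℂ) 1, Tendsto (fun k => (tm ((D k).ζ τ), (D k).φ τ)) atTop
      (𝓝 (tm (D'.ζ τ), D'.φ τ)) := fun τ hτ =>
    (hζ τ (sphere_subset_closedBall hτ)).prodMk_nhds (hl τ (sphere_subset_closedBall hτ))
  refine ⟨D', (tm (g 0 none), zc (B.e (ψ 0))), ⟨hs, rfl, rfl⟩, ?_,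
    fun τ hτ => hsub (hψ₀ τ hτ), fun τ hτ => ?_, ?_, (continuous_vc.tendsto _).comp he, ?_⟩
  · refine ((hζ 0 h0).prodMk_nhds ((continuous_zc.tendsto _).comp he)).congr fun k => ?_
    exact Prod.ext (hat k).2.2 (hat k).2.1
  · funext l
    cases l with
    | none => rfl
    | some l =>
      exact congrFun (tendsto_nhds_unique ((hF.tendsto _).comp (hl τ hτ)) (huF.tendsto_at hτ)) l
  · exact av_comp (Q := Icc 0 B.S ×ˢ P.K) (isCompact_Icc.prod P.cpt)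
      (u := fun p => Real.log (B.H p.1 p.2))
      ((hB.cH.mono (prod_mono icc_sub (subset_univ _))).log
        fun p hp => (hB.pH _ (icc_sub hp.1) _ (P.KO hp.2)).ne')
      (fun k => cs_pt (D k)) (fun k τ hτ => ⟨tm_mem _ hτ, P.WK (hW k τ hτ)⟩)
      (fun τ hτ => ⟨tm_mem D' hτ, hK τ hτ⟩) hpt
  · refine (Ls.of_tendsto ?_).add hTl
    exact av_comp (Q := Icc 0 B.S ×ˢ (P.K ∩ P.d ⁻¹' Ici c₀)) (isCompact_Icc.prod hK₀)
      (u := fun p => P.b p.1 p.2) (P.cb.mono (prod_mono icc_sub hsub))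
      (fun k => cs_pt (D k)) (fun k τ hτ => ⟨tm_mem _ hτ, P.WK (hW k τ hτ), hd k τ hτ⟩)
      (fun τ hτ => ⟨tm_mem D' hτ, hψ₀ τ hτ⟩) hpt

variable {P} {m : ℕ} {q₀ : ℝ × Cm n} {δ e₁ : ℝ} {f : ℝ × Cm n → ℝ}

theorem pen_nonneg (x : P.Ad m q₀ δ) (he : 0 < e₁) (i : Fin m) :
    0 ≤ e₁ * Real.log (1 + P.Pi (x.D i)) :=
  mul_nonneg he.le (Real.log_nonneg (by linarith [pi_nonneg P (x.bd i)]))

theorem low_le (hL : B.Low m f q₀ δ) (x : P.Ad m q₀ δ) :
    -(n * Real.log (m / n)) ≤ Bs.J x.D - f x.q := by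
  have := hL.le x.q x.hq x.D x.ctr x.pd
  have h : 0 ≤ dist x.q q₀ ^ 4 := by positivity
  linarith

theorem fn_ge (hL : B.Low m f q₀ δ) (he : 0 < e₁) (x : P.Ad m q₀ δ) :
    -(n * Real.log (m / n)) ≤ x.Fn f e₁ :=
  (low_le hL x).trans (le_add_of_nonneg_right (Finset.sum_nonneg fun i _ => pen_nonneg x he i))

theorem hwv (x : P.Ad m q₀ δ) : HWv x.Y := fun l => x.hw l.1 l.2

end CmpL

open CmpL

variable {n : ℕ} {N : Type} [TopologicalSpace N] [T2Space N] (B : Bs n N) (hB : B.Ok)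

include hB in
theorem cmp (h1 : LIPK) (h2 : WAL) (h3 : JA) : B.CMP := by
  intro σ l₀ P m f q₀ δ e₁ c A x g he hL hc hg hA hu
  have hJA := h3.2.2.2.2 n m
  have hM : ∀ i k, P.Pi ((x k).D i) ≤ Real.exp ((c + n * Real.log (m / n)) / e₁) := fun i k => by
    have a1 := hc k
    have a2 := low_le hL (x k)
    have a3 := Finset.single_le_sum (f := fun i => e₁ * Real.log (1 + P.Pi ((x k).D i)))
      (fun i _ => pen_nonneg (x k) he i) (Finset.mem_univ i)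
    have a4 := pi_nonneg P ((x k).bd i)
    have a5 : Real.log (1 + P.Pi ((x k).D i)) ≤ (c + n * Real.log (m / n)) / e₁ := by
      rw [le_div_iff₀ he]
      unfold Bs.Pen.Ad.Fn at a1
      linarith
    have a6 := (Real.log_le_iff_le_exp (by linarith)).1 a5
    linarith
  have key := fun i : Fin m => one P hB h1 h2 (D := fun k => (x k).D i) (q := fun k => (x k).q)
    (C := Prod.snd '' closedBall q₀ δ) ((isCompact_closedBall q₀ δ).image continuous_snd)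
    (by rintro _ ⟨p, hp, rfl⟩; exact (hL.sub hp).2) (fun k => mem_image_of_mem _ (x k).hq)
    (fun k => (x k).ctr i) (fun k => (x k).bd i) (g := fun τ l => g τ (i, l))
    (fun l => hg (i, l)) (fun k l => hA k (i, l)) (hM i)
    ((uniformContinuous_pi.2 fun l => Pi.uniformContinuous_proj
      (fun _ : Fin m × Option (Fin P.L) => ℂ) (i, l)).comp_tendstoUniformlyOn hu)
  choose D q hat hq hW hY hγ hp hPi using key
  obtain ⟨i₀⟩ : Nonempty (Fin m) := by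
    by_contra h
    have : IsEmpty (Fin m) := not_nonempty_iff.1 h
    have : Nonempty (Fin n) := ⟨⟨0, hB.npos⟩⟩
    have := ((hJA _ _).2.1.1 (x 0).pd)
    simp [Zm] at this
  have hqq : ∀ i, q i = q i₀ := fun i => tendsto_nhds_unique (hq i) (hq i₀)
  have hq₀ : q i₀ ∈ closedBall q₀ δ :=
    isClosed_closedBall.mem_of_tendsto (hq i₀) (Eventually.of_forall fun k => (x k).hq)
  have hf : Tendsto (fun k => f (x k).q) atTop (𝓝 (f (q i₀))) :=
    (hL.sm _ hq₀).continuousAt.tendsto.comp (hq i₀)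
  have hdet : Tendsto (fun k => (Bs.Z (x k).D).det.re) atTop (𝓝 (Bs.Z D).det.re) :=
    tendsto_det (γ := fun k i => ((x k).D i).γ) (p := fun k i => ((x k).D i).p) hγ hp
  have hpos : 0 < (Bs.Z D).det.re := by
    refine (Real.exp_pos (-(c + f (q i₀) + 1))).trans_le (ge_of_tendsto hdet ?_)
    filter_upwards [hf.eventually (gt_mem_nhds (lt_add_one _))] with k hk
    have a1 := hc k
    have a2 := Finset.sum_nonneg fun i (_ : i ∈ Finset.univ) => pen_nonneg (x k) he i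
    have a3 : 0 < (Bs.Z (x k).D).det.re := (hJA _ _).2.1.1 (x k).pd
    rw [← Real.le_log_iff_exp_le a3]
    have a4 : Bs.J (x k).D = -Real.log (Bs.Z (x k).D).det.re := rfl
    unfold Bs.Pen.Ad.Fn at a1
    linarith
  let x' : P.Ad m q₀ δ := ⟨D, q i₀, hq₀, fun i => hqq i ▸ hat i, (hJA _ _).2.1.2 hpos, hW,
    fun i l => (hg (i, l)).congr fun τ hτ => congrFun (hY i hτ) l⟩
  refine ⟨x', fun τ hτ => funext fun l => congrFun (hY l.1 hτ) l.2, ?_⟩
  have hJ : Tendsto (fun k => Bs.J (x k).D) atTop (𝓝 (Bs.J D)) := (hdet.log hpos.ne').neg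
  exact (Ls.of_tendsto (hJ.sub hf)).add (Ls.sum Finset.univ fun i _ =>
    ((hPi i).log (pi_nonneg P (hW i)) fun k => pi_nonneg P ((x k).bd i)).mul he)

omit [T2Space N] in
theorem min (h1 : BPW) (h2 : B.CMP) : B.MIN := by
  intro σ l₀ P m f q₀ δ e₁ κ ε x₀ he hκ hε hL
  have he₂ : 0 < ε * κ ^ 2 / 16 := by positivity
  have : Nonempty (P.Ad m q₀ δ) := ⟨x₀⟩
  have hbd : BddBelow (range fun x : P.Ad m q₀ δ => x.Fn f e₁) :=
    ⟨_, by rintro _ ⟨x, rfl⟩; exact fn_ge hL he x⟩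
  obtain ⟨x₁, hx₁, hx₁'⟩ : ∃ x₁ : P.Ad m q₀ δ, x₁.Fn f e₁ ≤ x₀.Fn f e₁ ∧
      ∀ x : P.Ad m q₀ δ, x₁.Fn f e₁ ≤ x.Fn f e₁ + ε * κ ^ 2 / 16 := by
    obtain ⟨y, hy⟩ := exists_lt_of_ciInf_lt (f := fun x : P.Ad m q₀ δ => x.Fn f e₁)
      (lt_add_of_pos_right _ he₂)
    have hy' : ∀ x : P.Ad m q₀ δ, y.Fn f e₁ ≤ x.Fn f e₁ + ε * κ ^ 2 / 16 := fun x => by
      have := ciInf_le hbd x
      linarith
    rcases le_total (y.Fn f e₁) (x₀.Fn f e₁) with h | h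
    · exact ⟨y, h, hy'⟩
    · exact ⟨x₀, le_rfl, fun x => h.trans (hy' x)⟩
  obtain ⟨A, -, hA⟩ := (hwv x₁).exists_dqv
  have hR : (0 : ℝ) < max 1 (A / κ) := lt_max_of_lt_left one_pos
  obtain ⟨x, g, hg, a1, a2, a3, a4⟩ := h1 _ (P.Ad m q₀ δ) (fun x => x.Y) (fun x => x.Fn f e₁)
    (max 1 (A / κ)) (ε * κ ^ 2 / 16) ε x₁ hR he₂ hε hwv hx₁'
    fun x g A hx hg hA hu => h2 σ l₀ P m f q₀ δ e₁ _ A x g he hL hx hg hA hu
  have e : 16 * (ε * κ ^ 2 / 16) / ε = κ ^ 2 := by field_simp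
  rw [e] at a2 a3
  refine ⟨max 1 (A / κ), x, g, le_max_left _ _, ⟨hg, a4⟩, a1.trans hx₁, a3, fun l => ?_⟩
  have b1 := (((hwv x).sub (hwv x₁)).dqv_gq hR l).add (hA l)
  have b2 : √(gq (max 1 (A / κ)) (x.Y - x₁.Y)) ≤ κ := Real.sqrt_le_iff.2 ⟨hκ.le, a2⟩
  have b3 : A ≤ max 1 (A / κ) * κ := (div_le_iff₀ hκ).1 (le_max_right _ _)
  have b4 := mul_le_mul_of_nonneg_left b2 hR.le
  exact (b1.mono (by linarith)).congr fun τ _ => by simp

end Vale.Agent.P253W.A
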