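import Vale.Agent.P253W.A.Defs0

/-!
# P253W, block A: the form at the centre of one disc
-/

open Complex Metric Set MeasureTheory
open scoped Matrix ComplexConjugate ComplexOrder

noncomputable section

namespace Vale.Agent.P253W.A

open WM

namespace Core

theorem cs_mul {ι κ μ : Type*} [Fintype κ] {a : ℂ → Matrix ι κ ℂ} {b : ℂ → Matrix κ μ ℂ}
    (ha : Cs a) (hb : Cs b) : Cs fun τ => a τ * b τ := fun i j => by
  simp only [Matrix.mul_apply]
  exact continuousOn_finsetSum _ fun k _ => (ha i k).mul (hb k j)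

theorem qf_one {q : Type} [Fintype q] [DecidableEq q] (M : Matrix q q ℂ) (z : ℂ) :
    ∑ p : q × q, ‖Complex.exp z * (1 + I) / 2 * M p.2 p.1‖ ^ 2 =
      Real.exp (2 * z.re) * Qf M 1 := by
  have h : ‖Complex.exp z * (1 + I) / 2‖ ^ 2 = Real.exp (2 * z.re) / 2 := by
    rw [norm_div, norm_mul, div_pow, mul_pow, Complex.norm_exp, Complex.sq_norm (1 + I),
      ← Real.exp_nat_mul]
    simp [normSq_apply]
    ring
  rw [Qf, Matrix.transpose_one, Matrix.mul_one, Matrix.mul_one]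
  simp only [norm_mul _ (M _ _), mul_pow, h, ← Finset.mul_sum,
    Matrix.trace, Matrix.diag, Matrix.mul_apply, re_sum,
    Matrix.conjTranspose_apply, Fintype.sum_prod_type, star_def, ← normSq_eq_conj_mul_self,
    ofReal_re, Complex.sq_norm]
  ring

end Core

theorem core (h1 : SYM) (h2 : LOG) (h3 : JEN) (h4 : LIN) : CORE := by
  intro ι ι' q _ _ _ _ C₀ σ s0 s1
  obtain ⟨C, C0, H1⟩ := h1 ι q 16
  obtain ⟨δ, d₀, η, μ, a1, a2, a3, a4, H2⟩ := h2 ι ι' q C₀ C σ s0 s1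
  refine ⟨δ, d₀, η, a1, a2, a3, fun C₁ => ?_⟩
  obtain ⟨κ', k0, k1, H3⟩ := H2 C₁
  refine ⟨min κ' (min (κ' / C) (σ * μ / C)), by positivity,
    fun N ε Y Θ π a ζ d B k X w κ hN e0 e1 hΘ hπ hζ ck pk D hU => ?_⟩
  have l1 := mul_le_mul_of_nonneg_right (min_le_left κ' (min (κ' / C) (σ * μ / C)))
    (zero_le_one.trans hN)
  have l2 := (le_div_iff₀' C0).1 (e1.trans ((min_le_right _ _).trans (min_le_left _ _)))
  have l3 := (le_div_iff₀' C0).1 (e1.trans ((min_le_right _ _).trans (min_le_right _ _)))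
  obtain ⟨ν, n1, n2, H4⟩ := H1 N hN
  have L := (h4.2.2 ι q · 0 · |>.2.1)
  obtain ⟨ρ, Ψ, r1, r2, hΨ, r3, r4, r5⟩ := H4 (fun τ => (Θ τ)ᴴ * a τ * Θ τ) Θ ε μ
    (Core.cs_mul (Core.cs_mul (fun i j => (hΘ j i).cs.star) D.ca) fun i j => (hΘ i j).cs)
    (fun τ hτ => ⟨Matrix.isHermitian_conjTranspose_mul_mul _ (D.bd τ hτ).1, D.iso τ hτ⟩) hΘ
    (D.dΘ.mono (l1.trans (mul_le_of_le_one_left (zero_le_one.trans hN) k1))) e0 a4
    (by simpa only [L] using hU)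
  let G : ℂ → q × q → ℂ := fun τ p =>
    Complex.exp (ζ τ) * (1 + I) / 2 * (Ψ τ * π τ * (Ψ τ)ᵀ) p.2 p.1
  have g1 : ∀ p, DA fun τ => G τ p := fun p => by
    simp only [G, mul_div_assoc]
    exact (hζ.exp.mul (da_const _)).mul
      (DA.matMul (DA.matMul hΨ.da hπ) (fun i j => hΨ.da j i) _ _)
  have g2 : ∀ τ, ∑ p, ‖G τ p‖ ^ 2 = Real.exp (2 * (ζ τ).re) * Qf (π τ) ((Ψ τ)ᴴ * Ψ τ) := fun τ => by
    rw [Core.qf_one, (h4.2.2 q q _ _ _).1, Matrix.mul_one]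
  have g3 : ∀ τ, 0 ≤ ∑ p, ‖G τ p‖ ^ 2 := fun τ => by positivity
  obtain ⟨b1, b2⟩ := H3 N ν Y Θ π a d B _ X w ρ κ hN n1 n2
    { D with dY := fun i => (D.dY i).mono l1, dΘ := D.dΘ.mono l1 } r1 (fun τ hτ => (r4 τ hτ).1)
    (by linarith) fun τ hτ => by
      rw [← (r4 τ hτ).2]
      exact nonneg_of_mul_nonneg_right ((g3 τ).trans_eq (g2 τ)) (Real.exp_pos _)
  have c1 : ContinuousOn (fun τ => Real.log (max σ (k τ * ∑ p, ‖G τ p‖ ^ 2))) (sphere 0 1) :=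
    (continuousOn_const.sup (ck.mul (continuousOn_finsetSum _ fun p _ =>
      (g1 p).cs.norm.pow 2))).log fun τ _ => (lt_max_of_lt_left s0).ne'
  have c2 := ck.log fun τ hτ => (pk τ hτ).ne'
  have j := h3 _ G _ g1 (c1.sub c2) fun τ hτ => by
    rw [Pi.sub_apply, Real.exp_sub, Real.exp_log (lt_max_of_lt_left s0), Real.exp_log (pk τ hτ),
      le_div_iff₀' (pk τ hτ)]
    exact le_max_right _ _
  have p1 : ((Ψ 0)ᴴ * Ψ 0).PosDef := Matrix.PosDef.conjTranspose_mul_self _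
    (Matrix.mulVec_injective_iff_isUnit.2 ((Matrix.isUnit_iff_isUnit_det _).2 r3.isUnit))
  refine ⟨_, p1, s0.le.trans b1, ?_, fun v => (r5 v).imp fun U h => ⟨h.1, h.2.1, ?_⟩⟩
  · rw [← g2, ← Real.exp_log (s0.trans_le b1), ← Real.exp_add]
    refine j.trans (Real.exp_le_exp.2 ?_)
    rw [← add_sub_assoc]
    refine (av_sub c1 c2).trans_le
      (sub_le_sub_right (le_of_eq_of_le (av_congr fun τ hτ => ?_) b2) _)
    rw [← (r4 τ hτ).2, g2, mul_left_comm, mul_assoc]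
  · simp only [← L]
    exact h.2.2.trans (mul_le_mul_of_nonneg_right
      (by rw [add_le_add_iff_left, div_le_iff₀ a4]; exact l3)
      (p1.posSemidef.re_dotProduct_nonneg v))

end Vale.Agent.P253W.A
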