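import Vale.Agent.P253W.A.Defs0

/-!
# P253W, block A, row EXB: expansions and circle means
-/

open Complex Metric Set Filter Topology MeasureTheory
open scoped Matrix ComplexConjugate ComplexOrder ENNReal
open Vale.Agent.P272.K (Cm dz dzb cHess jacM Chart)

noncomputable section

namespace Vale.Agent.P253W.A

open WM

namespace Exb

theorem ev_ball {p : ℂ → Prop} (h : ∀ᶠ s in 𝓝 (0 : ℂ), p s) :
    ∀ᶠ ρ in 𝓝[>] (0 : ℝ), 0 < ρ ∧ ∀ s ∈ closedBall (0 : ℂ) |ρ|, p s := by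
  obtain ⟨ε, hε, h⟩ := Metric.eventually_nhds_iff_ball.1 h
  filter_upwards [Ioo_mem_nhdsGT hε] with ρ hρ
  exact ⟨hρ.1, fun s hs => h s (closedBall_subset_ball (by rw [abs_of_pos hρ.1]; exact hρ.2) hs)⟩

theorem ev_sph {p : ℂ → Prop} (h : ∀ᶠ s in 𝓝 (0 : ℂ), p s) :
    ∀ᶠ ρ in 𝓝[>] (0 : ℝ), 0 < ρ ∧ ∀ s ∈ sphere (0 : ℂ) |ρ|, p s ∧ ‖s‖ ^ 2 = ρ ^ 2 :=
  (ev_ball h).mono fun _ h => ⟨h.1, fun s hs => ⟨h.2 s (sphere_subset_closedBall hs), by
    rw [mem_sphere_zero_iff_norm.1 hs, sq_abs]⟩⟩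

/-- the mean value property -/
theorem mean_re {h : ℂ → ℂ} (hh : AnalyticAt ℂ h 0) (a : ℝ) : ∀ᶠ ρ in 𝓝[>] (0 : ℝ),
    CircleIntegrable (fun s => a + (h s).re) 0 ρ ∧
      Real.circleAverage (fun s => a + (h s).re) 0 ρ = a + (h 0).re := by
  filter_upwards [ev_ball (analyticAt_const (v := (a : ℂ)).add hh).eventually_analyticAt] with ρ hρ
  have d : DifferentiableOn ℂ (fun s => (a : ℂ) + h s) (closure (ball 0 |ρ|)) := fun s hs =>
    (hρ.2 s (closure_ball_subset_closedBall hs)).differentiableAt.differentiableWithinAt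
  have c : ContinuousOn (fun s => (a : ℂ) + h s) (sphere 0 |ρ|) := fun s hs =>
    (hρ.2 s (sphere_subset_closedBall hs)).continuousAt.continuousWithinAt
  refine ⟨(continuous_re.comp_continuousOn c).circleIntegrable', ?_⟩
  have := reCLM.circleAverage_comp_comm c.circleIntegrable'
  rw [d.diffContOnCl.circleAverage] at this
  simpa [Function.comp_def] using this

/-- an upper bound for the function gives an upper bound for the means -/
theorem av_of_le {g : ℂ → ℝ} {h : ℂ → ℂ} {L : ℝ} (hc : ∀ᶠ s in 𝓝 (0 : ℂ), ContinuousAt g s)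
    (hh : AnalyticAt ℂ h 0) (h0 : (h 0).re = 0) (hle : ∀ η : ℝ, 0 < η → ∀ᶠ s in 𝓝 (0 : ℂ),
      g s ≤ g 0 + (h s).re + (L + η) * ‖s‖ ^ 2) : Av g L := by
  intro η hη
  have hm := fun a => mean_re hh a
  filter_upwards [ev_sph (hc.and (hle η hη)), mean_re hh 0] with ρ h1 h2
  have i : CircleIntegrable g 0 ρ :=
    ContinuousOn.circleIntegrable' fun s hs => (h1.2 s hs).1.1.continuousWithinAt
  refine ⟨i, (Real.circleAverage_mono i ((circleIntegrable_const (g 0 + ρ ^ 2 * (L + η)) 0 ρ).add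
    h2.1) fun s hs => ?_).trans (le_of_eq ?_)⟩
  · have := (h1.2 s hs).1.2
    rw [(h1.2 s hs).2] at this
    simp only [Pi.add_apply]
    linarith
  · rw [Real.circleAverage_add (circleIntegrable_const _ 0 ρ) h2.1, h2.2, Real.circleAverage_const,
      h0]
    ring

/-- a lower bound for the function gives a lower bound for the Levi form -/
theorem le_of_av {g : ℂ → ℝ} {h : ℂ → ℂ} {L m : ℝ} (hg : Av g L) (hh : AnalyticAt ℂ h 0)
    (h0 : (h 0).re = 0) (hle : ∀ η : ℝ, 0 < η → ∀ᶠ s in 𝓝 (0 : ℂ),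
      g 0 + (h s).re + (m - η) * ‖s‖ ^ 2 ≤ g s) : m ≤ L := by
  refine le_of_forall_pos_le_add fun η hη => ?_
  obtain ⟨ρ, h1, h2, h3⟩ := ((ev_sph (hle _ (half_pos hη))).and
    ((mean_re hh 0).and (hg _ (half_pos hη)))).exists
  have := (Real.circleAverage_mono ((circleIntegrable_const (g 0 + ρ ^ 2 * (m - η / 2)) 0 ρ).add
    h2.1) h3.1 fun s hs => by
      have := (h1.2 s hs).1
      rw [(h1.2 s hs).2] at this
      simp only [Pi.add_apply]
      linarith).trans h3.2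
  rw [Real.circleAverage_add (circleIntegrable_const _ 0 ρ) h2.1, h2.2, Real.circleAverage_const,
    h0] at this
  have h4 : ρ ^ 2 * (m - η / 2) ≤ ρ ^ 2 * (L + η / 2) := by linarith
  linarith [le_of_mul_le_mul_left h4 (pow_pos h1.1 2)]

theorem cube {M η : ℝ} (hη : 0 < η) : ∀ᶠ s in 𝓝 (0 : ℂ), ‖s‖ ≤ 1 ∧ M * ‖s‖ ≤ η := by
  have h : Tendsto (fun s : ℂ => ‖s‖) (𝓝 0) (𝓝 0) := tendsto_norm_zero
  refine (h.eventually (ge_mem_nhds one_pos)).and ?_
  exact (h.const_mul M).eventually (ge_mem_nhds (by simpa using hη))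

end Exb

open Exb

theorem Av.add {g g' : ℂ → ℝ} {L L' : ℝ} (h : Av g L) (h' : Av g' L') :
    Av (fun s => g s + g' s) (L + L') := fun η hη => by
  filter_upwards [h _ (half_pos hη), h' _ (half_pos hη)] with ρ h1 h2
  refine ⟨h1.1.add h2.1, ?_⟩
  rw [Real.circleAverage_fun_add h1.1 h2.1]
  linarith [h1.2, h2.2]

theorem Av.mono {g : ℂ → ℝ} {L L' : ℝ} (h : Av g L) (hL : L ≤ L') : Av g L' := fun η hη =>
  (h η hη).mono fun ρ h1 => ⟨h1.1, h1.2.trans (by gcongr)⟩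

theorem Av.smul {g : ℂ → ℝ} {L t : ℝ} (ht : 0 ≤ t) (h : Av g L) :
    Av (fun s => t * g s) (t * L) := fun η hη => by
  filter_upwards [h (η / (t + 1)) (by positivity)] with ρ h1
  refine ⟨h1.1.const_mul t, ?_⟩
  have h2 : Real.circleAverage (fun s => t * g s) 0 ρ = t * Real.circleAverage g 0 ρ :=
    Real.circleAverage_fun_smul (a := t) (f := g)
  have h3 : t * (η / (t + 1)) ≤ η := by
    rw [← mul_div_assoc, div_le_iff₀ (by positivity)]; nlinarith
  have h4 := mul_le_mul_of_nonneg_left h1.2 ht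
  have h5 := mul_le_mul_of_nonneg_left h3 (sq_nonneg ρ)
  rw [h2]
  linarith

theorem Av.congr {g g' : ℂ → ℝ} {L : ℝ} (h : Av g L) (e : g =ᶠ[𝓝 0] g') : Av g' L :=
  fun η hη => by
  filter_upwards [h η hη, ev_sph e] with ρ h1 h2
  have h3 : EqOn g g' (sphere 0 |ρ|) := fun s hs => (h2.2 s hs).1
  rw [← circleIntegrable_congr h3, ← Real.circleAverage_congr_sphere h3, ← e.eq_of_nhds]
  exact h1

theorem Av.const (a : ℝ) : Av (fun _ => a) 0 := fun η hη => Eventually.of_forall fun ρ =>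
  ⟨circleIntegrable_const _ _ _, by rw [Real.circleAverage_const]; simp; positivity⟩

theorem Av.sum {ι : Type*} (S : Finset ι) {g : ι → ℂ → ℝ} {L : ι → ℝ} (h : ∀ i ∈ S, Av (g i) (L i)) :
    Av (fun s => ∑ i ∈ S, g i s) (∑ i ∈ S, L i) := by
  classical
  induction S using Finset.induction_on with
  | empty => simpa using Av.const 0
  | insert a S ha ih =>
    simp only [Finset.sum_insert ha]
    exact (h a (by simp)).add (ih fun i hi => h i (by simp [hi]))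

theorem Ex.add {g g' : ℂ → ℝ} {c c' : ℂ} {L L' : ℝ} (h : Ex g c L) (h' : Ex g' c' L') :
    Ex (fun s => g s + g' s) (c + c') (L + L') := by
  obtain ⟨C, hC⟩ := h.fst
  obtain ⟨C', hC'⟩ := h'.fst
  refine ⟨(h.cont.and h'.cont).mono fun s h => h.1.add h.2,
    ⟨C + C', (hC.and hC').mono fun s h => ?_⟩, h.snd.add h'.snd⟩
  rw [add_mul, add_re, abs_le]
  constructor <;> linarith [(abs_le.1 h.1).1, (abs_le.1 h.1).2, (abs_le.1 h.2).1, (abs_le.1 h.2).2]

theorem Ex.mono {g : ℂ → ℝ} {c : ℂ} {L L' : ℝ} (h : Ex g c L) (hL : L ≤ L') : Ex g c L' :=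
  ⟨h.cont, h.fst, h.snd.mono hL⟩

theorem Ex.smul {g : ℂ → ℝ} {c : ℂ} {L t : ℝ} (ht : 0 ≤ t) (h : Ex g c L) :
    Ex (fun s => t * g s) (t * c) (t * L) := by
  obtain ⟨C, hC⟩ := h.fst
  refine ⟨h.cont.mono fun s h => continuousAt_const.mul h, ⟨t * C, hC.mono fun s h => ?_⟩,
    h.snd.smul ht⟩
  rw [mul_assoc, re_ofReal_mul, show t * g s - t * g 0 - 2 * (t * (c * s).re) =
    t * (g s - g 0 - 2 * (c * s).re) by ring, abs_mul, abs_of_nonneg ht, mul_assoc]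
  exact mul_le_mul_of_nonneg_left h ht

theorem Ex.congr {g g' : ℂ → ℝ} {c : ℂ} {L : ℝ} (h : Ex g c L) (e : g =ᶠ[𝓝 0] g') : Ex g' c L := by
  obtain ⟨C, hC⟩ := h.fst
  refine ⟨(h.cont.and e.eventuallyEq_nhds).mono fun s h => h.1.congr h.2,
    ⟨C, (hC.and e).mono fun s h => ?_⟩, h.snd.congr e⟩
  rw [← h.2, ← e.eq_of_nhds]
  exact h.1

namespace Exb

/-- the second order expansion -/
theorem tay {g : ℂ → ℝ} (hg : ContDiffAt ℝ 2 g 0) {η : ℝ} (hη : 0 < η) : ∀ᶠ s in 𝓝 (0 : ℂ),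
    |g s - g 0 - fderiv ℝ g 0 s - fderiv ℝ (fderiv ℝ g) 0 s s / 2| ≤ η * ‖s‖ ^ 2 := by
  set B := fderiv ℝ (fderiv ℝ g) 0
  have sy : ∀ v w, B v w = B w v := (hg.isSymmSndFDerivAt (by simp)).eq
  have h1 : HasFDerivAt (fderiv ℝ g) B 0 :=
    ((hg.fderiv_right (m := 1) (by norm_num)).differentiableAt (by simp)).hasFDerivAt
  have h2 : ∀ᶠ s in 𝓝 (0 : ℂ), DifferentiableAt ℝ g s :=
    (hg.eventually (by simp)).mono fun s h => h.differentiableAt (by simp)
  obtain ⟨ε, hε, h⟩ := Metric.eventually_nhds_iff_ball.1 (h2.and (h1.isLittleO.def hη))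
  filter_upwards [ball_mem_nhds 0 hε] with s hs
  have hb : closedBall (0 : ℂ) ‖s‖ ⊆ ball 0 ε := closedBall_subset_ball (mem_ball_zero_iff.1 hs)
  have := (convex_closedBall (0 : ℂ) ‖s‖).norm_image_sub_le_of_norm_hasFDerivWithin_le (𝕜 := ℝ)
    (f := fun x => g x - fderiv ℝ g 0 x - (1 / 2 : ℝ) * B x x)
    (f' := fun x => fderiv ℝ g x - fderiv ℝ g 0 - B x) (C := η * ‖s‖) (fun x hx => ?_)
    (fun x hx => ?_) (mem_closedBall_self (norm_nonneg _)) (mem_closedBall_zero_iff.2 le_rfl)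
  · simp only [map_zero, sub_zero, mul_zero, Real.norm_eq_abs] at this
    rw [sq, ← mul_assoc]
    convert this using 2
    ring
  · refine ((((h x (hb hx)).1.hasFDerivAt.sub (fderiv ℝ g 0).hasFDerivAt).sub
      ((B.hasFDerivAt.clm_apply (hasFDerivAt_id x)).const_mul (1 / 2 : ℝ))).congr_fderiv
      ?_).hasFDerivWithinAt
    ext1 v
    have := sy v x
    simp
    linarith
  · have := (h x (hb hx)).2
    rw [sub_zero] at this
    exact this.trans (mul_le_mul_of_nonneg_left (mem_closedBall_zero_iff.1 hx) hη.le)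

theorem lin_eq (D : ℂ →L[ℝ] ℝ) (s : ℂ) : D s = s.re * D 1 + s.im * D I := by
  conv_lhs => rw [show s = s.re • (1 : ℂ) + s.im • I by simp]
  rw [map_add, map_smul, map_smul, smul_eq_mul, smul_eq_mul]

theorem lin_re (D : ℂ →L[ℝ] ℝ) (s : ℂ) : D s = 2 * (((D 1 : ℂ) - I * (D I : ℂ)) / 2 * s).re := by
  rw [lin_eq D s]
  simp
  ring

theorem bil_re (B : ℂ →L[ℝ] ℂ →L[ℝ] ℝ) (s : ℂ) : B s s / 2 = (B 1 1 + B I I) / 4 * ‖s‖ ^ 2 +
    ((((B 1 1 - B I I : ℝ) : ℂ) - I * ((B 1 I + B I 1 : ℝ) : ℂ)) / 4 * s ^ 2).re := by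
  have h : ∀ w, B s w = s.re * B 1 w + s.im * B I w := fun w => lin_eq (B.flip w) s
  rw [lin_eq (B s), h, h, Complex.sq_norm, normSq_apply]
  simp [sq]
  ring

end Exb

/-- functions of class `C²` -/
theorem ex_of_c2 {g : ℂ → ℝ} (hg : ContDiffAt ℝ 2 g 0) :
    Ex g (((fderiv ℝ g 0 1 : ℂ) - I * (fderiv ℝ g 0 I : ℂ)) / 2)
      ((fderiv ℝ (fderiv ℝ g) 0 1 1 + fderiv ℝ (fderiv ℝ g) 0 I I) / 4) := by
  have hc : ∀ᶠ s in 𝓝 (0 : ℂ), ContinuousAt g s :=
    (hg.eventually (by simp)).mono fun s h => h.continuousAt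
  refine ⟨hc, ⟨1 + ‖fderiv ℝ (fderiv ℝ g) 0‖, (tay hg one_pos).mono fun s h => ?_⟩, ?_⟩
  · rw [← lin_re]
    have h1 := (fderiv ℝ (fderiv ℝ g) 0).le_opNorm₂ s s
    have h2 := mul_nonneg (mul_nonneg (norm_nonneg (fderiv ℝ (fderiv ℝ g) 0)) (norm_nonneg s))
      (norm_nonneg s)
    rw [Real.norm_eq_abs, abs_le] at h1
    rw [abs_le] at h ⊢
    constructor <;> nlinarith
  · have ha : ∀ a b : ℂ, AnalyticAt ℂ (fun s => 2 * (a * s) + b * s ^ 2) 0 := fun a b => by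
      fun_prop
    refine av_of_le hc (ha (((fderiv ℝ g 0 1 : ℂ) - I * (fderiv ℝ g 0 I : ℂ)) / 2)
      ((((fderiv ℝ (fderiv ℝ g) 0 1 1 - fderiv ℝ (fderiv ℝ g) 0 I I : ℝ) : ℂ) -
        I * ((fderiv ℝ (fderiv ℝ g) 0 1 I + fderiv ℝ (fderiv ℝ g) 0 I 1 : ℝ) : ℂ)) / 4))
      (by simp) fun η hη => (tay hg hη).mono fun s h => ?_
    rw [lin_re (fderiv ℝ g 0) s, bil_re] at h
    rw [add_re, show ∀ w : ℂ, (2 * w).re = 2 * w.re by simp]
    linarith [(abs_le.1 h).2]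

namespace Exb

variable {q : ℕ} {u : Cm q → ℝ} {x : Cm q}

theorem fd_ofReal (hu : DifferentiableAt ℝ u x) (v : Cm q) :
    fderiv ℝ (fun y => (u y : ℂ)) x v = fderiv ℝ u x v :=
  congr($((ofRealCLM.hasFDerivAt.comp x hu.hasFDerivAt).fderiv) v)

theorem cHess_eq (hu : ContDiffAt ℝ 2 u x) (j k : Fin q) : cHess u x j k =
    ((fderiv ℝ (fderiv ℝ u) x (Pi.single j 1) (Pi.single k 1) +
      I * fderiv ℝ (fderiv ℝ u) x (Pi.single j 1) (Pi.single k I)) / 2 -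
    I * ((fderiv ℝ (fderiv ℝ u) x (Pi.single j I) (Pi.single k 1) +
      I * fderiv ℝ (fderiv ℝ u) x (Pi.single j I) (Pi.single k I)) / 2)) / 2 := by
  have h1 : HasFDerivAt (fderiv ℝ u) (fderiv ℝ (fderiv ℝ u) x) x :=
    ((hu.fderiv_right (m := 1) (by norm_num)).differentiableAt (by simp)).hasFDerivAt
  have h2 : (dzb k fun y => (u y : ℂ)) =ᶠ[𝓝 x] fun y => (1 / 2 : ℂ) *
      ((fderiv ℝ u y (Pi.single k 1) : ℂ) + I * (fderiv ℝ u y (Pi.single k I) : ℂ)) :=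
    (hu.eventually (by simp)).mono fun y h => by
      simp only [dzb, fd_ofReal (h.differentiableAt (by simp))]
      ring
  have h3 := fun w : Cm q => ofRealCLM.hasFDerivAt.comp x (h1.clm_apply (hasFDerivAt_const w x))
  have h4 := (((h3 (Pi.single k 1)).add ((h3 (Pi.single k I)).const_mul I)).const_mul
    (1 / 2 : ℂ)).fderiv
  have h5 : fderiv ℝ (dzb k fun y => (u y : ℂ)) x = _ := h2.fderiv_eq.trans h4
  simp only [cHess, Matrix.of_apply, dz, h5]
  simp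
  ring

theorem vec_eq (v : Cm q) : v = ∑ j, ((v j).re • (Pi.single j 1 : Cm q) +
    (v j).im • (Pi.single j I : Cm q)) := by
  ext i
  simp [Pi.single_apply, Finset.sum_add_distrib]

theorem levi (hu : ContDiffAt ℝ 2 u x) (v : Cm q) : hf (cHess u x)ᵀ v =
    (fderiv ℝ (fderiv ℝ u) x v v + fderiv ℝ (fderiv ℝ u) x (I • v) (I • v)) / 4 := by
  have h : ∀ (D : Cm q →L[ℝ] ℝ) (w : Cm q), D w =
      ∑ j, ((w j).re * D (Pi.single j 1) + (w j).im * D (Pi.single j I)) := fun D w => by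
    conv_lhs => rw [vec_eq w]
    simp
  set B := fderiv ℝ (fderiv ℝ u) x with hB
  have h2 : ∀ w, B w w = ∑ k, ∑ j, ((w k).re * ((w j).re * B (Pi.single j 1) (Pi.single k 1) +
      (w j).im * B (Pi.single j I) (Pi.single k 1)) + (w k).im * ((w j).re *
      B (Pi.single j 1) (Pi.single k I) + (w j).im * B (Pi.single j I) (Pi.single k I))) :=
    fun w => by
    rw [h (B w) w]
    refine Finset.sum_congr rfl fun k _ => ?_
    rw [Finset.sum_add_distrib, ← Finset.mul_sum, ← Finset.mul_sum]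
    exact congr(_ * $(h (B.flip _) w) + _ * $(h (B.flip _) w))
  rw [h2, h2, ← Finset.sum_add_distrib, Finset.sum_div]
  unfold hf dotProduct Matrix.mulVec dotProduct
  rw [re_sum]
  refine Finset.sum_congr rfl fun k _ => ?_
  rw [← Finset.sum_add_distrib, Finset.sum_div, Finset.mul_sum, re_sum]
  refine Finset.sum_congr rfl fun j _ => ?_
  change (star (v k) * (cHess u x j k * v j)).re = _
  rw [cHess_eq hu, ← hB]
  simp
  ring

end Exb

/-- functions of class `C²` along holomorphic curves -/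
theorem ex_comp {q : ℕ} {u : Cm q → ℝ} {z : ℂ → Cm q} (hz : AnalyticAt ℂ z 0)
    (hu : ContDiffAt ℝ 2 u (z 0)) : Ex (fun s => u (z s))
      (((fderiv ℝ u (z 0) (deriv z 0) : ℂ) - I * (fderiv ℝ u (z 0) (I • deriv z 0) : ℂ)) / 2)
      (hf (cHess u (z 0))ᵀ (deriv z 0)) := by
  have hz2 : ContDiffAt ℝ 2 z 0 := hz.contDiffAt.restrict_scalars ℝ
  have hg : ContDiffAt ℝ 2 (fun s => u (z s)) 0 := hu.comp 0 hz2
  have h1 : ∀ᶠ s in 𝓝 (0 : ℂ), ∀ w, fderiv ℝ (fun s => u (z s)) s w =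
      fderiv ℝ u (z s) (w • deriv z s) := by
    filter_upwards [hz.eventually_analyticAt,
      hz.continuousAt.eventually (hu.eventually (by simp))] with s a b w
    exact congr($(((b.differentiableAt (by simp)).hasFDerivAt.comp s
      (a.differentiableAt.hasDerivAt.hasFDerivAt.restrictScalars ℝ)).fderiv) w)
  have h2 : HasFDerivAt (fderiv ℝ u) (fderiv ℝ (fderiv ℝ u) (z 0)) (z 0) :=
    ((hu.fderiv_right (m := 1) (by norm_num)).differentiableAt (by simp)).hasFDerivAt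
  have h3 : HasFDerivAt (fderiv ℝ fun s => u (z s)) (fderiv ℝ (fderiv ℝ fun s => u (z s)) 0) 0 :=
    ((hg.fderiv_right (m := 1) (by norm_num)).differentiableAt (by simp)).hasFDerivAt
  have h4 : ∀ w, fderiv ℝ (fderiv ℝ fun s => u (z s)) 0 w w =
      fderiv ℝ u (z 0) (w • w • deriv (deriv z) 0) +
        fderiv ℝ (fderiv ℝ u) (z 0) (w • deriv z 0) (w • deriv z 0) := fun w => by
    have a := (h2.comp 0 (hz.differentiableAt.hasDerivAt.hasFDerivAt.restrictScalars ℝ)).clm_apply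
      ((hz.deriv.differentiableAt.hasDerivAt.hasFDerivAt.restrictScalars ℝ).const_smul w)
    have b := (h3.clm_apply (hasFDerivAt_const w 0)).unique
      (a.congr_of_eventuallyEq (h1.mono fun s h => h w))
    simpa using congr($b w)
  have h := ex_of_c2 hg
  rw [h4, h4, h1.self_of_nhds, h1.self_of_nhds, smul_smul I, I_mul_I] at h
  rw [levi hu]
  simp only [one_smul, neg_smul, map_neg] at h
  convert h using 1
  ring

/-- the real part of a holomorphic function -/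
theorem ex_re {f : ℂ → ℂ} (hf : AnalyticAt ℂ f 0) : Ex (fun s => (f s).re) (deriv f 0 / 2) 0 := by
  have h := ex_of_c2 (reCLM.contDiff.contDiffAt.comp 0 (hf.contDiffAt.restrict_scalars ℝ))
  have h1 := (reCLM.hasFDerivAt.comp 0
    (hf.differentiableAt.hasDerivAt.hasFDerivAt.restrictScalars ℝ)).fderiv
  refine ⟨h.cont, ?_, av_of_le (h := fun s => f s - f 0) h.cont (by fun_prop) (by simp)
    fun η hη => Eventually.of_forall fun s => by simp; positivity⟩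
  have h2 := h.fst
  rw [h1] at h2
  have h3 : ∀ a : ℂ, ((a.re : ℂ) - I * ((I * a).re : ℂ)) / 2 = a / 2 := fun a => by
    congr 1
    apply Complex.ext <;> simp
  rw [← h3]
  simpa using h2

theorem Ex.const (a : ℝ) : Ex (fun _ => a) 0 0 := by
  simpa using ex_re (f := fun _ => (a : ℂ)) analyticAt_const

theorem ex_log {h : ℂ → ℂ} (hh : AnalyticAt ℂ h 0) (h0 : h 0 ≠ 0) :
    Ex (fun s => Real.log (‖h s‖ ^ 2)) (deriv h 0 / h 0) 0 := by
  have a : AnalyticAt ℂ (fun s => h s / h 0) 0 := hh.div analyticAt_const h0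
  have m : h 0 / h 0 ∈ slitPlane := by rw [div_self h0]; exact one_mem_slitPlane
  have := ((Ex.const (Real.log ‖h 0‖)).add (ex_re (a.clog m))).smul zero_le_two
  rw [((hh.differentiableAt.hasDerivAt.div_const (h 0)).clog m).deriv] at this
  convert this.congr ?_ using 1
  · rw [div_self h0]; push_cast; ring
  · simp
  · filter_upwards [hh.continuousAt.eventually_ne h0] with s hs
    rw [log_re, norm_div, Real.log_div (norm_ne_zero_iff.2 hs) (norm_ne_zero_iff.2 h0),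
      Real.log_pow]
    push_cast
    ring

theorem pen_sum {m : ℕ} {A : ℂ → ℝ} {P : Fin m → ℂ → ℝ} {L e : ℝ} {L' : Fin m → ℝ} (he : 0 < e)
    (hA : Av A L) (hP : ∀ i, Av (P i) (L' i)) (h : ∀ᶠ s in 𝓝 (0 : ℂ), (∀ i, 0 ≤ P i s) ∧
      A 0 + ∑ i, e * Real.log (1 + P i 0) ≤ A s + ∑ i, e * Real.log (1 + P i s)) :
    0 ≤ L + ∑ i, e / (1 + P i 0) * L' i := by
  have p0 := h.self_of_nhds.1
  refine le_of_av (h := fun _ => 0) (hA.add (Av.sum Finset.univ fun i _ =>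
    (hP i).smul (div_nonneg he.le (by linarith [p0 i])))) analyticAt_const rfl
    fun η hη => h.mono fun s hs => ?_
  have h1 : ∑ i, (e * Real.log (1 + P i s) + e / (1 + P i 0) * P i 0) ≤
      ∑ i, (e * Real.log (1 + P i 0) + e / (1 + P i 0) * P i s) := by
    refine Finset.sum_le_sum fun i _ => ?_
    have a : 0 < 1 + P i 0 := by linarith [p0 i]
    have b : 0 < 1 + P i s := by linarith [hs.1 i]
    have c := mul_le_mul_of_nonneg_left (Real.log_le_sub_one_of_pos (div_pos b a)) he.le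
    rw [Real.log_div b.ne' a.ne'] at c
    have d : e * ((1 + P i s) / (1 + P i 0) - 1) =
        e / (1 + P i 0) * P i s - e / (1 + P i 0) * P i 0 := by field_simp; ring
    linarith
  rw [Finset.sum_add_distrib, Finset.sum_add_distrib] at h1
  have := mul_nonneg hη.le (sq_nonneg ‖s‖)
  simp only [zero_re]
  linarith [hs.2]

theorem Exb.exp_ge {x : ℝ} (h : |x| ≤ 1) : 1 - x + x ^ 2 / 2 - |x| ^ 3 ≤ Real.exp (-x) := by
  have := Real.exp_bound (x := -x) (by rwa [abs_neg]) (n := 3) (by norm_num)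
  simp only [Finset.sum_range_succ, Finset.sum_range_zero, Nat.factorial, abs_neg] at this
  norm_num at this
  linarith [(abs_le.1 this).1, pow_nonneg (abs_nonneg x) 3]

theorem pen_sq {A P : ℂ → ℝ} {c : ℂ} {L L' e : ℝ} (he : 0 < e) (hA : Ex A c L) (hP : Av P L')
    (h : ∀ᶠ s in 𝓝 (0 : ℂ), 0 ≤ P s ∧
      A 0 + e * Real.log (1 + P 0) ≤ A s + e * Real.log (1 + P s)) :
    ‖c‖ ^ 2 / e ≤ L + e / (1 + P 0) * L' := by
  have p0 : 0 < 1 + P 0 := by linarith [h.self_of_nhds.1]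
  obtain ⟨C, hC⟩ := hA.fst
  refine le_of_av (h := fun s => (c * s) ^ 2 / e) (hA.snd.add (hP.smul (div_pos he p0).le))
    (by fun_prop) (by simp) fun η hη => ?_
  obtain ⟨K, hK⟩ : ∃ K, K = (2 * ‖c‖ + |C|) / e := ⟨_, rfl⟩
  filter_upwards [h, hC, cube (M := K) one_pos,
    cube (M := e * K ^ 3 + 2 * ‖c‖ * |C| / e) hη] with s h1 h2 h3 h4
  have n0 := norm_nonneg s
  have b1 : |(c * s).re| ≤ ‖c‖ * ‖s‖ := (abs_re_le_norm _).trans (norm_mul_le _ _)
  have b2 : |A s - A 0 - 2 * (c * s).re| ≤ |C| * ‖s‖ ^ 2 := h2.trans (by gcongr; exact le_abs_self C)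
  have b3 : |(A s - A 0) / e| ≤ K * ‖s‖ := by
    have : |C| * ‖s‖ ^ 2 ≤ |C| * ‖s‖ := mul_le_mul_of_nonneg_left (by nlinarith [h3.1]) (abs_nonneg C)
    rw [abs_div, abs_of_pos he, hK, div_mul_eq_mul_div]
    gcongr
    rw [abs_le] at b1 b2 ⊢
    constructor <;> linarith [b1.1, b1.2, b2.1, b2.2]
  have b4 := Exb.exp_ge (b3.trans h3.2)
  have b5 : (1 + P 0) * Real.exp (-((A s - A 0) / e)) ≤ 1 + P s := by
    rw [← Real.exp_log p0, ← Real.exp_add, ← Real.le_log_iff_exp_le (by linarith [h1.1]),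
      ← sub_eq_add_neg, sub_le_iff_le_add, ← sub_le_iff_le_add', le_div_iff₀ he]
    linarith [h1.2]
  have b6 : e * Real.exp (-((A s - A 0) / e)) - e ≤
      e / (1 + P 0) * P s - e / (1 + P 0) * P 0 := by
    rw [← mul_sub, div_mul_eq_mul_div, le_div_iff₀ p0]
    nlinarith [mul_le_mul_of_nonneg_left b5 he.le]
  have b7 : |(A s - A 0) / e| ^ 3 ≤ (K * ‖s‖) ^ 3 := by gcongr
  have b8 : ((c * s) ^ 2 / e).re = (2 * (c * s).re ^ 2 - ‖c‖ ^ 2 * ‖s‖ ^ 2) / e := by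
    rw [div_ofReal_re, ← mul_pow, ← norm_mul, Complex.sq_norm, normSq_apply, sq, mul_re]
    ring
  have b9 : 2 * (c * s).re ^ 2 - 2 * ‖c‖ * |C| * ‖s‖ ^ 3 ≤ (A s - A 0) ^ 2 / 2 := by
    have := mul_le_mul b1 b2 (abs_nonneg _) (by positivity)
    rw [← abs_mul] at this
    nlinarith [(abs_le.1 this).1, sq_nonneg (A s - A 0 - 2 * (c * s).re)]
  have c1 := mul_le_mul_of_nonneg_left b4 he.le
  have c2 := mul_le_mul_of_nonneg_left b7 he.le
  have c3 := div_le_div_of_nonneg_right b9 he.le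
  have c4 := mul_le_mul_of_nonneg_right h4.2 (sq_nonneg ‖s‖)
  have c5 : e * (1 - (A s - A 0) / e + ((A s - A 0) / e) ^ 2 / 2 - |(A s - A 0) / e| ^ 3) =
      e - (A s - A 0) + (A s - A 0) ^ 2 / 2 / e - e * |(A s - A 0) / e| ^ 3 := by
    field_simp
  rw [b8]
  have c6 : (2 * (c * s).re ^ 2 - ‖c‖ ^ 2 * ‖s‖ ^ 2) / e + ‖c‖ ^ 2 / e * ‖s‖ ^ 2 =
      (2 * (c * s).re ^ 2 - 2 * ‖c‖ * |C| * ‖s‖ ^ 3) / e + 2 * ‖c‖ * |C| / e * ‖s‖ ^ 3 := by
    ring
  linarith

/-- **EXB** -/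
theorem exb : EXB :=
  ⟨fun _ _ _ _ _ _ => Ex.add, fun _ _ _ _ => Av.add, fun _ _ _ _ => Ex.smul,
    fun _ _ _ => Av.smul, fun _ _ _ _ => Ex.congr, fun _ _ _ => Av.congr,
    fun _ _ _ hz hu => ⟨_, ex_comp hz hu⟩, fun _ hh h0 => ⟨_, ex_log hh h0⟩,
    fun _ _ _ _ _ _ => pen_sum, fun _ _ _ _ _ _ => pen_sq⟩

end Vale.Agent.P253W.A
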