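import Vale.Agent.P253W.A.Defs0

/-!
# P253W, block A, row LIN: the trace inequality
-/

set_option linter.all false

open Matrix
open scoped ComplexOrder MatrixOrder

noncomputable section

namespace Vale.Agent.P253W.A

namespace Lin

variable {ι q : Type*} [Fintype ι] [Fintype q]

theorem exists_sq {A : Matrix ι ι ℂ} (h : A.PosSemidef) : ∃ C : Matrix ι ι ℂ, A = Cᴴ * C := by
  classical
  exact CStarAlgebra.nonneg_iff_eq_star_mul_self.1 h.nonneg

theorem tr_nonneg {A B : Matrix ι ι ℂ} (h : A.PosSemidef) (h' : B.PosSemidef) :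
    0 ≤ (A * B).trace.re := by
  obtain ⟨C, rfl⟩ := exists_sq h'
  rw [← Matrix.mul_assoc, trace_mul_comm, ← Matrix.mul_assoc]
  exact (Complex.nonneg_iff.1 (h.mul_mul_conjTranspose_same C).trace_nonneg).1

theorem psd_of_hf {A : Matrix ι ι ℂ} (h : A.IsHermitian) (h' : ∀ v, 0 ≤ hf A v) : A.PosSemidef :=
  .of_dotProduct_mulVec_nonneg h fun v =>
    Complex.nonneg_iff.2 ⟨h' v, (h.im_star_dotProduct_mulVec_self v).symm⟩

theorem hf_conj (D : Matrix ι q ℂ) (a : Matrix ι ι ℂ) (v : q → ℂ) :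
    hf (Dᴴ * a * D) v = hf a (D *ᵥ v) := by
  rw [hf, hf, star_mulVec, ← dotProduct_mulVec, mulVec_mulVec, mulVec_mulVec]

theorem hf_sub (a b : Matrix ι ι ℂ) (v : ι → ℂ) : hf (a - b) v = hf a v - hf b v := by
  simp [hf, sub_mulVec]

theorem hf_smul (t : ℝ) (a : Matrix ι ι ℂ) (v : ι → ℂ) : hf ((t : ℂ) • a) v = t * hf a v := by
  simp [hf, smul_mulVec]

theorem hf_sum {m : Type*} (s : Finset m) (a : m → Matrix ι ι ℂ) (v : ι → ℂ) :
    hf (∑ i ∈ s, a i) v = ∑ i ∈ s, hf (a i) v := by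
  simp [hf, sum_mulVec, dotProduct_sum]

theorem qf_conj (D : Matrix ι q ℂ) (π : Matrix q q ℂ) (a : Matrix ι ι ℂ) :
    Qf (D * π * Dᵀ) a = Qf π (Dᴴ * a * D) := by
  simp only [Qf, conjTranspose_mul, transpose_mul, Matrix.mul_assoc]
  rw [trace_mul_comm]
  simp only [Matrix.mul_assoc]
  rfl

theorem qf_smul (t : ℝ) (π a : Matrix q q ℂ) : Qf π ((t : ℂ) • a) = t ^ 2 * Qf π a := by
  simp [Qf, smul_smul, ← Complex.ofReal_mul]
  ring

theorem tr_equiv (e : ι ≃ q) (M : Matrix q q ℂ) : (M.submatrix e e).trace = M.trace :=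
  e.sum_comp M.diag

variable [DecidableEq ι]

/-- simultaneous diagonalisation -/
theorem exists_diag {W G : Matrix ι ι ℂ} (hW : W.IsHermitian) (hG : G.PosDef) :
    ∃ (C : Matrix ι ι ℂ) (l : ι → ℝ), IsUnit C ∧ G = Cᴴ * C ∧
      W = Cᴴ * diagonal (fun i => (l i : ℂ)) * C := by
  obtain ⟨B, rfl⟩ := exists_sq hG.posSemidef
  have u : IsUnit B.det := by
    have := (isUnit_iff_isUnit_det _).1 hG.isUnit
    rw [det_mul] at this
    exact isUnit_of_mul_isUnit_right this
  have h := isHermitian_conjTranspose_mul_mul B⁻¹ hW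
  refine ⟨h.eigenvectorUnitary.1ᴴ * B, h.eigenvalues,
    (Unitary.isUnit_coe.star).mul ((isUnit_iff_isUnit_det _).2 u), ?_, ?_⟩
  · rw [conjTranspose_mul, conjTranspose_conjTranspose, Matrix.mul_assoc, ← Matrix.mul_assoc _ _ B,
      show _ * h.eigenvectorUnitary.1ᴴ = 1 from h.eigenvectorUnitary.2.2, Matrix.one_mul]
  · have e := congrArg (Bᴴ * · * B) h.spectral_theorem
    simp only [← Matrix.mul_assoc, ← conjTranspose_mul, nonsing_inv_mul _ u, conjTranspose_one,
      Matrix.one_mul, nonsing_inv_mul_cancel_right _ _ u, Unitary.conjStarAlgAut_apply] at e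
    rw [conjTranspose_mul, conjTranspose_conjTranspose, ← Matrix.mul_assoc]
    exact e

theorem two {W G : Matrix ι ι ℂ} (hW : W.PosDef) (hG : G.PosDef) (h : (G - W).PosSemidef) :
    (W - ((W.det.re / G.det.re : ℝ) : ℂ) • G).PosSemidef := by
  obtain ⟨C, l, u, rfl, rfl⟩ := exists_diag hW.1 hG
  have h0 i : 0 < l i := by
    simpa using posDef_diagonal_iff.1 (u.posDef_star_left_conjugate_iff.1 hW) i
  have h1 i : l i ≤ 1 := by
    have : (Cᴴ * diagonal (fun i => 1 - (l i : ℂ)) * C).PosSemidef := by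
      simpa [← diagonal_sub, Matrix.mul_sub, Matrix.sub_mul] using h
    exact_mod_cast sub_nonneg.1
      (posSemidef_diagonal_iff.1 (u.posSemidef_star_left_conjugate_iff.1 this) i)
  have e : (Cᴴ * diagonal (fun i => (l i : ℂ)) * C).det = (∏ i, l i : ℝ) * (Cᴴ * C).det := by
    simp only [det_mul, det_diagonal, Complex.ofReal_prod]
    ring
  rw [e, Complex.re_ofReal_mul, mul_div_cancel_right₀ _ (Complex.pos_iff.1 hG.det_pos).1.ne']
  have := (PosSemidef.diagonal (d := fun i => (l i : ℂ) - (∏ i, l i : ℝ)) fun i => by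
    rw [Pi.zero_apply, sub_nonneg, Complex.real_le_real,
      ← Finset.mul_prod_erase _ l (Finset.mem_univ i)]
    exact mul_le_of_le_one_right (h0 i).le
      (Finset.prod_le_one (fun j _ => (h0 j).le) fun j _ => h1 j)).conjTranspose_mul_mul_same C
  simpa [← diagonal_sub, Matrix.mul_sub, Matrix.sub_mul, ← smul_one_eq_diagonal] using this

theorem tr_blocks (A B C D : Matrix ι ι ℂ) : (fromBlocks A B C D).trace = A.trace + D.trace := by
  simp [trace]

theorem core {a : Matrix (ι ⊕ ι) (ι ⊕ ι) ℂ} (h : a.PosDef) : ∃ S D T : Matrix ι ι ℂ,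
    S.PosSemidef ∧ D.IsHermitian ∧ (∀ v, hf a (Sum.elim 0 v) = hf D v) ∧
      (∀ v, hf a (Sum.elim v (T *ᵥ v)) = hf S v) ∧
      (D * Sᵀ).trace.re ≤ Qf (fromBlocks 0 1 (-1) 0) a := by
  have hD : a.toBlocks₂₂.PosDef := h.submatrix Sum.inr_injective
  have u := (isUnit_iff_isUnit_det _).1 hD.isUnit
  set D := a.toBlocks₂₂
  set T := D⁻¹ * a.toBlocks₂₁
  set S := a.toBlocks₁₁ - Tᴴ * D * T
  have e : a = fromBlocks (S + Tᴴ * D * T) (Tᴴ * D) (D * T) D := by
    rw [sub_add_cancel, ← hD.1.eq, ← conjTranspose_mul, hD.1.eq, mul_nonsing_inv_cancel_left _ _ u,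
      show a.toBlocks₂₁ᴴ = a.toBlocks₁₂ from Matrix.ext fun i j => h.1.apply _ _, fromBlocks_toBlocks]
  clear_value S T D
  have e1 : S = (fromRows (1 : Matrix ι ι ℂ) (-T))ᴴ * a * fromRows (1 : Matrix ι ι ℂ) (-T) := by
    simp [e, conjTranspose_fromRows_eq_fromCols_conjTranspose, fromCols_mul_fromBlocks,
      fromCols_mul_fromRows, Matrix.mul_assoc]
  refine ⟨S, D, -T, e1 ▸ h.posSemidef.conjTranspose_mul_mul_same _, hD.1, fun v => ?_,
    fun v => by rw [e1, hf_conj, fromRows_mulVec, one_mulVec], ?_⟩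
  · simp [e, hf, fromBlocks_mulVec, Function.star_sumElim, sumElim_dotProduct_sumElim]
  have := tr_nonneg (hD.posSemidef.conjTranspose_mul_mul_same (T - Tᵀ)) hD.posSemidef.transpose
  have t1 : (S * Dᵀ).trace = (D * Sᵀ).trace := by rw [← trace_transpose]; simp
  have t2 : (Tᴴ * (D * (T * Dᵀ))).trace = (D * (Tᵀ * (Dᵀ * Tᴴᵀ))).trace := by
    rw [← trace_transpose]; simp [Matrix.mul_assoc]
  have t3 : (Tᴴᵀ * (D * (Tᵀ * Dᵀ))).trace = (D * (Tᵀ * (Dᵀ * Tᴴᵀ))).trace := by
    rw [trace_mul_comm]; simp only [Matrix.mul_assoc]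
  have t4 : (Tᴴᵀ * (D * (T * Dᵀ))).trace = (D * (T * (Dᵀ * Tᴴᵀ))).trace := by
    rw [trace_mul_comm]; simp only [Matrix.mul_assoc]
  simp only [e, Qf, fromBlocks_conjTranspose, fromBlocks_multiply, fromBlocks_transpose, tr_blocks,
    conjTranspose_sub, show Tᵀᴴ = Tᴴᵀ from rfl, Matrix.mul_sub, Matrix.sub_mul, Matrix.mul_assoc,
    trace_sub, t2, t3, t4] at this ⊢
  simp [Matrix.mul_add, Matrix.add_mul, Matrix.mul_assoc, t1, t2, t3, t4] at this ⊢
  linarith

end Lin

open Lin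

theorem lin : LIN := by
  refine ⟨fun n m c W A B θ ω b hc hA hB hW hθ hω h1 h2 h3 => ?_, fun _ _ _ => two,
    fun _ _ _ _ D π a => ⟨qf_conj D π a, hf_conj D a, fun t => qf_smul t _ _⟩⟩
  choose S D T k1 k2 k3 k4 k5 using fun i => core ((hc i).submatrix finSumFinEquiv.injective)
  have e i (v w : Fin n → ℂ) : hf (c i) (Fin.append v w) =
      hf ((c i).submatrix finSumFinEquiv finSumFinEquiv) (Sum.elim v w) := by
    simp only [hf, dotProduct, mulVec, ← finSumFinEquiv.sum_comp, Fintype.sum_sum_type,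
      finSumFinEquiv_apply_left, finSumFinEquiv_apply_right, Fin.append_left, Fin.append_right,
      Pi.star_apply, submatrix_apply, Sum.elim_inl, Sum.elim_inr]
  have e' i : Qf (pz n) (c i) =
      Qf (fromBlocks 0 1 (-1) 0) ((c i).submatrix finSumFinEquiv finSumFinEquiv) := by
    conv_lhs => rw [← (reindex finSumFinEquiv finSumFinEquiv).apply_symm_apply (c i)]
    simp only [Qf, pz, reindex_apply, conjTranspose_submatrix, transpose_submatrix,
      submatrix_mul_equiv, reindex_symm, Equiv.symm_symm]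
    rw [tr_equiv]
  have hW' : W.IsHermitian := by simpa using hW.1.add hB.1
  have a i : θ * (B * (S i)ᵀ).trace.re ≤ b i := by
    have a1 := tr_nonneg (psd_of_hf ((k2 i).sub (hW'.smul (k := ((θ * ω i : ℝ) : ℂ))
      (Complex.conj_ofReal _))) fun v => by
        rw [hf_sub, hf_smul, ← k3, ← e, mul_assoc, sub_nonneg]; exact h1 i v) (k1 i).transpose
    have a2 := tr_nonneg hW (k1 i).transpose
    simp only [Matrix.sub_mul, Matrix.smul_mul, trace_sub, trace_smul, smul_eq_mul, Complex.sub_re,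
      Complex.re_ofReal_mul] at a1 a2
    refine le_of_mul_le_mul_left ?_ (hω i)
    nlinarith [k5 i, e' i ▸ h3 i, mul_nonneg (mul_nonneg hθ (hω i).le) a2]
  have a3 := tr_nonneg hB (psd_of_hf ((posSemidef_sum Finset.univ fun i _ => k1 i).1.sub
    hA.transpose) fun v => by
      rw [hf_sub, hf_sum, sub_nonneg]
      simpa only [e, k4] using h2 v fun i => T i *ᵥ v).transpose
  simp only [transpose_sub, transpose_transpose, transpose_sum, Matrix.mul_sub, Matrix.mul_sum,
    trace_sub, trace_sum, Complex.sub_re, Complex.re_sum, sub_nonneg] at a3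
  exact (mul_le_mul_of_nonneg_left a3 hθ).trans
    (Finset.mul_sum _ _ θ ▸ Finset.sum_le_sum fun i _ => a i)

end Vale.Agent.P253W.A
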