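import Vale.Agent.P253W.A.Defs1
import Vale.Agent.P253W.A.Lin

/-!
# P253W, block A, row FIN: the last inequality
-/

set_option linter.all false

open Matrix
open scoped ComplexOrder

noncomputable section

namespace Vale.Agent.P253W.A

open Lin

theorem fin (h : LIN) : FIN := by
  intro n m γ κ p G A A' c θ θ₁ Λ σ t E a hn hm hZ hG hA hA' hG' hΛ Λ0 θ0 θ1 hθ ha t0 σ0 E0 h1 h2
  have g0 : 0 < G.det.re := (Complex.pos_iff.1 hG.det_pos).1
  have σ1 : 0 < 1 + σ := by positivity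
  set s := Real.exp (Jm γ p) / (Λ ^ n * G.det.re) * Λ with hs
  have s0 : (0 : ℂ) ≤ s := by exact_mod_cast (by positivity : 0 ≤ s)
  have e1 : (Zm γ p)⁻¹.det.re = Real.exp (Jm γ p) := by
    obtain ⟨z0, z1⟩ := Complex.pos_iff.1 hZ.det_pos
    rw [Jm, Real.exp_neg, Real.exp_log z0, det_nonsing_inv, Ring.inverse_eq_inv',
      ← Complex.re_add_im (Zm γ p).det, ← z1]
    simp [← Complex.ofReal_inv]
  have e2 := h.2.1 n _ _ hZ.inv (hG.smul (by exact_mod_cast Λ0 : (0 : ℂ) < Λ)) hΛ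
  rw [e1, det_smul, Fintype.card_fin, ← Complex.ofReal_pow, Complex.re_ofReal_mul, smul_smul,
    ← Complex.ofReal_mul, ← hs] at e2
  have e3 := h.1 n m c (Zm γ p)⁻¹ ((((1 + σ)⁻¹ : ℝ) : ℂ) • A) ((s : ℂ) • A') (θ₁ / (1 + σ))
    (fun i => Real.exp (-γ i)) (fun i => Λ * κ i * E / t) (fun i => (h1 i).2.1)
    (hA.smul (Complex.conj_ofReal _)) (hA'.smul s0)
    (by simpa [smul_sub] using e2.add (hG'.smul s0)) (by positivity) (fun _ => Real.exp_pos _)
    (fun i v => by rw [div_mul_eq_mul_div, div_le_iff₀' σ1]; exact (h1 i).2.2.2.2 v)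
    (fun v v' => by
      rw [transpose_smul, hf_smul, inv_mul_le_iff₀ σ1, Finset.mul_sum]; exact h2 v v')
    fun i => by
      obtain ⟨k1, -, k2, k3, -⟩ := h1 i
      rw [← mul_div_assoc, le_div_iff₀' t0]
      refine k3.trans ((mul_le_mul_of_nonneg_right (mul_le_mul_of_nonneg_right
        (mul_le_mul_of_nonneg_right k1 (Real.exp_pos _).le) k2) E0).trans_eq (by ring))
  simp only [Matrix.smul_mul, Matrix.mul_smul, trace_smul, smul_eq_mul, Complex.re_ofReal_mul,
    ← Finset.sum_div, ← Finset.sum_mul, ← Finset.mul_sum] at e3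
  have k0 : 0 ≤ ∑ i, κ i := Finset.sum_nonneg fun i _ => (h1 i).2.2.1
  rcases le_total (A' * A).trace.re 0 with e | e
  · exact (mul_nonpos_of_nonneg_of_nonpos (by positivity) e).trans (by positivity)
  have e4 : θ * Real.exp a ≤ θ₁ * Real.exp (Jm γ p) / Λ ^ n := by
    refine (mul_le_mul hθ (Real.exp_le_exp.2 ha) (Real.exp_pos _).le (by positivity)).trans_eq ?_
    rw [Real.exp_add, Real.exp_nat_mul, Real.exp_log (by positivity), div_pow, div_pow, mul_pow]
    field_simp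
  calc _ = θ * Real.exp a * ((A' * A).trace.re / G.det.re) := by ring
    _ ≤ θ₁ * Real.exp (Jm γ p) / Λ ^ n * ((A' * A).trace.re / G.det.re) := by gcongr
    _ = (1 + σ) ^ 2 / Λ * (θ₁ / (1 + σ) * ((1 + σ)⁻¹ * (s * (A' * A).trace.re))) := by
      rw [hs]
      field_simp
    _ ≤ (1 + σ) ^ 2 / Λ * (Λ * (∑ i, κ i) * E / t) := by gcongr
    _ = _ := by field_simp

end Vale.Agent.P253W.A
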