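import Vale.Agent.P253W.A.Defs0

/-!
# P253W, block A, row FRM: slowly varying frames
-/

set_option linter.all false

open Complex Metric Set Filter Topology MeasureTheory
open scoped Matrix ComplexConjugate ComplexOrder ENNReal
open Vale.Agent.P272.K (Cm dz cHess jacM Chart)

noncomputable section

namespace Vale.Agent.P253W.A

open WM

namespace Fr

/-! ### linear algebra -/

section alg

variable {q : ℕ} {κ : Type} [Fintype κ]

theorem cb (Y : Matrix (Fin q) κ ℂ) (X : Matrix κ (Fin q) ℂ) :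
    (Y * X).det = ∑ J : Fin q → κ, (∏ a, Y a (J a)) * (X.submatrix J id).det := by
  have h : Y * X = fun a => ∑ l, Y a l • X l := by
    ext a b
    simp [Matrix.mul_apply]
  have h2 := (Matrix.detRowAlternating (n := Fin q) (R := ℂ)).toMultilinearMap.map_sum
    fun a l => Y a l • X l
  rw [h]
  refine h2.trans (Finset.sum_congr rfl fun J _ => ?_)
  rw [MultilinearMap.map_smul_univ]
  rfl

theorem left_inv {D : Matrix κ (Fin q) ℂ} (h : Function.Injective D.mulVec) :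
    ∃ Y : Matrix (Fin q) κ ℂ, Y * D = 1 := by
  classical
  obtain ⟨g, hg⟩ := (Matrix.toLin' D).exists_leftInverse_of_injective (LinearMap.ker_eq_bot.2 h)
  refine ⟨LinearMap.toMatrix' g, ?_⟩
  have := congrArg LinearMap.toMatrix' hg
  rwa [LinearMap.toMatrix'_comp, LinearMap.toMatrix'_toLin', LinearMap.toMatrix'_id] at this

theorem minor {D : Matrix κ (Fin q) ℂ} (h : Function.Injective D.mulVec) :
    ∃ J : Fin q → κ, (D.submatrix J id).det ≠ 0 := by
  obtain ⟨Y, hY⟩ := left_inv h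
  by_contra hc
  push Not at hc
  have := cb Y D
  simp [hY, hc] at this

theorem pz_inv (n : ℕ) : pz n * -pz n = 1 := by
  have h : pz n * pz n = -1 := by
    rw [pz, Matrix.reindex_apply, Matrix.submatrix_mul_equiv, Matrix.fromBlocks_multiply]
    ext i j
    rw [← Matrix.submatrix_one_equiv (finSumFinEquiv (m := n) (n := n)).symm,
      ← Matrix.fromBlocks_one]
    simp only [Matrix.neg_apply, Matrix.submatrix_apply]
    rw [← Matrix.neg_apply, Matrix.fromBlocks_neg]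
    simp
  rw [Matrix.mul_neg, h, neg_neg]

theorem rank_br {n : ℕ} {D : Matrix κ (Fin (n + n)) ℂ} (h : Function.Injective D.mulVec) :
    (D * pz n * Dᵀ).rank = n + n := by
  obtain ⟨Y, hY⟩ := left_inv h
  refine le_antisymm ((Matrix.rank_mul_le_right _ _).trans
    ((Matrix.rank_le_card_height _).trans (by simp))) ?_
  have e : Y * (D * pz n * Dᵀ) * (Yᵀ * -pz n) = 1 := by
    calc _ = Y * D * pz n * ((Y * D)ᵀ * -pz n) := by
          simp only [Matrix.transpose_mul, Matrix.mul_assoc]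
      _ = 1 := by rw [hY]; simpa using pz_inv n
  have := (Matrix.rank_mul_le_left _ (Yᵀ * -pz n)).trans (Matrix.rank_mul_le_right Y (D * pz n * Dᵀ))
  rwa [e, Matrix.rank_one, Fintype.card_fin] at this

theorem frame {P : Matrix (Fin q) (Fin q) ℂ} {D X : Matrix κ (Fin q) ℂ} {Y : Matrix (Fin q) κ ℂ}
    (h : Y * (D * P * Dᵀ * X) = 1) : Y * D * (P * Dᵀ * X) = 1 ∧ P * Dᵀ * X * (Y * D) = 1 ∧
      P * Dᵀ * X * (Y * (D * P * Dᵀ) * Yᵀ) * (P * Dᵀ * X)ᵀ = P := by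
  have h1 : Y * D * (P * Dᵀ * X) = 1 := by simpa only [Matrix.mul_assoc] using h
  have h2 := mul_eq_one_comm.1 h1
  refine ⟨h1, h2, ?_⟩
  generalize P * Dᵀ * X = T at h2 ⊢
  calc _ = T * (Y * D) * P * (T * (Y * D))ᵀ := by
        simp only [Matrix.transpose_mul, Matrix.mul_assoc]
    _ = P := by rw [h2]; simp

theorem bd_one {Θ : Matrix κ (Fin q) ℂ} (h : Θᴴ * Θ = 1) (i : κ) (j : Fin q) : ‖Θ i j‖ ≤ 1 := by
  have h1 : ∑ l, ‖Θ l j‖ ^ 2 = 1 := by
    have := congrFun (congrFun h j) j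
    simp only [Matrix.mul_apply, Matrix.conjTranspose_apply, Matrix.one_apply_eq, star_def,
      Complex.conj_mul'] at this
    exact_mod_cast this
  have h2 := Finset.single_le_sum (f := fun l => ‖Θ l j‖ ^ 2) (fun l _ => sq_nonneg _)
    (Finset.mem_univ i)
  rw [h1] at h2
  exact (sq_le_one_iff₀ (norm_nonneg _)).1 h2

theorem bd_pi {Θ : Matrix κ (Fin q) ℂ} {π : Matrix (Fin q) (Fin q) ℂ} {C : ℝ} (h : Θᴴ * Θ = 1)
    (hC : Bd C (Θ * π * Θᵀ)) : Bd (Fintype.card κ * (Fintype.card κ * (1 * C) * 1)) π := by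
  have e : π = Θᴴ * (Θ * π * Θᵀ) * Θᴴᵀ := by
    calc π = Θᴴ * Θ * π * (Θᴴ * Θ)ᵀ := by rw [h]; simp
      _ = _ := by simp only [Matrix.transpose_mul, Matrix.mul_assoc]
  have h1 : ∀ i j, ‖Θᴴ i j‖ ≤ 1 := fun i j => by simpa using bd_one h j i
  rw [e]
  exact norm_mul_apply_le (norm_mul_apply_le h1 hC) fun i j => h1 j i

end alg

/-! ### calculus in charts -/

section calculus

variable {q : ℕ} {N : Type} [TopologicalSpace N] {𝒜 : Set (Chart q N)} {κ : Type}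

theorem dz_eq {f : Cm q → ℂ} {z : Cm q} (h : DifferentiableAt ℂ f z) (k : Fin q) :
    dz k f z = fderiv ℂ f z (Pi.single k 1) := by
  have e : (Pi.single k I : Cm q) = I • Pi.single k 1 := by
    rw [← Pi.single_smul, smul_eq_mul, mul_one]
  rw [dz, h.fderiv_restrictScalars ℝ, e]
  simp only [ContinuousLinearMap.coe_restrictScalars', map_smul, smul_eq_mul]
  linear_combination (-fderiv ℂ f z (Pi.single k 1) / 2) * I_mul_I

theorem an_dM {G : N → κ → ℂ} (hG : Ho 𝒜 G) {e : Chart q N} (he : e ∈ 𝒜) {z : Cm q}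
    (hz : z ∈ e.target) (l : κ) (k : Fin q) :
    AnalyticAt ℂ (fun w => dM G e (e.symm w) l k) z := by
  have h := hG e he z hz l
  refine (((ContinuousLinearMap.apply ℂ ℂ (Pi.single k 1 : Cm q)).analyticAt _).comp
    h.fderiv).congr ?_
  filter_upwards [h.eventually_analyticAt, e.open_target.mem_nhds hz] with w hw hw'
  simp only [dM, Matrix.of_apply, e.right_inv hw', dz_eq hw.differentiableAt]
  rfl

/-- the chain rule -/
theorem chain [Fintype κ] {G : N → κ → ℂ} (hG : Ho 𝒜 G) {e : Chart q N} (he : e ∈ 𝒜) {γ : ℂ → N}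
    (h0 : γ 0 ∈ e.source) (hc : ContinuousAt γ 0) (hd : DifferentiableAt ℂ (fun s => e (γ s)) 0) :
    deriv (fun s => G (γ s)) 0 = dM G e (γ 0) *ᵥ deriv (fun s => e (γ s)) 0 := by
  refine HasDerivAt.deriv (hasDerivAt_pi.2 fun l => ?_)
  have h := (hG e he _ (e.map_source h0) l).differentiableAt
  have h1 := h.hasFDerivAt.comp_hasDerivAt (0 : ℂ) hd.hasDerivAt
  refine (h1.congr_of_eventuallyEq ?_).congr_deriv ?_
  · filter_upwards [hc.preimage_mem_nhds (e.open_source.mem_nhds h0)] with s hs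
    simp only [Function.comp, e.left_inv hs]
  · generalize deriv (fun s => e (γ s)) 0 = v
    conv_lhs => rw [pi_eq_sum_univ' v]
    simp only [map_sum, map_smul, Matrix.mulVec, dotProduct, dM, Matrix.of_apply, dz_eq h,
      smul_eq_mul]
    exact Finset.sum_congr rfl fun k _ => mul_comm _ _

/-- holomorphic functions -/
def Hs (𝒜 : Set (Chart q N)) (u : N → ℂ) : Prop :=
  ∀ e ∈ 𝒜, ∀ z ∈ e.target, AnalyticAt ℂ (fun w => u (e.symm w)) z

theorem Hs.of_eq {u : N → ℂ} {v : Chart q N → N → ℂ}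
    (h : ∀ e ∈ 𝒜, ∀ y ∈ e.source, u y = v e y)
    (hv : ∀ e ∈ 𝒜, ∀ z ∈ e.target, AnalyticAt ℂ (fun w => v e (e.symm w)) z) : Hs 𝒜 u :=
  fun e he z hz => (hv e he z hz).congr <| by
    filter_upwards [e.open_target.mem_nhds hz] with w hw
    exact (h e he _ (e.map_target hw)).symm

theorem wlc (hA : At 𝒜) : WeaklyLocallyCompactSpace N := by
  refine ⟨fun y => ?_⟩
  obtain ⟨e, he, hy⟩ := hA.cov y
  obtain ⟨K, hK, hK1, hK2⟩ := local_compact_nhds (e.open_target.mem_nhds (e.map_source hy))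
  refine ⟨e.symm '' K, hK2.image_of_continuousOn (e.symm.continuousOn.mono hK1), ?_⟩
  have := e.symm.image_mem_nhds (e.map_source hy) hK
  rwa [e.left_inv hy] at this

theorem HolOn.mono {φ : ℂ → N} {U V : Set ℂ} (h : HolOn 𝒜 φ U) (hV : V ⊆ U) : HolOn 𝒜 φ V :=
  ⟨h.1.mono hV, fun e he => (h.2 e he).mono (inter_subset_inter_left _ hV)⟩

theorem Fam.mono {φ : ℂ → N} {r r' : ℝ} {y : ℂ → ℂ → N} (h : Fam 𝒜 φ r y) (h0 : 0 < r')
    (hr : r' ≤ r) : Fam 𝒜 φ r' y :=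
  ⟨h0, h.zero, h.cont.mono (prod_mono (ball_subset_ball hr) subset_rfl),
    fun s hs => h.hτ s (ball_subset_ball hr hs),
    fun τ hτ => HolOn.mono (h.hs τ hτ) (ball_subset_ball hr)⟩

theorem HolOn.at {γ : ℂ → N} {r : ℝ} (h : HolOn 𝒜 γ (ball 0 r)) (hr : 0 < r) {e : Chart q N}
    (he : e ∈ 𝒜) (h0 : γ 0 ∈ e.source) :
    ContinuousAt γ 0 ∧ DifferentiableAt ℂ (fun s => e (γ s)) 0 := by
  have hc := h.1.continuousAt (ball_mem_nhds 0 hr)
  exact ⟨hc, (h.2 e he).differentiableAt (inter_mem (ball_mem_nhds 0 hr)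
    (hc.preimage_mem_nhds (e.open_source.mem_nhds h0)))⟩

theorem curve (hA : At 𝒜) {e : Chart q N} (he : e ∈ 𝒜) {c : ℂ → Cm q} (hc : AnalyticAt ℂ c 0)
    (h0 : c 0 ∈ e.target) : ∃ r > 0, (∀ s ∈ ball (0 : ℂ) r, c s ∈ e.target) ∧
      HolOn 𝒜 (fun s => e.symm (c s)) (ball 0 r) := by
  obtain ⟨r, hr, h⟩ := Metric.eventually_nhds_iff_ball.1 (hc.eventually_analyticAt.and
    (hc.continuousAt.preimage_mem_nhds (e.open_target.mem_nhds h0)))
  refine ⟨r, hr, fun s hs => (h s hs).2, e.symm.continuousOn.comp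
    (fun s hs => (h s hs).1.continuousAt.continuousWithinAt) fun s hs => (h s hs).2,
    fun e' he' s hs => ?_⟩
  exact ((hA.hol e he e' he' _ (h s hs.1).2 hs.2).comp
    (h s hs.1).1).differentiableAt.differentiableWithinAt

variable [T2Space N]

theorem Hs.cont (h2 : LIPK) (hA : At 𝒜) {u : N → ℂ} (hu : Hs 𝒜 u) : Continuous u :=
  (continuous_apply ()).comp
    (h2 q N 𝒜 Unit (fun y _ => u y) hA fun e he z hz _ => hu e he z hz).1

theorem Hs.da (h2 : LIPK) (hA : At 𝒜) {u : N → ℂ} (hu : Hs 𝒜 u) {φ : ℂ → N} (hφ : Dn 𝒜 φ) :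
    DA fun τ => u (φ τ) :=
  DA.mk' ((h2 q N 𝒜 Unit (fun y _ => u y) hA fun e he z hz _ => hu e he z hz).2.1 φ _ isOpen_ball
    hφ.2 ()) ((hu.cont h2 hA).comp_continuousOn hφ.1)

theorem Hs.dq (h2 : LIPK) (hA : At 𝒜) {ι : Type} [Fintype ι] {F : N → ι → ℂ} (hF : Ho 𝒜 F)
    {K : Set N} (hK : IsCompact K) (hE : Em 𝒜 F K) {u : N → ℂ} (hu : Hs 𝒜 u) :
    ∃ C : ℝ, 0 ≤ C ∧ ∀ (φ : ℂ → N) (B : ℝ), (∀ τ ∈ sphere (0 : ℂ) 1, φ τ ∈ K) →
      Dqv B (fun τ => F (φ τ)) → Dq (C * B) fun τ => u (φ τ) := by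
  obtain ⟨C, hC, h⟩ := ((h2 q N 𝒜 ι F hA hF).2.2.2 K hK hE).1 u fun y _ e he hy =>
    ((hu e he _ (e.map_source hy)).restrictScalars (𝕜 := ℝ)).contDiffAt
  refine ⟨C * Fintype.card ι, by positivity, fun φ B hφ hB => ?_⟩
  rw [mul_assoc]
  exact (Dq.pi hB).of_le hC fun σ hσ τ hτ => by
    simpa only [dist_eq_norm] using h _ (hφ σ hσ) _ (hφ τ hτ)

end calculus

/-! ### chart independent functions -/

section inv

variable {n : ℕ} {N : Type} [TopologicalSpace N] {𝒜 : Set (Chart (n + n) N)} {κ : Type}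

/-- the differential in a chosen chart -/
def DD (hA : At 𝒜) (G : N → κ → ℂ) (y : N) : Matrix κ (Fin (n + n)) ℂ := dM G (hA.cov y).choose y

/-- the Poisson brackets -/
def br (hA : At 𝒜) (G : N → κ → ℂ) (y : N) : Matrix κ κ ℂ := DD hA G y * pz n * (DD hA G y)ᵀ

/-- the maximal minors -/
def jj (hA : At 𝒜) (G : N → κ → ℂ) (J : Fin (n + n) → κ) (y : N) : ℂ :=
  ((DD hA G y).submatrix J id).det

/-- symplectic atlas -/
def Sy (𝒜 : Set (Chart (n + n) N)) : Prop := ∀ e ∈ 𝒜, ∀ e' ∈ 𝒜, ∀ y ∈ e.source, y ∈ e'.source →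
  jacM e e' y * pz n * (jacM e e' y)ᵀ = pz n ∧ (jacM e e' y).det = 1

variable [T2Space N] [Fintype κ] (h2 : LIPK) (hA : At 𝒜) (hS : Sy 𝒜) {G : N → κ → ℂ} (hG : Ho 𝒜 G)
include h2 hS hG

theorem br_eq {e : Chart (n + n) N} (he : e ∈ 𝒜) {y : N} (hy : y ∈ e.source) :
    br hA G y = dM G e y * pz n * (dM G e y)ᵀ := by
  obtain ⟨h1, h3⟩ := (hA.cov y).choose_spec
  rw [((h2 _ N 𝒜 κ G hA hG).2.2.1 e he _ h1 y hy h3).1, br, DD]
  conv_lhs => rw [← (hS e he _ h1 y hy h3).1]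
  simp only [Matrix.transpose_mul, Matrix.mul_assoc]

theorem jj_eq (J : Fin (n + n) → κ) {e : Chart (n + n) N} (he : e ∈ 𝒜) {y : N}
    (hy : y ∈ e.source) : jj hA G J y = ((dM G e y).submatrix J id).det := by
  obtain ⟨h1, h3⟩ := (hA.cov y).choose_spec
  rw [((h2 _ N 𝒜 κ G hA hG).2.2.1 e he _ h1 y hy h3).1, jj, DD,
    Matrix.submatrix_mul _ _ J id id Function.bijective_id, Matrix.det_mul, Matrix.submatrix_id_id,
    (hS e he _ h1 y hy h3).2, mul_one]

theorem hs_br (l l' : κ) : Hs 𝒜 fun y => br hA G y l l' := by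
  refine Hs.of_eq (v := fun e y => (dM G e y * pz n * (dM G e y)ᵀ) l l')
    (fun e he y hy => by rw [br_eq h2 hA hS hG he hy]) fun e he z hz => ?_
  simp only [Matrix.mul_apply, Matrix.transpose_apply]
  exact Finset.analyticAt_fun_sum _ fun k _ => (Finset.analyticAt_fun_sum _ fun k' _ =>
    (an_dM hG he hz l k').mul analyticAt_const).mul (an_dM hG he hz l' k)

theorem hs_jj (J : Fin (n + n) → κ) : Hs 𝒜 (jj hA G J) := by
  refine Hs.of_eq (v := fun e y => ((dM G e y).submatrix J id).det)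
    (fun e he y hy => jj_eq h2 hA hS hG J he hy) fun e he z hz => ?_
  simp only [Matrix.det_apply', Matrix.submatrix_apply, id]
  exact Finset.analyticAt_fun_sum _ fun σ _ => analyticAt_const.mul
    (Finset.analyticAt_fun_prod _ fun k _ => an_dM hG he hz _ k)

end inv

end Fr

open Fr

theorem frm (h1 : ISO2) (h2 : LIPK) (h3 : TUBE) : FRM := by
  intro n N _ _ 𝒜 ι _ F K hA hS hSep hF hK hE
  have inj : ∀ {κ : Type} {G : N → κ → ℂ} {K : Set N}, Em 𝒜 G K → ∀ y ∈ K,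
      Function.Injective (DD hA G y).mulVec := fun h y hy =>
    h.2 y hy _ (hA.cov y).choose_spec.1 (hA.cov y).choose_spec.2
  -- the constants
  have cj : Continuous fun y => ‖fun J => jj hA F J y‖ :=
    (continuous_pi fun J => (hs_jj h2 hA hS hF J).cont h2 hA).norm
  obtain ⟨c, hc, hcK⟩ := hK.exists_forall_le' cj.continuousOn (a := 0) fun y hy => by
    obtain ⟨J, hJ⟩ := minor (inj hE y hy)
    exact norm_pos_iff.2 fun h => hJ (congrFun h J)
  obtain ⟨C₁, hC₁⟩ := hK.exists_bound_of_continuousOn cj.continuousOn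
  obtain ⟨C₂, hC₂⟩ := hK.exists_bound_of_continuousOn (continuous_pi fun p : ι × ι =>
    (hs_br h2 hA hS hF p.1 p.2).cont h2 hA).continuousOn
  choose L hL0 hL using fun J => (hs_jj h2 hA hS hF J).dq h2 hA hF hK hE
  obtain ⟨K₀, hK₀, hI⟩ := h1 ι (n + n) c C₁ hc
  have hL1 : 0 ≤ ∑ J, L J := Finset.sum_nonneg fun J _ => hL0 J
  refine ⟨K₀ * ∑ J, L J + Fintype.card ι * (Fintype.card ι * (1 * |C₂|) * 1), by positivity,
    fun φ B hφ hφK hB => ?_⟩
  -- the second embedding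
  have := wlc hA
  obtain ⟨K', hK', hK'φ⟩ := exists_compact_superset
    ((isCompact_closedBall (0 : ℂ) 1).image_of_continuousOn hφ.1)
  have hn : ∀ τ ∈ closedBall (0 : ℂ) 1, K' ∈ 𝓝 (φ τ) := fun τ hτ =>
    mem_interior_iff_mem_nhds.1 (hK'φ ⟨τ, hτ, rfl⟩)
  obtain ⟨m, F₂, hF₂, hE₂⟩ := hSep K' hK'
  set G : N → ι ⊕ Fin m → ℂ := fun y => Sum.elim (F y) (F₂ y) with hGd
  have hG : Ho 𝒜 G := fun e he z hz l => by
    rcases l with l | l
    exacts [hF e he z hz l, hF₂ e he z hz l]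
  have hEG : Em 𝒜 G K' := ⟨fun y hy y' hy' h => hE₂.1 hy hy' (funext fun l => congrFun h (.inr l)),
    fun y hy e he hye v w h => hE₂.2 y hy e he hye (funext fun l => congrFun h (.inr l))⟩
  have hw : ∀ {u : N → ℂ}, Hs 𝒜 u → HW fun τ => u (φ τ) := fun hu =>
    let ⟨_, _, h⟩ := hu.dq h2 hA hF hK hE
    ⟨hu.da h2 hA hφ, (h φ B hφK hB).w12⟩
  have hAw : HWm fun τ => br hA G (φ τ) := fun l l' => hw (hs_br h2 hA hS hG l l')
  obtain ⟨X, Y, hX, hY, hXY, hiso, hD⟩ := hI (Fin m) (ι ⊕ Fin m) (fun τ => br hA G (φ τ))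
    (fun J τ => jj hA G J (φ τ)) ((∑ J, L J) * |B|) hAw
    (fun τ hτ => rank_br (inj hEG _ (mem_of_mem_nhds (hn τ hτ))))
    (fun J => (hs_jj h2 hA hS hG J).da h2 hA hφ)
    (fun J => (hL J φ B hφK hB).mono ((mul_le_mul_of_nonneg_left (le_abs_self B) (hL0 J)).trans
      (mul_le_mul_of_nonneg_right (Finset.single_le_sum (fun J _ => hL0 J) (Finset.mem_univ J))
        (abs_nonneg B))))
    (fun τ hτ => ⟨fun J => (norm_le_pi_norm (fun J => jj hA F J (φ τ)) J).trans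
      ((le_abs_self _).trans (hC₁ _ (hφK τ hτ))), by
        by_contra h
        push Not at h
        exact absurd ((pi_norm_lt_iff hc).2 h) (not_lt.2 (hcK _ (hφK τ hτ)))⟩)
    (fun τ hτ => ⟨minor (inj hEG _ (mem_of_mem_nhds (hn τ hτ))), fun X =>
      ⟨(pz n * (DD hA G (φ τ))ᵀ * X).det, fun J => by
        rw [br, Matrix.mul_assoc, Matrix.mul_assoc,
          Matrix.submatrix_mul _ _ J id id Function.bijective_id, Matrix.det_mul,
          Matrix.submatrix_id_id, Matrix.mul_assoc, mul_comm]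
        rfl⟩⟩)
  -- the algebra in a chart
  have key : ∀ τ ∈ closedBall (0 : ℂ) 1, ∀ e ∈ 𝒜, φ τ ∈ e.source →
      ∃ T : Matrix (Fin (n + n)) (Fin (n + n)) ℂ, Y τ * dM G e (φ τ) * T = 1 ∧
        T * (Y τ * dM G e (φ τ)) = 1 ∧ T * (Y τ * br hA G (φ τ) * (Y τ)ᵀ) * Tᵀ = pz n ∧
        (br hA G (φ τ) * X τ).toRows₁ = dM F e (φ τ) * T := by
    intro τ hτ e he hy
    have h := (hXY τ hτ).1
    simp only [br_eq h2 hA hS hG he hy] at h ⊢
    refine ⟨_, (frame h).1, (frame h).2.1, (frame h).2.2, ?_⟩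
    rw [Matrix.mul_assoc, Matrix.mul_assoc, Matrix.mul_assoc]
    rfl
  have poi : ∀ τ ∈ closedBall (0 : ℂ) 1, ∀ e ∈ 𝒜, φ τ ∈ e.source →
      (br hA G (φ τ) * X τ).toRows₁ * (Y τ * br hA G (φ τ) * (Y τ)ᵀ) *
        ((br hA G (φ τ) * X τ).toRows₁)ᵀ = dM F e (φ τ) * pz n * (dM F e (φ τ))ᵀ := by
    intro τ hτ e he hy
    obtain ⟨T, -, -, h3, h4⟩ := key τ hτ e he hy
    rw [h4, ← h3]
    simp only [Matrix.transpose_mul, Matrix.mul_assoc]
  refine ⟨fun τ => (br hA G (φ τ) * X τ).toRows₁, fun τ => Y τ * br hA G (φ τ) * (Y τ)ᵀ,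
    ⟨fun i j => hAw.mul hX (.inl i) j, (hY.mul hAw).mul fun i j => hY j i, hiso,
      fun τ hτ => poi τ (sphere_subset_closedBall hτ), fun e he h0 => ?_⟩,
    fun i j => (hD i j).mono ?_, fun τ hτ i j => ?_⟩
  · have hz : (0 : ℂ) ∈ closedBall (0 : ℂ) 1 := mem_closedBall_self zero_le_one
    obtain ⟨T, k1, k2, k3, -⟩ := key 0 hz e he h0
    refine ⟨T, Matrix.det_ne_zero_of_right_inverse k2, k3, fun U γ hU hγ hγ0 hγ' => ?_⟩
    have ht : γ 0 ∈ e.target := hγ0 ▸ e.map_source h0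
    obtain ⟨r₀, hr₀, hr₁, hr₂⟩ := curve hA he hγ ht
    have e0 : e.symm (γ 0) = φ 0 := by rw [hγ0, e.left_inv h0]
    have hs : e.symm (γ 0) ∈ e.source := e.map_target ht
    obtain ⟨r, A, y, hy1, hy2, hy3⟩ := h3 _ N 𝒜 _ G K' φ (fun s => e.symm (γ s)) Y U hA hG hK' hEG
      hφ hn (fun l => hw (u := fun y => G y l) fun e he z hz => hG e he z hz l) hY hU
      (fun τ hτ e he hy => let ⟨T, k, _⟩ := key τ hτ e he hy
        Matrix.det_ne_zero_of_right_inverse k) ⟨r₀, hr₀, hr₂⟩ e0 (by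
        have h := HolOn.at hr₂ hr₀ he hs
        have e1 : (fun s => e (e.symm (γ s))) =ᶠ[𝓝 0] γ := by
          filter_upwards [ball_mem_nhds 0 hr₀] with s hs using e.right_inv (hr₁ s hs)
        rw [chain hG he hs h.1 h.2, e1.deriv_eq, hγ', e0, Matrix.mulVec_mulVec,
          Matrix.mulVec_mulVec, k1, Matrix.one_mulVec])
    refine ⟨min r r₀, A, y, Fam.mono hy1 (lt_min hy1.pos hr₀) (min_le_left _ _), fun s hs =>
      ⟨(hy2 s (ball_subset_ball (min_le_left _ _) hs)).1,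
        hr₁ s (ball_subset_ball (min_le_right _ _) hs),
        fun l => (hy2 s (ball_subset_ball (min_le_left _ _) hs)).2.1 (.inl l)⟩, fun τ hτ => ?_⟩
    obtain ⟨e', he', hy'⟩ := hA.cov (φ τ)
    obtain ⟨T', -, l2, -, l4⟩ := key τ hτ e' he' hy'
    have e2 : y 0 τ = φ τ := hy1.zero hτ
    have hy0 : y 0 τ ∈ e'.source := e2 ▸ hy'
    have h := HolOn.at (hy1.hs τ hτ) hy1.pos he' hy0
    have h4 := hy3 τ hτ
    rw [chain hG he' hy0 h.1 h.2, e2] at h4
    rw [chain hF he' hy0 h.1 h.2, e2, l4, ← h4, Matrix.mulVec_mulVec, Matrix.mulVec_mulVec,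
      Matrix.mul_assoc, Matrix.mul_assoc, l2, Matrix.mul_one]
  · have hB0 : 0 ≤ B := (hB i).nonneg
    rw [abs_of_nonneg hB0, ← mul_assoc]
    gcongr
    exact le_add_of_nonneg_right (by positivity)
  · obtain ⟨e, he, hy⟩ := hA.cov (φ τ)
    refine (bd_pi (C := |C₂|) (hiso τ hτ) (fun l l' => ?_) i j).trans
      (le_add_of_nonneg_left (by positivity))
    rw [poi τ (sphere_subset_closedBall hτ) e he hy, ← br_eq h2 hA hS hF he hy]
    exact (norm_le_pi_norm (fun p : ι × ι => br hA F (φ τ) p.1 p.2) (l, l')).trans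
      ((hC₂ _ (hφK τ hτ)).trans (le_abs_self _))

end Vale.Agent.P253W.A
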