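import Vale.Agent.P253W.A.Defs0
import Vale.Agent.P272.H696.LogDet

/-!
# P253W, block A, row JA: algebra of the leverages
-/

open Complex Filter Topology Matrix
open scoped Matrix ComplexConjugate ComplexOrder
open Vale.Agent.P272.K (Cm)
open Vale.P272.H696

noncomputable section

namespace Vale.Agent.P253W.A

namespace Ja

variable {ι : Type*} [Fintype ι] {a : Matrix ι ι ℂ} {n m : ℕ} {γ : Fin m → ℝ} {p : Fin m → Cm n}

theorem hf_coe (h : a.IsHermitian) (u : ι → ℂ) : (hf a u : ℂ) = star u ⬝ᵥ a *ᵥ u :=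
  Complex.ext rfl (h.im_star_dotProduct_mulVec_self u).symm

theorem conj_sf (h : a.IsHermitian) (u v : ι → ℂ) :
    conj (star u ⬝ᵥ a *ᵥ v) = star v ⬝ᵥ a *ᵥ u := by
  rw [dotProduct_mulVec (star v), ← h.eq, ← star_mulVec, star_dotProduct, h.eq]
  simp

theorem hf_nonneg (h : a.PosSemidef) (u : ι → ℂ) : 0 ≤ hf a u := h.re_dotProduct_nonneg u

theorem hf_pos (h : a.PosDef) {u : ι → ℂ} (hu : u ≠ 0) : 0 < hf a u := h.re_dotProduct_pos hu

theorem psd_of (h : a.IsHermitian) (k : ∀ u, 0 ≤ hf a u) : a.PosSemidef :=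
  .of_dotProduct_mulVec_nonneg h fun u => by rw [← hf_coe h]; exact_mod_cast k u

theorem pd_of (h : a.IsHermitian) (k : ∀ u, u ≠ 0 → 0 < hf a u) : a.PosDef :=
  .of_dotProduct_mulVec_pos h fun u hu => by rw [← hf_coe h]; exact_mod_cast k u hu

theorem hf_sub (h : a.IsHermitian) (u v : ι → ℂ) (c : ℂ) : hf a (v - c • u) =
    hf a v - 2 * (conj c * (star u ⬝ᵥ a *ᵥ v)).re + ‖c‖ ^ 2 * hf a u := by
  rw [hf, mulVec_sub, mulVec_smul, star_sub, star_smul, sub_dotProduct, dotProduct_sub,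
    dotProduct_sub, smul_dotProduct, smul_dotProduct, dotProduct_smul, dotProduct_smul,
    ← conj_sf h u v, ← hf_coe h u, ← hf_coe h v, Complex.sq_norm, normSq_apply]
  simp
  ring

/-- the Cauchy-Schwarz inequality -/
theorem cs (h : a.PosSemidef) {u : ι → ℂ} (hu : 0 < hf a u) (v : ι → ℂ) :
    ‖star u ⬝ᵥ a *ᵥ v‖ ^ 2 ≤ hf a u * hf a v := by
  have := hf_nonneg h (v - (((hf a u)⁻¹ : ℝ) * (star u ⬝ᵥ a *ᵥ v) : ℂ) • u)
  rw [hf_sub h.1, map_mul, mul_assoc, conj_mul', norm_mul, conj_ofReal, norm_real,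
    ← ofReal_pow, ← ofReal_mul, ofReal_re, Real.norm_of_nonneg (inv_nonneg.2 hu.le)] at this
  have := mul_nonneg hu.le this
  field_simp at this
  linarith

theorem trace_mul_vv (a : Matrix ι ι ℂ) (u : ι → ℂ) :
    (a * vecMulVec u (star u)).trace = star u ⬝ᵥ a *ᵥ u := by
  rw [mul_vecMulVec, trace_vecMulVec, dotProduct_comm]

theorem trace_Zm (a : Matrix (Fin n) (Fin n) ℂ) (γ : Fin m → ℝ) (p : Fin m → Cm n) :
    (a * Zm γ p).trace.re = ∑ i, Real.exp (-γ i) * hf a (p i) := by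
  simp only [Zm, Matrix.mul_sum, trace_sum, re_sum, Matrix.mul_smul, trace_smul, trace_mul_vv,
    smul_eq_mul, re_ofReal_mul, hf]

theorem hf_Zm (γ : Fin m → ℝ) (p : Fin m → Cm n) (u : Cm n) :
    hf (Zm γ p) u = ∑ i, Real.exp (-γ i) * ‖star (p i) ⬝ᵥ u‖ ^ 2 := by
  simp only [hf, Zm, sum_mulVec, dotProduct_sum, re_sum, smul_mulVec, dotProduct_smul, smul_eq_mul,
    re_ofReal_mul, vecMulVec_mulVec, op_smul_eq_smul]
  refine Finset.sum_congr rfl fun i _ => ?_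
  rw [star_dotProduct u, star_def, mul_conj', ← ofReal_pow, ofReal_re]

theorem psd (γ : Fin m → ℝ) (p : Fin m → Cm n) : (Zm γ p).PosSemidef :=
  posSemidef_sum _ fun _ _ => (posSemidef_vecMulVec_self_star _).smul
    (zero_le_real.2 (Real.exp_pos _).le)

theorem pd_iff : (Zm γ p).PosDef ↔ 0 < (Zm γ p).det.re :=
  ⟨det_re_pos, fun h => (psd γ p).posDef_iff_det_ne_zero.2 fun e => by simp [e] at h⟩

theorem unit (h : (Zm γ p).PosDef) : IsUnit (Zm γ p).det := (isUnit_iff_isUnit_det _).1 h.isUnit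

theorem sum_lev (h : (Zm γ p).PosDef) : ∑ i, lev γ p i = n := by
  have := trace_Zm (Zm γ p)⁻¹ γ p
  rw [nonsing_inv_mul _ (unit h)] at this
  simpa [lev] using this.symm

theorem lev_nonneg (γ : Fin m → ℝ) (p : Fin m → Cm n) (i : Fin m) : 0 ≤ lev γ p i :=
  mul_nonneg (Real.exp_pos _).le (hf_nonneg (psd γ p).inv _)

theorem lev_le (h : (Zm γ p).PosDef) (i : Fin m) : lev γ p i ≤ 1 := by
  have e : hf (Zm γ p) ((Zm γ p)⁻¹ *ᵥ p i) = hf (Zm γ p)⁻¹ (p i) := by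
    rw [hf, mulVec_mulVec, mul_nonsing_inv _ (unit h), one_mulVec, star_dotProduct, star_def,
      conj_re, hf]
  have k := Finset.single_le_sum (f := fun j => Real.exp (-γ j) *
    ‖star (p j) ⬝ᵥ (Zm γ p)⁻¹ *ᵥ p i‖ ^ 2) (fun j _ => by positivity) (Finset.mem_univ i)
  rw [← hf_Zm, e, ← hf_coe h.inv.1, norm_real, Real.norm_eq_abs, sq_abs] at k
  have := lev_nonneg γ p i
  have := Real.exp_pos (-γ i)
  unfold lev at *
  nlinarith [mul_le_mul_of_nonneg_left k this.le]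

/-- the rank two formula -/
theorem det_upd (h : (Zm γ p).PosDef) (i : Fin m) (g : ℝ) (v : Cm n) :
    (Zm (Function.update γ i g) (Function.update p i v)).det.re = (Zm γ p).det.re *
      ((1 - lev γ p i) * (1 + Real.exp (-g) * hf (Zm γ p)⁻¹ v) +
        Real.exp (-γ i) * Real.exp (-g) * ‖star (p i) ⬝ᵥ (Zm γ p)⁻¹ *ᵥ v‖ ^ 2) := by
  have e : Zm (Function.update γ i g) (Function.update p i v) = Zm γ p +
      (Matrix.of ![-(Real.exp (-γ i) : ℂ) • p i, (Real.exp (-g) : ℂ) • v])ᵀ *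
        Matrix.of ![star (p i), star v] := by
    rw [Zm, Zm, ← Finset.add_sum_erase _ _ (Finset.mem_univ i),
      ← Finset.add_sum_erase _ _ (Finset.mem_univ i), Finset.sum_congr rfl fun j hj => by
        rw [Function.update_of_ne (Finset.ne_of_mem_erase hj),
          Function.update_of_ne (Finset.ne_of_mem_erase hj)]]
    ext k l
    simp [Matrix.mul_apply, vecMulVec_apply]
    ring
  have k : ∀ (A B : Fin 2 → Fin n → ℂ) (W : Matrix (Fin n) (Fin n) ℂ) k l,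
      (Matrix.of A * W * (Matrix.of B)ᵀ) k l = A k ⬝ᵥ W *ᵥ B l := fun A B W k l => by
    rw [dotProduct_mulVec]; rfl
  rw [e, det_add_mul _ _ (unit h), det_fin_two, det_eq_re h, re_ofReal_mul]
  simp only [Matrix.add_apply, k, cons_val_zero, cons_val_one, mulVec_smul, dotProduct_smul,
    ← hf_coe h.inv.1, ← conj_sf h.inv.1 (p i) v, lev, Complex.sq_norm, normSq_apply]
  congr 1
  simp [-ofReal_exp]
  ring

theorem real1 {l e w B X Y s t G A : ℝ} (he : 0 < e) (hl : 0 < l) (h1 : l ≤ 1) (hw : B ^ 2 ≤ l * w)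
    (hB : B ^ 2 ≤ (X + Y) ^ 2) (hX : X ^ 2 ≤ (s + t) ^ 2) (ht : t ^ 2 ≤ e * G)
    (h : s ^ 2 / e ≤ A - Y ^ 2 / l - (1 - l) * (w - B ^ 2 / l + X ^ 2 / l)) :
    (1 - l - 2 * e / l) * w ≤ A + G := by
  have a1 : X ^ 2 / (2 * e) ≤ s ^ 2 / e + G := by
    rw [div_add' _ _ _ he.ne', div_le_div_iff₀ (by positivity) he]
    nlinarith [mul_le_mul_of_nonneg_left (show X ^ 2 ≤ 2 * s ^ 2 + 2 * (e * G) by
      nlinarith [sq_nonneg (s - t)]) he.le]
  have a2 : B ^ 2 / (l + 2 * e) ≤ X ^ 2 / (2 * e) + Y ^ 2 / l := by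
    rw [div_add_div _ _ (by positivity) hl.ne', div_le_div_iff₀ (by positivity) (by positivity)]
    nlinarith [mul_le_mul_of_nonneg_left hB (mul_pos he hl).le, sq_nonneg (l * X - 2 * e * Y)]
  have a3 : B ^ 2 / l - B ^ 2 / (l + 2 * e) ≤ 2 * e / l * w := by
    have : 0 ≤ w := nonneg_of_mul_nonneg_right ((sq_nonneg B).trans hw) hl
    rw [div_sub_div _ _ hl.ne' (by positivity), div_mul_eq_mul_div,
      div_le_div_iff₀ (by positivity) hl]
    nlinarith [mul_le_mul_of_nonneg_left hw (mul_pos he hl).le,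
      mul_nonneg (mul_pos (mul_pos he he) hl).le this]
  have a4 : 0 ≤ (1 - l) * (X ^ 2 / l) := mul_nonneg (sub_nonneg.2 h1) (by positivity)
  have a5 : 0 ≤ l * (B ^ 2 / l) := by positivity
  nlinarith

theorem ja1 (i : Fin m) (v : Cm n) (c β : ℂ) (a e G : ℝ) (h : (Zm γ p).PosDef) (he : 0 < e)
    (hl : 0 < lev γ p i) (hβ : ‖β‖ ^ 2 ≤ e * G)
    (k : ‖lev γ p i * c - Real.exp (-γ i) * (star (p i) ⬝ᵥ (Zm γ p)⁻¹ *ᵥ v) + β‖ ^ 2 / e ≤
      a - lev γ p i * ‖c‖ ^ 2 -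
        (1 - lev γ p i) * (Real.exp (-γ i) * hf (Zm γ p)⁻¹ (v - c • p i))) :
    (1 - lev γ p i - 2 * e / lev γ p i) * (Real.exp (-γ i) * hf (Zm γ p)⁻¹ v) ≤ a + G := by
  have t := Real.exp_pos (-γ i)
  have k1 := cs h.inv.posSemidef (pos_of_mul_pos_right hl t.le) v
  rw [hf_sub h.inv.1] at k
  set b := star (p i) ⬝ᵥ (Zm γ p)⁻¹ *ᵥ v
  set x := lev γ p i * c - Real.exp (-γ i) * b
  refine real1 (B := ‖Real.exp (-γ i) * b‖) (X := ‖x‖) (Y := ‖lev γ p i * c‖) he hl (lev_le h i) ?_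
    (pow_le_pow_left₀ (norm_nonneg _) ?_ 2) (pow_le_pow_left₀ (norm_nonneg _) ?_ 2) hβ
    (k.trans_eq ?_)
  · rw [norm_mul, norm_real, Real.norm_of_nonneg t.le, lev]
    nlinarith [mul_le_mul_of_nonneg_left k1 (sq_nonneg (Real.exp (-γ i)))]
  · simpa [x] using norm_sub_le x (lev γ p i * c)
  · simpa using norm_sub_le (x + β) β
  · have : hf (Zm γ p)⁻¹ (p i) = lev γ p i / Real.exp (-γ i) := by rw [lev]; field_simp
    simp only [x, this, Complex.sq_norm, normSq_apply]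
    simp [-ofReal_exp]
    field_simp
    ring

theorem ja2 (G : Matrix (Fin n) (Fin n) ℂ) (x : ℝ) (h : (Zm γ p).PosDef) (hG : G.PosDef)
    (hn : n < m) (k : ∀ (i : Fin m) (g : ℝ) (v : Cm n),
      ((∃ j, g = γ j ∧ v = p j) ∨ (v ≠ 0 ∧ Real.exp g = hf G v)) →
      (Zm (Function.update γ i g) (Function.update p i v)).PosDef →
      Jm γ p ≤ Jm (Function.update γ i g) (Function.update p i v) + x) :
    (∀ i, 1 - Real.exp x / (1 + n / m) ≤ lev γ p i ∧ lev γ p i ≤ Real.exp x / (1 - n / m) - 1) ∧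
      (((Real.exp x / (1 - n / m) - 1 : ℝ) : ℂ) • G - (Zm γ p)⁻¹).PosSemidef := by
  have d := det_re_pos h
  have key : ∀ i g v, ((∃ j, g = γ j ∧ v = p j) ∨ (v ≠ 0 ∧ Real.exp g = hf G v)) →
      (1 - lev γ p i) * (1 + Real.exp (-g) * hf (Zm γ p)⁻¹ v) ≤ Real.exp x := fun i g v a => by
    refine (le_or_gt _ 0).elim (fun b => b.trans (Real.exp_pos x).le) fun b => ?_
    have e := det_upd h i g v
    have c : 0 ≤ Real.exp (-γ i) * Real.exp (-g) * ‖star (p i) ⬝ᵥ (Zm γ p)⁻¹ *ᵥ v‖ ^ 2 := by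
      positivity
    have := k i g v a (pd_iff.2 (by rw [e]; positivity))
    rw [Jm, Jm, e, Real.log_mul d.ne' (by positivity)] at this
    exact (le_add_of_nonneg_right c).trans ((Real.log_le_iff_le_exp (by positivity)).1 (by linarith))
  have hm : (0 : ℝ) < m := by exact_mod_cast hn.pos
  have ne : (Finset.univ : Finset (Fin m)).Nonempty := ⟨⟨n, hn⟩, Finset.mem_univ _⟩
  have s : ∑ i, lev γ p i = ∑ _ : Fin m, (n : ℝ) / m := by
    rw [sum_lev h]; simp; field_simp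
  obtain ⟨i₀, -, h0⟩ := Finset.exists_le_of_sum_le ne s.le
  obtain ⟨i₁, -, h1⟩ := Finset.exists_le_of_sum_le ne s.ge
  have q : 0 < 1 - (n : ℝ) / m := sub_pos.2 ((div_lt_one hm).2 (by exact_mod_cast hn))
  have up : ∀ g v, ((∃ j, g = γ j ∧ v = p j) ∨ (v ≠ 0 ∧ Real.exp g = hf G v)) →
      Real.exp (-g) * hf (Zm γ p)⁻¹ v ≤ Real.exp x / (1 - n / m) - 1 := fun g v a => by
    rw [le_sub_iff_add_le', le_div_iff₀' q]
    have := hf_nonneg h.inv.posSemidef v
    exact (mul_le_mul_of_nonneg_right (by linarith) (by positivity)).trans (key i₀ g v a)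
  refine ⟨fun i => ⟨?_, up _ _ (.inl ⟨i, rfl, rfl⟩)⟩, psd_of ((hG.1.smul (by
    simp [IsSelfAdjoint, -ofReal_exp])).sub h.inv.1) fun v => ?_⟩
  · rw [sub_le_comm, le_div_iff₀ (by positivity)]
    exact (mul_le_mul_of_nonneg_left (add_le_add_right h1 1) (sub_nonneg.2 (lev_le h i))).trans
      (key i _ _ (.inl ⟨i₁, rfl, rfl⟩))
  · by_cases hv : v = 0
    · simp [hf, hv]
    have a := hf_pos hG hv
    have := up _ v (.inr ⟨hv, Real.exp_log a⟩)
    rw [Real.exp_neg, Real.exp_log a, inv_mul_le_iff₀' a] at this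
    rw [hf, sub_mulVec, smul_mulVec, dotProduct_sub, dotProduct_smul, sub_re, smul_eq_mul,
      re_ofReal_mul]
    exact sub_nonneg.2 this

theorem pd_span (γ' : Fin m → ℝ) (h : (Zm γ p).PosDef) : (Zm γ' p).PosDef :=
  pd_of (psd _ _).1 fun u hu => by
    have := hf_pos h hu
    rw [hf_Zm] at this ⊢
    obtain ⟨i, hi, k⟩ := Finset.exists_lt_of_sum_lt (f := fun _ => (0 : ℝ)) (by simpa using this)
    exact Finset.sum_pos' (fun _ _ => by positivity)
      ⟨i, hi, mul_pos (Real.exp_pos _) (pos_of_mul_pos_right k (Real.exp_pos _).le)⟩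

theorem ja3 (γ : ℝ → Fin m → ℝ) (γ' : Fin m → ℝ) (h : (Zm (γ 0) p).PosDef)
    (d : ∀ i, HasDerivAt (fun s => γ s i) (γ' i) 0) :
    HasDerivAt (fun s => Jm (γ s) p) (∑ i, lev (γ 0) p i * γ' i) 0 := by
  have d1 : DifferentiableAt ℝ (fun s => (Zm (γ s) p).det) 0 := by
    have := fun i => ((d i).fun_neg.exp.ofReal_comp).differentiableAt
    simp only [det_apply', Zm, Matrix.sum_apply, Matrix.smul_apply, smul_eq_mul]
    fun_prop
  have d2 := ((reCLM.differentiableAt.comp 0 d1).log (det_re_pos h).ne').neg.hasDerivAt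
  have d3 := HasDerivAt.fun_sum fun i (_ : i ∈ Finset.univ) =>
    (d i).fun_neg.exp.mul_const (hf (Zm (γ 0) p)⁻¹ (p i))
  have := IsLocalMin.hasDerivAt_eq_zero (.of_forall fun s => by
    have := log_det_le (pd_span (γ s) h) h
    have e := sum_lev h
    simp only [trace_Zm, Fintype.card_fin, lev] at this e
    simp only [Pi.neg_apply, Function.comp_apply, reCLM_apply]
    linarith) (d2.fun_add d3)
  refine d2.congr_deriv (eq_neg_of_add_eq_zero_left this |>.trans ?_)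
  simp only [← Finset.sum_neg_distrib, lev]
  exact Finset.sum_congr rfl fun i _ => by ring

theorem ja4 (G : Matrix (Fin n) (Fin n) ℂ) (hn : 0 < n) (h : (Zm γ p).PosDef) (hG : G.PosDef)
    (k : ∀ i, Real.exp (-γ i) * hf G (p i) ≤ 1) :
    Real.log G.det.re ≤ Jm γ p + n * Real.log (m / n) := by
  have hm : (0 : ℝ) < m := Nat.cast_pos.2 (Nat.pos_of_ne_zero fun e => by
    subst e
    exact hn.ne' (by simpa using (sum_lev h).symm))
  have hn' : (0 : ℝ) < n := Nat.cast_pos.2 hn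
  have u := (isUnit_iff_isUnit_det _).1 hG.isUnit
  have := log_det_le (h.smul (zero_lt_real.2 (div_pos hn' hm))) hG.inv
  rw [det_smul, ← ofReal_pow, re_ofReal_mul, Real.log_mul (by positivity) (det_re_pos h).ne',
    Real.log_pow, nonsing_inv_nonsing_inv _ u, Matrix.mul_smul, trace_smul, smul_eq_mul,
    re_ofReal_mul, trace_Zm, det_nonsing_inv, Ring.inverse_eq_inv', det_eq_re hG, ← ofReal_inv,
    ofReal_re, Real.log_inv, Fintype.card_fin] at this
  have s : (n : ℝ) / m * ∑ i, Real.exp (-γ i) * hf G (p i) ≤ n := by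
    rw [div_mul_eq_mul_div, div_le_iff₀ hm]
    exact mul_le_mul_of_nonneg_left ((Finset.sum_le_sum fun i _ => k i).trans (by simp)) hn'.le
  rw [Jm, ← inv_div, Real.log_inv]
  linarith

theorem ja5 (γ : Fin m → ℝ) (p : Fin m → Cm n) (T : Matrix (Fin n) (Fin n) ℂ) :
    Zm γ (fun i => p i ᵥ* T) = Tᵀ * Zm γ p * Tᵀᴴ := by
  simp only [Zm, Matrix.mul_sum, Matrix.sum_mul, Matrix.mul_smul, Matrix.smul_mul, mul_vecMulVec,
    vecMulVec_mul, ← mulVec_transpose T, star_mulVec]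

end Ja

open Ja

theorem ja : JA :=
  ⟨fun _ _ _ _ => ja1, fun _ _ _ _ G x h hG hn _ => ja2 G x h hG hn,
    fun _ _ γ _ γ' h d => ⟨fun _ => pd_span _ h, ja3 γ γ' h d⟩, fun _ _ _ _ => ja4,
    fun _ _ γ p => ⟨psd γ p, pd_iff, ja5 γ p⟩⟩

end Vale.Agent.P253W.A
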