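import Vale.Agent.P253W.A.Defs1
import Vale.Agent.P253W.A.Ja
import Vale.Agent.P253W.WM.Four

/-!
# P253W, block A, row GEX: the statements `GEX`, `TD`, `JS`, `NUM`
-/

open Complex Metric Set Filter Topology MeasureTheory
open scoped Matrix ComplexConjugate ComplexOrder
open Vale.Agent.P272.K (Cm)
open Vale.P272.H696

noncomputable section

namespace Vale.Agent.P253W.A

open WM

theorem gex (h1 : GAU) (h2 : GAU2) : GEX := by
  intro ι _ N r A Y g hN hr hg hY hc hd
  have sub : ball (0 : ℂ) (r / 2) ⊆ ball 0 r := ball_subset_ball (half_le_self hr.le)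
  obtain ⟨M, hM⟩ := ((isCompact_closedBall (0 : ℂ) (r / 2)).prod
    (isCompact_closedBall (0 : ℂ) 1)).exists_bound_of_continuousOn
      (hc.mono (prod_mono (closedBall_subset_ball (half_lt_self hr)) Subset.rfl))
  have k1 : ∀ s ∈ ball (0 : ℂ) (r / 2), HWv (Y s) ∧ Dqv (max A M) (Y s) ∧
      ∀ τ ∈ sphere (0 : ℂ) 1, ∀ i, ‖Y s τ i‖ ≤ max A M := fun s hs =>
    ⟨(hY s (sub hs)).1, fun i => ((hY s (sub hs)).2 i).mono (le_max_left _ _), fun τ hτ i =>
      ((norm_le_pi_norm _ i).trans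
        (hM (s, τ) ⟨ball_subset_closedBall hs, sphere_subset_closedBall hτ⟩)).trans
          (le_max_right _ _)⟩
  have k2 : ∀ τ ∈ closedBall (0 : ℂ) 1, ∀ i, DifferentiableOn ℂ (fun s => Y s τ i)
      (ball 0 (r / 2)) := fun τ hτ i => (hd τ hτ i).mono sub
  have e : gq N (fun τ => deriv (fun s => Y s τ) 0) =
      gq N fun τ i => deriv (fun s => Y s τ i) 0 := gq_congr N fun τ hτ => deriv_pi fun i =>
    (hd τ (sphere_subset_closedBall hτ) i).differentiableAt (ball_mem_nhds 0 hr)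
  obtain ⟨-, c1, C, c2⟩ := h1 ι N (r / 2) _ Y g hN (half_pos hr) hg k1 k2
  obtain ⟨α, C', c3, c4⟩ := h2 ι N (r / 2) _ Y g hN (half_pos hr) hg k1 k2
  have h4 : 0 < r / 2 / 2 := by positivity
  rw [e]
  refine ⟨α, c3, ?_, ⟨C', ?_⟩, fun η hη => ?_⟩
  · filter_upwards [ball_mem_nhds (0 : ℂ) (half_pos hr)] with s hs
    exact c1.continuousAt (isOpen_ball.mem_nhds hs)
  · filter_upwards [ball_mem_nhds (0 : ℂ) h4] with s hs
    exact c4 s (mem_ball_zero_iff.1 hs)
  · have t : ∀ᶠ ρ in 𝓝 (0 : ℝ), C * ρ < η :=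
      ContinuousAt.eventually_lt (by fun_prop) continuousAt_const (by simpa using hη)
    filter_upwards [Ioo_mem_nhdsGT h4, nhdsWithin_le_nhds t] with ρ hρ hC
    refine ⟨(c1.mono (sphere_subset_ball (by linarith [hρ.2]))).circleIntegrable hρ.1.le,
      (c2 ρ hρ).2.trans ?_⟩
    nlinarith [mul_le_mul_of_nonneg_left hC.le (sq_nonneg ρ)]

theorem td : TD := by
  intro u h t p T ht hp hm hu hh hd
  have cm : Continuous (circleMap 0 1) := continuous_circleMap 0 1
  have ct : Continuous fun θ => t (circleMap 0 1 θ) := ht.comp_continuous cm cm_mem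
  have cp : Continuous fun θ => p (circleMap 0 1 θ) := hp.comp_continuous cm cm_mem
  obtain ⟨w, hw⟩ : ∃ w : ℝ × ℝ → ℝ, w = fun x =>
    t (circleMap 0 1 x.2) * Real.exp (-(x.1 * p (circleMap 0 1 x.2))) := ⟨_, rfl⟩
  have cw : Continuous w := hw ▸ (ct.comp continuous_snd).mul
    (continuous_fst.mul (cp.comp continuous_snd)).neg.rexp
  have ev : ∀ᶠ s in 𝓝 (0 : ℝ), ∀ θ ∈ uIcc 0 (2 * Real.pi), w (s, θ) ∈ Ioo 0 T :=
    isCompact_uIcc.eventually_forall_of_forall_eventually fun θ _ =>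
      cw.continuousAt.eventually (isOpen_Ioo.mem_nhds (by simpa [hw] using hm _ (cm_mem θ)))
  obtain ⟨δ, hδ, hs⟩ := Metric.nhds_basis_closedBall.eventually_iff.1 ev
  have key : ∀ v : ℝ → ℂ → ℝ, ContinuousOn (Function.uncurry v) (Ioo 0 T ×ˢ sphere 0 1) →
      ContinuousOn (fun x : ℝ × ℝ => v (w x) (circleMap 0 1 x.2))
        (closedBall 0 δ ×ˢ uIcc 0 (2 * Real.pi)) := fun v hv =>
    hv.comp (f := fun x : ℝ × ℝ => (w x, circleMap 0 1 x.2))
      (cw.prodMk (cm.comp continuous_snd)).continuousOn fun x hx => ⟨hs hx.1 _ hx.2, cm_mem _⟩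
  have sl : ∀ v : ℝ × ℝ → ℝ, ContinuousOn v (closedBall 0 δ ×ˢ uIcc 0 (2 * Real.pi)) →
      ∀ s ∈ closedBall (0 : ℝ) δ, IntervalIntegrable (fun θ => v (s, θ)) volume 0 (2 * Real.pi) :=
    fun v hv s hs => (hv.comp (Continuous.prodMk_right s).continuousOn
      fun θ hθ => ⟨hs, hθ⟩).intervalIntegrable
  have c' : ContinuousOn (fun x : ℝ × ℝ => -(h (w x) (circleMap 0 1 x.2) *
      p (circleMap 0 1 x.2))) (closedBall 0 δ ×ˢ uIcc 0 (2 * Real.pi)) :=
    ((key h hh).mul (cp.comp continuous_snd).continuousOn).neg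
  obtain ⟨M, hM⟩ := ((isCompact_closedBall (0 : ℝ) δ).prod
    isCompact_uIcc).exists_bound_of_continuousOn c'
  have h0 : (0 : ℝ) ∈ closedBall (0 : ℝ) δ := mem_closedBall_self hδ.le
  have k := (intervalIntegral.hasDerivAt_integral_of_dominated_loc_of_deriv_le
    (F := fun s θ => u (w (s, θ)) (circleMap 0 1 θ))
    (F' := fun s θ => -(h (w (s, θ)) (circleMap 0 1 θ) * p (circleMap 0 1 θ)))
    (bound := fun _ => M) (closedBall_mem_nhds 0 hδ)
    (eventually_of_mem (closedBall_mem_nhds 0 hδ) fun s hs =>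
      (sl _ (key u hu) s hs).def'.aestronglyMeasurable) (sl _ (key u hu) 0 h0)
    (sl _ c' 0 h0).def'.aestronglyMeasurable
    (Eventually.of_forall fun θ hθ s hs => hM (s, θ) ⟨hs, uIoc_subset_uIcc hθ⟩)
    intervalIntegrable_const (Eventually.of_forall fun θ hθ s hs' => ?_)).2.const_smul
      (2 * Real.pi)⁻¹
  · refine (k.congr_deriv ?_).congr_of_eventuallyEq (Eventually.of_forall fun s => ?_)
    · simp [av, Real.circleAverage, hw]
    · simp only [av, Real.circleAverage, hw, Pi.smul_apply]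
  · have m := hs hs' θ (uIoc_subset_uIcc hθ)
    have d : HasDerivAt (fun s => w (s, θ)) (w (s, θ) * -p (circleMap 0 1 θ)) s := by
      simp only [hw, mul_assoc]
      simpa using (((hasDerivAt_id s).mul_const (p (circleMap 0 1 θ))).neg.exp).const_mul
        (t (circleMap 0 1 θ))
    refine ((hd _ m _ (cm_mem θ)).comp s d).congr_deriv ?_
    rw [← mul_assoc, div_mul_cancel₀ _ m.1.ne', mul_neg]

theorem js : JS := by
  intro n m γ γ' p c ε h k
  have hR := h.smul (zero_lt_real.2 (Real.exp_pos (-ε)))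
  have hD : (Zm γ' (fun i => c i • p i) - (Real.exp (-ε) : ℂ) • Zm γ p).PosSemidef := by
    refine Ja.psd_of ((Ja.psd _ _).1.sub hR.1) fun u => ?_
    have e : hf (Zm γ' (fun i => c i • p i) - (Real.exp (-ε) : ℂ) • Zm γ p) u =
        hf (Zm γ' fun i => c i • p i) u - Real.exp (-ε) * hf (Zm γ p) u := by
      simp only [hf, Matrix.sub_mulVec, dotProduct_sub, sub_re, Matrix.smul_mulVec, dotProduct_smul,
        smul_eq_mul, re_ofReal_mul]
    rw [e, Ja.hf_Zm, Ja.hf_Zm, Finset.mul_sum, sub_nonneg]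
    refine Finset.sum_le_sum fun i _ => ?_
    rw [star_smul, smul_dotProduct, smul_eq_mul, norm_mul, norm_star, mul_pow, ← mul_assoc,
      ← mul_assoc, ← Real.exp_log (pow_pos (norm_pos_iff.2 (k i).1) 2), ← Real.exp_add,
      ← Real.exp_add]
    exact mul_le_mul_of_nonneg_right (Real.exp_le_exp.2 (by linarith [(k i).2])) (sq_nonneg _)
  have hS : (Zm γ' fun i => c i • p i).PosDef := by simpa using hR.add_posSemidef hD
  have := log_det_mono hR hS hD
  rw [Matrix.det_smul, ← ofReal_pow, re_ofReal_mul,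
    Real.log_mul (by positivity) (det_re_pos h).ne', Real.log_pow, Real.log_exp,
    Fintype.card_fin] at this
  exact ⟨hS, by unfold Jm; linarith⟩

theorem num : NUM := by
  intro n θ hn hθ
  have t : Tendsto (fun m : ℕ => (n : ℝ) / m) atTop (𝓝 0) := tendsto_const_div_atTop_nhds_zero_nat _
  have e1 : ∀ᶠ a in 𝓝 (0 : ℝ), θ < (1 - (1 / (1 - a) - 1)) * (1 - a) ^ n :=
    ContinuousAt.eventually_lt continuousAt_const (by fun_prop (disch := simp)) (by simpa using hθ)
  obtain ⟨m₀, hm⟩ := eventually_atTop.1 ((t.eventually e1).and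
    ((t.eventually (gt_mem_nhds one_half_pos)).and (eventually_gt_atTop n)))
  refine ⟨m₀, fun m h => ?_⟩
  obtain ⟨k1, k2, k3⟩ := hm m h
  have m0 : (0 : ℝ) < m := Nat.cast_pos.2 (hn.trans k3)
  have n0 : (0 : ℝ) < n := Nat.cast_pos.2 hn
  obtain ⟨a, ha⟩ : ∃ a, a = (n : ℝ) / m := ⟨_, rfl⟩
  have a0 : 0 < a := ha ▸ div_pos n0 m0
  simp only [← div_div (n : ℝ), ← ha] at k1 k2 ⊢
  have b0 : 0 < 1 - a := by linarith
  have b1 : 1 / (1 - a) - 1 = a / (1 - a) := by field_simp; ring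
  have b2 : 0 < 1 / (1 - a) - 1 := b1 ▸ div_pos a0 b0
  have f1 : ∀ᶠ x in 𝓝 (0 : ℝ), a / (2 * (1 + a)) < 1 - Real.exp x / (1 + a) :=
    ContinuousAt.eventually_lt continuousAt_const (by fun_prop) (by
      rw [Real.exp_zero, one_sub_div (by positivity), div_lt_div_iff₀ (by positivity)
        (by positivity)]
      nlinarith)
  have f2 : ∀ᶠ x in 𝓝 (0 : ℝ), 0 < Real.exp x / (1 - a) - 1 :=
    ContinuousAt.eventually_lt continuousAt_const (by fun_prop) (by rwa [Real.exp_zero])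
  have f3 : ∀ᶠ x in 𝓝 (0 : ℝ), 0 < 1 - (Real.exp x / (1 - a) - 1) - 2 * x / (a / (2 * (1 + a))) :=
    ContinuousAt.eventually_lt continuousAt_const (by fun_prop) (by
      rw [Real.exp_zero, mul_zero, zero_div, sub_zero, b1, sub_pos, div_lt_one b0]
      linarith)
  have f4 : ∀ᶠ x in 𝓝 (0 : ℝ), θ < (1 - (Real.exp x / (1 - a) - 1) - 2 * x / (a / (2 * (1 + a)))) *
      (a / (Real.exp x / (1 - a) - 1)) ^ n :=
    ContinuousAt.eventually_lt continuousAt_const
      (by fun_prop (disch := simpa using b2.ne')) (by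
      rw [Real.exp_zero, mul_zero, zero_div, sub_zero]
      rwa [b1, div_div_cancel₀ a0.ne', ← b1])
  obtain ⟨x, g0, g1, g2, g3, g4⟩ := (Eventually.and (Ioo_mem_nhdsGT (zero_lt_one' ℝ))
    (nhdsWithin_le_nhds (f1.and (f2.and (f3.and f4))))).exists
  exact ⟨k3, x, x, _, g0.1, g0.1, g0.2.le, by positivity, g1.le, g2, g3.le, g4.le⟩

end Vale.Agent.P253W.A
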