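import Vale.Agent.P253W.A.Defs0

/-!
# P253W, block A: continuous solutions of holomorphic equations are holomorphic
-/

set_option linter.all false

open Complex Metric Set Filter Topology
open scoped Matrix
open Vale.Agent.P272.K (Cm dz Chart)

noncomputable section

namespace Vale.Agent.P253W.A

namespace Holi

theorem dz_eq {q : ℕ} {f : Cm q → ℂ} {z : Cm q} (h : DifferentiableAt ℂ f z) (k : Fin q) :
    dz k f z = fderiv ℂ f z (Pi.single k 1) := by
  have h1 : (Pi.single k I : Cm q) = I • (Pi.single k 1 : Cm q) := by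
    rw [← Pi.single_smul, smul_eq_mul, mul_one]
  rw [dz, (h.hasFDerivAt.restrictScalars ℝ).fderiv]
  simp only [ContinuousLinearMap.coe_restrictScalars', h1, map_smul, smul_eq_mul]
  linear_combination (-fderiv ℂ f z (Pi.single k 1) / 2) * I_mul_I

theorem fderiv_eq {q : ℕ} {f : Cm q → ℂ} {z : Cm q} (h : DifferentiableAt ℂ f z) (v : Cm q) :
    fderiv ℂ f z v = ∑ k, dz k f z * v k := by
  conv_lhs => rw [← Finset.univ_sum_single v, map_sum]
  refine Finset.sum_congr rfl fun k _ => ?_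
  have h1 : (Pi.single k (v k) : Cm q) = v k • (Pi.single k 1 : Cm q) := by
    rw [← Pi.single_smul, smul_eq_mul, mul_one]
  rw [dz_eq h, h1, map_smul, smul_eq_mul, mul_comm]

theorem ex_cle {E : Type} [NormedAddCommGroup E] [NormedSpace ℂ E] [FiniteDimensional ℂ E]
    {Φ : E → E} {A : E →L[ℂ] E} {x : E} (h : HasStrictFDerivAt Φ A x) (hA : ∀ v, A v = 0 → v = 0) :
    ∃ L : E ≃L[ℂ] E, HasStrictFDerivAt Φ (L : E →L[ℂ] E) x :=
  ⟨(LinearEquiv.ofInjectiveEndo (A : E →ₗ[ℂ] E)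
    ((injective_iff_map_eq_zero _).2 hA)).toContinuousLinearEquiv, h⟩

/-- the implicit function theorem in coordinates -/
theorem imp {q : ℕ} {ι : Type} [Fintype ι] {f : ι → Cm q → ℂ} {z : ℂ → Cm q}
    {Y : ℂ → Matrix (Fin q) ι ℂ} {w : ℂ → Cm q} {s₀ : ℂ} (hf : ∀ l, AnalyticAt ℂ (f l) (z s₀))
    (hY : ∀ i l, AnalyticAt ℂ (fun s => Y s i l) s₀) (hw : DifferentiableAt ℂ w s₀)
    (hz : ContinuousAt z s₀) (he : ∀ᶠ s in 𝓝 s₀, (Y s *ᵥ fun l => f l (z s)) = w s)
    (hd : (Y s₀ * Matrix.of fun l k => dz k (f l) (z s₀)).det ≠ 0) :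
    DifferentiableAt ℂ z s₀ := by
  let Φ : ℂ × Cm q → ℂ × Cm q := fun p => (p.1, fun i => ∑ l, Y p.1 i l * f l p.2)
  have h1 := fun i => HasStrictFDerivAt.fun_sum (u := Finset.univ) fun l _ =>
    (HasStrictFDerivAt.comp (f := Prod.fst) ((s₀, z s₀) : ℂ × Cm q) (hY i l).hasStrictFDerivAt
      hasStrictFDerivAt_fst).fun_mul
      (HasStrictFDerivAt.comp (f := Prod.snd) ((s₀, z s₀) : ℂ × Cm q) (hf l).hasStrictFDerivAt
        hasStrictFDerivAt_snd)
  have h2 : HasStrictFDerivAt Φ _ (s₀, z s₀) :=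
    hasStrictFDerivAt_fst.prodMk (hasStrictFDerivAt_pi.2 h1)
  obtain ⟨L, hL⟩ : ∃ L : (ℂ × Cm q) ≃L[ℂ] ℂ × Cm q,
      HasStrictFDerivAt Φ (L : ℂ × Cm q →L[ℂ] ℂ × Cm q) (s₀, z s₀) := by
    refine ex_cle h2 ?_
    rintro ⟨a, v⟩ h
    obtain rfl : a = 0 := congrArg Prod.fst h
    have h3 : (Y s₀ * Matrix.of fun l k => dz k (f l) (z s₀)) *ᵥ v = 0 := by
      funext i
      have h4 := congrFun (congrArg Prod.snd h) i
      simp at h4
      rw [← Matrix.mulVec_mulVec, Pi.zero_apply, ← h4]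
      refine Finset.sum_congr rfl fun l _ => ?_
      rw [fderiv_eq (hf l).differentiableAt]
      rfl
    rw [Matrix.eq_zero_of_mulVec_eq_zero hd h3]
    rfl
  have h5 : Tendsto (fun s => (s, z s)) (𝓝 s₀) (𝓝 (s₀, z s₀)) := continuousAt_id.prodMk hz
  have h6 : z =ᶠ[𝓝 s₀] fun s => (hL.localInverse Φ L _ (s, w s)).2 := by
    filter_upwards [h5.eventually hL.eventually_left_inverse, he] with s a b
    rw [← b]
    exact (congrArg Prod.snd a).symm
  have h7 : Φ (s₀, z s₀) = (s₀, w s₀) := Prod.ext rfl he.self_of_nhds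
  have h8 := hL.to_localInverse.hasFDerivAt.differentiableAt
  rw [h7] at h8
  exact ((h8.comp s₀ (differentiableAt_id.prodMk hw)).snd).congr_of_eventuallyEq h6

end Holi

theorem holi : HOLI := by
  intro q N _ 𝒜 ι _ F U y Y w _ hF hU hy hY hw h
  refine ⟨hy, fun e he s₀ hs => DifferentiableAt.differentiableWithinAt ?_⟩
  have hn := hU.mem_nhds hs.1
  have hc : ContinuousAt y s₀ := hy.continuousAt hn
  refine Holi.imp (f := fun l w => F (e.symm w) l) (z := fun s => e (y s)) (Y := Y) (w := w)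
    (hF e he _ (e.map_source hs.2)) (fun i l => (hY i l).analyticAt hn) (hw.differentiableAt hn)
    ((e.continuousAt hs.2).comp hc) ?_ ((h s₀ hs.1).2 e he hs.2)
  filter_upwards [hn, hc.eventually (e.open_source.mem_nhds hs.2)] with s h1 h2
  simp only [e.left_inv h2]
  exact (h s h1).1

end Vale.Agent.P253W.A
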