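import Vale.Agent.P253W.A.Defs0

/-!
# P253W, block A, row JM: all discs move
-/

open Complex Metric Set Filter Topology MeasureTheory
open scoped Matrix ComplexConjugate ComplexOrder
open Vale.Agent.P272.K (Cm)

noncomputable section

namespace Vale.Agent.P253W.A

namespace Jm

variable {n m : ℕ}

theorem norm_det {A : Matrix (Fin n) (Fin n) ℂ} (h : A.PosDef) : ‖A.det‖ = A.det.re := by
  obtain ⟨h1, h2⟩ := Complex.pos_iff.1 h.det_pos
  rw [← Complex.abs_re_eq_norm.2 h2.symm, abs_of_pos h1]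

theorem log_det_le {A : Matrix (Fin n) (Fin n) ℂ} (h : A.PosDef) :
    Real.log ‖A.det‖ ≤ A.trace.re - n := by
  rw [norm_det h, h.1.det_eq_prod_eigenvalues, h.1.trace_eq_sum_eigenvalues]
  have e1 : (∏ i, (h.1.eigenvalues i : ℂ)).re = ∏ i, h.1.eigenvalues i := by
    rw [← ofReal_prod, ofReal_re]
  have e2 : (∑ i, (h.1.eigenvalues i : ℂ)).re = ∑ i, h.1.eigenvalues i := by
    rw [← ofReal_sum, ofReal_re]
  refine (congrArg Real.log e1).trans_le (le_of_le_of_eq ?_ (congrArg (· - (n : ℝ)) e2.symm))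
  rw [Real.log_prod fun i _ => (h.eigenvalues_pos i).ne']
  refine (Finset.sum_le_sum fun i _ => Real.log_le_sub_one_of_pos (h.eigenvalues_pos i)).trans_eq ?_
  simp

theorem det_cs0 {P Q : Matrix (Fin n) (Fin m) ℂ} (hZ : (P * Pᴴ).PosDef) (hM : (P * Qᴴ).det ≠ 0) :
    2 * Real.log ‖(P * Qᴴ).det‖ - Real.log ‖(P * Pᴴ).det‖ ≤ (Q * Qᴴ).trace.re - n := by
  obtain ⟨Z, hZ'⟩ : ∃ Z, P * Pᴴ = Z := ⟨_, rfl⟩
  obtain ⟨M, hM'⟩ : ∃ M, P * Qᴴ = M := ⟨_, rfl⟩
  rw [hZ'] at hZ ⊢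
  rw [hM'] at hM ⊢
  have hu : IsUnit Z.det := hZ.det_pos.ne'.isUnit
  have hB : (Mᴴ * Z⁻¹ * M).PosDef := hZ.inv.conjTranspose_mul_mul_same
    (Matrix.mulVec_injective_iff_isUnit.2 ((Matrix.isUnit_iff_isUnit_det _).2 hM.isUnit))
  have h1 := log_det_le hB
  have h0 := norm_pos_iff.2 hM
  have h2 := norm_pos_iff.2 hu.ne_zero
  rw [Matrix.det_mul, Matrix.det_mul, Matrix.det_conjTranspose, Matrix.det_nonsing_inv,
    Ring.inverse_eq_inv', norm_mul, norm_mul, norm_star, norm_inv, Real.log_mul (by positivity)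
    h0.ne', Real.log_mul h0.ne' (by positivity), Real.log_inv] at h1
  have h3 : (Qᴴ - Pᴴ * Z⁻¹ * M)ᴴ * (Qᴴ - Pᴴ * Z⁻¹ * M) = Q * Qᴴ - Mᴴ * Z⁻¹ * M := by
    have e1 : Q * Pᴴ = Mᴴ := by
      rw [← hM', Matrix.conjTranspose_mul, Matrix.conjTranspose_conjTranspose]
    have e2 : P * (Pᴴ * Z⁻¹ * M) = M := by
      rw [← Matrix.mul_assoc, ← Matrix.mul_assoc, hZ', Matrix.mul_nonsing_inv _ hu, Matrix.one_mul]
    rw [Matrix.conjTranspose_sub, Matrix.conjTranspose_conjTranspose, Matrix.conjTranspose_mul,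
      Matrix.conjTranspose_mul, Matrix.conjTranspose_conjTranspose, hZ.inv.1.eq, Matrix.sub_mul,
      Matrix.mul_assoc Mᴴ, Matrix.mul_assoc Z⁻¹, Matrix.mul_sub P, e2, hM', sub_self, Matrix.mul_zero,
      Matrix.mul_zero, sub_zero, Matrix.mul_sub, ← Matrix.mul_assoc, ← Matrix.mul_assoc, e1]
  have h4 := (Matrix.posSemidef_conjTranspose_mul_self (Qᴴ - Pᴴ * Z⁻¹ * M)).trace_nonneg
  rw [h3, Matrix.trace_sub, Complex.nonneg_iff, sub_re] at h4
  linarith [h4.1]

theorem det_cs {P Q : Matrix (Fin n) (Fin m) ℂ} {A : Matrix (Fin n) (Fin n) ℂ} (hA : A.PosDef)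
    (hZ : (P * Pᴴ).PosDef) (hM : (P * Qᴴ).det ≠ 0) :
    2 * Real.log ‖(P * Qᴴ).det‖ - Real.log ‖(P * Pᴴ).det‖ ≤
      Real.log ‖A.det‖ + (A⁻¹ * (Q * Qᴴ)).trace.re - n := by
  obtain ⟨R, hR⟩ : ∃ R : Matrix (Fin n) (Fin n) ℂ, A⁻¹ = Rᴴ * R := by
    open scoped MatrixOrder in
    obtain ⟨R, hR⟩ := CStarAlgebra.nonneg_iff_eq_star_mul_self.mp hA.inv.posSemidef.nonneg
    exact ⟨R, hR⟩
  have h1 := congrArg (fun X => ‖X.det‖) hR
  simp only [Matrix.det_mul, Matrix.det_conjTranspose, Matrix.det_nonsing_inv,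
    Ring.inverse_eq_inv', norm_mul, norm_star, norm_inv] at h1
  have h2 := norm_pos_iff.2 hA.det_pos.ne'
  have h3 : ‖R.det‖ ≠ 0 := fun h => by simp [h, h2.ne'] at h1
  have h4 := congrArg Real.log h1
  rw [Real.log_inv, Real.log_mul h3 h3] at h4
  have e : (P * (R * Q)ᴴ).det = (P * Qᴴ).det * star R.det := by
    rw [Matrix.conjTranspose_mul, ← Matrix.mul_assoc, Matrix.det_mul, Matrix.det_conjTranspose]
  have h5 := det_cs0 (Q := R * Q) hZ (e ▸ mul_ne_zero hM (star_ne_zero.2 (norm_ne_zero_iff.1 h3)))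
  rw [e, norm_mul, norm_star, Real.log_mul (norm_ne_zero_iff.2 hM) h3, Matrix.conjTranspose_mul,
    ← Matrix.mul_assoc, Matrix.trace_mul_comm, Matrix.mul_assoc R, ← Matrix.mul_assoc, ← hR] at h5
  linarith

/-- the matrix with the columns `a j • p j` -/
def col (a : Fin m → ℂ) (p : Fin m → Cm n) : Matrix (Fin n) (Fin m) ℂ :=
  Matrix.of fun i j => a j * p j i

theorem col_mul (a b : Fin m → ℂ) (p q : Fin m → Cm n) : col a p * (col b q)ᴴ =
    ∑ j, (a j * conj (b j)) • Matrix.vecMulVec (p j) (star (q j)) := by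
  ext i k
  simp only [col, Matrix.mul_apply, Matrix.conjTranspose_apply, Matrix.of_apply, Matrix.sum_apply,
    Matrix.smul_apply, Matrix.vecMulVec_apply, Pi.star_apply, star_mul', smul_eq_mul, star_def]
  exact Finset.sum_congr rfl fun j _ => by ring

theorem Zm_eq (γ : Fin m → ℝ) (p : Fin m → Cm n) : Zm γ p =
    col (fun j => cexp (-γ j / 2)) p * (col (fun j => cexp (-γ j / 2)) p)ᴴ := by
  rw [col_mul]
  refine Finset.sum_congr rfl fun j _ => ?_
  rw [← Complex.exp_conj, ← Complex.exp_add, ofReal_exp]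
  congr 2
  simp only [map_div₀, map_neg, conj_ofReal, map_ofNat]
  push_cast; ring

theorem tr_Zm (A : Matrix (Fin n) (Fin n) ℂ) (γ : Fin m → ℝ) (p : Fin m → Cm n) :
    (A * Zm γ p).trace.re = ∑ j, Real.exp (-γ j) * hf A (p j) := by
  simp only [Zm, Matrix.mul_sum, Matrix.mul_smul, Matrix.trace_sum, Matrix.trace_smul,
    Matrix.mul_vecMulVec, Matrix.trace_vecMulVec, re_sum, smul_eq_mul, re_ofReal_mul, hf,
    dotProduct_comm]

/-- the pointwise inequality -/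
theorem key {γ₀ γ : Fin m → ℝ} {p₀ p : Fin m → Cm n} (a : Fin m → ℂ) (h₀ : (Zm γ₀ p₀).PosDef)
    (h : (Zm γ p).PosDef)
    (hM : (∑ j, cexp (-γ₀ j - a j) • Matrix.vecMulVec (p j) (star (p₀ j))).det ≠ 0) :
    Jm γ p ≤ -Jm γ₀ p₀ -
      2 * Real.log ‖(∑ j, cexp (-γ₀ j - a j) • Matrix.vecMulVec (p j) (star (p₀ j))).det‖ +
      ∑ j, lev γ₀ p₀ j * (Real.exp (γ j - γ₀ j - 2 * (a j).re) - 1) := by
  have e1 : col (fun j => cexp (-γ j / 2)) p *
      (col (fun j => conj (cexp (-γ₀ j - a j + γ j / 2))) p₀)ᴴ =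
      ∑ j, cexp (-γ₀ j - a j) • Matrix.vecMulVec (p j) (star (p₀ j)) := by
    rw [col_mul]
    refine Finset.sum_congr rfl fun j _ => ?_
    rw [conj_conj, ← Complex.exp_add]
    congr 2; ring
  have e2 : col (fun j => conj (cexp (-γ₀ j - a j + γ j / 2))) p₀ *
      (col (fun j => conj (cexp (-γ₀ j - a j + γ j / 2))) p₀)ᴴ =
      Zm (fun j => γ₀ j - (γ j - γ₀ j - 2 * (a j).re)) p₀ := by
    rw [col_mul]
    refine Finset.sum_congr rfl fun j _ => ?_
    rw [conj_conj, ← Complex.exp_conj, ← Complex.exp_add, ofReal_exp]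
    congr 2
    apply Complex.ext <;> simp [map_ofNat]
    ring
  have h1 := det_cs h₀ (Zm_eq γ p ▸ h) (e1 ▸ hM)
  have h2 := tr_Zm (Zm γ₀ p₀)⁻¹ γ₀ p₀
  rw [Matrix.nonsing_inv_mul _ h₀.det_pos.ne'.isUnit] at h2
  rw [e1, e2, ← Zm_eq, tr_Zm, norm_det h, norm_det h₀] at h1
  have h3 : ∑ j, lev γ₀ p₀ j * (Real.exp (γ j - γ₀ j - 2 * (a j).re) - 1) =
      ∑ j, Real.exp (-(γ₀ j - (γ j - γ₀ j - 2 * (a j).re))) * hf (Zm γ₀ p₀)⁻¹ (p₀ j) -
        ∑ j, Real.exp (-γ₀ j) * hf (Zm γ₀ p₀)⁻¹ (p₀ j) := by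
    rw [← Finset.sum_sub_distrib]
    refine Finset.sum_congr rfl fun j _ => ?_
    rw [lev, neg_sub (γ₀ j), sub_eq_add_neg (_ - 2 * _) (γ₀ j), Real.exp_add]
    ring
  simp only [Matrix.trace_one, Fintype.card_fin, natCast_re] at h2
  rw [h3, Jm, Jm]
  linarith

theorem cont_det {T : Type} [TopologicalSpace T] {t : T} {a : T → Fin m → ℂ}
    {p q : T → Fin m → Cm n} (ha : ∀ j, ContinuousAt (fun s => a s j) t)
    (hp : ∀ j, ContinuousAt (fun s => p s j) t) (hq : ∀ j, ContinuousAt (fun s => q s j) t) :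
    ContinuousAt (fun s => (∑ j, a s j • Matrix.vecMulVec (p s j) (star (q s j))).det) t := by
  refine (continuous_id.matrix_det.continuousAt).comp
    (f := fun s => ∑ j, a s j • Matrix.vecMulVec (p s j) (star (q s j)))
    (continuousAt_pi.2 fun i => continuousAt_pi.2 fun k => ?_)
  simp only [Matrix.sum_apply, Matrix.smul_apply, Matrix.vecMulVec_apply, Pi.star_apply]
  exact tendsto_finsetSum _ fun j _ => (ha j).smul
    ((continuousAt_pi.1 (hp j) i).mul (continuousAt_pi.1 (hq j) k).star)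

end Jm

open Jm in
theorem jm : JM := by
  intro n m γ p c L h₀ hp hγ
  have hc : ∀ᶠ s in 𝓝 (0 : ℂ), (∀ j, ContinuousAt (fun s => γ s j) s) ∧
      ContinuousAt (fun s => (Zm (γ s) (p s)).det) s := by
    filter_upwards [eventually_all.2 fun j => (hγ j).cont,
      eventually_all.2 fun j => (hp j).eventually_analyticAt] with s h1 h2
    exact ⟨h1, cont_det (fun j => continuous_ofReal.continuousAt.comp (h1 j).neg.rexp)
      (fun j => (h2 j).continuousAt) fun j => (h2 j).continuousAt⟩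
  have hpd : ∀ᶠ s in 𝓝 (0 : ℂ), (Zm (γ s) (p s)).PosDef := by
    filter_upwards [hc.self_of_nhds.2.eventually_ne h₀.det_pos.ne'] with s hs
    refine (Matrix.PosSemidef.posDef_iff_det_ne_zero ?_).2 hs
    rw [Zm_eq]
    exact Matrix.posSemidef_self_mul_conjTranspose _
  refine ⟨hpd, fun η hη => ?_⟩
  set l := lev (γ 0) (p 0) with hl
  have l0 : ∀ j, 0 ≤ l j := fun j => mul_nonneg (Real.exp_pos _).le
    (Complex.nonneg_iff.1 (h₀.inv.posSemidef.dotProduct_mulVec_nonneg _)).1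
  set M : ℂ → ℂ := fun s =>
    (∑ j, cexp (-γ 0 j - c j * s) • Matrix.vecMulVec (p s j) (star (p 0 j))).det with hM
  have hMa : AnalyticAt ℂ M 0 := by
    simp only [hM, Matrix.det_apply', Matrix.sum_apply, Matrix.smul_apply, Matrix.vecMulVec_apply,
      smul_eq_mul]
    refine Finset.analyticAt_fun_sum _ fun σ _ => analyticAt_const.mul
      (Finset.analyticAt_fun_prod _ fun i _ => Finset.analyticAt_fun_sum _ fun j _ => ?_)
    exact (by fun_prop : AnalyticAt ℂ (fun s => cexp (-γ 0 j - c j * s)) 0).mul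
      ((analyticAt_pi_iff.1 (hp j) _).mul analyticAt_const)
  have hM0 : M 0 = (Zm (γ 0) (p 0)).det := by simp [hM, Zm]
  set g : ℂ → ℂ := fun s => M s * cexp ((∑ j, l j * c j) * s) with hg
  have hga : AnalyticAt ℂ g 0 := hMa.mul (by fun_prop)
  have hg0 : g 0 = (Zm (γ 0) (p 0)).det := by simp [hg, hM0]
  choose C hC using fun j => (hγ j).fst
  set K := ∑ j, l j * C j ^ 2 with hK
  have K0 : 0 ≤ K := Finset.sum_nonneg fun j _ => mul_nonneg (l0 j) (sq_nonneg _)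
  have S0 : 0 ≤ ∑ j, l j := Finset.sum_nonneg fun j _ => l0 j
  have hs1 : ∀ᶠ s in 𝓝 (0 : ℂ), ∀ j, C j * ‖s‖ ^ 2 < 1 := eventually_all.2 fun j =>
    ContinuousAt.eventually_lt (by fun_prop) continuousAt_const (by simp)
  have hs2 : ∀ᶠ s in 𝓝 (0 : ℂ), K * ‖s‖ ^ 2 < η / 2 :=
    ContinuousAt.eventually_lt (by fun_prop) continuousAt_const (by simpa using hη)
  have hall := hc.and (hpd.and (hga.eventually_analyticAt.and
    ((hga.continuousAt.eventually_ne (hg0 ▸ h₀.det_pos.ne')).and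
      ((eventually_all.2 hC).and (hs1.and hs2)))))
  filter_upwards [nhdsWithin_le_nhds (eventually_closedBall_subset hall), self_mem_nhdsWithin,
    eventually_all.2 fun j => (hγ j).snd (η / 2 / (∑ j, l j + 1)) (by positivity)] with ρ hρ ρ0 hav
  have ρ0' : 0 < ρ := ρ0
  have hsp : ∀ s ∈ sphere (0 : ℂ) ρ, s ∈ closedBall (0 : ℂ) ρ := fun s h => sphere_subset_closedBall h
  have i1 : CircleIntegrable (fun s => Jm (γ s) (p s)) 0 ρ :=
    ContinuousOn.circleIntegrable ρ0'.le fun s hs => by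
      obtain ⟨a1, a2, -⟩ := hρ (hsp s hs)
      exact ((continuous_re.continuousAt.comp a1.2).log
        (Complex.pos_iff.1 a2.det_pos).1.ne').neg.continuousWithinAt
  have i2 : CircleIntegrable (fun s => Real.log ‖g s‖) 0 ρ :=
    ContinuousOn.circleIntegrable ρ0'.le fun s hs => by
      obtain ⟨-, -, a1, a2, -⟩ := hρ (hsp s hs)
      exact (a1.continuousAt.norm.log (norm_ne_zero_iff.2 a2)).continuousWithinAt
  have i3 : ∀ j, CircleIntegrable (fun s => l j • γ s j) 0 ρ := fun j => (hav j).1.const_smul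
  have i4 : CircleIntegrable (fun s => ∑ j, l j • γ s j) 0 ρ :=
    CircleIntegrable.fun_sum _ fun j _ => i3 j
  have m2 : Real.circleAverage (fun s => Real.log ‖g s‖) 0 ρ = -Jm (γ 0) (p 0) := by
    rw [← abs_of_pos ρ0'] at hρ
    rw [AnalyticOnNhd.circleAverage_log_norm_of_ne_zero (fun s hs => (hρ hs).2.2.1)
      fun s hs => (hρ hs).2.2.2.1, hg0, norm_det h₀, Jm, neg_neg]
  refine ⟨i1, ?_⟩
  have i5 : CircleIntegrable (fun s => (-2 : ℝ) • Real.log ‖g s‖) 0 ρ := i2.const_smul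
  have i6 : CircleIntegrable (fun s => (-Jm (γ 0) (p 0) - ∑ j, l j * γ 0 j + ρ ^ 2 * (η / 2)) +
      (-2 : ℝ) • Real.log ‖g s‖) 0 ρ := (circleIntegrable_const _ _ _).add i5
  have h1 := Real.circleAverage_mono (f₂ := fun s => ((-Jm (γ 0) (p 0) - ∑ j, l j * γ 0 j +
    ρ ^ 2 * (η / 2)) + (-2 : ℝ) • Real.log ‖g s‖) + ∑ j, l j • γ s j) i1 (i6.add i4) fun s hs => ?_
  · rw [Real.circleAverage_fun_add i6 i4,
      Real.circleAverage_fun_add (circleIntegrable_const _ _ _) i5,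
      Real.circleAverage_const, Real.circleAverage_fun_smul, m2,
      Real.circleAverage_fun_sum fun j _ => i3 j] at h1
    have h2 : ∑ j, Real.circleAverage (fun s => l j • γ s j) 0 ρ ≤
        ∑ j, l j * (γ 0 j + ρ ^ 2 * (L j + η / 2 / (∑ j, l j + 1))) :=
      Finset.sum_le_sum fun j _ => by
        rw [Real.circleAverage_fun_smul]
        exact mul_le_mul_of_nonneg_left (hav j).2 (l0 j)
    have h3 : ∑ j, l j * (γ 0 j + ρ ^ 2 * (L j + η / 2 / (∑ j, l j + 1))) = ∑ j, l j * γ 0 j +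
        ρ ^ 2 * (∑ j, l j * L j + (∑ j, l j) * (η / 2 / (∑ j, l j + 1))) := by
      rw [Finset.sum_mul, ← Finset.sum_add_distrib, Finset.mul_sum, ← Finset.sum_add_distrib]
      exact Finset.sum_congr rfl fun j _ => by ring
    have h4 : (∑ j, l j) * (η / 2 / (∑ j, l j + 1)) ≤ η / 2 := by
      rw [← mul_div_assoc, div_le_iff₀ (by positivity)]; nlinarith
    rw [smul_eq_mul] at h1
    nlinarith [mul_le_mul_of_nonneg_left h4 (sq_nonneg ρ)]
  · rw [abs_of_pos ρ0'] at hs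
    obtain ⟨-, a1, -, a2, a3, a4, a5⟩ := hρ (hsp s hs)
    have hMs : M s ≠ 0 := left_ne_zero_of_mul a2
    have h2 := key (fun j => c j * s) h₀ a1 hMs
    have h3 : Real.log ‖g s‖ = Real.log ‖M s‖ + ∑ j, l j * (c j * s).re := by
      rw [hg, norm_mul, Real.log_mul (norm_ne_zero_iff.2 hMs)
        (norm_ne_zero_iff.2 (Complex.exp_ne_zero _)), Complex.norm_exp, Real.log_exp,
        Finset.sum_mul, re_sum]
      simp only [mul_assoc, re_ofReal_mul]
    have hn : ‖s‖ = ρ := by simpa using hs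
    have h4 : ∑ j, l j * (Real.exp (γ s j - γ 0 j - 2 * (c j * s).re) - 1) ≤
        ∑ j, (l j * γ s j - l j * γ 0 j - 2 * (l j * (c j * s).re) + l j * C j ^ 2 * ρ ^ 4) :=
      Finset.sum_le_sum fun j _ => by
        have b1 := (abs_le.1 (Real.abs_exp_sub_one_sub_id_le ((a3 j).trans (a4 j).le))).2
        have b2 := pow_le_pow_left₀ (abs_nonneg _) (a3 j) 2
        rw [sq_abs, hn] at b2
        nlinarith [mul_le_mul_of_nonneg_left (b1.trans b2) (l0 j)]
    simp only [Finset.sum_add_distrib, Finset.sum_sub_distrib, ← Finset.mul_sum,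
      ← Finset.sum_mul] at h4
    rw [hn] at a5
    simp only [smul_eq_mul]
    nlinarith [mul_le_mul_of_nonneg_left a5.le (sq_nonneg ρ)]

end Vale.Agent.P253W.A
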