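import Vale.Agent.P253W.A.Defs0

/-!
# P253W, block A, row JO: one disc moves
-/

open Complex Metric Set Filter Topology Asymptotics
open scoped Matrix ComplexConjugate ComplexOrder
open Vale.Agent.P272.K (Cm)

noncomputable section

namespace Vale.Agent.P253W.A

namespace Jo

theorem an_dslope {E : Type*} [NormedAddCommGroup E] [NormedSpace ℂ E] {f : ℂ → E}
    (h : AnalyticAt ℂ f 0) : AnalyticAt ℂ (dslope f 0) 0 :=
  let ⟨_, h⟩ := h; h.has_fpower_series_dslope_fslope.analyticAt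

theorem eq_dslope {E : Type*} [NormedAddCommGroup E] [NormedSpace ℂ E] (f : ℂ → E) (s : ℂ) :
    f s = f 0 + s • dslope f 0 s := by
  have := sub_smul_dslope f 0 s
  rw [sub_zero] at this
  rw [this, add_sub_cancel]

theorem tay {φ : ℂ → ℂ} (h : AnalyticAt ℂ φ 0) (h0 : φ 0 = 0) :
    (fun s => (φ s).re - (deriv φ 0 * s).re) =O[𝓝 0] fun s : ℂ => ‖s‖ ^ 2 := by
  have := (isBigO_refl (fun s : ℂ => s) (𝓝 0)).mul (an_dslope h).differentiableAt.isBigO_sub
  refine ((IsBigO.of_bound' (Eventually.of_forall fun s => ?_)).trans this).trans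
    (IsBigO.of_bound' (Eventually.of_forall fun s => by simp [sq]))
  rw [← sub_re, eq_dslope φ s, h0, dslope_same, zero_add, smul_eq_mul, mul_comm _ s, ← mul_sub]
  exact abs_re_le_norm _

theorem exO {g : ℂ → ℝ} {c : ℂ} {L : ℝ} (h : Ex g c L) :
    (fun s => g s - g 0 - 2 * (c * s).re) =O[𝓝 0] fun s : ℂ => ‖s‖ ^ 2 :=
  let ⟨C, hC⟩ := h.fst; IsBigO.of_bound C (hC.mono fun s hs => by simpa using hs)

/-- an expansion up to `o(|s|²)` gives `Ex` -/
theorem key {J g : ℂ → ℝ} {φ : ℂ → ℂ} {c : ℂ} {L l κ : ℝ} (hg : Ex g c L) (l0 : 0 ≤ l)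
    (hφ : AnalyticAt ℂ φ 0) (φ0 : φ 0 = 0) (hJ : ∀ᶠ s in 𝓝 (0 : ℂ), ContinuousAt J s)
    (ho : (fun s => J s - J 0 - ((φ s).re + l * (g s - g 0) - κ * ‖s‖ ^ 2)) =o[𝓝 0]
      fun s : ℂ => ‖s‖ ^ 2) : Ex J (deriv φ 0 / 2 + l * c) (l * L - κ) := by
  refine ⟨hJ, ?_, fun η hη => ?_⟩
  · obtain ⟨C, hC⟩ := (((ho.isBigO.add (tay hφ φ0)).add ((exO hg).const_mul_left l)).sub
      ((isBigO_refl _ _).const_mul_left κ)).bound
    refine ⟨C, hC.mono fun s hs => ?_⟩
    rw [Real.norm_of_nonneg (sq_nonneg _)] at hs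
    refine (congrArg abs ?_).trans_le hs
    simp
    ring
  · obtain ⟨δ, δ0, hδ⟩ := Metric.eventually_nhds_iff_ball.1
      ((ho.def (half_pos hη)).and (hJ.and hφ.eventually_analyticAt))
    filter_upwards [hg.snd (η / 2 / (l + 1)) (by positivity), Ioo_mem_nhdsGT δ0] with ρ h1 h2
    have s : closedBall (0 : ℂ) |ρ| ⊆ ball 0 δ := closedBall_subset_ball (by
      rw [abs_of_pos h2.1]; exact h2.2)
    have i1 : CircleIntegrable J 0 ρ := ContinuousOn.circleIntegrable' fun z hz =>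
      (hδ z (s (sphere_subset_closedBall hz))).2.1.continuousWithinAt
    have a : InnerProductSpace.HarmonicOnNhd (fun z => (φ z).re) (closedBall 0 |ρ|) :=
      fun z hz => (hδ z (s hz)).2.2.harmonicAt_re
    have i2 : CircleIntegrable (fun z => (φ z).re) 0 ρ :=
      (a.continuousOn.mono sphere_subset_closedBall).circleIntegrable'
    have i3 : CircleIntegrable (fun z => l • g z) 0 ρ := h1.1.const_fun_smul
    have i4 : CircleIntegrable (fun z => J 0 - l * g 0 + (η / 2 - κ) * ρ ^ 2 + (φ z).re) 0 ρ :=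
      (circleIntegrable_const _ _ _).add i2
    refine ⟨i1, (Real.circleAverage_mono i1 (f₂ := fun z => (J 0 - l * g 0 + (η / 2 - κ) * ρ ^ 2 +
      (φ z).re) + l • g z) (i4.add i3) fun z hz => ?_).trans ?_⟩
    · have e := (le_abs_self _).trans (hδ z (s (sphere_subset_closedBall hz))).1
      rw [Real.norm_of_nonneg (sq_nonneg _), mem_sphere_zero_iff_norm.1 hz, sq_abs] at e
      rw [smul_eq_mul]
      linarith
    · rw [Real.circleAverage_fun_add i4 i3,
        Real.circleAverage_fun_add (circleIntegrable_const _ _ _) i2, Real.circleAverage_const,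
        a.circleAverage_eq, Real.circleAverage_fun_smul, φ0, smul_eq_mul]
      have e1 := mul_le_mul_of_nonneg_left h1.2 l0
      have e2 : l * (η / 2 / (l + 1)) ≤ η / 2 := by
        rw [← mul_div_assoc, div_le_iff₀ (by positivity)]; linarith
      have e3 := mul_le_mul_of_nonneg_left e2 (sq_nonneg ρ)
      simp only [zero_re]
      linarith

theorem small {X : Type*} {F : Filter X} {σ r A B : X → ℝ} {κ l : ℝ} (hr : r =O[F] σ)
    (hσ : Tendsto σ F (𝓝 0)) (hA : Tendsto A F (𝓝 κ)) (hB : Tendsto B F (𝓝 l)) :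
    Tendsto (fun s => σ s * A s + (Real.exp (-r s) - 1) * B s) F (𝓝 0) ∧
    (fun s => -Real.log (1 + (σ s * A s + (Real.exp (-r s) - 1) * B s)) - l * r s + κ * σ s) =o[F]
      σ := by
  have r0 := hr.trans_tendsto hσ
  have e : (fun s => Real.exp (-r s) - 1 + r s) =o[F] σ := by
    have := ((Real.hasDerivAt_exp 0).isLittleO.comp_tendsto (by simpa using r0.neg)).trans_isBigO
      (show _ =O[F] σ by simpa [Function.comp_def] using hr)
    simpa [Function.comp_def] using this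
  have o : ∀ {u : X → ℝ} {a : ℝ}, Tendsto u F (𝓝 a) → (fun s => u s - a) =o[F] fun _ => (1 : ℝ) :=
    fun h => (isLittleO_one_iff ℝ).2 (tendsto_sub_nhds_zero_iff.2 h)
  have t : (fun s => σ s * A s + (Real.exp (-r s) - 1) * B s + l * r s - κ * σ s) =o[F] σ := by
    have := (((isBigO_refl σ F).mul_isLittleO (o hA)).add (e.mul_isBigO (hB.isBigO_one ℝ))).sub
      (hr.mul_isLittleO (o hB))
    exact this.congr (fun s => by ring) fun s => mul_one _
  have tO : (fun s => σ s * A s + (Real.exp (-r s) - 1) * B s) =O[F] σ :=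
    ((t.isBigO.sub (hr.const_mul_left l)).add ((isBigO_refl σ F).const_mul_left κ)).congr_left
      fun s => by ring
  have t0 := tO.trans_tendsto hσ
  have g := ((Real.hasDerivAt_log one_ne_zero).isLittleO.comp_tendsto
    (by simpa using t0.const_add 1)).trans_isBigO
      (show _ =O[F] σ by simpa [Function.comp_def] using tO)
  refine ⟨t0, (g.neg_left.sub t).congr_left fun s => ?_⟩
  simp
  ring

variable {n m : ℕ}

theorem zm_upd (γ : Fin m → ℝ) (p : Fin m → Cm n) (i : Fin m) (g : ℝ) (z : Cm n) :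
    Zm (Function.update γ i g) (Function.update p i z) = Zm γ p +
      (Matrix.of fun j k => ![-(Real.exp (-γ i) : ℂ) * p i j, Real.exp (-g) * z j] k) *
        Matrix.of ![star (p i), star z] := by
  rw [Zm, Zm, ← Finset.add_sum_erase _ _ (Finset.mem_univ i),
    ← Finset.add_sum_erase _ _ (Finset.mem_univ i), Finset.sum_congr rfl fun j hj => by
      rw [Function.update_of_ne (Finset.ne_of_mem_erase hj),
        Function.update_of_ne (Finset.ne_of_mem_erase hj)]]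
  ext j k
  simp [Matrix.mul_apply, Matrix.vecMulVec_apply]
  ring

theorem det_upd {γ : Fin m → ℝ} {p : Fin m → Cm n} (h : (Zm γ p).PosDef) (i : Fin m) (g : ℝ)
    (z : Cm n) : (Zm (Function.update γ i g) (Function.update p i z)).det = (Zm γ p).det *
      ((1 - Real.exp (-γ i) * (star (p i) ⬝ᵥ (Zm γ p)⁻¹ *ᵥ p i)) *
        (1 + Real.exp (-g) * (star z ⬝ᵥ (Zm γ p)⁻¹ *ᵥ z)) + Real.exp (-γ i) * Real.exp (-g) *
        ((star (p i) ⬝ᵥ (Zm γ p)⁻¹ *ᵥ z) * (star z ⬝ᵥ (Zm γ p)⁻¹ *ᵥ p i))) := by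
  have e : ∀ (V : Fin 2 → Cm n) (W : Matrix (Fin n) (Fin n) ℂ) (U : Matrix (Fin n) (Fin 2) ℂ) a b,
      (Matrix.of V * W * U) a b = V a ⬝ᵥ W *ᵥ fun j => U j b :=
    fun V W U a b => by rw [Matrix.mul_assoc]; rfl
  have s : ∀ (c : ℂ) (x : Cm n), (fun j => c * x j) = c • x := fun _ _ => rfl
  rw [zm_upd, Matrix.det_add_mul _ _ h.det_pos.ne'.isUnit, Matrix.det_fin_two]
  simp only [Matrix.add_apply, e, Matrix.of_apply, Matrix.cons_val_zero, Matrix.cons_val_one, s,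
    Matrix.mulVec_smul, dotProduct_smul, smul_eq_mul, Matrix.one_apply_eq, ne_eq, zero_ne_one,
    one_ne_zero, not_false_eq_true, Matrix.one_apply_ne]
  ring

theorem herm {W : Matrix (Fin n) (Fin n) ℂ} (h : W.IsHermitian) (u v : Cm n) :
    star v ⬝ᵥ W *ᵥ u = conj (star u ⬝ᵥ W *ᵥ v) := by
  rw [← star_def, ← Matrix.star_dotProduct_star, star_star, Matrix.star_mulVec, h.eq,
    Matrix.dotProduct_mulVec]

theorem hf_eq {W : Matrix (Fin n) (Fin n) ℂ} (h : W.IsHermitian) (u : Cm n) :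
    star u ⬝ᵥ W *ᵥ u = hf W u := (conj_eq_iff_re.1 (herm h u u).symm).symm

theorem det_re {γ : Fin m → ℝ} {p : Fin m → Cm n} (h : (Zm γ p).PosDef) (i : Fin m)
    {g r : ℝ} {z u : Cm n} {t s : ℂ} (hz : t • z = p i + s • u)
    (ht : Real.exp (-g) = Real.exp (-γ i) * Real.exp (-r) * ‖t‖ ^ 2) :
    (Zm (Function.update γ i g) (Function.update p i z)).det.re = (Zm γ p).det.re *
      (1 - lev γ p i + Real.exp (-r) *
        (‖1 + s * (Real.exp (-γ i) * (star (p i) ⬝ᵥ (Zm γ p)⁻¹ *ᵥ u))‖ ^ 2 - (1 - lev γ p i) +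
          ‖s‖ ^ 2 * ((1 - lev γ p i) * (Real.exp (-γ i) * hf (Zm γ p)⁻¹ u)))) := by
  have H := h.inv.isHermitian
  have e1 : t * (star (p i) ⬝ᵥ (Zm γ p)⁻¹ *ᵥ z) =
      hf (Zm γ p)⁻¹ (p i) + s * (star (p i) ⬝ᵥ (Zm γ p)⁻¹ *ᵥ u) := by
    rw [← smul_eq_mul, ← dotProduct_smul, ← Matrix.mulVec_smul, hz, Matrix.mulVec_add,
      dotProduct_add, Matrix.mulVec_smul, dotProduct_smul, hf_eq H, smul_eq_mul]
  have e2 : conj t * t * (star z ⬝ᵥ (Zm γ p)⁻¹ *ᵥ z) = hf (Zm γ p)⁻¹ (p i) +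
      s * (star (p i) ⬝ᵥ (Zm γ p)⁻¹ *ᵥ u) + conj s * conj (star (p i) ⬝ᵥ (Zm γ p)⁻¹ *ᵥ u) +
      conj s * s * hf (Zm γ p)⁻¹ u := by
    rw [mul_assoc, ← smul_eq_mul t, ← dotProduct_smul, ← Matrix.mulVec_smul, ← smul_eq_mul,
      ← smul_dotProduct, ← star_def, ← star_smul, hz, ← hf_eq H, ← hf_eq H, star_def, ← herm H]
    simp only [star_add, star_smul, Matrix.mulVec_add, Matrix.mulVec_smul, dotProduct_add,
      add_dotProduct, dotProduct_smul, smul_dotProduct, smul_eq_mul, star_def]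
    ring
  have e3 := congrArg conj e1
  have e4 : ((Real.exp (-g) : ℝ) : ℂ) = Real.exp (-γ i) * Real.exp (-r) * (conj t * t) := by
    rw [ht, conj_mul']; push_cast; rfl
  rw [← re_mul_ofReal, det_upd h, hf_eq H, herm H (p i) z, e4, lev]
  congr 2
  simp only [map_add, map_mul, conj_ofReal] at e3
  simp only [ofReal_add, ofReal_mul, ofReal_sub, ofReal_pow, ofReal_one, ← conj_mul', map_add,
    map_mul, map_one, conj_ofReal]
  linear_combination (exp := 1) (1 - Real.exp (-γ i) * hf (Zm γ p)⁻¹ (p i)) * Real.exp (-γ i) *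
    Real.exp (-r) * e2 + (Real.exp (-γ i) : ℂ) ^ 2 * Real.exp (-r) *
      ((t * (star (p i) ⬝ᵥ (Zm γ p)⁻¹ *ᵥ z)) * e3 + (hf (Zm γ p)⁻¹ (p i) +
        conj s * conj (star (p i) ⬝ᵥ (Zm γ p)⁻¹ *ᵥ u)) * e1)

theorem cont_Zm : Continuous fun x : (Fin m → ℝ) × (Fin m → Cm n) => (Zm x.1 x.2).det.re := by
  unfold Zm
  refine continuous_re.comp (Continuous.matrix_det (continuous_finsetSum _ fun i _ =>
    Continuous.fun_smul ?_ (Continuous.matrix_vecMulVec ?_ ?_))) <;> fun_prop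

theorem scal {g d w : ℂ → ℝ} {k : ℂ → ℂ} {c : ℂ} {L l D : ℝ} (hg : Ex g c L) (l0 : 0 ≤ l)
    (D0 : 0 < D) (ak : AnalyticAt ℂ k 0) (cw : ContinuousAt w 0)
    (cd : ∀ᶠ s in 𝓝 (0 : ℂ), ContinuousAt d s)
    (hd : ∀ s, d s = D * (1 - l + Real.exp (-(g s - g 0 - 2 * (c * s).re)) *
      (‖1 + s * k s‖ ^ 2 - (1 - l) + ‖s‖ ^ 2 * w s))) :
    Ex (fun s => -Real.log (d s)) (-k 0) (l * L - w 0) := by
  have ah : AnalyticAt ℂ (fun s => 1 + s * k s) 0 := by fun_prop
  have dh : HasDerivAt (fun s => 1 + s * k s) (k 0) 0 := by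
    simpa using ((hasDerivAt_id' (0 : ℂ)).fun_mul ak.differentiableAt.hasDerivAt).const_add 1
  have s1 : 1 + 0 * k 0 ∈ slitPlane := by simp
  have th : Tendsto (fun s => ‖1 + s * k s‖ ^ 2) (𝓝 0) (𝓝 1) := by
    simpa using ah.continuousAt.norm.tendsto.pow 2
  have t0 : Tendsto (fun s : ℂ => ‖s‖ ^ 2) (𝓝 0) (𝓝 0) := by
    simpa using ((continuous_norm (E := ℂ)).tendsto 0).pow 2
  obtain ⟨e1, e2⟩ := small (κ := w 0) (l := l) (A := fun s => w s * (‖1 + s * k s‖ ^ 2)⁻¹)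
    (B := fun s => (‖1 + s * k s‖ ^ 2 - (1 - l) + ‖s‖ ^ 2 * w s) * (‖1 + s * k s‖ ^ 2)⁻¹)
    (exO hg) t0 (by simpa using cw.tendsto.mul (th.inv₀ one_ne_zero))
    (by simpa using ((th.sub_const (1 - l)).add (t0.mul cw.tendsto)).mul (th.inv₀ one_ne_zero))
  have e := (th.eventually (lt_mem_nhds one_pos)).and ((e1.const_add 1).eventually
    (lt_mem_nhds (show (0 : ℝ) < 1 + 0 by norm_num)))
  have d' : ∀ s, 0 < ‖1 + s * k s‖ ^ 2 → d s = D * (‖1 + s * k s‖ ^ 2 * (1 + (‖s‖ ^ 2 *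
      (w s * (‖1 + s * k s‖ ^ 2)⁻¹) + (Real.exp (-(g s - g 0 - 2 * (c * s).re)) - 1) *
        ((‖1 + s * k s‖ ^ 2 - (1 - l) + ‖s‖ ^ 2 * w s) * (‖1 + s * k s‖ ^ 2)⁻¹)))) := fun s hs => by
    rw [hd]
    generalize ‖1 + s * k s‖ ^ 2 = x at hs ⊢
    field_simp
    ring
  have := key (J := fun s => -Real.log (d s)) (κ := w 0)
    (φ := fun s => -2 * (log (1 + s * k s) + l * (c * s))) hg l0
    (analyticAt_const.mul ((ah.clog s1).add (by fun_prop))) (by simp) (by
      filter_upwards [e, cd] with s h1 h2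
      exact (h2.log ((d' s h1.1).trans_gt (mul_pos D0 (mul_pos h1.1 h1.2))).ne').neg)
    (e2.congr' (e.mono fun s hs => by
      beta_reduce
      rw [d' s hs.1, Real.log_mul D0.ne' (mul_pos hs.1 hs.2).ne', Real.log_mul hs.1.ne' hs.2.ne',
        Real.log_pow, hd 0]
      simp [log_re]
      ring) EventuallyEq.rfl)
  rw [(((dh.clog s1).fun_add (((hasDerivAt_id' (0 : ℂ)).const_mul c).const_mul (l : ℂ))).const_mul
    (-2)).deriv] at this
  convert this using 1
  ring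

end Jo

open Jo

theorem jo : JO := by
  intro n m γ p i g z c L h g0 z0 hz hg
  have H := h.inv.isHermitian
  set y : ℂ → Cm n := fun s => cexp (-c * s) • z s with hy
  have ay : AnalyticAt ℂ y 0 := (show AnalyticAt ℂ (fun s => cexp (-c * s)) 0 by fun_prop).smul hz
  have y0 : y 0 = p i := by simp [hy, z0]
  have u0 : dslope y 0 0 = deriv z 0 - c • p i := by
    rw [dslope_same, (((hasDerivAt_id' (0 : ℂ)).const_mul (-c)).cexp.fun_smul
      hz.differentiableAt.hasDerivAt).deriv]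
    simp [z0, sub_eq_add_neg]
  have au := an_dslope ay
  have l0 : 0 ≤ lev γ p i := mul_nonneg (Real.exp_pos _).le
    (nonneg_iff.1 (h.inv.posSemidef.dotProduct_mulVec_nonneg (p i))).1
  have ak : AnalyticAt ℂ (fun s => star (p i) ⬝ᵥ (Zm γ p)⁻¹ *ᵥ dslope y 0 s) 0 :=
    ((LinearMap.toContinuousLinearMap ((dotProductBilin ℂ ℂ
      (star (p i))).comp (Zm γ p)⁻¹.mulVecLin)).analyticAt _).comp au
  have cw : Continuous (hf (Zm γ p)⁻¹) := by unfold hf; fun_prop
  have cd : ∀ᶠ s in 𝓝 (0 : ℂ), ContinuousAt (fun s =>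
      (Zm (Function.update γ i (g s)) (Function.update p i (z s))).det.re) s := by
    filter_upwards [hg.cont, hz.eventually_analyticAt] with s h2 h3
    exact ContinuousAt.comp (f := fun s => (Function.update γ i (g s), Function.update p i (z s)))
      cont_Zm.continuousAt ((continuousAt_const.update i h2).prodMk
        (continuousAt_const.update i h3.continuousAt))
  have := scal
    (w := fun s => (1 - lev γ p i) * (Real.exp (-γ i) * hf (Zm γ p)⁻¹ (dslope y 0 s)))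
    (k := fun s => Real.exp (-γ i) * (star (p i) ⬝ᵥ (Zm γ p)⁻¹ *ᵥ dslope y 0 s)) hg l0
    (pos_iff.1 h.det_pos).1 (analyticAt_const.mul ak) (continuousAt_const.mul
      (continuousAt_const.mul (cw.continuousAt.comp au.continuousAt))) cd fun s =>
    det_re h i (t := cexp (-c * s)) (y0 ▸ eq_dslope y s) (by
      rw [norm_exp, ← Real.exp_nat_mul, ← Real.exp_add, ← Real.exp_add, g0]
      congr 1
      simp
      ring)
  rw [u0] at this
  have e : (lev γ p i * c - Real.exp (-γ i) * (star (p i) ⬝ᵥ (Zm γ p)⁻¹ *ᵥ deriv z 0) : ℂ) =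
      -(Real.exp (-γ i) * (star (p i) ⬝ᵥ (Zm γ p)⁻¹ *ᵥ (deriv z 0 - c • p i))) := by
    simp only [Matrix.mulVec_sub, Matrix.mulVec_smul, dotProduct_sub, dotProduct_smul,
      hf_eq H, lev, smul_eq_mul]
    push_cast
    ring
  rw [e]
  exact this

end Vale.Agent.P253W.A
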