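import Vale.Agent.P253W.A.Defs0

/-!
# P253W, block A: the kernel `exp (-|x|)`
-/

open Real Set MeasureTheory

noncomputable section

namespace Vale.Agent.P253W.A

/-- the weighted kernel -/
def kg (p : ℕ) (x : ℝ) : ℝ := (1 + |x|) ^ p * exp (-|x|)

theorem kg_pos (p : ℕ) (x : ℝ) : 0 < kg p x := by unfold kg; positivity

theorem kg_cont (p : ℕ) : Continuous (kg p) := by unfold kg; fun_prop

theorem kg_int (p : ℕ) : Integrable (kg p) := by
  refine (integrable_inv_one_add_sq.const_mul ((p + 2).factorial * exp 1)).mono'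
    (kg_cont p).aestronglyMeasurable (.of_forall fun x => ?_)
  have h := pow_div_factorial_le_exp (1 + |x|) (by positivity) (p + 2)
  rw [div_le_iff₀ (by positivity), exp_add, pow_add] at h
  have a : 1 + x ^ 2 ≤ (1 + |x|) ^ 2 := by nlinarith [abs_nonneg x, sq_abs x]
  rw [norm_of_nonneg (kg_pos p x).le, kg, exp_neg, ← div_eq_mul_inv, ← div_eq_mul_inv,
    div_le_div_iff₀ (exp_pos _) (by positivity)]
  calc _ ≤ (1 + |x|) ^ p * (1 + |x|) ^ 2 := by gcongr
    _ ≤ _ := h.trans_eq (by ring)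

theorem kg_two (x y : ℝ) (h : |y| ≤ 1) :
    kg 0 (x + y) + kg 0 (x - y) ≤ (2 + 2 * y ^ 2) * kg 0 x := by
  have a := (abs_le.1 (abs_exp_sub_one_sub_id_le h)).2
  have b := (abs_le.1 (abs_exp_sub_one_sub_id_le (x := -y) (by rwa [abs_neg]))).2
  simp only [kg, pow_zero, one_mul]
  refine le_trans (b := exp y * exp (-|x|) + exp (-y) * exp (-|x|)) ?_
    (by nlinarith [exp_pos (-|x|)])
  rw [← exp_add, ← exp_add]
  rcases le_total 0 x with c | c
  · rw [abs_of_nonneg c, add_comm]
    exact add_le_add (exp_le_exp.2 (by linarith [le_abs_self (x - y)]))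
      (exp_le_exp.2 (by linarith [le_abs_self (x + y)]))
  · rw [abs_of_nonpos c]
    exact add_le_add (exp_le_exp.2 (by linarith [neg_abs_le (x + y)]))
      (exp_le_exp.2 (by linarith [neg_abs_le (x - y)]))

theorem kg_one (x y : ℝ) (h : |y| ≤ 1) : |kg 0 (x + y) - kg 0 x| ≤ 2 * |y| * kg 0 x := by
  have a : |(|x| - |x + y|)| ≤ |y| := by simpa using abs_abs_sub_abs_le x (x + y)
  have b : kg 0 (x + y) - kg 0 x = (exp (|x| - |x + y|) - 1) * kg 0 x := by
    simp only [kg, pow_zero, one_mul, sub_mul, ← exp_add]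
    congr 2
    ring
  rw [b, abs_mul, abs_of_pos (kg_pos 0 x)]
  exact mul_le_mul_of_nonneg_right ((abs_exp_sub_one_le (a.trans h)).trans (by linarith))
    (kg_pos 0 x).le

theorem ker : KER := fun p => by
  have h0 : 0 < ∫ x, kg 0 x :=
    integral_pos_of_integrable_nonneg_nonzero (x := 0) (kg_cont 0) (kg_int 0)
      (fun x => (kg_pos 0 x).le) (kg_pos 0 0).ne'
  set c := (∫ x, kg 0 x)⁻¹ with hc
  have c0 : 0 < c := inv_pos.2 h0
  refine ⟨max 2 (c * ∫ x, kg p x), lt_max_of_lt_left two_pos, fun N hN => ?_⟩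
  have N0 : 0 < N := by linarith
  have i1 : ∀ q, Integrable fun s => c * N * kg q (N * s) := fun q =>
    ((kg_int q).comp_mul_left' N0.ne').const_mul _
  have i2 : ∀ q, ∫ s, c * N * kg q (N * s) = c * ∫ x, kg q x := fun q => by
    rw [integral_const_mul, Measure.integral_comp_mul_left, abs_of_pos (inv_pos.2 N0), smul_eq_mul,
      mul_assoc, mul_inv_cancel_left₀ N0.ne']
  have p0 : ∀ q s, 0 ≤ c * N * kg q (N * s) := fun q s => (mul_pos (mul_pos c0 N0) (kg_pos _ _)).le
  refine ⟨fun s => c * N * kg 0 (N * s), (continuous_const.mul ((kg_cont 0).comp (by fun_prop))),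
    p0 0, i1 0, (i2 0).trans (inv_mul_cancel₀ h0.ne'), ?_, fun s h hh => ?_⟩
  · have e : ∀ s, (1 + N * |s|) ^ p * (c * N * kg 0 (N * s)) = c * N * kg p (N * s) := fun s => by
      simp only [kg, abs_mul, abs_of_pos N0]
      ring
    simp only [e]
    rw [← ofReal_integral_eq_lintegral_ofReal (i1 p) (.of_forall (p0 p)), i2]
    exact ENNReal.ofReal_le_ofReal (le_max_right _ _)
  · have a : |N * h| ≤ 1 := by
      rw [abs_mul, abs_of_pos N0, mul_comm]
      exact (le_div_iff₀ N0).1 hh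
    have m := le_max_left 2 (c * ∫ x, kg p x)
    set C := max 2 (c * ∫ x, kg p x)
    have k := mul_pos c0 N0
    refine ⟨?_, ?_⟩
    · simp only [mul_add N, mul_sub N]
      rw [← mul_add, mul_left_comm]
      refine mul_le_mul_of_nonneg_left ((kg_two _ _ a).trans ?_) k.le
      rw [mul_assoc C, mul_pow C]
      have := kg_pos 0 (N * s)
      gcongr
      nlinarith
    · simp only [mul_add N]
      rw [← mul_sub, abs_mul, abs_of_pos k, mul_left_comm]
      refine mul_le_mul_of_nonneg_left ((kg_one _ _ a).trans ?_) k.le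
      rw [abs_mul, abs_of_pos N0, mul_assoc C]
      have := kg_pos 0 (N * s)
      gcongr

end Vale.Agent.P253W.A
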