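import Vale.Agent.P253W.A.Defs0
import Vale.Agent.P272.K.Inv.Hess

/-!
# P253W, block A: Lipschitz bounds on compact sets, forms in the ambient coordinates
-/

open Complex Metric Set Filter Topology Asymptotics
open scoped Matrix ComplexConjugate ComplexOrder
open Vale.Agent.P272.K (Cm dz cHess jacM Chart dz_congr dz_of_holo dz_comp_holo cHess_comp
  cHess_congr contDiffAt_dz)

noncomputable section

namespace Vale.Agent.P253W.A

namespace Lipk

section
variable {X : Type*} [TopologicalSpace X] {S : Set X} {f g : X → ℝ}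

/-- local bounds are global on compact sets -/
theorem glob (hS : IsCompact S) (g0 : ∀ p, 0 ≤ g p)
    (h : ∀ p ∈ S, ∃ C, ∀ᶠ p' in 𝓝[S] p, f p' ≤ C * g p') : ∃ C, 0 ≤ C ∧ ∀ p ∈ S, f p ≤ C * g p := by
  refine hS.induction_on (p := fun T => ∃ C, 0 ≤ C ∧ ∀ p ∈ T, f p ≤ C * g p)
    ⟨0, le_rfl, fun _ h => h.elim⟩ (fun s t hst ⟨C, a, b⟩ => ⟨C, a, fun p hp => b p (hst hp)⟩)
    (fun s t ⟨C, a, b⟩ ⟨C', _, b'⟩ => ⟨max C C', le_max_of_le_left a, fun p hp => hp.elim
      (fun h => (b p h).trans (mul_le_mul_of_nonneg_right (le_max_left _ _) (g0 p)))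
      fun h => (b' p h).trans (mul_le_mul_of_nonneg_right (le_max_right _ _) (g0 p))⟩)
    fun p hp => ?_
  obtain ⟨C, hC⟩ := h p hp
  exact ⟨_, hC, max C 0, le_max_right _ _, fun p' hp' =>
    le_trans hp' (mul_le_mul_of_nonneg_right (le_max_left _ _) (g0 p'))⟩

theorem loc_pos {p : X} (hf : ContinuousWithinAt f S p) (hg : ContinuousWithinAt g S p)
    (h : 0 < g p) : ∃ C, ∀ᶠ p' in 𝓝[S] p, f p' ≤ C * g p' :=
  ⟨f p / g p + 1, by
    filter_upwards [(hf.div hg h.ne').eventually (gt_mem_nhds (lt_add_one _)),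
      hg.eventually (lt_mem_nhds h)] with p' a b using (div_le_iff₀ b).1 a.le⟩

end

variable {q : ℕ} {N : Type} [TopologicalSpace N] {𝒜 : Set (Chart q N)} {ι : Type}
  {F : N → ι → ℂ} {e e' : Chart q N} {y : N}

theorem cont_chart {X : Type*} [TopologicalSpace X] {u : N → X} (hy : y ∈ e.source)
    (h : ContinuousAt (fun w => u (e.symm w)) (e y)) : ContinuousAt u y :=
  (h.comp (e.continuousAt hy)).congr ((e.eventually_left_inverse hy).mono fun _ => congrArg u)

theorem chg {X : Type*} (u : N → X) (hy : y ∈ e.source) (hy' : y ∈ e'.source) :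
    (fun w => u (e.symm w)) =ᶠ[𝓝 (e y)] fun w => u (e'.symm (e' (e.symm w))) :=
  ((e.tendsto_symm hy).eventually (e'.eventually_left_inverse hy')).mono fun _ h =>
    congrArg u h.symm

theorem tr (hA : At 𝒜) (he : e ∈ 𝒜) (he' : e' ∈ 𝒜) (hy : y ∈ e.source) (hy' : y ∈ e'.source) :
    AnalyticAt ℂ (fun w => e' (e.symm w)) (e y) :=
  hA.hol e he e' he' _ (e.map_source hy) (by rwa [e.left_inv hy])

theorem dM_chg (hA : At 𝒜) (hF : Ho 𝒜 F) (he : e ∈ 𝒜) (he' : e' ∈ 𝒜) (hy : y ∈ e.source)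
    (hy' : y ∈ e'.source) : dM F e y = dM F e' y * jacM e e' y := by
  ext l k
  have := dz_comp_holo (i := k) (f := fun w => F (e'.symm w) l) (by
    simp only [e.left_inv hy]
    exact (hF e' he' _ (e'.map_source hy') l).differentiableAt.restrictScalars ℝ)
    (tr hA he he' hy hy').differentiableAt
  simp only [e.left_inv hy] at this
  exact (dz_congr (chg (fun y => F y l) hy hy')).trans this

theorem lm_chg (hA : At 𝒜) (he : e ∈ 𝒜) (he' : e' ∈ 𝒜) (hy : y ∈ e.source) (hy' : y ∈ e'.source)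
    {u : N → ℝ} (hu : ContDiffAt ℝ 2 (fun w => u (e'.symm w)) (e' y)) :
    lm u e y = (jacM e e' y)ᴴ * lm u e' y * jacM e e' y := by
  have := cHess_comp (f := fun w => u (e'.symm w)) (by simpa only [e.left_inv hy] using hu)
    (tr hA he he' hy hy').contDiffAt
  simp only [e.left_inv hy] at this
  rw [lm, cHess_congr (chg u hy hy'), this, Matrix.transpose_mul, Matrix.transpose_mul,
    Matrix.transpose_transpose, ← Matrix.mul_assoc]
  rfl

theorem dM_cont (hF : Ho 𝒜 F) (he : e ∈ 𝒜) : ContinuousOn (dM F e) e.source :=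
  continuousOn_pi.2 fun l => continuousOn_pi.2 fun k _ hy =>
    ((contDiffAt_dz (i := k) (m := 0) (r := 1)
      ((hF e he _ (e.map_source hy) l).contDiffAt.restrict_scalars ℝ) (by simp)).continuousAt.comp (e.continuousAt hy)).continuousWithinAt

theorem fd_eq {G : Cm q → ι → ℂ} {z : Cm q} (h : DifferentiableAt ℂ G z) (v : Cm q) :
    fderiv ℂ G z v = (Matrix.of fun l k => dz k (fun w => G w l) z) *ᵥ v := by
  funext l
  conv_lhs => rw [← Finset.univ_sum_single v]
  rw [map_sum, Finset.sum_apply]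
  refine Finset.sum_congr rfl fun k _ => ?_
  change _ = dz k (fun w => G w l) z * v k
  rw [dz_of_holo (differentiableAt_pi.1 h l), fderiv_apply h l,
    show (Pi.single k (v k) : Cm q) = v k • Pi.single k 1 by
      rw [← Pi.single_smul, smul_eq_mul, mul_one], map_smul, mul_comm]
  rfl

variable [Fintype ι]

theorem diag (hF : Ho 𝒜 F) (he : e ∈ 𝒜) (hy : y ∈ e.source)
    (hi : Function.Injective (dM F e y).mulVec) {u : N → ℂ}
    (hu : ContDiffAt ℝ 1 (fun w => u (e.symm w)) (e y)) :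
    ∃ C, ∀ᶠ p : N × N in 𝓝 (y, y), ‖u p.1 - u p.2‖ ≤ C * ‖F p.1 - F p.2‖ := by
  have hG : AnalyticAt ℂ (fun w => F (e.symm w)) (e y) :=
    analyticAt_pi_iff.2 (hF e he _ (e.map_source hy))
  obtain ⟨K, -, hK⟩ := (fderiv ℂ (fun w => F (e.symm w)) (e y)).toLinearMap.exists_antilipschitzWith
    (LinearMap.ker_eq_bot.2 fun v w h => hi
      ((fd_eq hG.differentiableAt v).symm.trans (h.trans (fd_eq hG.differentiableAt w))))
  obtain ⟨C, hC⟩ := ((hu.hasStrictFDerivAt one_ne_zero).isBigO_sub.trans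
    (hG.hasStrictFDerivAt.isTheta_sub (hK.isInducing
      (ContinuousLinearMap.continuous _))).isBigO_symm).bound
  have l := e.eventually_left_inverse hy
  refine ⟨C, ?_⟩
  filter_upwards [((e.continuousAt hy).prodMap (e.continuousAt hy)).eventually hC,
    continuous_fst.continuousAt.eventually l, continuous_snd.continuousAt.eventually l]
    with p a b c
  simpa only [Prod.map_fst, Prod.map_snd, b, c] using a

/-- the form `a` in the ambient coordinates -/
def bm (D : Matrix ι (Fin q) ℂ) (a : Matrix (Fin q) (Fin q) ℂ) : Matrix ι ι ℂ :=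
  D * ((Dᴴ * D)⁻¹ * (a * ((Dᴴ * D)⁻¹ * Dᴴ)))

variable {D : Matrix ι (Fin q) ℂ} {a J : Matrix (Fin q) (Fin q) ℂ}

theorem unit (h : Function.Injective D.mulVec) : IsUnit (Dᴴ * D).det :=
  (Matrix.isUnit_iff_isUnit_det _).1 (Matrix.PosDef.conjTranspose_mul_self D h).isUnit

theorem bm_res (h : Function.Injective D.mulVec) : Dᴴ * bm D a * D = a := by
  rw [bm, ← Matrix.mul_assoc, Matrix.mul_nonsing_inv_cancel_left _ _ (unit h), Matrix.mul_assoc,
    Matrix.mul_assoc, Matrix.nonsing_inv_mul _ (unit h), Matrix.mul_one]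

theorem bm_herm (h : a.IsHermitian) : (bm D a).IsHermitian := by
  simp only [Matrix.IsHermitian, bm, Matrix.conjTranspose_mul, Matrix.conjTranspose_nonsing_inv,
    Matrix.conjTranspose_conjTranspose, h.eq, Matrix.mul_assoc]

theorem bm_chg (h : Function.Injective (D * J).mulVec) : bm (D * J) (Jᴴ * a * J) = bm D a := by
  have u : IsUnit J.det := (Matrix.isUnit_iff_isUnit_det _).1 (Matrix.mulVec_injective_iff_isUnit.1
    fun v w e => h (by simp only [← Matrix.mulVec_mulVec, e]))
  have u' : IsUnit Jᴴ.det := by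
    rw [Matrix.det_conjTranspose]
    exact u.star
  have e : ((D * J)ᴴ * (D * J))⁻¹ = J⁻¹ * ((Dᴴ * D)⁻¹ * Jᴴ⁻¹) := by
    rw [← Matrix.mul_inv_rev, ← Matrix.mul_inv_rev]
    simp only [Matrix.conjTranspose_mul, Matrix.mul_assoc]
  rw [bm, e]
  simp only [bm, Matrix.conjTranspose_mul, Matrix.mul_assoc,
    Matrix.mul_nonsing_inv_cancel_left _ _ u, Matrix.nonsing_inv_mul_cancel_left _ _ u']

theorem bm_cont {X : Type*} [TopologicalSpace X] {D : X → Matrix ι (Fin q) ℂ}
    {a : X → Matrix (Fin q) (Fin q) ℂ} (hD : Continuous D) (ha : Continuous a)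
    (h : ∀ x, Function.Injective (D x).mulVec) : Continuous fun x => bm (D x) (a x) := by
  have g := hD.matrix_conjTranspose.matrix_mul hD
  have i : Continuous fun x => ((D x)ᴴ * D x)⁻¹ := by
    simp only [Matrix.inv_def, Ring.inverse_eq_inv']
    exact (g.matrix_det.inv₀ fun x => (unit (h x)).ne_zero).smul g.matrix_adjugate
  exact hD.matrix_mul (i.matrix_mul (ha.matrix_mul (i.matrix_mul hD.matrix_conjTranspose)))

end Lipk

open Lipk

theorem lipk : LIPK := fun q N _ _ 𝒜 ι _ F hA hF => by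
  have cF : Continuous F := continuous_iff_continuousAt.2 fun y =>
    let ⟨e, he, hy⟩ := hA.cov y
    cont_chart hy (continuousAt_pi.2 fun l => (hF e he _ (e.map_source hy) l).continuousAt)
  refine ⟨cF, fun φ U hU hφ l τ hτ => ?_, fun e he e' he' y hy hy' =>
    ⟨dM_chg hA hF he he' hy hy', fun u => lm_chg hA he he' hy hy'⟩, fun K hK hE =>
    ⟨fun u hu => ?_, fun u S η hη hu => ?_⟩⟩
  · obtain ⟨e, he, hy⟩ := hA.cov (φ τ)
    have n := (hφ.1.isOpen_inter_preimage hU e.open_source).mem_nhds ⟨hτ, hy⟩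
    refine (((hF e he _ (e.map_source hy) l).differentiableAt.comp τ
      ((hφ.2 e he).differentiableAt n)).congr_of_eventuallyEq
      (mem_of_superset n fun s hs => ?_)).differentiableWithinAt
    simp only [mem_ofPred_eq, Function.comp_apply, e.left_inv hs.2]
  · have cu : ∀ y ∈ K, ContinuousAt u y := fun y hy =>
      let ⟨e, he, h⟩ := hA.cov y
      cont_chart h (hu y hy e he h).continuousAt
    obtain ⟨C, a, b⟩ := glob (f := fun p : N × N => ‖u p.1 - u p.2‖)
      (g := fun p => ‖F p.1 - F p.2‖) (hK.prod hK) (fun _ => norm_nonneg _) fun ⟨y, y'⟩ hp => by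
        by_cases h : y = y'
        · subst h
          obtain ⟨e, he, h⟩ := hA.cov y
          exact (diag hF he h (hE.2 y hp.1 e he h) (hu y hp.1 e he h)).imp fun C =>
            .filter_mono nhdsWithin_le_nhds
        · exact loc_pos (((cu y hp.1).comp continuousAt_fst).sub
            ((cu y' hp.2).comp continuousAt_snd)).norm.continuousWithinAt
            (Continuous.continuousWithinAt (by fun_prop))
            (norm_sub_pos_iff.2 fun e => h (hE.1 hp.1 hp.2 e))
    exact ⟨C, a, fun y hy y' hy' => b (y, y') ⟨hy, hy'⟩⟩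
  · have k := isCompact_Icc.prod (s := Icc 0 S) hK
    have c : ContinuousOn (fun p : (ℝ × N) × ℝ × N => ‖u p.1 - u p.2‖ - η)
        ((Icc 0 S ×ˢ K) ×ˢ (Icc 0 S ×ˢ K)) := ((hu.comp continuousOn_fst fun _ h => h.1).sub
      (hu.comp continuousOn_snd fun _ h => h.2)).norm.sub continuousOn_const
    obtain ⟨C, a, b⟩ := glob (g := fun p => |p.1.1 - p.2.1| + ‖F p.1.2 - F p.2.2‖) (k.prod k)
      (fun _ => by positivity) fun ⟨p, p'⟩ hp => by
        by_cases h : p = p'
        · subst h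
          refine ⟨0, ((c _ hp).eventually (gt_mem_nhds (a := 0) (by simpa using hη))).mono
            fun _ h => h.le.trans_eq (zero_mul _).symm⟩
        · refine loc_pos (c _ hp) (Continuous.continuousWithinAt (by fun_prop))
            (lt_of_le_of_ne (by positivity) fun e => h ?_)
          obtain ⟨e1, e2⟩ := (add_eq_zero_iff_of_nonneg (abs_nonneg _) (norm_nonneg _)).1 e.symm
          exact Prod.ext (sub_eq_zero.1 (abs_eq_zero.1 e1))
            (hE.1 hp.1.2 hp.2.2 (norm_sub_eq_zero_iff.1 e2))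
    exact ⟨C, a, fun p hp p' hp' => sub_le_iff_le_add'.1 (b (p, p') ⟨hp, hp'⟩)⟩

theorem amb : AMB := fun q N _ 𝒜 ι _ F O a hA hF h1 h2 => by
  choose c c1 c2 using hA.cov
  have k : ∀ p ∈ O, ∀ e ∈ 𝒜, p.2 ∈ e.source →
      bm (dM F (c p.2) p.2) (a (c p.2) p.1 p.2) = bm (dM F e p.2) (a e p.1 p.2) :=
    fun p hp e he hy => by
      obtain ⟨i, -, t⟩ := h1 p hp _ (c1 _) (c2 _)
      rw [dM_chg hA hF (c1 _) he (c2 _) hy] at i ⊢
      rw [t e he hy, bm_chg i]
  refine ⟨fun t y => bm (dM F (c y) y) (a (c y) t y), fun i j =>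
    continuousOn_of_locally_continuousOn fun p hp => ⟨{r | r.2 ∈ (c p.2).source},
      (c p.2).open_source.preimage continuous_snd, c2 _, ?_⟩, fun p hp =>
    ⟨bm_herm (h1 p hp _ (c1 _) (c2 _)).2.1, fun e he hy => by
      simp only [k p hp e he hy, bm_res (h1 p hp e he hy).1]⟩⟩
  refine continuousOn_iff_continuous_domRestrict.2 (((bm_cont
    (continuousOn_iff_continuous_domRestrict.1 ((dM_cont hF (c1 p.2)).comp continuousOn_snd
      (s := O ∩ {r | r.2 ∈ (c p.2).source}) fun _ h => h.2))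
    (continuous_matrix fun i j => continuousOn_iff_continuous_domRestrict.1 (h2 _ (c1 p.2) i j))
    fun r => (h1 r r.2.1 _ (c1 _) r.2.2).1).matrix_elem i j).congr fun r => ?_)
  simp only [domRestrict_apply, k r r.2.1 _ (c1 _) r.2.2, Function.comp_apply]

end Vale.Agent.P253W.A
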