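import Vale.Agent.P253W.A.Tim

/-!
# P253W, block A: the logarithmic mean of the smoothed symbol
-/

open Complex Metric Set Filter Topology MeasureTheory
open scoped Matrix

noncomputable section

namespace Vale.Agent.P253W.A

open WM

namespace Log

variable {q : Type} [Fintype q] {π a b : Matrix q q ℂ} {P α β : ℝ}

theorem tr_le (hπ : Bd P π) (ha : Bd α a) (hb : Bd β b) :
    |(πᴴ * a * π * bᵀ).trace.re| ≤ Fintype.card q ^ 4 * P ^ 2 * (α * β) := by
  have h := norm_mul_apply_le (norm_mul_apply_le (norm_mul_apply_le (A := πᴴ)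
    (fun i j => by simpa using hπ j i) ha) hπ) (B := bᵀ) fun i j => hb j i
  refine (Complex.abs_re_le_norm _).trans ((norm_sum_le _ _).trans
    ((Finset.sum_le_card_nsmul _ _ _ fun i _ => h i i).trans_eq ?_))
  rw [nsmul_eq_mul, Finset.card_univ]
  ring

theorem qf_le (hπ : Bd P π) (ha : Bd α a) : Qf π a ≤ Fintype.card q ^ 4 * P ^ 2 * α ^ 2 := by
  have := (abs_le.1 (tr_le hπ ha ha)).2
  have : 0 ≤ (Fintype.card q : ℝ) ^ 4 * P ^ 2 * α ^ 2 := by positivity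
  rw [Qf]
  linarith

theorem qf_add (hπ : Bd P π) (ha : Bd α a) (hb : Bd β b) :
    Qf π (a + b) ≤ Qf π a + Fintype.card q ^ 4 * P ^ 2 * (α * β + β ^ 2) := by
  have h1 := (abs_le.1 (tr_le hπ ha hb)).2
  have h2 := (abs_le.1 (tr_le hπ hb ha)).2
  have h3 := (abs_le.1 (tr_le hπ hb hb)).2
  have : 0 ≤ (Fintype.card q : ℝ) ^ 4 * P ^ 2 * β ^ 2 := by positivity
  simp only [Qf, Matrix.mul_add, Matrix.add_mul, Matrix.transpose_add, Matrix.trace_add,
    Complex.add_re]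
  linarith

omit [Fintype q] in
theorem bd_add [DecidableEq q] (ha : Bd α a) {r : ℝ} (r0 : 0 ≤ r) (hr : r ≤ β) :
    Bd (α + β) (a + (r : ℂ) • 1) := fun i j => by
  refine norm_add_le_of_le (ha i j) ?_
  rw [Matrix.smul_apply, Matrix.one_apply]
  split_ifs
  · simpa [abs_of_nonneg r0] using hr
  · simpa using r0.trans hr

theorem cs_qf {π a : ℂ → Matrix q q ℂ} (hπ : Cs π) (ha : Cs a) :
    ContinuousOn (fun τ => Qf (π τ) (a τ)) (sphere 0 1) := by
  have c : Continuous fun p : Matrix q q ℂ × Matrix q q ℂ => Qf p.1 p.2 :=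
    (Complex.continuous_re.comp (((continuous_fst.matrix_conjTranspose.matrix_mul
      continuous_snd).matrix_mul continuous_fst).matrix_mul
        continuous_snd.matrix_transpose).matrix_trace).div_const 2
  have c1 : ContinuousOn π (sphere 0 1) := continuousOn_pi.2 fun i => continuousOn_pi.2 (hπ i)
  have c2 : ContinuousOn a (sphere 0 1) := continuousOn_pi.2 fun i => continuousOn_pi.2 (ha i)
  simpa only [Function.comp_def] using c.comp_continuousOn (c1.prodMk c2)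

end Log

open Log Tim in
/-- **the logarithmic mean** -/
theorem log (h1 : LOG1) (h2 : LOG2) : LOG := by
  intro ι ι' q _ _ _ _ C₀ C σ σ0 σ1
  obtain ⟨C', C0, h1⟩ := h1 ι ι' q C₀ C
  obtain ⟨c, hc⟩ : ∃ c : ℝ, c = |C₀| * (Fintype.card q ^ 4 * C₀ ^ 2) := ⟨_, rfl⟩
  have c0 : 0 ≤ c := by rw [hc]; positivity
  obtain ⟨β, β0, h2⟩ := h2 (C' + 2 + c * (C' + 1) ^ 2) σ σ0 σ1
  obtain ⟨M, M0, h1⟩ := h1 (β / 3) (by positivity)
  obtain ⟨t, ht⟩ : ∃ t, t = min 1 (σ / (c * (3 * M + 9) + 1)) := ⟨_, rfl⟩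
  have t0 : 0 < t := by rw [ht]; positivity
  have t1 : t ≤ 1 := ht ▸ min_le_left _ _
  have t2 : t * (c * (3 * M + 9) + 1) ≤ σ := (le_div_iff₀ (by positivity)).1 (ht ▸ min_le_right _ _)
  obtain ⟨d₀, η, d0, η0, h1⟩ := h1 t t0
  refine ⟨β / 3, d₀, η, t, by positivity, d0, η0, t0, fun C₁ => ?_⟩
  obtain ⟨κ₀, κ0, κ1, h1⟩ := h1 C₁
  have π0 := Real.pi_pos
  refine ⟨min κ₀ (t * (β / 3) / (2 * Real.pi)), by positivity, (min_le_left _ _).trans κ1,
    fun N ν Y Θ π a d B k X w ρ κ N1 hν hC D cρ hρ aρ hQ => ?_⟩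
  have l : min κ₀ (t * (β / 3) / (2 * Real.pi)) * N ≤ κ₀ * N :=
    mul_le_mul_of_nonneg_right (min_le_left _ _) (by linarith)
  obtain ⟨cs, ⟨A, cA, aA, hA⟩, hb⟩ := h1 N ν Y Θ π a d B k X w κ σ _ N1 hν hC
    { D with dY := fun i => (D.dY i).mono l, dΘ := D.dΘ.mono l }
  have ρ0 : ∀ τ ∈ sphere (0 : ℂ) 1, 0 ≤ ρ τ := fun τ hτ => t0.le.trans (hρ τ hτ)
  refine h2 _ (fun τ => A τ + ρ τ) w κ (fun τ => (κ < X τ ∨ ¬(Bd M ((Θ τ)ᴴ * a τ * Θ τ) ∧
    Bd t (cvm ν (fun τ => (Θ τ)ᴴ * a τ * Θ τ) τ - (Θ τ)ᴴ * a τ * Θ τ))) ∨ t ≤ ρ τ - t)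
    (D.ck.mul (cs_qf D.cπ fun i j => (cs i j).add
      ((Complex.continuous_ofReal.comp_continuousOn cρ).mul continuousOn_const))) (cA.add cρ) D.cw
    (pr_or.trans ((add_le_add (pr_or.trans (add_le_add D.lev hb)) ((cheb (cρ.sub continuousOn_const)
      (fun τ hτ => sub_nonneg.2 (hρ τ hτ)) t0).trans (ENNReal.ofReal_le_ofReal (q := β / 3) ?_))
        ).trans_eq ?_)) ?_ D.avw fun τ hτ => ?_
  · have := (le_div_iff₀' (by positivity)).1 ((sub_le_iff_le_add'.2 aρ).trans (min_le_right _ _))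
    rwa [show av (ρ - fun _ => t) = _ from av_sub cρ continuousOn_const, av_const, div_le_iff₀' t0]
  · rw [← ENNReal.ofReal_add (by positivity) (by positivity),
      ← ENNReal.ofReal_add (by positivity) (by positivity), add_thirds]
  · rw [av_add cA cρ]
    have : 0 ≤ c * (C' + 1) ^ 2 := by positivity
    linarith [min_le_left κ₀ (t * (β / 3) / (2 * Real.pi))]
  obtain ⟨-, bπ, -, k0, k1, -⟩ := D.bd τ hτ
  obtain ⟨A1, bA⟩ := hA τ hτ
  have r0 := ρ0 τ hτ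
  have k2 := k1.trans (le_abs_self C₀)
  have A2 : 1 ≤ A τ + ρ τ := by linarith
  refine ⟨A2, mul_nonneg k0.le (hQ τ hτ), ?_, fun g => ?_⟩
  · have b1 := qf_le bπ (bd_add bA r0 ((le_add_of_nonneg_left (zero_le_one.trans A1)).trans
      (le_self_pow₀ A2 (n := 6) (by norm_num))))
    refine (mul_le_mul k2 b1 (hQ τ hτ) (abs_nonneg _)).trans ?_
    rw [← mul_assoc, ← hc]
    calc _ ≤ c * (C' * (A τ + ρ τ) ^ 6 + (A τ + ρ τ) ^ 6) ^ 2 := by gcongr; linarith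
      _ = c * (C' + 1) ^ 2 * (A τ + ρ τ) ^ 12 := by ring
      _ ≤ _ := by gcongr; linarith
  · simp only [not_or, not_lt, not_not, not_le] at g
    have b1 := qf_add bπ g.1.2.1 (bd_add g.1.2.2 r0 (β := 2 * t) (by linarith [g.2]))
    rw [← add_assoc, add_sub_cancel] at b1
    have b2 := mul_le_mul_of_nonneg_left b1 k0.le
    have b3 : k τ * (Fintype.card q ^ 4 * C₀ ^ 2 * (M * (t + 2 * t) + (t + 2 * t) ^ 2)) ≤ σ := by
      calc _ ≤ |C₀| * (Fintype.card q ^ 4 * C₀ ^ 2 * (M * (t + 2 * t) + (t + 2 * t) * 3)) := by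
            rw [sq (t + 2 * t)]; gcongr; linarith
        _ = t * (c * (3 * M + 9)) := by rw [hc]; ring
        _ ≤ σ := by linarith
    linarith [D.pde τ hτ, g.1.1]

end Vale.Agent.P253W.A
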