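import Vale.Agent.P253W.A.Defs0

/-!
# P253W, block A: the row LOG1
-/

open Complex Metric Set Filter Topology MeasureTheory
open scoped Matrix ComplexConjugate ENNReal

noncomputable section

namespace Vale.Agent.P253W.A

open WM

namespace Log1

theorem pr_eq (p : ℂ → Prop) :
    pr p = volume.restrict (Ioc 0 (2 * Real.pi)) {θ | p (circleMap 0 1 θ)} := by
  rw [Measure.restrict_apply' measurableSet_Ioc, inter_comm]
  rfl

theorem pr_le {p q r : ℂ → Prop} (h : ∀ τ ∈ sphere (0 : ℂ) 1, p τ → q τ ∨ r τ) :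
    pr p ≤ pr q + pr r := by
  simp only [pr_eq]
  exact (measure_mono fun θ a => h _ (cm_mem θ) a).trans (measure_union_le _ _)

theorem int_eq (u : ℂ → ℝ) :
    ∫ θ in Ioc 0 (2 * Real.pi), u (circleMap 0 1 θ) = 2 * Real.pi * av u := by
  rw [av, Real.circleAverage, intervalIntegral.integral_of_le Real.two_pi_pos.le, smul_eq_mul,
    mul_inv_cancel_left₀ Real.two_pi_pos.ne']

/-- Chebyshev's inequality -/
theorem cheb {u : ℂ → ℝ} {s b : ℝ} (hs : 0 < s) (h0 : ∀ τ ∈ sphere (0 : ℂ) 1, 0 ≤ u τ)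
    (hi : IntegrableOn (fun θ => u (circleMap 0 1 θ)) (Ioc 0 (2 * Real.pi))) (hb : av u ≤ b) :
    pr (fun τ => s < u τ) ≤ ENNReal.ofReal (2 * Real.pi * b / s) := by
  have h := mul_meas_ge_le_integral_of_nonneg (.of_forall fun θ => h0 _ (cm_mem θ)) hi s
  rw [int_eq, ← le_div_iff₀' hs] at h
  rw [pr_eq]
  refine (measure_mono (t := {θ | s ≤ u (circleMap 0 1 θ)}) fun θ (a : s < _) => a.le).trans ?_
  rw [← ofReal_measureReal]
  exact ENNReal.ofReal_le_ofReal (h.trans (by gcongr))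

theorem cont_cm {X : Type*} [TopologicalSpace X] {u : ℂ → X} (hu : ContinuousOn u (sphere 0 1)) :
    Continuous fun θ => u (circleMap 0 1 θ) :=
  hu.comp_continuous (continuous_circleMap 0 1) cm_mem

theorem cheb' {u : ℂ → ℝ} {s b : ℝ} (hs : 0 < s) (h0 : ∀ τ ∈ sphere (0 : ℂ) 1, 0 ≤ u τ)
    (hu : ContinuousOn u (sphere 0 1)) (hb : av u ≤ b) :
    pr (fun τ => s < u τ) ≤ ENNReal.ofReal (2 * Real.pi * b / s) :=
  cheb hs h0 ((cont_cm hu).integrableOn_Icc.mono_set Ioc_subset_Icc_self) hb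

variable {X : Type*} [NormedAddCommGroup X] {ν : Measure ℝ} [IsProbabilityMeasure ν] {τ : ℂ}

theorem cont_rt {u : ℂ → X} (hu : ContinuousOn u (sphere 0 1)) (hτ : τ ∈ sphere (0 : ℂ) 1) :
    Continuous fun h => u (rt h τ) :=
  hu.comp_continuous (by unfold rt; fun_prop) fun h => rt_mem h hτ

theorem int_rt {u : ℂ → X} (hu : ContinuousOn u (sphere 0 1)) (hτ : τ ∈ sphere (0 : ℂ) 1) :
    Integrable (fun h => u (rt h τ)) ν :=
  let ⟨a, _, ha⟩ := exists_bound_cs hu
  .of_bound (cont_rt hu hτ).aestronglyMeasurable a (.of_forall fun h => ha _ (rt_mem h hτ))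

theorem cs_int {f : ℂ → ℂ} (hf : ContinuousOn f (sphere 0 1)) :
    ContinuousOn (fun τ => ∫ h, f (rt h τ) ∂ν) (sphere 0 1) :=
  let ⟨a, _, ha⟩ := exists_bound_cs hf
  continuousOn_of_dominated (fun _ hτ => (cont_rt hf hτ).aestronglyMeasurable)
    (fun _ hτ => .of_forall fun h => ha _ (rt_mem h hτ)) (integrable_const a)
    (.of_forall (cs_rt hf))

/-- the mean displacement is small off a small set -/
theorem disp {Z : ℂ → X} {L s b : ℝ} (hZ : Dq L Z) (hs : 0 < s) {ω : ℝ → ℝ} (hω : Integrable ω ν)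
    (h1 : ∀ h, L * |h| ≤ ω h) (hb : ∫ h, ω h ∂ν ≤ b) :
    pr (fun τ => s < ∫ h, dist (Z (rt h τ)) (Z τ) ∂ν) ≤ ENNReal.ofReal (2 * Real.pi * b / s) := by
  obtain ⟨a, -, ha⟩ := exists_bound_cs hZ.cs
  have c := cont_cm hZ.cs
  have hi : Integrable (Function.uncurry fun θ h : ℝ =>
      dist (Z (rt h (circleMap 0 1 θ))) (Z (circleMap 0 1 θ)))
      ((volume.restrict (Ioc 0 (2 * Real.pi))).prod ν) := by
    refine .of_bound (Continuous.aestronglyMeasurable ?_) (a + a) (.of_forall fun p => ?_)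
    · simp only [rt_cm]
      exact (c.comp (continuous_fst.add continuous_snd)).dist (c.comp continuous_fst)
    · exact (Real.norm_of_nonneg dist_nonneg).trans_le ((dist_le_norm_add_norm _ _).trans
        (add_le_add (ha _ (rt_mem _ (cm_mem _))) (ha _ (cm_mem _))))
  refine cheb hs (fun _ _ => integral_nonneg fun _ => dist_nonneg) hi.integral_prod_left
    (le_trans ?_ hb)
  refine le_of_mul_le_mul_left ?_ Real.two_pi_pos
  rw [← int_eq, integral_integral_swap hi, ← integral_const_mul]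
  refine integral_mono hi.integral_prod_right (hω.const_mul _) fun h => ?_
  refine (int_eq fun τ => dist (Z (rt h τ)) (Z τ)).trans_le
    (mul_le_mul_of_nonneg_left (le_trans ?_ (h1 h)) Real.two_pi_pos.le)
  simpa using av_mul_le (cs_dist hZ.cs h) continuousOn_const (b := 1) (v := fun _ => 1)
    (mul_nonneg hZ.nonneg (abs_nonneg h)) zero_le_one
    (by rw [mul_pow, sq_abs, ← mul_pow]; exact hZ.le h) (by simp [av_const])

theorem near {f : ℂ → ℂ} {Z : ℂ → X} (hf : ContinuousOn f (sphere 0 1))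
    (hZ : ContinuousOn Z (sphere 0 1)) (hτ : τ ∈ sphere (0 : ℂ) 1) {ω : ℝ → ℝ}
    (hω : Integrable ω ν) {a b c : ℝ}
    (H : ∀ h, ‖f (rt h τ) - f τ‖ ≤ a + b * dist (Z (rt h τ)) (Z τ) + c * ω h) :
    ‖∫ h, f (rt h τ) ∂ν - f τ‖ ≤ a + b * ∫ h, dist (Z (rt h τ)) (Z τ) ∂ν + c * ∫ h, ω h ∂ν := by
  have h1 : Integrable (fun h => b * dist (Z (rt h τ)) (Z τ)) ν :=
    (int_rt (u := fun σ => dist (Z σ) (Z τ))
      (continuous_dist.comp_continuousOn (hZ.prodMk continuousOn_const)) hτ).const_mul b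
  have h3 : Integrable (fun h => a + b * dist (Z (rt h τ)) (Z τ)) ν := (integrable_const a).add h1
  have h2 := norm_integral_le_of_norm_le (h3.add (hω.const_mul c)) (.of_forall H)
  simp only [Pi.add_apply] at h2
  rw [integral_sub (int_rt hf hτ) (integrable_const _), integral_add h3 (hω.const_mul c),
    integral_add (integrable_const a) h1, integral_const_mul, integral_const_mul] at h2
  simpa using h2

variable {ι q : Type} [Fintype ι] [Fintype q] [DecidableEq q]

omit [Fintype q] in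
theorem bd_one {Θ : Matrix ι q ℂ} (h : Θᴴ * Θ = 1) : Bd 1 Θ := fun i j => by
  have h1 := congrArg re (congrFun (congrFun h j) j)
  simp only [Matrix.mul_apply, Matrix.conjTranspose_apply, Matrix.one_apply_eq, star_def,
    conj_mul', re_sum, one_re, ← ofReal_pow, ofReal_re] at h1
  exact abs_le_of_sq_le_sq' (by
    rw [one_pow, ← h1]
    exact Finset.single_le_sum (f := fun i => ‖Θ i j‖ ^ 2) (fun _ _ => sq_nonneg _)
      (Finset.mem_univ i)) zero_le_one |>.2

omit [Fintype q] [DecidableEq q] in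
theorem bd_mul {P Q : Matrix ι q ℂ} {a : Matrix ι ι ℂ} {x y z : ℝ} (hP : Bd x P) (ha : Bd y a)
    (hQ : Bd z Q) : Bd ((Fintype.card ι : ℝ) ^ 2 * (x * y * z)) (Pᴴ * a * Q) := fun i j =>
  (norm_mul_apply_le (norm_mul_apply_le (A := Pᴴ) (a := x)
    (fun i j => by simpa using hP j i) ha) hQ i j).trans_eq (by ring)

omit [Fintype q] [DecidableEq q] in
theorem bd_sub {P Q : Matrix ι q ℂ} {a b : Matrix ι ι ℂ} {e m x : ℝ} (hP : Bd 1 P) (hQ : Bd 1 Q)
    (he : Bd e (P - Q)) (ha : Bd m a) (hb : Bd m b) (hx : Bd x (a - b)) :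
    Bd ((Fintype.card ι : ℝ) ^ 2 * (x + 2 * m * e)) (Pᴴ * a * P - Qᴴ * b * Q) := fun i j => by
  have : Pᴴ * a * P - Qᴴ * b * Q = (P - Q)ᴴ * a * P + Qᴴ * (a - b) * P + Qᴴ * b * (P - Q) := by
    simp only [Matrix.conjTranspose_sub, Matrix.sub_mul, Matrix.mul_sub]
    abel
  rw [this]
  refine (norm_add₃_le.trans (add_le_add_three (bd_mul he ha hP i j) (bd_mul hQ hx hP i j)
    (bd_mul hQ hb he i j))).trans_eq (by ring)

theorem Bd.mono {ι κ : Type*} {x y : ℝ} {a : Matrix ι κ ℂ} (h : Bd x a) (hxy : x ≤ y) : Bd y a :=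
  fun i j => (h i j).trans hxy

end Log1

open Log1

theorem log1 (hw : WAL) : LOG1 := by
  intro ι ι' q _ _ _ _ C₀ C
  obtain ⟨W, W0, hW⟩ := (hw ι' C₀).1
  have π0 := Real.pi_pos
  set n : ℝ := (Fintype.card ι : ℝ) ^ 2 with hn
  have n0 : 0 ≤ n := sq_nonneg _
  set K := n * |C₀| * W ^ 3 with hK
  have K0 : 0 ≤ K := by positivity
  refine ⟨W + K * |C|, by positivity, fun β β0 => ?_⟩
  set M := 4 * Real.pi * W / β with hM
  have M0 : 0 < M := by positivity
  refine ⟨K * M ^ 6 + 1, by positivity, fun t t0 => ?_⟩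
  set R := 1 + 6 * (K * M ^ 6) * |C| / t with hR
  have R1 : 1 ≤ R := le_add_of_nonneg_right (by positivity)
  set D := W * R ^ 4 * M ^ 2 with hD
  have D0 : 0 < D := by positivity
  refine ⟨(√D)⁻¹, t / (3 * (n + 1)), by positivity, by positivity, fun C₁ => ?_⟩
  set b := n * (|C₁| + 2 * (|C₀| * D ^ 3)) with hb
  have b0 : 0 ≤ b := by positivity
  set c : ℝ := Fintype.card ι' + Fintype.card (ι × q) with hc
  have c0 : 0 ≤ c := by positivity
  set s := t / (3 * (b + 1)) with hs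
  have s0 : 0 < s := by positivity
  refine ⟨min 1 (β * s / (4 * Real.pi * (c * |C| + 1))), by positivity, min_le_left _ _, ?_⟩
  generalize hκ : min 1 (β * s / (4 * Real.pi * (c * |C| + 1))) = κ₀
  have κ0 : 0 ≤ κ₀ := by rw [← hκ]; positivity
  have κ1 : κ₀ ≤ 1 := hκ ▸ min_le_left _ _
  have κ2 : κ₀ ≤ β * s / (4 * Real.pi * (c * |C| + 1)) := hκ ▸ min_le_right _ _
  intro N ν Y Θ π a d B k X w κ σ δ N1 _ hν h
  have N0 : 0 ≤ N := zero_le_one.trans N1
  have ω1 : ∀ x : ℝ, 1 ≤ 1 + N * |x| := fun x => le_add_of_nonneg_right (by positivity)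
  have ωi : Integrable (fun x : ℝ => (1 + N * |x|) ^ 16) ν :=
    ⟨Continuous.aestronglyMeasurable (by fun_prop), (hasFiniteIntegral_iff_ofReal
      (.of_forall fun x => by positivity)).2 (hν.trans_lt ENNReal.ofReal_lt_top)⟩
  have ωb : ∫ x : ℝ, (1 + N * |x|) ^ 16 ∂ν ≤ |C| := by
    rw [← ofReal_integral_eq_lintegral_ofReal ωi (.of_forall fun x => by positivity)] at hν
    exact (ENNReal.ofReal_le_ofReal_iff (abs_nonneg C)).1
      (hν.trans (ENNReal.ofReal_le_ofReal (le_abs_self C)))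
  obtain ⟨A, cA, aA, hA⟩ := hW N Y d B N1
    (fun i => (h.dY i).mono (mul_le_of_le_one_left N0 κ1)) h.wall h.avB
  have cf : Cs fun τ => (Θ τ)ᴴ * a τ * Θ τ := fun i j => by
    simp only [Matrix.mul_apply, Matrix.conjTranspose_apply]
    exact continuousOn_finsetSum _ fun l _ => (continuousOn_finsetSum _ fun m _ =>
      (h.dΘ m i).cs.star.mul (h.ca m l)).mul (h.dΘ l j).cs
  have ba : ∀ τ ∈ sphere (0 : ℂ) 1, ∀ y, (d τ ^ 2)⁻¹ ≤ y → Bd (|C₀| * y ^ 3) (a τ) :=
    fun τ hτ y hy => Bd.mono (h.bd τ hτ).2.2.1 (by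
      rw [show (d τ ^ 6)⁻¹ = (d τ ^ 2)⁻¹ ^ 3 by rw [inv_pow, ← pow_mul]]
      gcongr
      exact le_abs_self _)
  have bf : ∀ τ ∈ sphere (0 : ℂ) 1, ∀ x, Bd (K * A τ ^ 6 * (1 + N * |x|) ^ 12)
      ((Θ (rt x τ))ᴴ * a (rt x τ) * Θ (rt x τ)) := fun τ hτ x =>
    have e := bd_one (h.iso _ (rt_mem x hτ))
    Bd.mono (bd_mul e (ba _ (rt_mem x hτ) _ ((hA τ hτ).2 x)) e) (by rw [hK, hn]; ring_nf; rfl)
  have dZ : Dq (c * (κ₀ * N)) fun τ => (Y τ, fun p : ι × q => Θ τ p.1 p.2) := by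
    rw [hc, add_mul]
    exact (Dq.pi h.dY).prodMk (Dq.pi fun p => h.dΘ p.1 p.2)
  refine ⟨fun i j => cs_int (cf i j), ⟨A, cA, aA.trans (le_add_of_nonneg_right (by positivity)),
    fun τ hτ => ⟨(hA τ hτ).1, fun i j => ?_⟩⟩, ?_⟩
  · refine (norm_integral_le_of_norm_le (ωi.const_mul (K * A τ ^ 6)) (.of_forall fun x =>
      (bf τ hτ x i j).trans (mul_le_mul_of_nonneg_left (pow_le_pow_right₀ (ω1 x) (by norm_num))
        (by positivity)))).trans ?_
    rw [integral_const_mul]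
    refine (mul_le_mul_of_nonneg_left ωb (by positivity)).trans ?_
    rw [mul_right_comm]
    exact mul_le_mul_of_nonneg_right (le_add_of_nonneg_left W0.le) (by positivity)
  have p1 := cheb' M0 (fun τ hτ => zero_le_one.trans (hA τ hτ).1) cA aA
  have p2 := disp dZ s0 (ωi.const_mul (c * κ₀)) (b := c * κ₀ * |C|) (fun x => by
    rw [← mul_assoc, mul_assoc _ N]
    refine mul_le_mul_of_nonneg_left ?_ (by positivity)
    exact (le_add_of_nonneg_left zero_le_one).trans (le_self_pow₀ (ω1 x) (by norm_num))) (by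
    rw [integral_const_mul]
    exact mul_le_mul_of_nonneg_left ωb (by positivity))
  refine (pr_le fun τ hτ hp => ?_).trans ((add_le_add p1 p2).trans ?_)
  · by_contra! hq
    obtain ⟨q1, q2⟩ := hq
    have A0 := zero_le_one.trans (hA τ hτ).1
    have bM : ∀ x, Bd (K * M ^ 6 * (1 + N * |x|) ^ 12)
        ((Θ (rt x τ))ᴴ * a (rt x τ) * Θ (rt x τ)) := fun x => Bd.mono (bf τ hτ x) (by gcongr)
    have b1 := bM 0
    rw [rt_zero, abs_zero, mul_zero, add_zero, one_pow, mul_one] at b1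
    refine hp ⟨Bd.mono b1 (lt_add_one _).le, fun i j => ?_⟩
    refine (near (cf i j) dZ.cs hτ ωi (a := n * (t / (3 * (n + 1)))) (b := b)
      (c := 2 * (K * M ^ 6) / R) fun x => ?_).trans ?_
    · have e0 : 0 ≤ 2 * (K * M ^ 6) / R * (1 + N * |x|) ^ 16 := by positivity
      set e := dist (Y (rt x τ), fun p : ι × q => Θ (rt x τ) p.1 p.2)
        (Y τ, fun p : ι × q => Θ τ p.1 p.2) with he
      have e1 : 0 ≤ e := dist_nonneg
      rcases le_total (1 + N * |x|) R with hx | hx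
      · have g : ∀ y, 1 + N * |y| ≤ R → (d (rt y τ) ^ 2)⁻¹ ≤ D := fun y hy =>
          ((hA τ hτ).2 y).trans (by have := zero_le_one.trans (ω1 y); rw [hD]; gcongr)
        have g' : ∀ σ ∈ sphere (0 : ℂ) 1, (d σ ^ 2)⁻¹ ≤ D → (√D)⁻¹ ≤ d σ := fun σ hσ hy => by
          have d0 := (h.wall.pos σ hσ).1
          rw [inv_le_comm₀ (by positivity) d0]
          exact Real.le_sqrt_of_sq_le (by rwa [inv_pow])
        have g0 := g 0 (by simpa using R1)
        rw [rt_zero] at g0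
        have hτ' := rt_mem x hτ
        have y1 : ‖Y (rt x τ) - Y τ‖ ≤ e := by
          rw [← dist_eq_norm]
          exact le_max_left _ _
        have y2 : Bd e (Θ (rt x τ) - Θ τ) := fun i j => by
          rw [Matrix.sub_apply, ← dist_eq_norm]
          exact (dist_le_pi_dist (fun p : ι × q => Θ (rt x τ) p.1 p.2) (fun p => Θ τ p.1 p.2)
            (i, j)).trans (le_max_right _ _)
        refine (bd_sub (bd_one (h.iso _ hτ')) (bd_one (h.iso _ hτ)) y2 (ba _ hτ' _ (g x hx))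
          (ba _ hτ _ g0) (Bd.mono (y := t / (3 * (n + 1)) + |C₁| * e)
            (h.mod _ hτ' _ hτ (g' _ hτ' (g x hx)) (g' _ hτ g0)) ?_) i j).trans ?_
        · exact add_le_add_right (mul_le_mul (le_abs_self _) y1 (norm_nonneg _) (abs_nonneg _)) _
        · rw [← hn, hb]
          linarith only [e0]
      · have y1 : K * M ^ 6 * 1 ≤ K * M ^ 6 * (1 + N * |x|) ^ 12 :=
          mul_le_mul_of_nonneg_left (one_le_pow₀ (ω1 x)) (by positivity)
        have y2 : 2 * (K * M ^ 6) * (1 + N * |x|) ^ 12 ≤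
            2 * (K * M ^ 6) / R * (1 + N * |x|) ^ 16 := by
          rw [div_mul_eq_mul_div, le_div_iff₀ (by positivity), mul_assoc, pow_add _ 12 4]
          gcongr
          exact hx.trans (le_self_pow₀ (ω1 x) (by norm_num))
        have y3 : 0 ≤ n * (t / (3 * (n + 1))) + b * e := by positivity
        linarith only [norm_sub_le (((Θ (rt x τ))ᴴ * a (rt x τ) * Θ (rt x τ)) i j)
          (((Θ τ)ᴴ * a τ * Θ τ) i j), bM x i j, b1 i j, y1, y2, y3]
    · have y : ∀ m : ℝ, 0 ≤ m → m * (t / (3 * (m + 1))) ≤ t / 3 := fun m m0 => by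
        rw [← mul_div_assoc, div_le_div_iff₀ (by positivity) (by positivity)]
        nlinarith only [t0, m0]
      have y2 := mul_le_mul_of_nonneg_left q2 b0
      have y3 := mul_le_mul_of_nonneg_left ωb (show 0 ≤ 2 * (K * M ^ 6) / R by positivity)
      have y4 : 2 * (K * M ^ 6) / R * |C| ≤ t / 3 := by
        rw [div_mul_eq_mul_div, div_le_iff₀ (by positivity), hR]
        field_simp
        linarith only [t0]
      linarith only [y n n0, y b b0, y2, y3, y4, hs]
  · rw [← ENNReal.ofReal_add (by positivity) (by positivity)]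
    refine ENNReal.ofReal_le_ofReal ?_
    have y1 : 2 * Real.pi * W / M = β / 2 := by rw [hM]; field_simp; norm_num
    have y2 : 2 * Real.pi * (c * κ₀ * |C|) / s ≤ β / 2 := by
      rw [le_div_iff₀ (by positivity)] at κ2
      rw [div_le_iff₀ s0]
      nlinarith only [κ2, mul_nonneg κ0 π0.le]
    linarith only [y1, y2]

end Vale.Agent.P253W.A
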