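import Vale.Agent.P253W.A.Defs0

/-!
# P253W, block A, row LOG2: small sets do not matter for logarithmic means
-/

set_option linter.all false

open Metric Set MeasureTheory

noncomputable section

namespace Vale.Agent.P253W.A

open WM

/-- a function which is positive only on a small set has a small mean -/
theorem av_le_pr {f : ℂ → ℝ} {p : ℂ → Prop} {M β : ℝ} (hf : ContinuousOn f (sphere 0 1))
    (hM : 0 ≤ M) (hβ : 0 ≤ β) (hp : pr p ≤ ENNReal.ofReal β)
    (h : ∀ τ ∈ sphere (0 : ℂ) 1, f τ ≤ M ∧ (¬p τ → f τ ≤ 0)) : av f ≤ M * β / (2 * Real.pi) := by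
  set S := toMeasurable volume {θ ∈ Ioc 0 (2 * Real.pi) | p (circleMap 0 1 θ)}
  have hS : volume S ≤ ENNReal.ofReal β := (measure_toMeasurable _).trans_le hp
  have m : MeasurableSet S := measurableSet_toMeasurable _ _
  have i : Integrable (S.indicator fun _ => M) :=
    (integrableOn_const (hS.trans_lt ENNReal.ofReal_lt_top).ne).integrable_indicator m
  rw [av, Real.circleAverage_def, smul_eq_mul, ← div_eq_inv_mul,
    intervalIntegral.integral_of_le Real.two_pi_pos.le]
  refine div_le_div_of_nonneg_right (((setIntegral_mono_on (ci hf).1 i.integrableOn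
    measurableSet_Ioc fun θ hθ => ?_).trans (setIntegral_le_integral i
      (.of_forall fun θ => indicator_nonneg (fun _ _ => hM) θ))).trans ?_) Real.two_pi_pos.le
  · by_cases e : θ ∈ S
    · rw [indicator_of_mem e]
      exact (h _ (cm_mem θ)).1
    · rw [indicator_of_notMem e]
      exact (h _ (cm_mem θ)).2 fun k => e (subset_toMeasurable _ _ ⟨hθ, k⟩)
  · rw [integral_indicator_const _ m, smul_eq_mul, mul_comm]
    exact mul_le_mul_of_nonneg_left (ENNReal.toReal_le_of_le_ofReal hβ hS) hM

theorem log2 : LOG2 := fun C σ h0 h1 => by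
  set u := σ / (24 * (|C| + 1))
  have C0 := abs_nonneg C
  have u0 : 0 < u := by positivity
  set M := |Real.log (σ + |C|) - Real.log σ - 12 * Real.log u|
  have M0 : 0 ≤ M := abs_nonneg _
  refine ⟨σ / (2 * (M + 1)), by positivity, fun Q A w κ p cQ cA cw hp hA hw h => ?_⟩
  set β := σ / (2 * (M + 1))
  have β0 : 0 ≤ β := by positivity
  have β1 : (M + 1) * β = σ / 2 := by simp only [β]; field_simp
  have pi (x : ℝ) (hx : 0 ≤ x) : x / (2 * Real.pi) ≤ x :=
    div_le_self hx (by linarith [Real.pi_gt_three])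
  have g0 τ : 0 ≤ max (w τ - σ) 0 / σ := by positivity
  have g1 τ : 0 ≤ Real.log (1 + max (w τ - σ) 0 / σ) := Real.log_nonneg (by linarith [g0 τ])
  have cg : ContinuousOn (fun τ => Real.log (1 + max (w τ - σ) 0 / σ)) (sphere 0 1) :=
    (continuousOn_const.add (((cw.sub continuousOn_const).sup continuousOn_const).div_const _)).log
      fun τ _ => (add_pos_of_pos_of_nonneg one_pos (g0 τ)).ne'
  have K : σ ≤ κ + 5 * σ := by_contra fun k => by
    have := (av_le_pr (continuousOn_const.sub cg) zero_le_one β0 hp fun τ hτ =>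
      ⟨sub_le_self 1 (g1 τ), fun e => sub_nonpos.2 ((Real.le_log_iff_exp_le (by linarith [g0 τ])).2
        (Real.exp_one_lt_three.le.trans (by
          have := (h τ hτ).2.1.trans ((h τ hτ).2.2.2 e)
          have : 2 ≤ max (w τ - σ) 0 / σ := (le_div_iff₀ h0).2 (le_max_of_le_left (by linarith))
          linarith)))⟩).trans (pi _ (by positivity))
    erw [av_sub continuousOn_const cg, av_const] at this
    nlinarith
  refine ⟨K, ?_⟩
  have cl : ContinuousOn (fun τ => Real.log (max σ (Q τ))) (sphere 0 1) :=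
    (continuousOn_const.sup cQ).log fun τ _ => (lt_max_of_lt_left h0).ne'
  have := (av_le_pr (f := fun τ => Real.log (max σ (Q τ)) - (Real.log (κ + 5 * σ) +
    (Real.log (1 + max (w τ - σ) 0 / σ) + 12 * u * A τ))) (cl.sub (continuousOn_const.add
      (cg.add (continuousOn_const.mul cA)))) M0 β0 hp fun τ hτ => ?_).trans (pi _ (by positivity))
  · rw [av_sub cl (by fun_prop), av_add (by fun_prop) (by fun_prop), av_add cg (by fun_prop),
      av_const, av_mul_real] at this
    have : u * (|C| + 1) = σ / 24 := by simp only [u]; field_simp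
    nlinarith [mul_le_mul_of_nonneg_left (hA.trans (le_abs_self C)) u0.le]
  obtain ⟨a1, a2, a3, a4⟩ := h τ hτ
  have a5 : 0 < u * A τ := by positivity
  refine ⟨?_, fun e => ?_⟩
  · have b1 : 1 ≤ A τ ^ 12 := one_le_pow₀ a1
    have b2 := Real.log_le_log (lt_max_of_lt_left h0) (max_le (c := (σ + |C|) * A τ ^ 12)
      (by nlinarith) (by nlinarith [le_abs_self C]) : max σ (Q τ) ≤ _)
    have b3 := Real.log_le_sub_one_of_pos a5
    rw [Real.log_mul (by positivity) (by positivity), Real.log_pow] at b2
    rw [Real.log_mul u0.ne' (by positivity)] at b3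
    push_cast at b2
    linarith [Real.log_le_log h0 K, g1 τ,
      le_abs_self (Real.log (σ + |C|) - Real.log σ - 12 * Real.log u)]
  · have b1 : w τ - σ ≤ σ * (max (w τ - σ) 0 / σ) := by
      rw [mul_div_cancel₀ _ h0.ne']
      exact le_max_left _ _
    have b2 := Real.log_le_log (lt_max_of_lt_left h0)
      (max_le (c := (κ + 5 * σ) * (1 + max (w τ - σ) 0 / σ)) (by nlinarith [g0 τ])
        (by nlinarith [g0 τ, a4 e]) : max σ (Q τ) ≤ _)
    rw [Real.log_mul (by linarith) (by linarith [g0 τ])] at b2
    linarith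

end Vale.Agent.P253W.A
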