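import Vale.Agent.P253W.A.Defs1

/-!
# P253W, block A: MOV, one moving disc
-/

open Complex Metric Set Filter Topology
open scoped Matrix ComplexConjugate ComplexOrder
open Vale.Agent.P272.K (Cm dz cHess jacM Chart)

set_option linter.all false

noncomputable section

namespace Vale.Agent.P253W.A

open WM

namespace MovAux

theorem l2_cg {u v : ℂ → ℂ} (h : ∀ τ ∈ sphere (0 : ℂ) 1, u τ = v τ) : l2 u = l2 v := by
  unfold l2
  exact av_congr fun τ hτ => by rw [h τ hτ]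

theorem en_cg {u v : ℂ → ℂ} (h : ∀ τ ∈ sphere (0 : ℂ) 1, u τ = v τ) : en u = en v := by
  have : fc u = fc v := funext fun k => by
    unfold fc
    exact av_congr fun τ hτ => by rw [h τ hτ]
  simp only [en, this]

theorem l2_z : l2 (fun _ => 0) = 0 := by
  have : l2 (fun _ => 0) = av fun _ => (0 : ℝ) := by
    unfold l2
    exact av_congr fun τ _ => by simp
  rw [this, av_const]

theorem en_z : en (fun _ => 0) = 0 := by
  have : ∀ k, fc (fun _ => 0) k = 0 := fun k => by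
    have : fc (fun _ => 0) k = av fun _ => (0 : ℂ) := by
      unfold fc
      exact av_congr fun τ _ => by simp
    rw [this, av_const]
  simp [en, this]

theorem gq_opt {ι : Type} [Fintype ι] (R : ℝ) (f : ℂ → Option ι → ℂ) (g : ℂ → ι → ℂ)
    (h0 : ∀ τ ∈ sphere (0 : ℂ) 1, f τ none = 0)
    (h1 : ∀ τ ∈ sphere (0 : ℂ) 1, ∀ i, f τ (some i) = g τ i) : gq R g = gq R f := by
  unfold gq
  rw [Fintype.sum_option, l2_cg h0, en_cg h0, l2_z, en_z]
  simp only [zero_div, add_zero, zero_add]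
  refine Finset.sum_congr rfl fun i _ => ?_
  rw [l2_cg fun τ hτ => h1 τ hτ i, en_cg fun τ hτ => h1 τ hτ i]

theorem hf_lin {ι : Type} [Fintype ι] (a b : Matrix ι ι ℂ) (l g : ℝ) (U : ι → ℂ) :
    hf ((l : ℂ) • a + (g : ℂ) • b) U = l * hf a U + g * hf b U := by
  simp [hf, Matrix.add_mulVec, Matrix.smul_mulVec, dotProduct_add, dotProduct_smul]

theorem hf_cs {ι : Type} [Fintype ι] {a : ℂ → Matrix ι ι ℂ} {U : ℂ → ι → ℂ} {s : Set ℂ}
    (ha : ∀ i j, ContinuousOn (fun τ => a τ i j) s) (hU : ∀ i, ContinuousOn (fun τ => U τ i) s) :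
    ContinuousOn (fun τ => hf (a τ) (U τ)) s := by
  unfold hf
  refine Complex.continuous_re.comp_continuousOn ?_
  simp only [dotProduct, Matrix.mulVec, Pi.star_apply]
  refine continuousOn_finset_sum _ fun i _ => ((hU i).star).mul ?_
  exact continuousOn_finset_sum _ fun j _ => (ha i j).mul (hU j)

theorem tube {N : Type} [TopologicalSpace N] {y : ℂ → ℂ → N} {r : ℝ} {W : Set N} (hr : 0 < r)
    (hW : IsOpen W) (hc : ContinuousOn (Function.uncurry y) (ball 0 r ×ˢ closedBall 0 1))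
    (h0 : ∀ τ ∈ sphere (0 : ℂ) 1, y 0 τ ∈ W) :
    ∃ ρ, 0 < ρ ∧ ρ ≤ r ∧ ∀ s ∈ ball (0 : ℂ) ρ, ∀ τ ∈ sphere (0 : ℂ) 1, y s τ ∈ W := by
  have h : ∀ᶠ s in 𝓝 (0 : ℂ), ∀ τ ∈ sphere (0 : ℂ) 1, τ ∈ closedBall (0 : ℂ) 1 → y s τ ∈ W := by
    refine (isCompact_sphere (0 : ℂ) 1).eventually_forall_of_forall_eventually
      (P := fun s τ => τ ∈ closedBall (0 : ℂ) 1 → y s τ ∈ W) fun τ hτ => ?_
    have h1 := hc (0, τ) ⟨mem_ball_self hr, sphere_subset_closedBall hτ⟩
    have h2 := eventually_nhdsWithin_iff.1 (h1.eventually (hW.mem_nhds (h0 τ hτ)))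
    have h3 : ∀ᶠ z : ℂ × ℂ in 𝓝 (0, τ), z.1 ∈ ball (0 : ℂ) r :=
      continuous_fst.continuousAt.eventually (isOpen_ball.mem_nhds (mem_ball_self hr))
    filter_upwards [h2, h3] with z hz hz' hz''
    exact hz ⟨hz', hz''⟩
  obtain ⟨ε, hε, h'⟩ := Metric.eventually_nhds_iff_ball.1 h
  exact ⟨min ε r, lt_min hε hr, min_le_right _ _, fun s hs τ hτ =>
    h' s (ball_subset_ball (min_le_left _ _) hs) τ hτ (sphere_subset_closedBall hτ)⟩

end MovAux

open MovAux in
theorem mov {n : ℕ} {N : Type} [TopologicalSpace N] [T2Space N] (B : Bs n N) (hB : B.Ok)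
    (h1 : LIPK) (h2 : GAU) (h3 : EXB) : B.MOV := by
  intro σ l₀ P D q v y hAt hW hY hFm
  obtain ⟨r₀, A₀, hF, hc⟩ := hFm
  obtain ⟨hFc, hFh, -⟩ := h1 (n + n) N B.𝒜 (Fin P.L) P.F hB.atl P.ho
  obtain ⟨-, -, -, -, e5, e6, -⟩ := h3
  obtain ⟨r, hr, hrr, hyW⟩ := tube hF.pos P.op hF.cont fun τ hτ => by
    rw [hF.zero (sphere_subset_closedBall hτ)]
    exact hW τ hτ
  have hsub : ball (0 : ℂ) r ⊆ ball 0 r₀ := ball_subset_ball hrr
  have hyc : ∀ s ∈ ball (0 : ℂ) r, ContinuousOn (y s) (closedBall 0 1) := fun s hs =>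
    hF.cont.comp (Continuous.prodMk_right s).continuousOn fun τ hτ => ⟨hsub hs, hτ⟩
  obtain ⟨E, hE⟩ : ∃ E : ℂ → B.Dk, ∀ s ∈ ball (0 : ℂ) r, (E s).φ = y s ∧ (E s).ζ = D.ζ := by
    classical
    refine ⟨fun s => if hs : s ∈ ball (0 : ℂ) r then
      ⟨y s, D.ζ, ⟨hyc s hs, hF.hτ s (hsub hs)⟩, D.da, D.le,
        fun τ hτ => P.KO (P.WK (hyW s hs τ hτ))⟩ else D, fun s hs => ?_⟩
    simp only [dif_pos hs, and_self]
  have hYE : ∀ s ∈ ball (0 : ℂ) r, P.Y (E s) = fun τ l => l.elim (D.ζ τ) (P.F (y s τ)) := by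
    intro s hs
    funext τ l
    simp only [Bs.Pen.Y, (hE s hs).1, (hE s hs).2]
  have hda : ∀ s ∈ ball (0 : ℂ) r, ∀ i, DA fun τ => P.F (y s τ) i := fun s hs i =>
    DA.mk' (hFh (y s) _ isOpen_ball (hF.hτ s (hsub hs)) i)
      (((continuous_apply i).comp hFc).comp_continuousOn (hyc s hs))
  have hhw : ∀ s ∈ ball (0 : ℂ) r, HWv fun τ => P.F (y s τ) := fun s hs i =>
    ⟨hda s hs i, ((hc s (hsub hs)).2.2 i).w12⟩
  have hζ : HW D.ζ := hY none
  obtain ⟨A₁, hA₁⟩ := hζ.w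
  have hds : ∀ τ ∈ closedBall (0 : ℂ) 1, ∀ i,
      DifferentiableOn ℂ (fun s => P.F (y s τ) i) (ball 0 r) := fun τ hτ i =>
    (hFh (fun s => y s τ) _ isOpen_ball (hF.hs τ hτ) i).mono hsub
  have hb0 : ball (0 : ℂ) r ∈ 𝓝 (0 : ℂ) := isOpen_ball.mem_nhds (mem_ball_self hr)
  have htc : ContinuousOn (fun τ => tm (D.ζ τ)) (sphere 0 1) :=
    Real.continuous_exp.comp_continuousOn
      (continuousOn_const.mul (Complex.continuous_re.comp_continuousOn D.da.cs))
  have htm : ∀ τ ∈ sphere (0 : ℂ) 1, tm (D.ζ τ) ∈ Ioc 0 B.S := fun τ hτ =>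
    ⟨Real.exp_pos _, D.le τ (sphere_subset_closedBall hτ)⟩
  obtain ⟨⟨c, hc1⟩, hc2⟩ := P.var (fun τ => tm (D.ζ τ)) D.φ r₀ y htc
    (fun τ hτ => ⟨htm τ hτ, hW τ hτ⟩) hF
  have hγ : ∀ s ∈ ball (0 : ℂ) r,
      (E s).γ = av fun τ => Real.log (B.H (tm (D.ζ τ)) (y s τ)) := fun s hs => by
    simp only [Bs.Dk.γ, (hE s hs).1, (hE s hs).2]
  have hPi : ∀ s ∈ ball (0 : ℂ) r,
      P.Pi (E s) = (av fun τ => P.b (tm (D.ζ τ)) (y s τ)) + P.T (y s) := fun s hs => by
    simp only [Bs.Pen.Pi, (hE s hs).1, (hE s hs).2]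
  have h0 : (0 : ℂ) ∈ ball (0 : ℂ) r := mem_ball_self hr
  have hdY : ∀ τ ∈ closedBall (0 : ℂ) 1, ∀ l,
      DifferentiableOn ℂ (fun s => P.Y (E s) τ l) (ball 0 r) := by
    intro τ hτ l
    cases l with
    | none =>
      exact (differentiableOn_const (D.ζ τ)).congr fun s hs => by rw [hYE s hs]; rfl
    | some i => exact (hds τ hτ i).congr fun s hs => by rw [hYE s hs]; rfl
  have hV : ∀ τ ∈ closedBall (0 : ℂ) 1, deriv (fun s => P.F (y s τ)) 0 =
      fun i => deriv (fun s => P.F (y s τ) i) 0 := fun τ hτ =>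
    deriv_pi fun i => (hds τ hτ i).differentiableAt hb0
  obtain ⟨M, hM⟩ := P.cpt.exists_bound_of_continuousOn hFc.continuousOn
  have hVw := (h2 (Fin P.L) 1 r (max A₀ M) (fun s τ => P.F (y s τ)) (fun _ _ => 0) one_pos hr
    (fun _ => hw_const 0) (fun s hs => ⟨hhw s hs,
      fun i => ((hc s (hsub hs)).2.2 i).mono (le_max_left _ _), fun τ hτ i =>
        ((norm_le_pi_norm _ i).trans (hM _ (P.WK (hyW s hs τ hτ)))).trans (le_max_right _ _)⟩)
    hds).1
  have hVc : ∀ i, ContinuousOn (fun τ => deriv (fun s => P.F (y s τ)) 0 i) (sphere 0 1) :=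
    fun i => (hVw i).cs.congr fun τ hτ => by
      simp only [hV τ (sphere_subset_closedBall hτ)]
  have hφc : ContinuousOn (fun τ => (tm (D.ζ τ), D.φ τ)) (sphere 0 1) :=
    htc.prodMk (D.dn.1.mono sphere_subset_closedBall)
  have hcH : ∀ i j, ContinuousOn (fun τ => P.aH (tm (D.ζ τ)) (D.φ τ) i j) (sphere 0 1) :=
    fun i j => (P.cH i j).comp hφc fun τ hτ =>
      ⟨Ioc_subset_Icc_self (htm τ hτ), P.WK (hW τ hτ)⟩
  have hca : ∀ i j, ContinuousOn (fun τ => P.ab (tm (D.ζ τ)) (D.φ τ) i j) (sphere 0 1) :=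
    fun i j => (P.ca i j).comp hφc fun τ hτ => ⟨Ioc_subset_Icc_self (htm τ hτ), hW τ hτ⟩
  refine ⟨r, max A₀ A₁, _, _, c, E, hr, fun s hs => ?_, ?_, ?_, ?_, ?_, hdY,
    e5 _ _ _ _ hc1 ?_, e6 _ _ _ hc2 ?_, fun l g ε R => ?_⟩
  · obtain ⟨ht, hy0, hq⟩ := hc s (hsub hs)
    have he : B.e (y s 0) = B.e (D.φ 0) + s • v := by rw [hy0, B.e.right_inv ht]
    refine ⟨⟨?_, ?_, ?_⟩, ?_, ?_, ?_, ?_, ?_⟩
    · rw [(hE s hs).1, hy0]
      exact B.e.map_target ht
    · rw [(hE s hs).1, he, ← hAt.2.1]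
      rfl
    · rw [(hE s hs).2]
      exact hAt.2.2
    · unfold Bs.Dk.p
      rw [(hE s hs).1, he]
      rfl
    · rw [(hE s hs).1]
      exact hyW s hs
    · rw [hYE s hs]
      intro l
      cases l with
      | none => exact hζ
      | some i => exact hhw s hs i
    · rw [hYE s hs]
      intro l
      cases l with
      | none => exact hA₁.mono (le_max_right _ _)
      | some i => exact (hq i).mono (le_max_left _ _)
    · rw [hPi s hs]
      exact add_nonneg (av_nonneg fun τ hτ =>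
        (P.wall _ (Ioc_subset_Icc_self (htm τ hτ)) _ (hyW s hs τ hτ)).1) (P.T_nn _)
  · intro τ hτ
    rw [hYE 0 h0]
    funext l
    simp only [Bs.Pen.Y, hF.zero hτ]
  · rw [hγ 0 h0]
    unfold Bs.Dk.γ
    exact av_congr fun τ hτ => by rw [hF.zero (sphere_subset_closedBall hτ)]
  · rw [hPi 0 h0, P.T_congr _ _ hF.zero]
    unfold Bs.Pen.Pi
    congr 1
    exact av_congr fun τ hτ => by rw [hF.zero (sphere_subset_closedBall hτ)]
  · refine ContinuousOn.congr (f := fun z : ℂ × ℂ => fun l : Option (Fin P.L) =>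
      l.elim (D.ζ z.2) (P.F (y z.1 z.2))) ?_ fun z hz => ?_
    · refine continuousOn_pi.2 fun l => ?_
      cases l with
      | none => exact D.da.cb.comp continuousOn_snd fun z hz => hz.2
      | some i =>
        exact ((continuous_apply i).comp hFc).comp_continuousOn
          (hF.cont.mono (prod_mono hsub Subset.rfl))
    · show P.Y (E z.1) z.2 = _
      rw [hYE z.1 hz.1]
  · filter_upwards [hb0] with s hs using (hγ s hs).symm
  · filter_upwards [hb0] with s hs using (hPi s hs).symm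
  · unfold Bs.Pen.sv
    congr 1
    · simp only [Bs.Pen.sy, hf_lin]
      rw [← av_mul_real, ← av_mul_real]
      exact av_add (continuousOn_const.mul (hf_cs hcH hVc)) (continuousOn_const.mul (hf_cs hca hVc))
    · congr 1
      refine gq_opt R _ _ (fun τ hτ => ?_) fun τ hτ i => ?_
      · rw [deriv_pi fun l => (hdY τ (sphere_subset_closedBall hτ) l).differentiableAt hb0]
        have : (fun s => P.Y (E s) τ none) =ᶠ[𝓝 0] fun _ => D.ζ τ := by
          filter_upwards [hb0] with s hs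
          rw [hYE s hs]
          rfl
        show deriv (fun s => P.Y (E s) τ none) 0 = 0
        rw [this.deriv_eq, deriv_const]
      · rw [deriv_pi fun l => (hdY τ (sphere_subset_closedBall hτ) l).differentiableAt hb0,
          hV τ (sphere_subset_closedBall hτ)]
        have : (fun s => P.Y (E s) τ (some i)) =ᶠ[𝓝 0] fun s => P.F (y s τ) i := by
          filter_upwards [hb0] with s hs
          rw [hYE s hs]
          rfl
        exact this.deriv_eq

end Vale.Agent.P253W.A
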