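import Vale.Agent.P253W.A.Defs1
import Vale.Agent.P253W.WM.Four

/-!
# P253W, block A: the form at the centre of one slowly varying disc (`ONE`)
-/

open Complex Metric Set Filter Topology
open scoped Matrix ComplexConjugate ComplexOrder
open Vale.Agent.P272.K (Cm dz cHess jacM Chart)

noncomputable section

namespace Vale.Agent.P253W.A

open WM

namespace OneL

theorem exp_lip {x y S : ℝ} (hx : Real.exp x ≤ S) (hy : Real.exp y ≤ S) :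
    |Real.exp x - Real.exp y| ≤ S * |x - y| := by
  have key : ∀ a b : ℝ, Real.exp a ≤ S → Real.exp a - Real.exp b ≤ S * |a - b| := by
    intro a b ha
    have h1 := mul_le_mul_of_nonneg_left (Real.add_one_le_exp (b - a)) (Real.exp_pos a).le
    rw [← Real.exp_add, add_sub_cancel] at h1
    have h2 := mul_le_mul_of_nonneg_left (le_abs_self (a - b)) (Real.exp_pos a).le
    have h3 := mul_le_mul_of_nonneg_right ha (abs_nonneg (a - b))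
    linarith
  rw [abs_le]
  have := key y x hy
  rw [abs_sub_comm] at this
  exact ⟨by linarith, key x y hx⟩

theorem tm_lip {a b : ℂ} {S : ℝ} (ha : tm a ≤ S) (hb : tm b ≤ S) :
    |tm a - tm b| ≤ 2 * |S| * ‖a - b‖ := by
  refine (exp_lip ha hb).trans ?_
  rw [← mul_sub, abs_mul, abs_two, ← Complex.sub_re, ← mul_assoc, mul_comm S]
  exact mul_le_mul (by linarith [le_abs_self S]) (Complex.abs_re_le_norm _) (abs_nonneg _)
    (by positivity)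

variable {n : ℕ} {N : Type} [TopologicalSpace N] {B : Bs n N} {σ l₀ : ℝ} (P : B.Pen σ l₀)

/-- the boundary curve in space and time -/
def cv (D : B.Dk) (τ : ℂ) : ℝ × N := (tm (D.ζ τ), D.φ τ)

theorem cv_cont (D : B.Dk) : ContinuousOn (cv D) (sphere 0 1) :=
  (Real.continuous_exp.comp_continuousOn (continuousOn_const.mul
    (Complex.continuous_re.comp_continuousOn D.da.cs))).prodMk
    (D.dn.1.mono sphere_subset_closedBall)

theorem tm_mem (D : B.Dk) {τ : ℂ} (hτ : τ ∈ sphere (0 : ℂ) 1) : tm (D.ζ τ) ∈ Ioc 0 B.S :=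
  ⟨Real.exp_pos _, D.le τ (sphere_subset_closedBall hτ)⟩

theorem tm_mem' (D : B.Dk) {τ : ℂ} (hτ : τ ∈ sphere (0 : ℂ) 1) : tm (D.ζ τ) ∈ Icc 0 B.S :=
  Ioc_subset_Icc_self (tm_mem D hτ)

theorem icc_sub (S : ℝ) : Icc 0 S ⊆ Ico 0 (S + 1) := fun _ h => ⟨h.1, h.2.trans_lt (lt_add_one S)⟩

theorem cs_comp {V : Type*} [TopologicalSpace V] (D : B.Dk) {u : ℝ × N → V} {A : Set N}
    (hu : ContinuousOn u (Icc 0 B.S ×ˢ A)) (h : ∀ τ ∈ sphere (0 : ℂ) 1, D.φ τ ∈ A) :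
    ContinuousOn (fun τ => u (cv D τ)) (sphere 0 1) :=
  hu.comp (cv_cont D) fun τ hτ => ⟨tm_mem' D hτ, h τ hτ⟩

theorem F_le (D : B.Dk) (τ τ' : ℂ) :
    ‖P.F (D.φ τ) - P.F (D.φ τ')‖ ≤ ‖P.Y D τ - P.Y D τ'‖ :=
  (pi_norm_le_iff_of_nonneg (norm_nonneg _)).2 fun l =>
    norm_le_pi_norm (P.Y D τ - P.Y D τ') (some l)

theorem dist_le (D : B.Dk) {τ τ' : ℂ} (hτ : τ ∈ sphere (0 : ℂ) 1) (hτ' : τ' ∈ sphere (0 : ℂ) 1) :
    |tm (D.ζ τ) - tm (D.ζ τ')| + ‖P.F (D.φ τ) - P.F (D.φ τ')‖ ≤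
      (2 * |B.S| + 1) * ‖P.Y D τ - P.Y D τ'‖ := by
  have h1 := tm_lip (tm_mem D hτ).2 (tm_mem D hτ').2
  have h2 : ‖D.ζ τ - D.ζ τ'‖ ≤ ‖P.Y D τ - P.Y D τ'‖ := norm_le_pi_norm (P.Y D τ - P.Y D τ') none
  have h3 := mul_le_mul_of_nonneg_left h2 (by positivity : 0 ≤ 2 * |B.S|)
  linarith [F_le P D τ τ']

/-- moduli of continuity for a finite family -/
theorem modf [T2Space N] (h4 : LIPK) (hB : B.Ok) {J : Type} [Fintype J] {A : Set N}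
    (hA : IsCompact A) (hAK : A ⊆ P.K) {u : J → ℝ × N → ℂ}
    (hu : ∀ j, ContinuousOn (u j) (Icc 0 B.S ×ˢ A)) {η : ℝ} (hη : 0 < η) :
    ∃ C : ℝ, 0 ≤ C ∧ ∀ D : B.Dk, ∀ τ ∈ sphere (0 : ℂ) 1, ∀ τ' ∈ sphere (0 : ℂ) 1, D.φ τ ∈ A →
      D.φ τ' ∈ A → ∀ j, ‖u j (cv D τ) - u j (cv D τ')‖ ≤ η + C * ‖P.Y D τ - P.Y D τ'‖ := by
  have h := ((h4 _ N B.𝒜 _ P.F hB.atl P.ho).2.2.2 A hA
    ⟨P.em.1.mono hAK, fun y hy => P.em.2 y (hAK hy)⟩).2
  choose C C0 hC using fun j => h (u j) B.S η hη (hu j)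
  have hs : 0 ≤ ∑ j, C j := Finset.sum_nonneg fun j _ => C0 j
  refine ⟨(∑ j, C j) * (2 * |B.S| + 1), by positivity, fun D τ hτ τ' hτ' a a' j => ?_⟩
  refine (hC j _ ⟨tm_mem' D hτ, a⟩ _ ⟨tm_mem' D hτ', a'⟩).trans (add_le_add le_rfl ?_)
  rw [mul_assoc]
  exact mul_le_mul (Finset.single_le_sum (fun j _ => C0 j) (Finset.mem_univ j))
    (dist_le P D hτ hτ') (by positivity) hs

theorem comb_le {V : Type*} [NormedAddCommGroup V] [NormedSpace ℂ V] {l g a b : ℝ} {x y : V}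
    (hl : l ∈ Icc (0 : ℝ) 1) (hg : g ∈ Icc (0 : ℝ) 1) (hx : ‖x‖ ≤ a) (hy : ‖y‖ ≤ b) :
    ‖(l : ℂ) • x + (g : ℂ) • y‖ ≤ a + b := by
  refine (norm_add_le _ _).trans (add_le_add ?_ ?_)
  · rw [norm_smul, Complex.norm_real, Real.norm_of_nonneg hl.1]
    exact (mul_le_of_le_one_left (norm_nonneg _) hl.2).trans hx
  · rw [norm_smul, Complex.norm_real, Real.norm_of_nonneg hg.1]
    exact (mul_le_of_le_one_left (norm_nonneg _) hg.2).trans hy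

/-- the modulus of the symbol away from the walls -/
theorem mod_sy [T2Space N] (h4 : LIPK) (hB : B.Ok) {d₀ η : ℝ} (hd : 0 < d₀) (hη : 0 < η) :
    ∃ C : ℝ, ∀ (D : B.Dk) (l g : ℝ), l ∈ Icc (0 : ℝ) 1 → g ∈ Icc (0 : ℝ) 1 →
      (∀ τ ∈ sphere (0 : ℂ) 1, D.φ τ ∈ P.W) →
      ∀ τ ∈ sphere (0 : ℂ) 1, ∀ τ' ∈ sphere (0 : ℂ) 1, d₀ ≤ P.d (D.φ τ) → d₀ ≤ P.d (D.φ τ') →
        Bd (η + C * ‖P.Y D τ - P.Y D τ'‖) (P.sy D l g τ - P.sy D l g τ') := by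
  have cF := (h4 _ N B.𝒜 _ P.F hB.atl P.ho).1
  have cd : ContinuousOn P.d P.K := fun y hy => by
    rw [ContinuousWithinAt, tendsto_iff_dist_tendsto_zero]
    have h3 : Tendsto (fun y' => P.C * ‖P.F y' - P.F y‖) (𝓝[P.K] y) (𝓝 (P.C * ‖P.F y - P.F y‖)) :=
      ((continuous_const.mul (cF.sub continuous_const).norm).tendsto y).mono_left
        nhdsWithin_le_nhds
    rw [sub_self, norm_zero, mul_zero] at h3
    refine squeeze_zero' (Eventually.of_forall fun _ => dist_nonneg) ?_ h3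
    filter_upwards [self_mem_nhdsWithin] with y' hy' using P.lip y' hy' y hy
  have hA : IsCompact (P.K ∩ P.d ⁻¹' Ici d₀) :=
    P.cpt.of_isClosed_subset (cd.preimage_isClosed_of_isClosed P.cpt.isClosed isClosed_Ici)
      inter_subset_left
  have hW : P.K ∩ P.d ⁻¹' Ici d₀ ⊆ P.W := fun y hy => (P.mem y hy.1).1.2 (hd.trans_le hy.2)
  obtain ⟨C₁, -, h₁⟩ := modf P h4 hB hA inter_subset_left
    (u := fun (j : Fin P.L × Fin P.L) p => P.aH p.1 p.2 j.1 j.2)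
    (fun j => (P.cH j.1 j.2).mono (prod_mono_right inter_subset_left)) (half_pos hη)
  obtain ⟨C₂, -, h₂⟩ := modf P h4 hB hA inter_subset_left
    (u := fun (j : Fin P.L × Fin P.L) p => P.ab p.1 p.2 j.1 j.2)
    (fun j => (P.ca j.1 j.2).mono (prod_mono_right hW)) (half_pos hη)
  refine ⟨C₁ + C₂, fun D l g hl hg hw τ hτ τ' hτ' a a' i j => ?_⟩
  have h := comb_le hl hg (h₁ D τ hτ τ' hτ' ⟨P.WK (hw τ hτ), a⟩ ⟨P.WK (hw τ' hτ'), a'⟩ (i, j))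
    (h₂ D τ hτ τ' hτ' ⟨P.WK (hw τ hτ), a⟩ ⟨P.WK (hw τ' hτ'), a'⟩ (i, j))
  refine le_trans (le_of_eq ?_) (h.trans_eq (by ring))
  congr 1
  simp only [Bs.Pen.sy, cv, Matrix.sub_apply, Matrix.add_apply, Matrix.smul_apply, smul_eq_mul]
  ring

/-- the modulus of the density of the time derivative -/
theorem mod_X [T2Space N] (h4 : LIPK) (hB : B.Ok) {η : ℝ} (hη : 0 < η) :
    ∃ C : ℝ, ∀ (D : B.Dk) (l g : ℝ), l ∈ Icc (0 : ℝ) 1 → g ∈ Icc (0 : ℝ) 1 →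
      (∀ τ ∈ sphere (0 : ℂ) 1, D.φ τ ∈ P.W) → ∀ τ ∈ sphere (0 : ℂ) 1, ∀ τ' ∈ sphere (0 : ℂ) 1,
        |P.X D l g τ - P.X D l g τ'| ≤ η + C * ‖P.Y D τ - P.Y D τ'‖ := by
  obtain ⟨C₁, -, h₁⟩ := modf P h4 hB P.cpt Subset.rfl
    (u := fun (_ : Unit) p => (P.h₁ p.1 p.2 : ℂ)) (fun _ => Complex.continuous_ofReal.comp_continuousOn
      (P.c₁.mono (prod_mono_left (icc_sub _)))) (half_pos hη)
  obtain ⟨C₂, -, h₂⟩ := modf P h4 hB P.cpt Subset.rfl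
    (u := fun (_ : Unit) p => (P.h₂ p.1 p.2 : ℂ)) (fun _ => Complex.continuous_ofReal.comp_continuousOn
      (P.c₂.mono (prod_mono_left (icc_sub _)))) (half_pos hη)
  refine ⟨C₁ + C₂, fun D l g hl hg hw τ hτ τ' hτ' => ?_⟩
  have h := comb_le hl hg (h₁ D τ hτ τ' hτ' (P.WK (hw τ hτ)) (P.WK (hw τ' hτ')) ())
    (h₂ D τ hτ τ' hτ' (P.WK (hw τ hτ)) (P.WK (hw τ' hτ')) ())
  refine le_trans (le_of_eq ?_) (h.trans_eq (by ring))
  rw [← Real.norm_eq_abs, ← Complex.norm_real]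
  congr 1
  simp only [Bs.Pen.X, cv, smul_eq_mul]
  push_cast
  ring

theorem cX (D : B.Dk) (l g : ℝ) (hw : ∀ τ ∈ sphere (0 : ℂ) 1, D.φ τ ∈ P.W) :
    ContinuousOn (P.X D l g) (sphere 0 1) :=
  (continuousOn_const.mul (cs_comp D (P.c₁.mono (prod_mono_left (icc_sub _)))
    fun τ hτ => P.WK (hw τ hτ))).add (continuousOn_const.mul
    (cs_comp D (P.c₂.mono (prod_mono_left (icc_sub _))) fun τ hτ => P.WK (hw τ hτ)))

/-- uniform bounds on the compact set -/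
theorem bds (hB : B.Ok) : ∃ M : ℝ, 0 ≤ M ∧ ∀ t ∈ Icc 0 B.S, ∀ y ∈ P.K,
    Bd M (P.aH t y) ∧ t * B.H t y ≤ M := by
  have hK : IsCompact (Icc 0 B.S ×ˢ P.K) := isCompact_Icc.prod P.cpt
  obtain ⟨M₁, h₁⟩ := hK.exists_bound_of_continuousOn
    (f := fun p : ℝ × N => fun i j => P.aH p.1 p.2 i j)
    (continuousOn_pi.2 fun i => continuousOn_pi.2 fun j => P.cH i j)
  obtain ⟨M₂, h₂⟩ := hK.exists_bound_of_continuousOn (f := fun p : ℝ × N => p.1 * B.H p.1 p.2)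
    (continuousOn_fst.mul (hB.cH.mono (prod_mono (icc_sub _) (subset_univ _))))
  refine ⟨|M₁| + |M₂|, by positivity, fun t ht y hy => ⟨fun i j => ?_, ?_⟩⟩
  · have h := (norm_le_pi_norm _ j).trans ((norm_le_pi_norm _ i).trans (h₁ (t, y) ⟨ht, hy⟩))
    linarith [le_abs_self M₁, abs_nonneg M₂]
  · have h := (le_abs_self _).trans (h₂ (t, y) ⟨ht, hy⟩)
    linarith [le_abs_self M₂, abs_nonneg M₁]

/-- families with a prescribed first variation -/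
theorem fam_of {D : B.Dk} {Θ : ℂ → Matrix (Fin P.L) (Fin (n + n)) ℂ}
    {T : Matrix (Fin (n + n)) (Fin (n + n)) ℂ}
    (h : ∀ (U : ℂ → Cm (n + n)) (c : ℂ → Cm (n + n)), HWv U →
      AnalyticAt ℂ c 0 → c 0 = B.e (D.φ 0) → deriv c 0 = T *ᵥ U 0 →
      ∃ (r A : ℝ) (y : ℂ → ℂ → N), Fam B.𝒜 D.φ r y ∧
        (∀ s ∈ ball (0 : ℂ) r, y s 0 = B.e.symm (c s) ∧ c s ∈ B.e.target ∧
          Dqv A fun τ => P.F (y s τ)) ∧
        ∀ τ ∈ closedBall (0 : ℂ) 1, deriv (fun s => P.F (y s τ)) 0 = Θ τ *ᵥ U τ)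
    {U : ℂ → Cm (n + n)} (hU : HWv U) {v : Cm (n + n)} (hv : v = T *ᵥ U 0) (l g ε R : ℝ) :
    ∃ y, P.Fm D v y ∧ P.sv D l g ε R y =
      av (fun τ => hf (P.sy D l g τ) (Θ τ *ᵥ U τ)) + ε * gq R fun τ => Θ τ *ᵥ U τ := by
  have hd : HasDerivAt (fun s : ℂ => B.e (D.φ 0) + s • v) v 0 := by
    simpa using ((hasDerivAt_id (0 : ℂ)).smul_const v).const_add (B.e (D.φ 0))
  obtain ⟨r, A, y, h1, h2, h3⟩ := h U (fun s => B.e (D.φ 0) + s • v) hU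
    (analyticAt_const.add (analyticAt_id.smul analyticAt_const)) (by simp) (hd.deriv.trans hv)
  refine ⟨y, ⟨r, A, h1, fun s hs => ⟨(h2 s hs).2.1, (h2 s hs).1, (h2 s hs).2.2⟩⟩, ?_⟩
  rw [Bs.Pen.sv, gq_congr R fun τ hτ => h3 τ (sphere_subset_closedBall hτ)]
  congr 1
  exact av_congr fun τ hτ => by rw [h3 τ (sphere_subset_closedBall hτ)]

end OneL

open OneL in
/-- **ONE** -/
theorem one {n : ℕ} {N : Type} [TopologicalSpace N] [T2Space N] (B : Bs n N) (hB : B.Ok)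
    (h1 : FRM) (h2 : CORE) (h3 : TIM) (h4 : LIPK) (h5 : LIN) : B.ONE := by
  intro σ l₀ P hσ hσ1 hl₀
  obtain ⟨Cf, hCf, hF⟩ := h1 n N B.𝒜 _ P.F P.K hB.atl hB.sym hB.sep P.ho P.cpt P.em
  obtain ⟨M, hM, hbd⟩ := bds P hB
  have hM' : 0 ≤ M / l₀ := by positivity
  have hPC := le_abs_self P.C
  have hPC0 := abs_nonneg P.C
  obtain ⟨δ, d₀, η, hδ, hd₀, hη, hc⟩ := h2 (Fin P.L) (Option (Fin P.L)) (Fin (n + n))
    (|P.C| + Cf + M + M / l₀) σ hσ hσ1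
  obtain ⟨C₁, hC₁⟩ := mod_sy P h4 hB hd₀ hη
  obtain ⟨κ₀, hκ₀, hc⟩ := hc C₁
  obtain ⟨C₂, hC₂⟩ := mod_X P h4 hB (by positivity : 0 < σ / 4)
  obtain ⟨C, κ₁, hκ₁, ht⟩ := h3 (Option (Fin P.L)) δ (σ / 4) C₂ hδ (by positivity)
  have hm : 0 < min κ₀ κ₁ := lt_min hκ₀ hκ₁
  set κ := min κ₀ κ₁ / (1 + Cf) with hκ
  have hκ0 : 0 < κ := by positivity
  have hκ1 : κ + Cf * κ = min κ₀ κ₁ := by rw [hκ]; field_simp
  have hκ2 : 0 ≤ Cf * κ := by positivity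
  have hκ3 : κ ≤ κ₀ := by linarith [min_le_left κ₀ κ₁]
  have hκ4 : κ ≤ κ₁ := by linarith [min_le_right κ₀ κ₁]
  have hκ5 : Cf * κ ≤ κ₀ := by linarith [min_le_left κ₀ κ₁]
  refine ⟨κ, C, hκ0, fun R ε l g D q hR hε hεκ hl hg hq hw hY hPi hsv => ?_⟩
  have hR0 : 0 ≤ R := by linarith
  have hl0 : 0 < l := hl₀.trans_le hl.1
  have hl' : l ∈ Icc (0 : ℝ) 1 := ⟨hl0.le, hl.2⟩
  have hK : ∀ τ ∈ sphere (0 : ℂ) 1, D.φ τ ∈ P.K := fun τ hτ => P.WK (hw τ hτ)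
  obtain ⟨Θ, π, fr, dΘ, bπ⟩ := hF D.φ (κ * R) D.dn hK fun l => hY (some l)
  obtain ⟨p, p1, p2, p3, p4, p5⟩ := ht R (P.Y D) (P.X D l g) hR
    (fun i => (hY i).mono (mul_le_mul_of_nonneg_right hκ4 hR0)) (cX P D l g hw)
    (hC₂ D l g hl' hg hw)
  obtain ⟨T, hT, hTπ, hfam⟩ := fr.fam B.e hB.he hq.1
  have cH : ContinuousOn (fun τ => B.H (tm (D.ζ τ)) (D.φ τ)) (sphere 0 1) :=
    cs_comp D (hB.cH.mono (prod_mono_left (icc_sub _))) fun _ _ => mem_univ _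
  have pH : ∀ τ ∈ sphere (0 : ℂ) 1, 0 < B.H (tm (D.ζ τ)) (D.φ τ) := fun τ hτ =>
    hB.pH _ (icc_sub _ (tm_mem' D hτ)) _ (D.ne τ hτ)
  have cb : ContinuousOn (fun τ => P.b (tm (D.ζ τ)) (D.φ τ)) (sphere 0 1) :=
    cs_comp D (P.cb.mono (prod_mono_left (icc_sub _))) hw
  have cw : ContinuousOn (fun τ => P.w (tm (D.ζ τ)) (D.φ τ)) (sphere 0 1) := cs_comp D P.cw hw
  have hb : 6 * av (fun τ => P.b (tm (D.ζ τ)) (D.φ τ)) ≤ σ := by
    have := P.T_nn D.φ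
    rw [Bs.Pen.Pi] at hPi
    linarith
  have wl := fun τ hτ => P.wall _ (tm_mem' D hτ) _ (hw τ hτ)
  have dat : Dat (|P.C| + Cf + M + M / l₀) σ δ d₀ η C₁ (κ₀ * R) (P.Y D) Θ π (P.sy D l g)
      (fun τ => P.d (D.φ τ)) (fun τ => P.b (tm (D.ζ τ)) (D.φ τ))
      (fun τ => Real.exp (2 * (D.ζ τ).re) * (B.H (tm (D.ζ τ)) (D.φ τ) / l)) (P.X D l g)
      (fun τ => P.w (tm (D.ζ τ)) (D.φ τ)) ((av fun τ => P.X D l g τ * (p τ).re) + σ) := by
    refine ⟨fun i => (hY i).mono (mul_le_mul_of_nonneg_right hκ3 hR0),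
      dΘ.mono (by rw [← mul_assoc]; exact mul_le_mul_of_nonneg_right hκ5 hR0), fr.iso,
      fun i j => (fr.hπ i j).cs, fun i j => ?_, ⟨cb, fun τ hτ => ?_, fun τ hτ τ' hτ' => ?_⟩,
      by linarith, (cv_cont D).fst.mul (cH.div_const l), cX P D l g hw, cw, fun τ hτ => ?_,
      hC₁ D l g hl' hg hw, fun τ hτ => ?_, ?_, ?_⟩
    · exact (continuousOn_const.mul (cs_comp D (P.cH i j) hK)).add
        (continuousOn_const.mul (cs_comp D (P.ca i j) hw))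
    · refine ⟨(P.mem _ (hK τ hτ)).1.1 (hw τ hτ), (wl τ hτ).1, (wl τ hτ).2.1.trans ?_⟩
      exact mul_le_mul_of_nonneg_right (by linarith) (by linarith [(wl τ hτ).1])
    · refine (P.lip _ (hK τ hτ) _ (hK τ' hτ')).trans ?_
      exact mul_le_mul (by linarith) (F_le P D τ τ') (norm_nonneg _) (by linarith)
    · have d0 := (P.mem _ (hK τ hτ)).1.1 (hw τ hτ)
      have d1 := (P.mem _ (hK τ hτ)).2
      have d2 : 1 ≤ (P.d (D.φ τ) ^ 6)⁻¹ := (one_le_inv₀ (by positivity)).2 (pow_le_one₀ d0.le d1)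
      obtain ⟨b1, b2⟩ := hbd _ (tm_mem' D hτ) _ (hK τ hτ)
      refine ⟨?_, fun i j => (bπ τ hτ i j).trans (by linarith), fun i j => ?_,
        mul_pos (Real.exp_pos _) (div_pos (pH τ hτ) hl0), ?_, d1⟩
      · exact ((wl τ hτ).2.2.1.smul (by simp [IsSelfAdjoint])).add
          ((wl τ hτ).2.2.2.1.smul (by simp [IsSelfAdjoint]))
      · refine (comb_le hl' hg (b1 i j) ((wl τ hτ).2.2.2.2.1 i j)).trans ?_
        nlinarith [mul_le_mul_of_nonneg_left d2 hM, mul_le_mul_of_nonneg_left d2 hM',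
          mul_le_mul_of_nonneg_left d2 hCf,
          mul_le_mul_of_nonneg_right hPC (zero_le_one.trans d2)]
      · rw [← mul_div_assoc]
        refine le_trans (div_le_div₀ hM b2 hl₀ hl.1) (by linarith)
    · obtain ⟨e, he, hy⟩ := hB.atl.cov (D.φ τ)
      rw [← (h5.2.2 _ _ (Θ τ) (π τ) _).1, fr.poi τ hτ e he hy, (h5.2.2 _ _ _ (pz n) _).1]
      exact P.pde _ (tm_mem D hτ) _ (hw τ hτ) e he hy l hl g hg
    · rwa [show 4 * (σ / 4) = σ by ring] at p5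
    · refine le_trans (av_mono ?_ (continuousOn_const.mul cb) fun τ hτ => (wl τ hτ).2.2.2.2.2) ?_
      · refine ContinuousOn.log (continuousOn_const.add (ContinuousOn.div_const
          (continuous_max.comp_continuousOn ((cw.sub continuousOn_const).prodMk
            continuousOn_const)) σ)) fun τ _ => ?_
        positivity
      · rw [show (fun _ => (6 : ℝ)) * (fun τ => P.b (tm (D.ζ τ)) (D.φ τ)) =
          fun τ => 6 * P.b (tm (D.ζ τ)) (D.φ τ) from rfl, av_mul_real]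
        exact hb
  obtain ⟨ct, c1, c2, c3, c4⟩ := hc R ε (P.Y D) Θ π (P.sy D l g) D.ζ _ _
    (fun τ => B.H (tm (D.ζ τ)) (D.φ τ) / l) _ _ _ hR hε (hεκ.trans hκ3) fr.hΘ
    (fun i j => (fr.hπ i j).da) D.da (cH.div_const l) (fun τ hτ => div_pos (pH τ hτ) hl0) dat
    fun U hU hU0 => by
      obtain ⟨y, y1, y2⟩ := fam_of P hfam hU (v := 0) (by rw [hU0, Matrix.mulVec_zero]) l g ε R
      exact y2 ▸ hsv y y1
  have hTu : IsUnit T.det := isUnit_iff_ne_zero.2 hT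
  refine ⟨p, T⁻¹ᴴ * ct * T⁻¹, p1, p2, p3, p4, c1.conjTranspose_mul_mul_same
    (Matrix.mulVec_injective_iff_isUnit.2 ((Matrix.isUnit_iff_isUnit_det _).2
      (T.isUnit_nonsing_inv_det hTu))), by linarith, ?_, fun v => ?_⟩
  · have e1 : Tᴴ * (T⁻¹ᴴ * ct * T⁻¹) * T = ct := by
      rw [← Matrix.mul_assoc, ← Matrix.mul_assoc, ← Matrix.conjTranspose_mul,
        Matrix.nonsing_inv_mul _ hTu, Matrix.conjTranspose_one, Matrix.one_mul, Matrix.mul_assoc,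
        Matrix.nonsing_inv_mul _ hTu, Matrix.mul_one]
    have e2 : av (fun τ => Real.log (B.H (tm (D.ζ τ)) (D.φ τ) / l)) = D.γ - Real.log l := by
      rw [av_congr fun τ hτ => Real.log_div (pH τ hτ).ne' hl0.ne',
        av_sub (cH.log fun τ hτ => (pH τ hτ).ne') continuousOn_const, av_const]
      rfl
    rw [← hTπ, (h5.2.2 _ _ T (π 0) _).1, e1, ← hq.2.2]
    refine c3.trans_eq ?_
    rw [e2, show 2 * σ - (D.γ - Real.log l) = Real.log l + -D.γ + 2 * σ by ring, Real.exp_add,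
      Real.exp_add, Real.exp_log hl0]
    ring
  · obtain ⟨U, hU, hU0, hle⟩ := c4 (T⁻¹ *ᵥ v)
    obtain ⟨y, y1, y2⟩ := fam_of P hfam hU (v := v) (by
      rw [hU0, Matrix.mulVec_mulVec, Matrix.mul_nonsing_inv _ hTu, Matrix.one_mulVec]) l g ε R
    refine ⟨y, y1, ?_⟩
    rw [y2, (h5.2.2 _ _ T⁻¹ (pz n) ct).2.1 v]
    exact hle

end Vale.Agent.P253W.A
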