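import Vale.Agent.P253W.A.Defs0

/-!
# P253W, block A: the gauge of a product (`PRD`)
-/

open Complex Metric Set Filter Topology MeasureTheory
open scoped Matrix ComplexConjugate ComplexOrder

noncomputable section

namespace Vale.Agent.P253W.A

open WM

namespace Prd

/-- averaging the integrals over the arcs of length `k` -/
theorem per_int {F : ℝ → ℝ} {T : ℝ} (hp : Function.Periodic F T)
    (hi : ∀ a b, IntervalIntegrable F volume a b) (k : ℝ) :
    Continuous (fun s => ∫ t in s..s + k, F t) ∧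
      ∫ s in (0 : ℝ)..T, (∫ t in s..s + k, F t) = k * ∫ t in (0 : ℝ)..T, F t := by
  set G : ℝ → ℝ := fun x => ∫ t in (0 : ℝ)..x, F t with hG
  have hc : Continuous G := intervalIntegral.continuous_primitive hi 0
  have e : ∀ s r : ℝ, ∫ t in s..r, F t = G r - G s := fun s r =>
    (intervalIntegral.integral_interval_sub_left (hi 0 r) (hi 0 s)).symm
  have e1 : (fun s => ∫ t in s..s + k, F t) = fun s => G (s + k) - G s := funext fun s => e _ _
  have hc1 : Continuous fun s => G (s + k) := hc.comp (continuous_add_const k)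
  have hc2 : Continuous fun s => G (s + T) := hc.comp (continuous_add_const T)
  refine ⟨by rw [e1]; exact hc1.sub hc, ?_⟩
  rw [e1, intervalIntegral.integral_sub (hc1.intervalIntegrable _ _) (hc.intervalIntegrable _ _),
    intervalIntegral.integral_comp_add_right G k]
  have e2 := intervalIntegral.integral_interval_sub_interval_comm' (μ := volume)
    (a := k) (b := T + k) (c := 0) (d := T) (hc.intervalIntegrable _ _)
    (hc.intervalIntegrable _ _) (hc.intervalIntegrable _ _)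
  have e3 := intervalIntegral.integral_comp_add_right (a := 0) (b := k) G T
  rw [zero_add, add_comm k T] at e3
  rw [zero_add, e2, ← e3,
    ← intervalIntegral.integral_sub (hc2.intervalIntegrable _ _) (hc.intervalIntegrable _ _)]
  have e4 : ∀ s : ℝ, G (s + T) - G s = ∫ t in (0 : ℝ)..T, F t := fun s => by
    rw [← e, hp.intervalIntegral_add_eq s 0, zero_add]
  simp only [e4, intervalIntegral.integral_const, sub_zero, smul_eq_mul]

theorem ci_all {m : ℂ → ℝ} (hm : CircleIntegrable m 0 1) (a b : ℝ) :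
    IntervalIntegrable (fun s => m (circleMap 0 1 s)) volume a b :=
  Function.Periodic.intervalIntegrable₀ ((periodic_circleMap 0 1).comp m)
    Real.two_pi_pos.ne' hm a b

theorem ci_mul {m v : ℂ → ℝ} (hm : CircleIntegrable m 0 1) (hv : ContinuousOn v (sphere 0 1)) :
    CircleIntegrable (fun τ => m τ * v τ) 0 1 :=
  hm.mul_continuousOn (by simpa using hv)

/-- the weighted estimate for the difference quotients -/
theorem wt {θ : ℂ → ℂ} {m v : ℂ → ℝ} (hθ : ContinuousOn θ (sphere 0 1)) (h0 : ∀ τ, 0 ≤ m τ)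
    (hm : CircleIntegrable m 0 1) (hv : ContinuousOn v (sphere 0 1))
    (hd : ∀ a b : ℝ, a ≤ b → ‖θ (circleMap 0 1 b) - θ (circleMap 0 1 a)‖ ^ 2 ≤
      (b - a) * ∫ s in a..b, m (circleMap 0 1 s)) (e : ℝ) (he : 0 < e) :
    ∃ δ : ℝ, 0 < δ ∧ ∀ k ∈ Ioo (0 : ℝ) δ, av (fun τ => (‖θ (rt k τ) - θ τ‖ * v τ) ^ 2) ≤
      (av (fun τ => m τ * v τ ^ 2) + e) * k ^ 2 := by
  have hm0 : 0 ≤ av m := av_nonneg fun τ _ => h0 τ
  set e' := e / (av m + 1) with he'
  have he0 : 0 < e' := by positivity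
  have hv2 : ContinuousOn (fun τ => v τ ^ 2) (sphere 0 1) := hv.pow 2
  obtain ⟨δ, hδ, hu⟩ := Metric.uniformContinuousOn_iff.1
    ((isCompact_sphere (0 : ℂ) 1).uniformContinuousOn_of_continuous hv2) e' he0
  refine ⟨δ, hδ, fun k hk => ?_⟩
  have hF : CircleIntegrable (fun τ => m τ * (v τ ^ 2 + e')) 0 1 :=
    ci_mul hm (hv2.add continuousOn_const)
  obtain ⟨c1, c2⟩ := per_int (F := fun s => m (circleMap 0 1 s) * (v (circleMap 0 1 s) ^ 2 + e'))
    ((periodic_circleMap 0 1).comp fun τ => m τ * (v τ ^ 2 + e')) (ci_all hF) k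
  have key : ∀ s : ℝ, (‖θ (rt k (circleMap 0 1 s)) - θ (circleMap 0 1 s)‖ *
      v (circleMap 0 1 s)) ^ 2 ≤
      k * ∫ t in s..s + k, m (circleMap 0 1 t) * (v (circleMap 0 1 t) ^ 2 + e') := by
    intro s
    have h1 := hd s (s + k) (by linarith [hk.1])
    rw [add_sub_cancel_left] at h1
    rw [rt_cm, mul_pow]
    refine (mul_le_mul_of_nonneg_right h1 (sq_nonneg _)).trans ?_
    rw [mul_assoc, ← intervalIntegral.integral_mul_const]
    refine mul_le_mul_of_nonneg_left ?_ hk.1.le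
    refine intervalIntegral.integral_mono_on (by linarith [hk.1])
      ((ci_all hm _ _).mul_const _) (ci_all hF _ _) fun t ht => ?_
    refine mul_le_mul_of_nonneg_left ?_ (h0 _)
    have h2 : dist (circleMap 0 1 t) (circleMap 0 1 s) < δ := by
      have h3 := norm_rt_sub (t - s) (sphere_subset_closedBall (cm_mem s))
      rw [rt_cm, add_sub_cancel, abs_of_nonneg (by linarith [ht.1])] at h3
      rw [dist_eq_norm]
      linarith [ht.2, hk.2]
    have h4 := hu _ (cm_mem t) _ (cm_mem s) h2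
    rw [Real.dist_eq, abs_lt] at h4
    linarith [h4.1]
  have hc : ContinuousOn (fun τ => (‖θ (rt k τ) - θ τ‖ * v τ) ^ 2) (sphere 0 1) :=
    ((((cs_rt hθ k).sub hθ).norm).mul hv).pow 2
  have h5 : av (fun τ => (‖θ (rt k τ) - θ τ‖ * v τ) ^ 2) ≤
      k ^ 2 * av (fun τ => m τ * (v τ ^ 2 + e')) := by
    simp only [av, Real.circleAverage, smul_eq_mul]
    have h6 := intervalIntegral.integral_mono_on (μ := volume) Real.two_pi_pos.le (ci hc)
      ((c1.const_mul k).intervalIntegrable 0 (2 * Real.pi)) fun s _ => key s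
    rw [intervalIntegral.integral_const_mul, c2] at h6
    have h7 : (0 : ℝ) ≤ (2 * Real.pi)⁻¹ := (inv_pos.2 Real.two_pi_pos).le
    refine (mul_le_mul_of_nonneg_left h6 h7).trans_eq ?_
    ring
  have h8 : av (fun τ => m τ * (v τ ^ 2 + e')) = av (fun τ => m τ * v τ ^ 2) + e' * av m := by
    rw [← av_mul_real]
    refine Eq.trans (av_congr fun τ _ => ?_)
      (Real.circleAverage_fun_add (ci_mul hm hv2) (hm.const_fun_smul (a := e')))
    ring
  have h9 : e' * av m ≤ e := by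
    rw [he', div_mul_eq_mul_div, div_le_iff₀ (by positivity)]
    nlinarith
  rw [h8] at h5
  nlinarith [sq_nonneg k]

/-- the scalar product rule with the energy density of one factor -/
theorem dq_mul {θ u : ℂ → ℂ} {m : ℂ → ℝ} {B : ℝ} (hθ : ContinuousOn θ (sphere 0 1))
    (h1 : ∀ τ ∈ sphere (0 : ℂ) 1, ‖θ τ‖ ≤ 1) (h0 : ∀ τ, 0 ≤ m τ) (hm : CircleIntegrable m 0 1)
    (hd : ∀ a b : ℝ, a ≤ b → ‖θ (circleMap 0 1 b) - θ (circleMap 0 1 a)‖ ^ 2 ≤
      (b - a) * ∫ s in a..b, m (circleMap 0 1 s)) (hu : Dq B u) :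
    Dq (B + √(av fun τ => m τ * ‖u τ‖ ^ 2)) fun τ => θ τ * u τ := by
  have hB := hu.nonneg
  have hw : ContinuousOn (fun τ => θ τ * u τ) (sphere 0 1) := hθ.mul hu.cs
  refine Dq.of_small (by positivity) hw fun e he => ?_
  obtain ⟨δ, hδ, h⟩ := wt hθ h0 hm hu.cs.norm hd (e ^ 2) (by positivity)
  refine ⟨δ, hδ, fun k hk => ?_⟩
  have hk0 := hk.1
  set M := √(av fun τ => m τ * ‖u τ‖ ^ 2) with hM
  have hM0 : 0 ≤ M := Real.sqrt_nonneg _
  have hM2 : M ^ 2 = av fun τ => m τ * ‖u τ‖ ^ 2 :=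
    Real.sq_sqrt (av_nonneg fun τ _ => mul_nonneg (h0 τ) (sq_nonneg _))
  have c1 := cs_dist hu.cs k
  have c2 : ContinuousOn (fun τ => ‖θ (rt k τ) - θ τ‖ * ‖u τ‖) (sphere 0 1) :=
    (((cs_rt hθ k).sub hθ).norm).mul hu.cs.norm
  have h2 : av (fun τ => (‖θ (rt k τ) - θ τ‖ * ‖u τ‖) ^ 2) ≤ ((M + e) * k) ^ 2 := by
    refine (h k hk).trans ?_
    rw [← hM2, mul_pow]
    refine mul_le_mul_of_nonneg_right ?_ (sq_nonneg k)
    nlinarith [mul_nonneg hM0 he.le]
  have h3 := av_sq_add_le c1 c2 (by positivity) (by positivity) (hu.le k) h2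
  refine le_trans (av_mono ((cs_dist hw k).pow 2) ((c1.add c2).pow 2) fun τ hτ => ?_)
    (h3.trans_eq (by ring))
  refine pow_le_pow_left₀ dist_nonneg ?_ 2
  have e1 : θ (rt k τ) * u (rt k τ) - θ τ * u τ =
      θ (rt k τ) * (u (rt k τ) - u τ) + (θ (rt k τ) - θ τ) * u τ := by ring
  rw [Pi.add_apply, dist_eq_norm, dist_eq_norm, e1]
  refine (norm_add_le _ _).trans (add_le_add ?_ (norm_mul_le _ _))
  rw [norm_mul]
  exact mul_le_of_le_one_left (norm_nonneg _) (h1 _ (rt_mem k hτ))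

theorem sum_sq_eq {ι : Type*} [Fintype ι] (w : ι → ℂ) :
    ∑ i, ‖w i‖ ^ 2 = (star w ⬝ᵥ w).re := by
  simp only [dotProduct, Pi.star_apply, re_sum, RCLike.star_def]
  refine Finset.sum_congr rfl fun i _ => ?_
  rw [Complex.conj_mul', ← Complex.ofReal_pow, Complex.ofReal_re]

theorem iso_sq {ι q : Type*} [Fintype ι] [Fintype q] [DecidableEq q] {T : Matrix ι q ℂ}
    (hT : Tᴴ * T = 1) (w : q → ℂ) : ∑ i, ‖(T *ᵥ w) i‖ ^ 2 = ∑ j, ‖w j‖ ^ 2 := by
  rw [sum_sq_eq, sum_sq_eq, Matrix.star_mulVec, Matrix.dotProduct_mulVec, Matrix.vecMul_vecMul,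
    hT, Matrix.vecMul_one]

theorem iso_entry {ι q : Type*} [Fintype ι] [Fintype q] [DecidableEq q] {T : Matrix ι q ℂ}
    (hT : Tᴴ * T = 1) (i : ι) (j : q) : ‖T i j‖ ≤ 1 := by
  have h := iso_sq hT (Pi.single j 1)
  simp only [Matrix.mulVec_single_one, Matrix.col_apply] at h
  have h2 : ∑ l, ‖(Pi.single j (1 : ℂ) : q → ℂ) l‖ ^ 2 = 1 := by
    rw [Finset.sum_eq_single j (fun l _ hl => by simp [hl]) (by simp)]
    simp
  have h3 : ‖T i j‖ ^ 2 ≤ 1 := by
    rw [← h2, ← h]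
    exact Finset.single_le_sum (f := fun l => ‖T l j‖ ^ 2) (fun _ _ => sq_nonneg _)
      (Finset.mem_univ i)
  exact (sq_le_one_iff₀ (norm_nonneg _)).1 h3

end Prd

open Prd in
/-- **PRD** -/
theorem prd (h1 : DENS) (h2 : ENQ) : PRD := by
  intro ι q _ _ _
  set a : ℝ := (Fintype.card ι : ℝ) with ha
  set b : ℝ := (Fintype.card q : ℝ) with hb
  have ha0 : 0 ≤ a := Nat.cast_nonneg _
  have hb0 : 0 ≤ b := Nat.cast_nonneg _
  refine ⟨1 + a * b + 2 * a * b ^ 2, by positivity, fun L Θ hΘ hiso => ?_⟩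
  choose m m0 mi mL md using fun i j => h1 _ L (hΘ i j)
  have hmi : CircleIntegrable (fun τ => ∑ i, ∑ j, m i j τ) 0 1 :=
    CircleIntegrable.fun_sum _ fun i _ => CircleIntegrable.fun_sum _ fun j _ => mi i j
  have hm0 : ∀ τ, 0 ≤ ∑ i, ∑ j, m i j τ := fun τ =>
    Finset.sum_nonneg fun i _ => Finset.sum_nonneg fun j _ => m0 i j τ
  refine ⟨fun τ => ∑ i, ∑ j, m i j τ, hm0, hmi, ?_, fun N B U hN hU => ?_⟩
  · have e : av (fun τ => ∑ i, ∑ j, m i j τ) = ∑ i, ∑ j, av (m i j) := by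
      rw [av, Real.circleAverage_fun_sum fun i _ => CircleIntegrable.fun_sum _ fun j _ => mi i j]
      exact Finset.sum_congr rfl fun i _ => Real.circleAverage_fun_sum fun j _ => mi i j
    rw [e]
    have h3 : ∑ i, ∑ j, av (m i j) ≤ ∑ _i : ι, ∑ _j : q, L ^ 2 :=
      Finset.sum_le_sum fun i _ => Finset.sum_le_sum fun j _ => mL i j
    simp only [Finset.sum_const, Finset.card_univ, nsmul_eq_mul] at h3
    refine h3.trans ?_
    rw [← ha, ← hb, ← mul_assoc]
    refine mul_le_mul_of_nonneg_right ?_ (sq_nonneg L)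
    nlinarith [mul_nonneg ha0 (sq_nonneg b)]
  · set S : ℂ → ℝ := fun τ => ∑ j, ‖U τ j‖ ^ 2 with hS
    have cS : ContinuousOn S (sphere 0 1) :=
      continuousOn_finsetSum _ fun j _ => (hU j).cs.norm.pow 2
    set W : ℝ := av fun τ => (∑ i, ∑ j, m i j τ) * S τ with hW
    have hW0 : 0 ≤ W :=
      av_nonneg fun τ _ => mul_nonneg (hm0 τ) (Finset.sum_nonneg fun j _ => sq_nonneg _)
    have hdq : ∀ i, Dq (∑ _j : q, (|B| + √W)) fun τ => (Θ τ *ᵥ U τ) i := fun i => by
      refine Dq.sum Finset.univ (u := fun j τ => Θ τ i j * U τ j) fun j _ => ?_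
      refine (dq_mul (hΘ i j).cs (fun τ hτ => iso_entry (hiso τ hτ) i j) (m0 i j) (mi i j)
        (md i j) (hU j)).mono (add_le_add (le_abs_self B) (Real.sqrt_le_sqrt ?_))
      refine Real.circleAverage_mono (ci_mul (mi i j) ((hU j).cs.norm.pow 2)) (ci_mul hmi cS)
        fun τ _ => mul_le_mul ?_ ?_ (sq_nonneg _) (hm0 τ)
      · refine le_trans ?_ (Finset.single_le_sum (f := fun i => ∑ j, m i j τ)
          (fun i _ => Finset.sum_nonneg fun j _ => m0 i j τ) (Finset.mem_univ i))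
        exact Finset.single_le_sum (f := fun j => m i j τ) (fun j _ => m0 i j τ)
          (Finset.mem_univ j)
      · exact Finset.single_le_sum (f := fun j => ‖U τ j‖ ^ 2) (fun j _ => sq_nonneg _)
          (Finset.mem_univ j)
    have hen : ∀ i, en (fun τ => (Θ τ *ᵥ U τ) i) ≤ 2 * b ^ 2 * (B ^ 2 + W) := fun i => by
      refine ((h2 _ _).1 (hdq i)).2.2.2.trans ?_
      simp only [Finset.sum_const, Finset.card_univ, nsmul_eq_mul]
      rw [← hb, mul_pow]
      have h4 : (|B| + √W) ^ 2 ≤ 2 * (B ^ 2 + W) := by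
        nlinarith [sq_abs B, Real.sq_sqrt hW0, sq_nonneg (|B| - √W)]
      nlinarith [sq_nonneg b]
    have hl2 : ∑ i, l2 (fun τ => (Θ τ *ᵥ U τ) i) = av S := by
      rw [← av_congr fun τ hτ => iso_sq (hiso τ hτ) (U τ)]
      exact (av_sum Finset.univ (u := fun i τ => ‖(Θ τ *ᵥ U τ) i‖ ^ 2)
        fun i _ => (hdq i).cs.norm.pow 2).symm
    rw [gq, Finset.sum_add_distrib, hl2, ← Finset.sum_div]
    refine add_le_add le_rfl (div_le_div_of_nonneg_right ?_ (sq_nonneg N))
    refine (Finset.sum_le_sum fun i _ => hen i).trans ?_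
    simp only [Finset.sum_const, Finset.card_univ, nsmul_eq_mul]
    rw [← ha]
    have h5 : 0 ≤ B ^ 2 + W := by positivity
    nlinarith [mul_nonneg (mul_nonneg ha0 hb0) h5]

end Vale.Agent.P253W.A
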