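import Vale.Agent.P253W.A.SymB

/-!
# P253W, block A, row SYM
-/

open Complex Metric Set Filter Topology MeasureTheory
open scoped Matrix ComplexConjugate ComplexOrder ENNReal

noncomputable section

namespace Vale.Agent.P253W.A

open WM

namespace Sy

variable {q : Type} [Fintype q] [DecidableEq q]

omit [Fintype q] in
theorem cvm_add (ν : Measure ℝ) {a : ℂ → Matrix q q ℂ} {r : ℂ → ℝ} {τ : ℂ}
    (ha : ∀ i j, Integrable (fun h => a (rt h τ) i j) ν)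
    (hr : Integrable (fun h => r (rt h τ)) ν) :
    cvm ν (fun σ => a σ + (r σ : ℂ) • (1 : Matrix q q ℂ)) τ =
      cvm ν a τ + ((cv ν r τ : ℝ) : ℂ) • (1 : Matrix q q ℂ) := by
  have hr' : Integrable (fun h => ((r (rt h τ) : ℝ) : ℂ)) ν := hr.ofReal
  ext i j
  simp only [cvm, Matrix.of_apply, Matrix.add_apply, Matrix.smul_apply, smul_eq_mul, cv]
  rw [integral_add (ha i j) (hr'.mul_const _), integral_mul_const, integral_complex_ofReal]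

omit [Fintype q] in
theorem herm_add {a : Matrix q q ℂ} (ha : a.IsHermitian) (t : ℝ) :
    (a + (t : ℂ) • (1 : Matrix q q ℂ)).IsHermitian :=
  ha.add (herm_smul Matrix.isHermitian_one t)

theorem hf_add_one (a : Matrix q q ℂ) (t : ℝ) (w : q → ℂ) :
    hf (a + (t : ℂ) • (1 : Matrix q q ℂ)) w = hf a w + t * ∑ j, ‖w j‖ ^ 2 := by
  rw [hf_add, hf_smul, hf_one]

omit [DecidableEq q] in
theorem cs_sq {U : ℂ → q → ℂ} (hU : ∀ j, ContinuousOn (fun τ => U τ j) (sphere 0 1)) :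
    ContinuousOn (fun τ => ∑ j, ‖U τ j‖ ^ 2) (sphere 0 1) :=
  continuousOn_finsetSum _ fun j _ => (hU j).norm.pow 2

/-- the outer factor and its extremal vectors -/
theorem fac (h2 : WME) (h5 : APR) {A : ℂ → Matrix q q ℂ} {μ L δ : ℝ} (hμ : 0 < μ) (hL : 0 ≤ L)
    (hδ : 0 < δ) (hW : ∀ i j, W12 fun τ => A τ i j)
    (hA : ∀ τ ∈ sphere (0 : ℂ) 1, (A τ).IsHermitian ∧ ∀ w, μ * ∑ j, ‖w j‖ ^ 2 ≤ hf (A τ) w ∧
      ∀ h : ℝ, |h| ≤ δ →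
        hf (A (rt h τ)) w + hf (A (rt (-h) τ)) w ≤ (2 + (L * h) ^ 2) * hf (A τ) w) :
    ∃ Ψ : ℂ → Matrix q q ℂ, HWm Ψ ∧ (Ψ 0).det ≠ 0 ∧
      (∀ τ ∈ sphere (0 : ℂ) 1, (Ψ τ)ᴴ * Ψ τ = A τ) ∧ ∀ w : q → ℂ, ∃ (U : ℂ → q → ℂ) (B : ℝ),
        HWv U ∧ U 0 = w ∧ Dqv B U ∧ B ^ 2 = L ^ 2 / μ * hf ((Ψ 0)ᴴ * Ψ 0) w ∧
        0 ≤ hf ((Ψ 0)ᴴ * Ψ 0) w ∧
        ∀ τ ∈ sphere (0 : ℂ) 1, hf (A τ) (U τ) = hf ((Ψ 0)ᴴ * Ψ 0) w := by
  have hs : ∀ τ ∈ sphere (0 : ℂ) 1, (A τ - (μ : ℂ) • (1 : Matrix q q ℂ)).PosSemidef := by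
    intro τ hτ
    refine psd_of_hf ((hA τ hτ).1.sub (herm_smul Matrix.isHermitian_one μ)) fun w => ?_
    rw [hf_sub, hf_smul, hf_one, sub_nonneg]
    exact ((hA τ hτ).2 w).1
  obtain ⟨Φ, Ψ, hΦ, hΨ, e1, e2⟩ := h2 q A hW fun τ hτ => by
    have := (Matrix.PosDef.one.smul (Complex.zero_lt_real.2 hμ)).add_posSemidef (hs τ hτ)
    rwa [add_sub_cancel] at this
  have e3 : ∀ τ ∈ sphere (0 : ℂ) 1, (Φ τ)ᴴ * A τ * Φ τ = 1 := fun τ hτ => by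
    have := mul_eq_one_comm.1 (e1 τ (sphere_subset_closedBall hτ))
    rw [← e2 τ hτ, ← Matrix.mul_assoc, ← Matrix.conjTranspose_mul, Matrix.mul_assoc, this]
    simp
  have h0 : (0 : ℂ) ∈ closedBall (0 : ℂ) 1 := mem_closedBall_self zero_le_one
  refine ⟨Ψ, hΨ, (Matrix.isUnit_det_of_left_inverse (e1 0 h0)).ne_zero, e2, fun w => ?_⟩
  have e4 : hf ((Ψ 0)ᴴ * Ψ 0) w = ∑ j, ‖(Ψ 0 *ᵥ w) j‖ ^ 2 := by
    rw [← hf_one, ← hf_conj, Matrix.mul_one]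
  have hd := h5 q A Φ μ L δ hμ hL hδ (fun i j => (hW i j).cs) hΦ.da
    (fun τ hτ => (Matrix.isUnit_det_of_right_inverse (e1 τ hτ)).ne_zero)
    (fun τ hτ => ⟨hs τ hτ, e3 τ hτ, fun h hh => psd_of_hf (((herm_smul (hA τ hτ).1 _).sub
      (hA _ (rt_mem h hτ)).1).sub (hA _ (rt_mem (-h) hτ)).1) fun v => by
        rw [hf_sub, hf_sub, hf_smul]
        linarith [((hA τ hτ).2 v).2 h hh]⟩) (Ψ 0 *ᵥ w)
  have hn : 0 ≤ ∑ j, ‖(Ψ 0 *ᵥ w) j‖ ^ 2 := by positivity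
  refine ⟨fun τ => Φ τ *ᵥ (Ψ 0 *ᵥ w), _, hΦ.mulVec (v := fun _ => Ψ 0 *ᵥ w) fun j => hw_const _,
    ?_, hd, ?_, hn.trans_eq e4.symm, fun τ hτ => ?_⟩
  · beta_reduce
    rw [Matrix.mulVec_mulVec, e1 0 h0, Matrix.one_mulVec]
  · rw [div_pow, mul_pow, Real.sq_sqrt hn, Real.sq_sqrt hμ.le, e4]
    ring
  · rw [← hf_conj, e3 τ hτ, hf_one, e4]

omit [DecidableEq q] in
/-- testing with the bumps -/
theorem pos1 {k : ℂ → ℂ} (hk : HW k) (k0 : k 0 = 0) (kl : l2 k = 1) {D ε e : ℝ} (kd : Dq D k)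
    {b : ℂ → Matrix q q ℂ} (hb : ∀ i j, CircleIntegrable (fun τ => b τ i j) 0 1)
    (h : ∀ (U : ℂ → q → ℂ) (B : ℝ), HWv U → U 0 = 0 → Dqv B U →
      0 ≤ av (fun τ => hf (b τ) (U τ)) + ε * av (fun τ => ∑ j, ‖U τ j‖ ^ 2) + e * B ^ 2)
    {τ : ℂ} (hτ : τ ∈ sphere (0 : ℂ) 1) (w : q → ℂ) :
    0 ≤ hf (cvm (nu1 k) b τ) w + (ε + e * D ^ 2) * ∑ j, ‖w j‖ ^ 2 := by
  have hn : 0 ≤ ∑ j, ‖w j‖ ^ 2 := by positivity
  have e1 : hf (cvm (nu1 k) b τ) w = cv (nu1 k) (fun σ => hf (b σ) w) τ :=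
    hf_int (fun i j => int_nu1 hk.cs (hb i j) hτ) w
  obtain ⟨θ, rfl⟩ := exists_cm hτ
  have h1 := h (fun σ => k (rt (-θ) σ) • w) (√(∑ j, ‖w j‖ ^ 2) * D)
    (fun j => (hk.rt (-θ)).mul (hw_const (w j))) (by simp only [rt_zero', k0, zero_smul])
    fun j => (((kd.rot (-θ)).const_mul (w j)).mono (mul_le_mul_of_nonneg_right
      (Real.le_sqrt_of_sq_le (Finset.single_le_sum (f := fun j => ‖w j‖ ^ 2)
        (fun _ _ => by positivity) (Finset.mem_univ j))) kd.nonneg)).congr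
      fun σ _ => mul_comm _ _
  have e2 : av (fun σ => ∑ j, ‖(k (rt (-θ) σ) • w) j‖ ^ 2) = ∑ j, ‖w j‖ ^ 2 := by
    have : av (fun σ => (∑ j, ‖w j‖ ^ 2) * ‖k (rt (-θ) σ)‖ ^ 2) = ∑ j, ‖w j‖ ^ 2 := by
      rw [av_mul_real, av_rt (fun σ => ‖k σ‖ ^ 2)]
      exact (congrArg _ kl).trans (mul_one _)
    refine (av_congr fun σ _ => ?_).trans this
    simp only [Pi.smul_apply, smul_eq_mul, norm_mul, mul_pow, Finset.sum_mul]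
    exact Finset.sum_congr rfl fun _ _ => mul_comm _ _
  rw [e1, cv_nu1 hk.cs]
  simp only [hf_vsmul] at h1
  rw [e2, mul_pow, Real.sq_sqrt hn] at h1
  simp only [smul_eq_mul]
  linarith

/-- the outer factor of the smoothed symbol -/
theorem fac2 (h2 : WME) (h5 : APR) {κ : ℝ → ℝ} {C N μ c : ℝ} (κc : Continuous κ)
    (κ0 : ∀ s, 0 ≤ κ s) (κi : Integrable κ) (κ1 : ∫ s, κ s = 1) (hC : 0 ≤ C) (hN : 0 < N)
    (κs : ∀ s h : ℝ, |h| ≤ 1 / N → κ (s + h) + κ (s - h) ≤ (2 + (C * N * h) ^ 2) * κ s ∧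
      |κ (s + h) - κ s| ≤ C * N * |h| * κ s) (hμ : 0 < μ) {b : ℂ → Matrix q q ℂ} (bc : Cs b)
    (hb : ∀ τ ∈ sphere (0 : ℂ) 1, (b τ).IsHermitian ∧
      ∀ w, 0 ≤ hf (b τ) w + c * ∑ j, ‖w j‖ ^ 2) :
    ∃ Ψ : ℂ → Matrix q q ℂ, HWm Ψ ∧ (Ψ 0).det ≠ 0 ∧
      (∀ τ ∈ sphere (0 : ℂ) 1, (Ψ τ)ᴴ * Ψ τ =
        cvm (wd volume κ) b τ + ((μ + c : ℝ) : ℂ) • (1 : Matrix q q ℂ)) ∧
      ∀ w : q → ℂ, ∃ (U : ℂ → q → ℂ) (B : ℝ),
        HWv U ∧ U 0 = w ∧ Dqv B U ∧ B ^ 2 = (C * N) ^ 2 / μ * hf ((Ψ 0)ᴴ * Ψ 0) w ∧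
        0 ≤ hf ((Ψ 0)ᴴ * Ψ 0) w ∧ ∀ τ ∈ sphere (0 : ℂ) 1,
          hf (cvm (wd volume κ) b τ) (U τ) + (μ + c) * ∑ j, ‖U τ j‖ ^ 2 =
            hf ((Ψ 0)ᴴ * Ψ 0) w := by
  have p2 := wd_prob κc κ0 κ1
  obtain ⟨P, hP⟩ : ∃ P : ℂ → Matrix q q ℂ,
      P = fun τ => b τ + ((μ + c : ℝ) : ℂ) • (1 : Matrix q q ℂ) := ⟨_, rfl⟩
  have Pc : Cs P := fun i j => by
    rw [hP]
    exact (bc i j).add continuousOn_const
  have Pl : ∀ τ ∈ sphere (0 : ℂ) 1, ∀ w, μ * ∑ j, ‖w j‖ ^ 2 ≤ hf (P τ) w := fun τ hτ w => by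
    have := (hb τ hτ).2 w
    simp only [hP, hf_add_one]
    linarith
  have Ae : ∀ τ ∈ sphere (0 : ℂ) 1, ∀ w, hf (cvm (wd volume κ) P τ) w =
      cv (wd volume κ) (fun σ => hf (P σ) w) τ := fun τ hτ w =>
    hf_int (fun i j => int_rt _ (Pc i j) hτ) w
  have Pw : ∀ w, ContinuousOn (fun σ => hf (P σ) w) (sphere 0 1) := fun w =>
    cs_hf (U := fun _ => w) Pc fun _ => continuousOn_const
  have A1 : ∀ τ ∈ sphere (0 : ℂ) 1, cvm (wd volume κ) P τ =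
      cvm (wd volume κ) b τ + ((μ + c : ℝ) : ℂ) • (1 : Matrix q q ℂ) := fun τ hτ => by
    rw [hP, cvm_add _ (fun i j => int_rt _ (bc i j) hτ) (integrable_const (μ + c))]
    simp only [cv, integral_const, probReal_univ, one_smul]
  obtain ⟨Ψ, hΨ, Ψ0, ΨA, hw⟩ := fac h2 h5 (A := cvm (wd volume κ) P) (L := C * N) hμ
    (by positivity) (one_div_pos.2 hN)
    (fun i j => cv_w12 κc κ0 κi (Pc i j) κ1 hC hN fun s h hh => (κs s h hh).2)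
    fun τ hτ => by
      refine ⟨herm_cvm _ (fun σ hσ => ?_) hτ, fun w => ⟨?_, fun h hh => ?_⟩⟩
      · rw [hP]
        exact herm_add (hb σ hσ).1 _
      · rw [Ae τ hτ]
        simpa [cv] using integral_mono (integrable_const (μ * ∑ j, ‖w j‖ ^ 2))
          (int_rt (wd volume κ) (Pw w) hτ) fun h => Pl _ (rt_mem h hτ) w
      · rw [Ae τ hτ, Ae _ (rt_mem h hτ), Ae _ (rt_mem (-h) hτ)]
        exact cv_semi κc κ0 κi hτ (Pw w)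
          (fun σ hσ => le_trans (by positivity) (Pl σ hσ w)) fun s => (κs s h hh).1
  refine ⟨Ψ, hΨ, Ψ0, fun τ hτ => (ΨA τ hτ).trans (A1 τ hτ), fun w => ?_⟩
  obtain ⟨U, B, u1, u2, u3, u4, u5, u6⟩ := hw w
  exact ⟨U, B, u1, u2, u3, u4, u5, fun τ hτ => by rw [← u6 τ hτ, A1 τ hτ, hf_add_one]⟩

omit [DecidableEq q] in
/-- the choice of the rotation -/
theorem last (ν₁ ν₂ : Measure ℝ) [IsProbabilityMeasure ν₁] [IsProbabilityMeasure ν₂]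
    {b : ℂ → Matrix q q ℂ} (bi : ∀ i j, CircleIntegrable (fun τ => b τ i j) 0 1)
    (bc : Cs (cvm ν₁ b)) {U : ℂ → q → ℂ} (hU : ∀ j, ContinuousOn (fun τ => U τ j) (sphere 0 1))
    {c ε S : ℝ} (hc : ε ≤ c) (hS : ∀ τ ∈ sphere (0 : ℂ) 1,
      hf (cvm ν₂ (cvm ν₁ b) τ) (U τ) + c * ∑ j, ‖U τ j‖ ^ 2 = S) :
    ∃ h : ℝ, av (fun τ => hf (b τ) (U (rt h τ))) +
      ε * av (fun τ => ∑ j, ‖U (rt h τ) j‖ ^ 2) ≤ S := by
  obtain ⟨s, hs⟩ := avg ν₂ (fun i j => ci (bc i j)) hU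
  obtain ⟨t, ht⟩ := avg ν₁ bi (U := fun τ => U (rt s τ)) fun j => cs_rt (hU j) s
  simp only [rt_rt] at ht
  refine ⟨s + t, ?_⟩
  have c1 : ContinuousOn (fun τ => hf (cvm ν₂ (cvm ν₁ b) τ) (U τ)) (sphere 0 1) :=
    cs_hf (fun i j => cs_cv _ (bc i j)) hU
  have c2 : ContinuousOn (fun τ => ε * ∑ j, ‖U τ j‖ ^ 2) (sphere 0 1) :=
    continuousOn_const.mul (cs_sq hU)
  have h8 : av (fun τ => hf (cvm ν₂ (cvm ν₁ b) τ) (U τ) + ε * ∑ j, ‖U τ j‖ ^ 2) ≤ S :=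
    av_le_const (c1.add c2) fun τ hτ => by
      have : 0 ≤ ∑ j, ‖U τ j‖ ^ 2 := by positivity
      linarith [hS τ hτ, mul_le_mul_of_nonneg_right hc this]
  rw [av_add c1 c2, av_mul_real] at h8
  rw [av_rt (fun τ => ∑ j, ‖U τ j‖ ^ 2)]
  linarith

omit [Fintype q] in
theorem ci_add {a : ℂ → Matrix q q ℂ} (ha : Cs a) {r : ℂ → ℝ} (ri : CircleIntegrable r 0 1)
    (i j : q) : CircleIntegrable (fun τ => (a τ + (r τ : ℂ) • (1 : Matrix q q ℂ)) i j) 0 1 :=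
  ci_iff.2 ((ci_iff.1 (ci (ha i j))).add ((ci_iff.1 ri).ofReal.mul_const _))

theorem av_hf_add {a : ℂ → Matrix q q ℂ} (ha : Cs a) {m : ℂ → ℝ} (mi : CircleIntegrable m 0 1)
    (e : ℝ) {U : ℂ → q → ℂ} (hU : ∀ j, ContinuousOn (fun τ => U τ j) (sphere 0 1)) :
    av (fun τ => hf (a τ + ((e * m τ : ℝ) : ℂ) • (1 : Matrix q q ℂ)) (U τ)) =
      av (fun τ => hf (a τ) (U τ)) + e * av fun τ => m τ * ∑ j, ‖U τ j‖ ^ 2 := by
  have e1 : av (fun τ => hf (a τ + ((e * m τ : ℝ) : ℂ) • (1 : Matrix q q ℂ)) (U τ) -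
      hf (a τ) (U τ)) = e * av fun τ => m τ * ∑ j, ‖U τ j‖ ^ 2 := by
    rw [← av_mul_real]
    refine av_congr fun τ _ => ?_
    rw [hf_add_one]
    ring
  rw [av, Real.circleAverage_fun_sub (ci_hf (ci_add ha (ci_iff.2 ((ci_iff.1 mi).const_mul e))) hU)
    (ci (cs_hf ha hU))] at e1
  exact eq_add_of_sub_eq' e1

omit [Fintype q] in
theorem split {k : ℂ → ℂ} (hk : ContinuousOn k (sphere 0 1)) [IsProbabilityMeasure (nu1 k)]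
    (ν : Measure ℝ) [IsProbabilityMeasure ν] {a : ℂ → Matrix q q ℂ} (ha : Cs a) {r : ℂ → ℝ}
    (ri : CircleIntegrable r 0 1) {τ : ℂ} (hτ : τ ∈ sphere (0 : ℂ) 1) :
    cvm ν (cvm (nu1 k) fun σ => a σ + (r σ : ℂ) • (1 : Matrix q q ℂ)) τ =
      cvm (ν ∗ nu1 k) a τ + ((cv ν (cv (nu1 k) r) τ : ℝ) : ℂ) • (1 : Matrix q q ℂ) := by
  have a1c : Cs (cvm (nu1 k) a) := fun i j => cs_cv _ (ha i j)
  have e2 : cvm (ν ∗ nu1 k) a τ = cvm ν (cvm (nu1 k) a) τ := by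
    ext i j
    exact cv_conv _ _ (ha i j) hτ
  rw [e2, ← cvm_add _ (fun i j => int_rt _ (a1c i j) hτ) (int_rt _ (cs_cv_nu1 hk ri) hτ)]
  ext i j
  refine integral_congr_ae (Eventually.of_forall fun h => ?_)
  exact congrFun (congrFun (cvm_add (nu1 k) (fun i j => int_rt _ (ha i j) (rt_mem h hτ))
    (int_nu1 hk ri (rt_mem h hτ))) i) j

end Sy

open Sy in
theorem sym (h1 : BUMP) (h2 : WME) (h3 : PRD) (h4 : KER) (h5 : APR) (_h6 : ENQ) : SYM := by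
  intro ι q _ _ _ p
  obtain ⟨Cb, hb⟩ := h1 (p + 1)
  obtain ⟨Cp, hCp, hp⟩ := h3 ι q
  obtain ⟨Ck, hCk, hk⟩ := h4 p
  have hCb : 0 ≤ Cb := by
    obtain ⟨k, -, -, -, hd, -⟩ := hb 1 le_rfl
    simpa using hd.nonneg
  obtain ⟨C, hC1, hC2, hC3⟩ : ∃ C : ℝ, Ck * Cb ≤ C ∧ 1 + Cp * Cb ^ 2 + Cp ^ 2 ≤ C ∧
      Cp * Ck ^ 2 ≤ C := ⟨max _ (max _ _), le_max_left _ _, le_max_of_le_right (le_max_left _ _),
        le_max_of_le_right (le_max_right _ _)⟩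
  refine ⟨C, lt_of_lt_of_le (by positivity) hC2, fun N hN => ?_⟩
  have hN0 : 0 < N := one_pos.trans_le hN
  obtain ⟨k, hkW, k0, kl, kd, kb⟩ := hb N hN
  obtain ⟨κ, κc, κ0, κi, κ1, κm, κs⟩ := hk N hN
  have p1 := nu1_prob hkW.cs kl
  have p2 := wd_prob κc κ0 κ1
  refine ⟨wd volume κ ∗ nu1 k, inferInstance, (conv_mom _ _ hN0.le hCk.le
    (nu1_mom hkW.cs hCb hN0 kb) ((wd_lint κc (by fun_prop) fun s => by positivity).trans_le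
      κm)).trans (ENNReal.ofReal_le_ofReal hC1), ?_⟩
  intro a Θ ε μ ha hh _ hdΘ hε hμ hsec
  obtain ⟨m, m0, mi, mav, hm⟩ := hp N Θ hdΘ fun τ hτ => (hh τ hτ).2
  obtain ⟨e, he⟩ : ∃ e, e = ε * Cp / N ^ 2 := ⟨_, rfl⟩
  have e0 : 0 ≤ e := by rw [he]; positivity
  have eN : e * N ^ 2 = ε * Cp := by rw [he]; field_simp
  have ri : CircleIntegrable (fun τ => e * m τ) 0 1 := ci_iff.2 ((ci_iff.1 mi).const_mul e)
  have bi := ci_add ha ri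
  have key : ∀ (U : ℂ → q → ℂ) (B : ℝ), Dqv B U →
      av (fun τ => hf (a τ) (U τ)) + ε * gq N (fun τ => Θ τ *ᵥ U τ) ≤
        av (fun τ => hf (a τ + ((e * m τ : ℝ) : ℂ) • (1 : Matrix q q ℂ)) (U τ)) +
          ε * av (fun τ => ∑ j, ‖U τ j‖ ^ 2) + e * B ^ 2 := by
    intro U B hU
    have e2 := mul_le_mul_of_nonneg_left (hm N B U hN0 hU) hε.le
    have e3 : ε * (Cp * (B ^ 2 + av fun τ => m τ * ∑ j, ‖U τ j‖ ^ 2) / N ^ 2) =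
        e * B ^ 2 + e * av fun τ => m τ * ∑ j, ‖U τ j‖ ^ 2 := by
      rw [he]; ring
    rw [av_hf_add ha mi e fun j => (hU j).cs]
    linarith
  have b1c : Cs (cvm (nu1 k) fun τ => a τ + ((e * m τ : ℝ) : ℂ) • (1 : Matrix q q ℂ)) :=
    fun i j => cs_cv_nu1 hkW.cs (bi i j)
  have r1c := cs_cv_nu1 hkW.cs ri
  have c0 : 0 ≤ e * (Cb * N) ^ 2 := by positivity
  obtain ⟨Ψ, hΨ, Ψ0, ΨA, hw⟩ := fac2 h2 h5 κc κ0 κi κ1 hCk.le hN0 κs hμ b1c fun τ hτ =>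
    ⟨herm_cvm _ (fun σ hσ => herm_add (hh σ hσ).1 _) hτ,
      pos1 hkW k0 kl kd bi (fun U B hU U0 hB => (hsec U hU U0).trans (key U B hB)) hτ⟩
  refine ⟨fun τ => μ + (ε + e * (Cb * N) ^ 2) + cv (wd volume κ) (cv (nu1 k) fun τ => e * m τ) τ,
    Ψ, continuousOn_const.add (cs_cv _ r1c), ?_, hΨ, Ψ0, fun τ hτ => ⟨?_, ?_⟩, fun w => ?_⟩
  · rw [av_add continuousOn_const (cs_cv _ r1c), av_const, av_cv _ (ci r1c), av_cv _ ri,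
      av_mul_real]
    have h6 := mul_le_mul_of_nonneg_left mav e0
    have h7 : e * (Cb * N) ^ 2 = ε * Cp * Cb ^ 2 := by rw [← eN]; ring
    have h8 : e * (Cp * N ^ 2) = ε * Cp ^ 2 := by
      rw [mul_left_comm, eN]; ring
    linarith [mul_le_mul_of_nonneg_right hC2 hε.le]
  · have : 0 ≤ cv (wd volume κ) (cv (nu1 k) fun τ => e * m τ) τ :=
      integral_nonneg fun h => integral_nonneg fun h' => mul_nonneg e0 (m0 _)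
    linarith
  · rw [ΨA τ hτ, split hkW.cs _ ha ri hτ, Complex.ofReal_add _ (cv _ _ _), add_smul]
    abel
  · obtain ⟨U, B, hU, U0, hB, eB, S0, eA⟩ := hw w
    obtain ⟨h, hh⟩ := last (nu1 k) (wd volume κ) bi b1c (fun j => (hU j).cs) (ε := ε)
      (by linarith) eA
    refine ⟨fun τ => U (rt h τ), fun j => (hU j).rt h, by simp only [rt_zero', U0], ?_⟩
    have h6 := key (fun τ => U (rt h τ)) B fun j => (hB j).rot h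
    have h11 : e * B ^ 2 = Cp * Ck ^ 2 * ε / μ * hf ((Ψ 0)ᴴ * Ψ 0) w := by
      rw [eB, he]; field_simp
    have h12 : Cp * Ck ^ 2 * ε / μ ≤ C * ε / μ := by gcongr
    linarith [mul_le_mul_of_nonneg_right h12 S0]

end Vale.Agent.P253W.A
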