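import Vale.Agent.P253W.A.Exb
import Vale.Agent.P253W.A.Lin
import Vale.Agent.P253W.A.Lipk
import Vale.Agent.P253W.WM.Basic

/-!
# P253W, block A: row TAY
-/

open Complex Metric Set Filter Topology
open scoped Matrix
open Vale.Agent.P272.K (Cm cHess Chart)

noncomputable section

namespace Vale.Agent.P253W.A

open WM

namespace Ta

/-- jointly continuous, and holomorphic in the first variable -/
def JH {V : Type} [NormedAddCommGroup V] [NormedSpace ℂ V] (z : ℂ → ℂ → V) (B W : Set ℂ) : Prop :=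
  ContinuousOn (Function.uncurry z) (B ×ˢ W) ∧ ∀ τ ∈ W, DifferentiableOn ℂ (z · τ) B

theorem JH.deriv {V : Type} [NormedAddCommGroup V] [NormedSpace ℂ V] [CompleteSpace V]
    {z : ℂ → ℂ → V} {B W : Set ℂ} (h : JH z B W) (hB : IsOpen B) :
    JH (fun s τ => deriv (z · τ) s) B W := by
  refine ⟨fun p hp => ?_, fun τ hτ => (h.2 τ hτ).deriv hB⟩
  have h1 : Tendsto Prod.snd (𝓝[B ×ˢ W] p) (𝓝[W] p.2) :=
    continuousWithinAt_snd.tendsto_nhdsWithin fun _ h => h.2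
  have h0 : TendstoLocallyUniformlyOn (fun (n : ℂ × ℂ) s => z s n.2) (z · p.2) (𝓝[B ×ˢ W] p) B :=
    tendstoLocallyUniformlyOn_iff_forall_tendsto.2 fun x hx => (Tendsto.prodMk_nhds
      (((h.2 _ hp.2).continuousOn x hx).tendsto.comp tendsto_snd)
      ((h.1 (x, p.2) ⟨hx, hp.2⟩).tendsto.comp (f := fun y : (ℂ × ℂ) × ℂ => (y.2, y.1.2))
        ((tendsto_snd.prodMk (h1.comp tendsto_fst)).mono_right
          (nhdsWithin_prod_eq ..).ge))).mono_right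
      (nhds_le_uniformity _)
  exact (h0.deriv (eventually_mem_nhdsWithin.mono fun n hn => h.2 _ hn.2) hB).tendsto_comp
    (((h.2 _ hp.2).deriv hB).continuousOn _ hp.1) hp.1
    (continuousWithinAt_fst.tendsto_nhdsWithin fun _ h => h.1)

theorem tube {X : Type} [TopologicalSpace X] {f : ℂ × ℂ → X} {O : Set X} {r : ℝ} (r0 : 0 < r)
    (hf : ContinuousOn f (ball 0 r ×ˢ sphere 0 1)) (hO : IsOpen O)
    (h : ∀ τ ∈ sphere (0 : ℂ) 1, f (0, τ) ∈ O) : ∃ r' > 0, ball (0 : ℂ) r' ⊆ ball 0 r ∧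
      ∀ s ∈ ball (0 : ℂ) r', ∀ τ ∈ sphere (0 : ℂ) 1, f (s, τ) ∈ O := by
  obtain ⟨r', h1, h2⟩ := Metric.mem_nhds_iff.1 (inter_mem (ball_mem_nhds 0 r0)
    ((isCompact_sphere (0 : ℂ) 1).induction_on (p := fun K => ∀ᶠ s in 𝓝 0, ∀ τ ∈ K, f (s, τ) ∈ O)
      (by simp) (fun _ _ a b => b.mono fun _ c y d => c y (a d))
      (fun _ _ a b => (a.and b).mono fun _ c y d => d.elim (c.1 y) (c.2 y)) fun τ hτ => by
      obtain ⟨u, hu, v, hv, k⟩ := mem_nhdsWithin_prod_iff.1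
        (hf (0, τ) ⟨mem_ball_self r0, hτ⟩ (hO.mem_nhds (h τ hτ)))
      rw [isOpen_ball.nhdsWithin_eq (mem_ball_self r0)] at hu
      exact ⟨v, hv, mem_of_superset hu fun s hs τ' h' => k (mk_mem_prod hs h')⟩))
  exact ⟨r', h1, fun s hs => (h2 hs).1, fun s hs => (h2 hs).2⟩

variable {q : ℕ}

theorem form {u : Cm q → ℝ} {z : ℂ → Cm q} {s : ℂ} {f : ℂ → ℝ} (hz : AnalyticAt ℂ z s)
    (hu : ContDiffAt ℝ 2 u (z s)) (e : f =ᶠ[𝓝 s] fun s => u (z s)) :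
    (HasFDerivAt f (fderiv ℝ f s) s ∧ HasFDerivAt (fderiv ℝ f) (fderiv ℝ (fderiv ℝ f) s) s) ∧
      (∀ w, fderiv ℝ f s w = fderiv ℝ u (z s) (w • deriv z s)) ∧
      ∀ v w, fderiv ℝ (fderiv ℝ f) s v w = fderiv ℝ u (z s) (w • v • deriv (deriv z) s) +
        fderiv ℝ (fderiv ℝ u) (z s) (v • deriv z s) (w • deriv z s) := by
  have hg : ContDiffAt ℝ 2 f s :=
    (hu.comp s (hz.contDiffAt.restrict_scalars ℝ)).congr_of_eventuallyEq e
  have h1 : ∀ᶠ s in 𝓝 s, ∀ w, fderiv ℝ f s w = fderiv ℝ u (z s) (w • deriv z s) := by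
    filter_upwards [hz.eventually_analyticAt, e.fderiv (𝕜 := ℝ),
      hz.continuousAt.eventually (hu.eventually (by simp))] with s a c b w
    exact c ▸ congr($(((b.differentiableAt (by simp)).hasFDerivAt.comp s
      (a.differentiableAt.hasDerivAt.hasFDerivAt.restrictScalars ℝ)).fderiv) w)
  have h2 := ((hu.fderiv_right (m := 1) (by norm_num)).differentiableAt (by simp)).hasFDerivAt
  have h3 := ((hg.fderiv_right (m := 1) (by norm_num)).differentiableAt (by simp)).hasFDerivAt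
  refine ⟨⟨(hg.differentiableAt (by simp)).hasFDerivAt, h3⟩, h1.self_of_nhds, fun v w => ?_⟩
  have a := (h2.comp s (hz.differentiableAt.hasDerivAt.hasFDerivAt.restrictScalars ℝ)).clm_apply
    ((hz.deriv.differentiableAt.hasDerivAt.hasFDerivAt.restrictScalars ℝ).const_smul w)
  have b := (h3.clm_apply (hasFDerivAt_const w s)).unique
    (a.congr_of_eventuallyEq (h1.mono fun s h => h w))
  simpa using congr($b v)

theorem par {G : Type} [NormedAddCommGroup G] [NormedSpace ℝ G] {U : ℝ × Cm q → G} {p : ℝ × Cm q}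
    {m : WithTop ℕ∞} (h : ContDiffAt ℝ (m + 1) U p) :
    ContDiffAt ℝ m (fun p => fderiv ℝ (fun w => U (p.1, w)) p.2) p :=
  ContDiffAt.fderiv (f := fun p w => U (p.1, w)) (h.comp (p, p.2)
    (contDiffAt_fst.fst.prodMk contDiffAt_snd)) contDiffAt_snd le_rfl

variable {N : Type} [TopologicalSpace N] {𝒜 : Set (Chart q N)} {O : Set (ℝ × N)} {t : ℂ → ℝ}
  {φ : ℂ → N} {r : ℝ} {y : ℂ → ℂ → N} {e : Chart q N} {s τ : ℂ}

theorem cty (ht : ContinuousOn t (sphere 0 1)) (hy : Fam 𝒜 φ r y) :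
    ContinuousOn (fun p : ℂ × ℂ => (t p.2, y p.1 p.2)) (ball 0 r ×ˢ sphere 0 1) :=
  (ht.comp continuousOn_snd fun _ h => h.2).prodMk
    (hy.cont.mono (prod_mono_right sphere_subset_closedBall))

theorem box (hO : IsOpen O) (ht : ContinuousOn t (sphere 0 1)) (hy : Fam 𝒜 φ r y) (he : e ∈ 𝒜)
    (hs : s ∈ ball (0 : ℂ) r) (hτ : τ ∈ sphere (0 : ℂ) 1) (h1 : (t τ, y s τ) ∈ O)
    (h2 : y s τ ∈ e.source) : ∃ B W, IsOpen B ∧ s ∈ B ∧ W ∈ 𝓝[sphere 0 1] τ ∧ W ⊆ sphere 0 1 ∧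
      (∀ s ∈ B, ∀ τ ∈ W, (t τ, y s τ) ∈ O ∧ y s τ ∈ e.source) ∧
      JH (fun s τ => e (y s τ)) B W := by
  obtain ⟨u, hu, v, hv, k⟩ := mem_nhdsWithin_prod_iff.1 (cty ht hy (s, τ) ⟨hs, hτ⟩
    ((hO.inter (e.open_source.preimage continuous_snd)).mem_nhds ⟨h1, h2⟩))
  rw [isOpen_ball.nhdsWithin_eq hs] at hu
  obtain ⟨B, b1, b2, b3⟩ := _root_.mem_nhds_iff.1 (inter_mem hu (isOpen_ball.mem_nhds hs))
  have k' := fun s (hs : s ∈ B) τ (hτ : τ ∈ v ∩ sphere 0 1) => k (mk_mem_prod (b1 hs).1 hτ.1)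
  exact ⟨B, _, b2, b3, inter_mem hv self_mem_nhdsWithin, inter_subset_right, k',
    e.continuousOn.comp (hy.cont.mono fun p hp => ⟨(b1 hp.1).2, sphere_subset_closedBall hp.2.2⟩)
      fun p hp => (k' _ hp.1 _ hp.2).2, fun τ hτ =>
    ((hy.hs τ (sphere_subset_closedBall hτ.2)).2 e he).mono fun s hs =>
      ⟨(b1 hs).2, (k' s hs τ hτ).2⟩⟩

theorem cw {X : Type} [TopologicalSpace X] {f g : ℂ × ℂ → X} {B W S : Set ℂ} (hB : IsOpen B)
    (hs : s ∈ B) (hW : W ∈ 𝓝[sphere 0 1] τ) (hτ : τ ∈ sphere (0 : ℂ) 1)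
    (hg : ContinuousOn g (B ×ˢ W)) (e : ∀ p ∈ B ×ˢ W, f p = g p) :
    ContinuousWithinAt f (S ×ˢ sphere 0 1) (s, τ) :=
  ((hg.congr e) _ ⟨hs, mem_of_mem_nhdsWithin hτ hW⟩).mono_of_mem_nhdsWithin
    (nhdsWithin_prod (mem_nhdsWithin_of_mem_nhds (hB.mem_nhds hs)) hW)

theorem co {X Y Z : Type} [TopologicalSpace X] [TopologicalSpace Y] [TopologicalSpace Z]
    {f : X → Y} {g : Y → Z} {S : Set X} (hf : ContinuousOn f S)
    (hg : ∀ p ∈ S, ContinuousAt g (f p)) : ContinuousOn (fun p => g (f p)) S :=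
  fun p hp => (hg p hp).comp_continuousWithinAt (hf p hp)

theorem nsq (a b : ℝ) : ‖((a : ℂ) - I * b) / 2‖ ^ 2 = (a ^ 2 + b ^ 2) / 4 := by
  rw [Complex.sq_norm]; simp [normSq_apply]; ring

end Ta

open Ta

theorem tay (h0 : TAY0) : TAY := fun q N _ 𝒜 ι _ F O u t φ r y b hA hF hO hu ht hy hb h => by
  have y0 := fun τ (hτ : τ ∈ sphere (0 : ℂ) 1) => hy.zero (sphere_subset_closedBall hτ)
  obtain ⟨r', r0, r1, r2⟩ := tube hy.pos (cty ht hy) hO fun τ hτ => by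
    simpa only [y0 τ hτ] using (h τ hτ).1
  have U2 : ∀ e ∈ 𝒜, ∀ a x, (a, x) ∈ O → x ∈ e.source →
      ContDiffAt ℝ 2 (fun p : ℝ × Cm q => u p.1 (e.symm p.2)) (a, e x) := fun e he a x h1 h2 =>
    have c : ContinuousAt (fun p : ℝ × Cm q => (p.1, e.symm p.2)) (a, e x) :=
      continuousAt_fst.prodMk (ContinuousAt.comp (f := Prod.snd)
        (e.continuousAt_symm (e.map_source h2)) continuousAt_snd)
    (hu e he).contDiffAt (inter_mem (continuousAt_snd.preimage_mem_nhds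
      (e.open_target.mem_nhds (e.map_source h2)))
      (c.preimage_mem_nhds (hO.mem_nhds (by simpa only [e.left_inv h2]))))
  have fm : ∀ e ∈ 𝒜, ∀ B W, IsOpen B → (∀ s ∈ B, ∀ τ ∈ W, (t τ, y s τ) ∈ O ∧ y s τ ∈ e.source) →
      JH (fun s τ => e (y s τ)) B W → ∀ s ∈ B, ∀ τ ∈ W, _ := fun e he B W h1 h2 h3 s hs τ hτ =>
    form (u := fun w => u (t τ) (e.symm w)) (f := fun s => u (t τ) (y s τ))
      ((h3.2 τ hτ).analyticAt (h1.mem_nhds hs)) ((U2 e he _ _ (h2 s hs τ hτ).1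
        (h2 s hs τ hτ).2).comp _ (contDiffAt_const.prodMk contDiffAt_id))
      ((h1.eventually_mem hs).mono fun s hs => by simp only [e.left_inv (h2 s hs τ hτ).2])
  obtain ⟨D₁, e1⟩ : ∃ D₁ : ℂ → ℂ → ℂ →L[ℝ] ℝ, D₁ = fun s τ => fderiv ℝ (fun s => u (t τ) (y s τ)) s :=
    ⟨_, rfl⟩
  obtain ⟨D₂, e2⟩ : ∃ D₂ : ℂ → ℂ → ℂ →L[ℝ] ℂ →L[ℝ] ℝ, D₂ = fun s τ => fderiv ℝ (D₁ · τ) s := ⟨_, rfl⟩
  have key : ∀ p ∈ ball (0 : ℂ) r' ×ˢ sphere (0 : ℂ) 1,
      (HasFDerivAt (fun s => u (t p.2) (y s p.2)) (D₁ p.1 p.2) p.1 ∧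
        HasFDerivAt (D₁ · p.2) (D₂ p.1 p.2) p.1) ∧
      ContinuousWithinAt (fun p : ℂ × ℂ => u (t p.2) (y p.1 p.2)) (ball 0 r' ×ˢ sphere 0 1) p ∧
      ContinuousWithinAt (Function.uncurry D₁) (ball 0 r' ×ˢ sphere 0 1) p ∧
      ContinuousWithinAt (Function.uncurry D₂) (ball 0 r' ×ˢ sphere 0 1) p := fun ⟨s, τ⟩ hp => by
    obtain ⟨e, he, k⟩ := hA.cov (y s τ)
    obtain ⟨B, W, b1, b2, b3, b4, b5, b6⟩ := box hO ht hy he (r1 hp.1) hp.2 (r2 _ hp.1 _ hp.2) k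
    have z0 := ((ht.mono b4).comp continuousOn_snd fun _ h => h.2).prodMk b6.1
    have z1 := (b6.deriv b1).1
    have z2 := ((b6.deriv b1).deriv b1).1
    have u0 := fun p (hp : p ∈ B ×ˢ W) => U2 e he _ _ (b5 _ hp.1 _ hp.2).1 (b5 _ hp.1 _ hp.2).2
    have u1 := co z0 fun p hp =>
      (par (m := 1) (u0 p hp)).continuousAt
    have u2 := co z0 fun p hp =>
      (par (m := 0) (par (m := 1) (u0 p hp))).continuousAt
    subst e2 e1
    exact ⟨(fm e he B W b1 b5 b6 s b2 τ (mem_of_mem_nhdsWithin hp.2 b3)).1, cw b1 b2 b3 hp.2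
      (co z0 fun p hp => (u0 p hp).continuousAt)
      fun p hp => by simp [Function.uncurry, e.left_inv (b5 _ hp.1 _ hp.2).2],
      continuousWithinAt_clm_apply.2 fun w =>
      cw b1 b2 b3 hp.2 (u1.clm_apply (z1.const_smul w)) fun p hp =>
        (fm e he B W b1 b5 b6 _ hp.1 _ hp.2).2.1 w, continuousWithinAt_clm_apply.2 fun v =>
      continuousWithinAt_clm_apply.2 fun w => cw b1 b2 b3 hp.2
        ((u1.clm_apply ((z2.const_smul v).const_smul w)).add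
          ((u2.clm_apply (z1.const_smul v)).clm_apply (z1.const_smul w))) fun p hp =>
        (fm e he B W b1 b5 b6 _ hp.1 _ hp.2).2.2 v w⟩
  have val : ∀ τ ∈ sphere (0 : ℂ) 1,
      ContinuousWithinAt (fun τ => deriv (fun s => F (y s τ)) 0) (sphere 0 1) τ ∧
      (D₂ 0 τ 1 1 + D₂ 0 τ I I) / 4 = hf (b τ) (deriv (fun s => F (y s τ)) 0) := fun τ hτ => by
    obtain ⟨e, he, k⟩ := hA.cov (y 0 τ)
    obtain ⟨B, W, b1, b2, b3, b4, b5, b6⟩ := box hO ht hy he (mem_ball_self hy.pos) hτ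
      (r2 _ (mem_ball_self r0) _ hτ) k
    have m := mem_of_mem_nhdsWithin hτ b3
    have G : ∀ s ∈ B, ∀ τ ∈ W, DifferentiableAt ℂ (fun w => F (e.symm w)) (e (y s τ)) :=
      fun s hs τ hτ => differentiableAt_pi.2 fun l =>
        (hF e he _ (e.map_source (b5 s hs τ hτ).2) l).differentiableAt
    have j : JH (fun s τ => F (y s τ)) B W := ⟨(co b6.1 fun p hp => (G _ hp.1 _ hp.2).continuousAt).congr
      fun p hp => by simp [Function.uncurry, e.left_inv (b5 _ hp.1 _ hp.2).2], fun τ hτ s hs =>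
      ((G s hs τ hτ).comp_differentiableWithinAt s (b6.2 τ hτ s hs)).congr
        (fun s hs => by simp [e.left_inv (b5 s hs τ hτ).2])
        (by simp [e.left_inv (b5 s hs τ hτ).2])⟩
    refine ⟨(((j.deriv b1).1.comp (Continuous.prodMk_right 0).continuousOn fun τ hτ =>
      ⟨b2, hτ⟩) τ m).mono_of_mem_nhdsWithin b3, ?_⟩
    have d : deriv (fun s => F (y s τ)) 0 = dM F e (φ τ) *ᵥ deriv (fun s => e (y s τ)) 0 := by
      rw [← y0 τ hτ, dM, ← Lipk.fd_eq (G 0 b2 τ m)]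
      exact (((G 0 b2 τ m).hasFDerivAt.comp_hasDerivAt 0 ((b6.2 τ m).differentiableAt
        (b1.mem_nhds b2)).hasDerivAt).congr_of_eventuallyEq ((b1.eventually_mem b2).mono
          fun s hs => by simp [e.left_inv (b5 s hs τ m).2])).deriv
    have f := (fm e he B W b1 b5 b6 0 b2 τ m).2.2
    rw [d, ← Lin.hf_conj, (h τ hτ).2 e he (y0 τ hτ ▸ k), lm, ← y0 τ hτ,
      Exb.levi (u := fun w => u (t τ) (e.symm w))
      ((U2 e he _ _ (b5 0 b2 τ m).1 k).comp _ (contDiffAt_const.prodMk contDiffAt_id)), e2, e1]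
    simp only [f, one_smul, smul_smul, I_mul_I, neg_smul, map_neg]
    ring
  have c0 : ContinuousOn (fun p : ℂ × ℂ => u (t p.2) (y p.1 p.2)) _ := fun p hp => (key p hp).2.1
  have c1 : ContinuousOn _ _ := fun p hp => (key p hp).2.2.1
  have c2 : ContinuousOn _ _ := fun p hp => (key p hp).2.2.2
  refine ⟨fun τ hτ => (val τ hτ).1, ⟨_, av_congr (fun τ hτ => (val τ hτ).2) ▸
    h0 (fun s τ => u (t τ) (y s τ)) D₁ D₂ r' r0 (fun s hs τ hτ => (key (s, τ) ⟨hs, hτ⟩).1)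
      c0 c1 c2⟩, fun hp => ?_⟩
  obtain ⟨ρ, p0, p1, p2⟩ := tube r0 c0 isOpen_Ioi fun τ hτ => by
    simpa only [y0 τ hτ, mem_Ioi] using hp τ hτ
  have i0 := (c0.mono (prod_mono_left p1)).inv₀ fun p hp => ne_of_gt (p2 _ hp.1 _ hp.2)
  replace c1 := c1.mono (prod_mono_left p1)
  replace c2 := c2.mono (prod_mono_left p1)
  have k1 := fun v : ℂ => c1.clm_apply (continuousOn_const (c := v))
  have k2 := fun v w : ℂ => (c2.clm_apply (continuousOn_const (c := v))).clm_apply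
    (continuousOn_const (c := w))
  refine ⟨_, (h0 (fun s τ => Real.log (u (t τ) (y s τ))) (fun s τ => (u (t τ) (y s τ))⁻¹ • D₁ s τ)
    (fun s τ => (u (t τ) (y s τ))⁻¹ • D₂ s τ +
      ((-(u (t τ) (y s τ) ^ 2)⁻¹) • D₁ s τ).smulRight (D₁ s τ)) ρ p0 (fun s hs τ hτ =>
      have k := (key (s, τ) ⟨p1 hs, hτ⟩).1
      have n := ne_of_gt (p2 s hs τ hτ)
      ⟨k.1.log n, ((hasDerivAt_inv n).comp_hasFDerivAt s k.1).smul k.2⟩)
    ((c0.mono (prod_mono_left p1)).log fun p hp => ne_of_gt (p2 _ hp.1 _ hp.2)) (i0.smul c1)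
    (continuousOn_clm_apply.2 fun v => continuousOn_clm_apply.2 fun w => ((i0.mul (k2 v w)).sub
      (((i0.pow 2).mul (k1 v)).mul (k1 w))).congr fun p _ => by
        simp [Function.uncurry]; ring)).mono ?_⟩
  have sl : ∀ {f : ℂ × ℂ → ℝ}, ContinuousOn f (ball 0 ρ ×ˢ sphere 0 1) →
      ContinuousOn (fun τ => f (0, τ)) (sphere 0 1) := fun hf =>
    hf.comp (Continuous.prodMk_right 0).continuousOn fun τ hτ => ⟨mem_ball_self p0, hτ⟩
  obtain ⟨c, hc⟩ : ∃ c : ℂ → ℂ, c = fun τ => ((((u (t τ) (y 0 τ))⁻¹ • D₁ 0 τ) 1 : ℝ) -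
    I * (((u (t τ) (y 0 τ))⁻¹ • D₁ 0 τ) I : ℝ)) / 2 := ⟨_, rfl⟩
  have n : ContinuousOn (fun τ => ‖c τ‖) (sphere 0 1) := hc ▸ (((continuous_ofReal.comp_continuousOn
    (sl (i0.mul (k1 1)))).sub (continuousOn_const.mul (continuous_ofReal.comp_continuousOn
      (sl (i0.mul (k1 I)))))).div_const 2).norm
  have a0 := av_nonneg (u := fun τ => ‖c τ‖ ^ 2) fun _ _ => sq_nonneg _
  have a1 := (pow_le_pow_left₀ (norm_nonneg _) (norm_av_le.trans ((av_congr fun _ _ =>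
    (mul_one _).symm).trans_le (av_mul_le n continuousOn_const (Real.sqrt_nonneg _) zero_le_one
      (Real.sq_sqrt a0).ge (av_const _).le))) 2).trans_eq (by rw [mul_one, Real.sq_sqrt a0])
  have a2 : ContinuousOn (fun τ => (u (t τ) (y 0 τ))⁻¹ * ((D₂ 0 τ 1 1 + D₂ 0 τ I I) / 4)) _ :=
    sl (i0.mul (((k2 1 1).add (k2 I I)).div_const 4))
  rw [← hc, av_congr (v := fun τ => (u (t τ) (y 0 τ))⁻¹ * ((D₂ 0 τ 1 1 + D₂ 0 τ I I) / 4) -
    ‖c τ‖ ^ 2) fun τ _ => by simp only [hc, nsq]; simp; ring, av_sub a2 (n.fun_pow 2)]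
  exact sub_le_sub (av_congr fun τ hτ => by rw [(val τ hτ).2, y0 τ hτ, div_eq_inv_mul]).le a1

end Vale.Agent.P253W.A
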