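import Vale.Agent.P253W.A.Defs0
import Vale.Agent.P253W.WM.Basic

/-!
# P253W, block A: row TAY0
-/

open Complex Metric Set Filter Topology

noncomputable section

namespace Vale.Agent.P253W.A

open WM

namespace Ty

theorem av_I (u : ℂ → ℝ) : av (fun τ => u (I * τ)) = av u := by
  simpa only [rt, ofReal_div, ofReal_ofNat, exp_pi_div_two_mul_I] using av_rt u (Real.pi / 2)

theorem lin {F : Type*} [NormedAddCommGroup F] [NormedSpace ℝ F] (l : ℂ →L[ℝ] F) (s : ℂ) :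
    l s = s.re • l 1 + s.im • l I := by
  rw [← map_smul, ← map_smul, ← map_add]
  simp

/-- the Taylor formula with a uniform remainder -/
theorem tay2 {E : Type*} [NormedAddCommGroup E] [NormedSpace ℝ E] {f : E → ℝ}
    {D₁ : E → E →L[ℝ] ℝ} {D₂ : E → E →L[ℝ] E →L[ℝ] ℝ} {δ η : ℝ} (h : ∀ s ∈ ball (0 : E) δ,
      HasFDerivAt f (D₁ s) s ∧ HasFDerivAt D₁ (D₂ s) s ∧ ‖D₂ s - D₂ 0‖ ≤ η) {s : E}
    (hs : s ∈ ball (0 : E) δ) : |f s - f 0 - D₁ 0 s - D₂ 0 s s / 2| ≤ η * ‖s‖ ^ 2 := by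
  have h0 := mem_ball_self (x := (0 : E)) (pos_of_mem_ball hs)
  have := norm_image_sub_le_of_norm_deriv_le_segment_01' (C := η * ‖s‖ ^ 2)
    (f := fun t => f (t • s) - t * D₁ 0 s - t ^ 2 * (D₂ 0 s s / 2))
    (f' := fun t => (D₁ (t • s) - D₂ 0 (t • s) - (D₁ 0 - D₂ 0 0)) s) (fun t ht => by
      convert ((((h _ ((convex_ball 0 δ).smul_mem_of_zero_mem h0 hs ht)).1.comp_hasDerivAt t
        ((hasDerivAt_id' t).smul_const s)).fun_sub ((hasDerivAt_id' t).mul_const (D₁ 0 s))).fun_sub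
        ((hasDerivAt_pow 2 t).mul_const (D₂ 0 s s / 2))).hasDerivWithinAt using 1 <;> simp
      ring) fun t ht => by
    have h1 := (convex_ball (0 : E) δ).norm_image_sub_le_of_norm_hasFDerivWithin_le
      (f := fun x => D₁ x - D₂ 0 x) (fun x hx => ((h x hx).2.1.sub
        (D₂ 0).hasFDerivAt).hasFDerivWithinAt) (fun x hx => (h x hx).2.2) h0
      ((convex_ball 0 δ).smul_mem_of_zero_mem h0 hs ⟨ht.1, ht.2.le⟩)
    refine (ContinuousLinearMap.le_of_opNorm_le _ h1 s).trans ?_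
    have := (ContinuousLinearMap.opNorm_nonneg _).trans (h 0 h0).2.2
    rw [sub_zero, norm_smul, Real.norm_of_nonneg ht.1]
    nlinarith [mul_le_of_le_one_left (mul_nonneg this (sq_nonneg ‖s‖)) ht.2.le]
  refine (congrArg abs ?_).trans_le this
  simp only [one_smul, zero_smul]
  ring

end Ty

open Ty

/-- a Peano expansion of the second order -/
theorem ex_of_peano {g : ℂ → ℝ} (l : ℂ →L[ℝ] ℝ) (B : ℂ →L[ℝ] ℂ →L[ℝ] ℝ)
    (hc : ∀ᶠ s in 𝓝 (0 : ℂ), ContinuousAt g s)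
    (h : ∀ η > 0, ∀ᶠ s in 𝓝 (0 : ℂ), |g s - g 0 - l s - B s s / 2| ≤ η * ‖s‖ ^ 2) :
    Ex g (((l 1 : ℂ) - I * (l I : ℂ)) / 2) ((B 1 1 + B I I) / 4) := by
  refine ⟨hc, ⟨1 + ‖B‖, (h 1 one_pos).mono fun s hs => ?_⟩, fun η h0 => ?_⟩
  · have e : 2 * (((l 1 : ℂ) - I * (l I : ℂ)) / 2 * s).re = l s := by
      rw [lin l s]; simp; ring
    have := abs_le.1 (B.le_opNorm₂ s s)
    rw [e]
    exact abs_le.2 ⟨by nlinarith [(abs_le.1 hs).1], by nlinarith [(abs_le.1 hs).2]⟩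
  obtain ⟨δ, d0, hδ⟩ := Metric.eventually_nhds_iff_ball.1 (hc.and (h η h0))
  filter_upwards [Ioo_mem_nhdsGT d0] with ρ ⟨r0, r1⟩
  have n : ∀ {a τ : ℂ}, ‖a‖ = 1 → τ ∈ sphere (0 : ℂ) 1 → ‖ρ * (a * τ)‖ = ρ := fun ha hτ => by
    simp [ha, mem_sphere_zero_iff_norm.1 hτ, r0.le]
  have c : ∀ {a : ℂ}, ‖a‖ = 1 → ContinuousOn (fun τ => g (ρ * (a * τ))) (sphere 0 1) :=
    fun ha τ hτ => (ContinuousAt.comp (hδ _ (by rwa [mem_ball_zero_iff, n ha hτ])).1
      (by fun_prop)).continuousWithinAt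
  refine ⟨ContinuousOn.circleIntegrable r0.le fun s hs => (hδ s (mem_ball.2
    ((mem_sphere.1 hs).trans_lt r1))).1.continuousWithinAt, ?_⟩
  have i1 := norm_one (α := ℂ)
  have i2 : ‖I * I‖ = 1 := by simp
  have i3 : ‖I * I * I‖ = 1 := by simp
  have := av_le_const (a := 4 * (g 0 + ρ ^ 2 * ((B 1 1 + B I I) / 4 + η)))
    (((c i1).add (c norm_I)).add ((c i2).add (c i3))) fun τ hτ => by
    have b := fun {a : ℂ} (ha : ‖a‖ = 1) => (abs_le.1 ((hδ _ (by
      rwa [mem_ball_zero_iff, n ha hτ])).2.trans_eq (congrArg (η * · ^ 2) (n ha hτ)))).2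
    have b1 := b i1
    have b2 := b norm_I
    have b3 := b i2
    have b4 := b i3
    have e : τ.re ^ 2 + τ.im ^ 2 = 1 := by
      rw [← one_pow 2, ← mem_sphere_zero_iff_norm.1 hτ, Complex.sq_norm, normSq_apply]; ring
    rw [lin l, lin B, add_apply, lin (_ • B 1), lin (_ • B I)] at b1 b2 b3 b4
    simp at b1 b2 b3 b4 ⊢
    linear_combination b1 + b2 + b3 + b4 + ρ ^ 2 * (B 1 1 + B I I) * e
  rw [av, Real.circleAverage_add (ci ((c i1).add (c norm_I))) (ci ((c i2).add (c i3))),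
    Real.circleAverage_add (ci (c i1)) (ci (c norm_I)),
    Real.circleAverage_add (ci (c i2)) (ci (c i3))] at this
  have a1 := av_I fun τ => g (ρ * τ)
  have a2 := av_I fun τ => g (ρ * (I * τ))
  have a3 := av_I fun τ => g (ρ * (I * (I * τ)))
  rw [Real.circleAverage_eq_circleAverage_zero_one]
  simp only [one_mul, mul_assoc, add_zero, av] at this a1 a2 a3 ⊢
  linarith

theorem tay0 : TAY0 := fun h D₁ D₂ r r0 hd c0 c1 c2 => by
  have sl : ∀ {X : Type} [TopologicalSpace X] {f : ℂ → ℂ → X} {s : ℂ}, s ∈ ball (0 : ℂ) r →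
      ContinuousOn (Function.uncurry f) (ball 0 r ×ˢ sphere 0 1) → ContinuousOn (f s) (sphere 0 1) :=
    fun hs hf => hf.comp (Continuous.prodMk_right _).continuousOn fun τ hτ => ⟨hs, hτ⟩
  have z := mem_ball_self (x := (0 : ℂ)) r0
  have e1 := fun s => av_clm (ContinuousLinearMap.apply ℝ ℝ s) (sl z c1)
  have e2 := fun s t => av_clm (u := D₂ 0) (ContinuousLinearMap.apply ℝ ℝ t ∘L
    ContinuousLinearMap.apply ℝ (ℂ →L[ℝ] ℝ) s) (sl z c2)
  have k1 := fun s : ℂ => (sl z c1).clm_apply (continuousOn_const (c := s))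
  have k2 := fun s t : ℂ => ((sl z c2).clm_apply (continuousOn_const (c := s))).clm_apply
    (continuousOn_const (c := t))
  simp only [ContinuousLinearMap.apply_apply, ContinuousLinearMap.comp_apply] at e1 e2
  convert ex_of_peano (g := fun s => av (h s)) (av (D₁ 0)) (av (D₂ 0))
    ((isOpen_ball.eventually_mem z).mono fun s hs => Metric.continuousAt_iff'.2 fun ε e0 => ?_)
    fun η h0 => ?_
  · have k := fun s => continuous_ofReal.comp_continuousOn' (k1 s)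
    simp only [div_eq_inv_mul]
    rw [av_mul_complex, av_sub (k 1) (continuousOn_const.fun_mul (k I)), av_mul_complex,
      av_ofReal (k1 1), av_ofReal (k1 I), e1, e1]
  · simp only [div_eq_inv_mul]
    rw [av_mul_real, av_add (k2 1 1) (k2 I I), e2, e2]
  · obtain ⟨v, h1, h2⟩ := (isCompact_sphere 0 1).mem_uniformity_of_prod c0 hs
      (dist_mem_uniformity (half_pos e0))
    rw [isOpen_ball.nhdsWithin_eq hs] at h1
    filter_upwards [h1, isOpen_ball.mem_nhds hs] with t h3 h4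
    rw [dist_eq_norm, ← av_sub (sl h4 c0) (sl hs c0)]
    exact (norm_av_le_const ((sl h4 c0).sub (sl hs c0)) fun τ hτ =>
      (dist_eq_norm _ _).ge.trans (le_of_lt (h2 t h3 τ hτ))).trans_lt (half_lt_self e0)
  · obtain ⟨v, h1, h2⟩ := (isCompact_sphere 0 1).mem_uniformity_of_prod (f := D₂) c2 z
      (dist_mem_uniformity (α := ℂ →L[ℝ] ℂ →L[ℝ] ℝ) h0)
    rw [isOpen_ball.nhdsWithin_eq z] at h1
    obtain ⟨δ, d0, hδ⟩ := Metric.mem_nhds_iff.1 (inter_mem h1 (isOpen_ball.mem_nhds z))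
    filter_upwards [ball_mem_nhds _ d0] with s hs
    have a1 := (sl (hδ hs).2 c0).fun_sub (sl z c0)
    have a2 : ContinuousOn (fun τ => 2⁻¹ * D₂ 0 τ s s) (sphere 0 1) := continuousOn_const.mul (k2 s s)
    rw [← e1, ← e2, div_eq_inv_mul, ← av_mul_real, ← av_sub (sl (hδ hs).2 c0) (sl z c0),
      ← av_sub a1 (k1 s), ← av_sub (a1.fun_sub (k1 s)) a2]
    refine norm_av_le_const ((a1.fun_sub (k1 s)).fun_sub a2) fun τ hτ => ?_
    rw [← div_eq_inv_mul]
    exact tay2 (f := fun s => h s τ) (D₁ := fun s => D₁ s τ) (D₂ := fun s => D₂ s τ)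
      (fun t ht => ⟨(hd t (hδ ht).2 τ hτ).1, (hd t (hδ ht).2 τ hτ).2,
        (dist_eq_norm (D₂ t τ) _).ge.trans (le_of_lt (h2 t (hδ ht).1 τ hτ))⟩) hs

end Vale.Agent.P253W.A
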