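import Vale.Agent.P253W.A.Defs0

/-!
# P253W, block A: sets of angles, and the test function for the variation of the time
-/

open Complex Metric Set Filter Topology MeasureTheory

noncomputable section

namespace Vale.Agent.P253W.A

open WM

namespace Tim

variable {p q : ℂ → Prop}

theorem pr_mono (h : ∀ τ ∈ sphere (0 : ℂ) 1, p τ → q τ) : pr p ≤ pr q :=
  measure_mono fun θ k => ⟨k.1, h _ (cm_mem θ) k.2⟩

theorem pr_or : pr (fun τ => p τ ∨ q τ) ≤ pr p + pr q :=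
  le_trans (measure_mono fun _ k => k.2.imp (And.intro k.1) (And.intro k.1)) (measure_union_le _ _)

theorem pr_all (h : ∀ τ ∈ sphere (0 : ℂ) 1, p τ) : pr p = ENNReal.ofReal (2 * Real.pi) := by
  rw [pr, sep_eq_self_iff_mem_true.2 fun θ _ => h _ (cm_mem θ), Real.volume_Ioc, sub_zero]

theorem pr_none (h : ∀ τ ∈ sphere (0 : ℂ) 1, ¬p τ) : pr p = 0 := by
  rw [pr, sep_eq_empty_iff_mem_false.2 fun θ _ => h _ (cm_mem θ), measure_empty]

/-- Chebyshev -/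
theorem cheb {f : ℂ → ℝ} {t : ℝ} (c : ContinuousOn f (sphere 0 1))
    (f0 : ∀ τ ∈ sphere (0 : ℂ) 1, 0 ≤ f τ) (t0 : 0 < t) :
    pr (fun τ => t ≤ f τ) ≤ ENNReal.ofReal (2 * Real.pi * av f / t) := by
  have := mul_meas_ge_le_integral_of_nonneg (μ := volume.restrict (Ioc 0 (2 * Real.pi)))
    (.of_forall fun θ => f0 _ (cm_mem θ)) (ci c).1 t
  rw [← intervalIntegral.integral_of_le Real.two_pi_pos.le, ← le_div_iff₀' t0, measureReal_def,
    ← ENNReal.le_ofReal_iff_toReal_le (measure_ne_top _ _) (div_nonneg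
      (intervalIntegral.integral_nonneg Real.two_pi_pos.le fun θ _ => f0 _ (cm_mem θ)) t0.le),
    Measure.restrict_apply' measurableSet_Ioc, inter_comm] at this
  rwa [av, Real.circleAverage_def, smul_eq_mul, mul_inv_cancel_left₀ Real.two_pi_pos.ne']

/-- the Lipschitz regularisation -/
theorem reg {ι : Type} [Fintype ι] {Y : ℂ → ι → ℂ} {X : ℂ → ℝ} {η c : ℝ} (c0 : 0 ≤ c)
    (h : ∀ τ ∈ sphere (0 : ℂ) 1, ∀ τ' ∈ sphere (0 : ℂ) 1, |X τ - X τ'| ≤ η + c * ‖Y τ - Y τ'‖) :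
    ∃ Z : ℂ → ℝ, (∀ τ ∈ sphere (0 : ℂ) 1, X τ - η ≤ Z τ ∧ Z τ ≤ X τ) ∧
      ∀ σ ∈ sphere (0 : ℂ) 1, ∀ τ ∈ sphere (0 : ℂ) 1, dist (Z σ) (Z τ) ≤ c * dist (Y σ) (Y τ) := by
  have : Nonempty (sphere (0 : ℂ) 1) := ⟨⟨_, cm_mem 0⟩⟩
  have l : ∀ τ ∈ sphere (0 : ℂ) 1, ∀ τ' : sphere (0 : ℂ) 1, X τ - η ≤ X τ' + c * ‖Y τ - Y τ'‖ :=
    fun τ hτ τ' => by linarith [(abs_le.1 (h τ hτ _ τ'.2)).2]
  have b : ∀ τ ∈ sphere (0 : ℂ) 1, ∀ σ : sphere (0 : ℂ) 1,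
      ⨅ τ' : sphere (0 : ℂ) 1, X τ' + c * ‖Y τ - Y τ'‖ ≤ X σ + c * ‖Y τ - Y σ‖ :=
    fun τ hτ => ciInf_le ⟨_, forall_mem_range.2 (l τ hτ)⟩
  have k : ∀ σ ∈ sphere (0 : ℂ) 1, ∀ τ, (⨅ τ' : sphere (0 : ℂ) 1, X τ' + c * ‖Y σ - Y τ'‖) -
      c * ‖Y σ - Y τ‖ ≤ ⨅ τ' : sphere (0 : ℂ) 1, X τ' + c * ‖Y τ - Y τ'‖ := fun σ hσ τ =>
    le_ciInf fun τ' => by
      linarith [b σ hσ τ', mul_le_mul_of_nonneg_left (norm_sub_le_norm_sub_add_norm_sub
        (Y σ) (Y τ) (Y τ')) c0]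
  refine ⟨fun τ => ⨅ τ' : sphere (0 : ℂ) 1, X τ' + c * ‖Y τ - Y τ'‖, fun τ hτ =>
    ⟨le_ciInf (l τ hτ), by simpa using b τ hτ ⟨τ, hτ⟩⟩, fun σ hσ τ hτ => ?_⟩
  have := k τ hτ σ
  rw [norm_sub_rev] at this
  rw [Real.dist_eq, dist_eq_norm]
  exact abs_le.2 ⟨by linarith, by linarith [k σ hσ τ]⟩

end Tim

open Tim in
/-- **the test function** -/
theorem tim (h : PSM) : TIM := by
  intro ι _ δ' η C₁ δ0' η0
  have π0 := Real.pi_pos
  obtain ⟨δ, hδ⟩ : ∃ δ, δ = min δ' Real.pi := ⟨_, rfl⟩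
  have δ0 : 0 < δ := hδ ▸ lt_min δ0' π0
  obtain ⟨K, hK⟩ : ∃ K, K = |C₁| * Fintype.card ι * √(2 * Real.pi / δ) := ⟨_, rfl⟩
  have K0 : 0 ≤ K := by rw [hK]; positivity
  refine ⟨8 * (2 * Real.pi / δ), η / (2 * (K + 1)), by positivity, fun N Y X N1 hY cX hX => ?_⟩
  obtain ⟨Z, hZ, lZ⟩ := reg (abs_nonneg C₁) fun τ hτ τ' hτ' => (hX τ hτ τ' hτ').trans
    (add_le_add_right (mul_le_mul_of_nonneg_right (le_abs_self _) (norm_nonneg _)) η)
  have dZ := (Dq.pi hY).of_le (abs_nonneg C₁) lZ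
  have cZ := dZ.cs
  obtain ⟨b, -, hb⟩ := exists_bound_cs cZ
  let S := {k : ℝ | pr (fun τ => k < Z τ) ≤ ENNReal.ofReal δ}
  have S1 : S.Nonempty := ⟨b, (pr_none fun τ hτ =>
    not_lt.2 ((le_abs_self _).trans (hb τ hτ))).le.trans zero_le⟩
  have S2 : BddBelow S := ⟨-b, fun k hk => not_lt.1 fun l => by
    have : pr (fun τ => k < Z τ) ≤ _ := hk
    rw [pr_all fun τ hτ => l.trans_le (abs_le.1 (hb τ hτ)).1,
      ENNReal.ofReal_le_ofReal_iff δ0.le] at this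
    linarith [hδ ▸ min_le_right δ' Real.pi]⟩
  obtain ⟨k, hk, k1⟩ := exists_lt_of_csInf_lt S1 (lt_add_of_pos_right _ (half_pos η0))
  have k2 : ENNReal.ofReal δ < pr fun τ => sInf S - η / 2 < Z τ := not_le.1 fun l => by
    linarith [csInf_le S2 l]
  generalize sInf S = s at k1 k2
  let φ : ℂ → ℝ := fun τ => max 0 (min 1 (2 * (Z τ - s + η) / η))
  have cφ : ContinuousOn φ (sphere 0 1) := continuousOn_const.sup (continuousOn_const.inf
    ((continuousOn_const.mul ((cZ.sub continuousOn_const).add continuousOn_const)).div_const _))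
  have φ0 : ∀ τ, 0 ≤ φ τ := fun τ => le_max_left _ _
  have φ1 : ∀ τ, φ τ ≤ 1 := fun τ => max_le zero_le_one (min_le_left _ _)
  have a1 : δ < 2 * Real.pi * av φ := by
    have := k2.trans_le ((pr_mono (q := fun τ => 1 ≤ φ τ) fun τ _ l => le_max_of_le_right
      (le_min le_rfl (by rw [le_div_iff₀ η0]; linarith))).trans
        (cheb cφ (fun τ _ => φ0 τ) one_pos))
    rwa [ENNReal.ofReal_lt_ofReal_iff_of_nonneg δ0.le, div_one] at this
  have a0 : 0 < av φ := pos_of_mul_pos_right (δ0.trans a1) (by positivity)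
  have cψ : ContinuousOn (fun τ => (av φ)⁻¹ * φ τ) (sphere 0 1) := continuousOn_const.mul cφ
  have ψ0 : ∀ τ, 0 ≤ (av φ)⁻¹ * φ τ := fun τ => mul_nonneg (inv_pos.2 a0).le (φ0 τ)
  have ψ1 : av (fun τ => (av φ)⁻¹ * φ τ) = 1 := by rw [av_mul_real, inv_mul_cancel₀ a0.ne']
  have ψ2 : av (fun τ => ((av φ)⁻¹ * φ τ) ^ 2) ≤ 2 * Real.pi / δ := by
    refine (av_mono (cψ.pow 2) (continuousOn_const.mul cψ) (v := fun τ => (av φ)⁻¹ *
      ((av φ)⁻¹ * φ τ)) fun τ _ => ?_).trans ?_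
    · rw [sq]
      exact mul_le_mul_of_nonneg_right (mul_le_of_le_one_right (inv_pos.2 a0).le (φ1 τ)) (ψ0 τ)
    · rw [av_mul_real, ψ1, mul_one, le_div_iff₀ δ0, inv_mul_le_iff₀' a0]
      exact a1.le
  obtain ⟨P, hP, P0, P1, P2, P3⟩ := h _ N N1 cψ fun τ _ => ψ0 τ
  rw [ψ1, Complex.ofReal_one] at P0
  refine ⟨P, hP, P0, P1, by linarith, ?_⟩
  have cP : ContinuousOn (fun τ => (P τ).re) (sphere 0 1) :=
    Complex.continuous_re.comp_continuousOn hP.cs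
  have e1 : s - η ≤ av fun τ => Z τ * ((av φ)⁻¹ * φ τ) := by
    refine le_trans (le_of_eq ?_) (av_mono (u := fun τ => (s - η) * ((av φ)⁻¹ * φ τ))
      (continuousOn_const.mul cψ) (cZ.mul cψ) fun τ _ => ?_)
    · rw [av_mul_real, ψ1, mul_one]
    · rcases le_total (s - η) (Z τ) with l | l
      · exact mul_le_mul_of_nonneg_right l (ψ0 τ)
      · have : φ τ = 0 := max_eq_left (min_le_of_right_le
          (div_nonpos_of_nonpos_of_nonneg (by linarith) η0.le))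
        simp [this]
  have e2 := (abs_le.1 ((P3 Z _ dZ).trans (show _ ≤ η / 2 by
    calc _ ≤ |C₁| * (Fintype.card ι * (η / (2 * (K + 1)) * N)) / N * √(2 * Real.pi / δ) := by gcongr
      _ = K * (η / (2 * (K + 1))) := by rw [hK]; field_simp
      _ ≤ (K + 1) * (η / (2 * (K + 1))) := by gcongr; linarith
      _ = η / 2 := by field_simp))).1
  have e3 := av_mono (cZ.mul cP) (cX.mul cP) fun τ hτ =>
    mul_le_mul_of_nonneg_right (hZ τ hτ).2 (P1 τ (sphere_subset_closedBall hτ))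
  refine ((pr_mono fun τ hτ l => ?_).trans hk).trans
    (ENNReal.ofReal_le_ofReal (hδ ▸ min_le_left _ _))
  have e4 : (av fun τ => Z τ * (P τ).re) ≤ av fun τ => X τ * (P τ).re := e3
  linarith [(hZ τ hτ).1]

end Vale.Agent.P253W.A
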