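import Vale.Agent.P253W.A.Defs0

/-!
# P253W, block A, row TUB1: uniform local inverses along a disc
-/

open Complex Metric Set Filter Topology
open scoped Matrix NNReal
open Vale.Agent.P272.K (Cm dz jacM Chart)

noncomputable section

namespace Vale.Agent.P253W.A

namespace Tub1

variable {ι κ : Type} [Fintype ι] [Fintype κ]

/-- the sum of the norms of the entries -/
def n1 (M : Matrix ι κ ℂ) : ℝ := ∑ i, ∑ l, ‖M i l‖

theorem n10 (M : Matrix ι κ ℂ) : 0 ≤ n1 M := by unfold n1; positivity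

theorem mv_le (M : Matrix ι κ ℂ) (v : κ → ℂ) : ‖M *ᵥ v‖ ≤ n1 M * ‖v‖ := by
  refine (pi_norm_le_iff_of_nonneg (mul_nonneg (n10 M) (norm_nonneg _))).2 fun i => ?_
  calc ‖(M *ᵥ v) i‖ = ‖∑ l, M i l * v l‖ := rfl
    _ ≤ ∑ l, ‖M i l‖ * ‖v‖ := norm_sum_le_of_le _ fun l _ => by
        rw [norm_mul]
        exact mul_le_mul_of_nonneg_left (norm_le_pi_norm v l) (norm_nonneg _)
    _ = (∑ l, ‖M i l‖) * ‖v‖ := (Finset.sum_mul ..).symm
    _ ≤ _ := mul_le_mul_of_nonneg_right (Finset.single_le_sum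
        (f := fun i => ∑ l, ‖M i l‖) (fun _ _ => by positivity) (Finset.mem_univ i))
        (norm_nonneg _)

/-- a matrix as a continuous linear map -/
def Lm (M : Matrix ι κ ℂ) : (κ → ℂ) →L[ℂ] (ι → ℂ) := LinearMap.toContinuousLinearMap M.mulVecLin

theorem loc0 {q : ℕ} {g : Cm q → ι → ℂ} {z₀ : Cm q} {B : Matrix ι (Fin q) ℂ}
    (hg : HasStrictFDerivAt g (Lm B) z₀) {Y₀ : Matrix (Fin q) ι ℂ} (hd : (Y₀ * B).det ≠ 0) :
    ∃ s ∈ 𝓝 z₀, ∃ c : ℝ, 0 < c ∧ ∀ Y : Matrix (Fin q) ι ℂ, n1 (Y - Y₀) ≤ c →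
      (∀ z ∈ s, ∀ z' ∈ s, c * ‖g z - g z'‖ ≤ ‖Y *ᵥ (g z - g z')‖) ∧
      ∀ b ρ, 0 ≤ ρ → closedBall b ρ ⊆ s → ∀ w, ‖w‖ ≤ c * ρ →
        ∃ z ∈ closedBall b ρ, Y *ᵥ (g z - g b) = w := by
  obtain ⟨n, hn, hn1⟩ : ∃ n : ℝ, 0 < n ∧ n1 (Y₀ * B)⁻¹ ≤ n :=
    ⟨n1 (Y₀ * B)⁻¹ + 1, by linarith [n10 (Y₀ * B)⁻¹], by linarith⟩
  obtain ⟨m, hm, hm1⟩ : ∃ m : ℝ, 0 < m ∧ n1 Y₀ ≤ m := ⟨n1 Y₀ + 1, by linarith [n10 Y₀], by linarith⟩
  have hB := n10 B
  have hk : 0 < min 1 (1 / (4 * n * m)) := by positivity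
  obtain ⟨s, hs, ha⟩ := hg.approximates_deriv_on_nhds (c := ⟨_, hk.le⟩) (Or.inr hk)
  refine ⟨s, hs, 1 / (4 * n * (n1 B + 1)), by positivity, fun Y hY => ?_⟩
  have h1 : ∀ z ∈ s, ∀ z' ∈ s, ‖g z - g z' - B *ᵥ (z - z')‖ ≤ min 1 (1 / (4 * n * m)) * ‖z - z'‖ :=
    ha
  have h2 : ∀ z ∈ s, ∀ z' ∈ s, ‖g z - g z'‖ ≤ (n1 B + 1) * ‖z - z'‖ := by
    intro z hz z' hz'
    have a := (h1 z hz z' hz').trans (mul_le_mul_of_nonneg_right (min_le_left _ _) (norm_nonneg _))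
    have b := norm_add_le (g z - g z' - B *ᵥ (z - z')) (B *ᵥ (z - z'))
    rw [sub_add_cancel] at b
    linarith [mv_le B (z - z')]
  have h3 : ∀ z ∈ s, ∀ z' ∈ s,
      ‖Y *ᵥ g z - Y *ᵥ g z' - (Y₀ * B) *ᵥ (z - z')‖ ≤ 1 / (2 * n) * ‖z - z'‖ := by
    intro z hz z' hz'
    have e : Y *ᵥ g z - Y *ᵥ g z' - (Y₀ * B) *ᵥ (z - z') =
        (Y - Y₀) *ᵥ (g z - g z') + Y₀ *ᵥ (g z - g z' - B *ᵥ (z - z')) := by
      simp only [Matrix.sub_mulVec, Matrix.mulVec_sub, ← Matrix.mulVec_mulVec]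
      abel
    have a := (h1 z hz z' hz').trans (mul_le_mul_of_nonneg_right (min_le_right _ _) (norm_nonneg _))
    have hz0 := norm_nonneg (z - z')
    rw [e]
    refine (norm_add_le_of_le (mv_le _ _) (mv_le _ _)).trans ?_
    calc _ ≤ 1 / (4 * n * (n1 B + 1)) * ((n1 B + 1) * ‖z - z'‖) +
          m * (1 / (4 * n * m) * ‖z - z'‖) := by
          have := h2 z hz z' hz'
          gcongr
      _ = _ := by field_simp; ring
  have hu : IsUnit (Y₀ * B).det := isUnit_iff_ne_zero.2 hd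
  refine ⟨fun z hz z' hz' => ?_, fun b ρ hρ hb w hw => ?_⟩
  · have a : ‖z - z'‖ ≤ n * ‖(Y₀ * B) *ᵥ (z - z')‖ := by
      have := mv_le (Y₀ * B)⁻¹ ((Y₀ * B) *ᵥ (z - z'))
      rw [Matrix.mulVec_mulVec, Matrix.nonsing_inv_mul _ hu, Matrix.one_mulVec] at this
      exact this.trans (mul_le_mul_of_nonneg_right hn1 (norm_nonneg _))
    have b := norm_sub_le (Y *ᵥ g z - Y *ᵥ g z') (Y *ᵥ g z - Y *ᵥ g z' - (Y₀ * B) *ᵥ (z - z'))
    rw [sub_sub_cancel] at b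
    have c := mul_le_mul_of_nonneg_left (b.trans (add_le_add le_rfl (h3 z hz z' hz'))) hn.le
    have d : n * (1 / (2 * n) * ‖z - z'‖) = ‖z - z'‖ / 2 := by field_simp
    rw [Matrix.mulVec_sub, one_div, inv_mul_le_iff₀ (by positivity)]
    refine (h2 z hz z' hz').trans ?_
    have f : ‖z - z'‖ ≤ 4 * n * ‖Y *ᵥ g z - Y *ᵥ g z'‖ := by
      nlinarith [mul_nonneg hn.le (norm_nonneg (Y *ᵥ g z - Y *ᵥ g z'))]
    calc _ ≤ (n1 B + 1) * (4 * n * ‖Y *ᵥ g z - Y *ᵥ g z'‖) := by gcongr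
      _ = _ := by ring
  · have ap : ApproximatesLinearOn (fun z => Y *ᵥ g z) (Lm (Y₀ * B)) s
        ⟨1 / (2 * n), by positivity⟩ := h3
    let R : (Lm (Y₀ * B)).NonlinearRightInverse :=
      ⟨fun v => (Y₀ * B)⁻¹ *ᵥ v, ⟨n, hn.le⟩,
        fun v => (mv_le _ _).trans (mul_le_mul_of_nonneg_right hn1 (norm_nonneg _)), fun v => by
          show (Y₀ * B) *ᵥ ((Y₀ * B)⁻¹ *ᵥ v) = v
          rw [Matrix.mulVec_mulVec, Matrix.mul_nonsing_inv _ hu, Matrix.one_mulVec]⟩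
    obtain ⟨z, hz, e⟩ := ap.surjOn_closedBall_of_nonlinearRightInverse R hρ hb
      (a := Y *ᵥ g b + w) (by
        rw [mem_closedBall, dist_eq_norm, add_sub_cancel_left]
        refine hw.trans (mul_le_mul_of_nonneg_right ?_ hρ)
        show _ ≤ n⁻¹ - 1 / (2 * n)
        calc _ ≤ 1 / (2 * n) := one_div_le_one_div_of_le (by positivity) (by nlinarith)
          _ = _ := by field_simp; ring)
    exact ⟨z, hz, by rw [Matrix.mulVec_sub, show Y *ᵥ g z = _ from e, add_sub_cancel_left]⟩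

omit [Fintype ι] in
theorem emb {N α : Type} [TopologicalSpace N] {F : N → ι → ℂ} {K : Set N} (hK : IsCompact K)
    (hF : Continuous F) (hi : InjOn F K) {l : Filter α} {f : α → N} {y : N} (hy : y ∈ K)
    (hf : ∀ᶠ a in l, f a ∈ K) (h : Tendsto (F ∘ f) l (𝓝 (F y))) : Tendsto f l (𝓝 y) :=
  hK.tendsto_nhds_of_unique_mapClusterPt hf fun _ hx hc => hi hx hy
    (eq_of_nhds_neBot ((hc.continuousAt_comp hF.continuousAt).clusterPt.mono h))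

theorem strict {q : ℕ} {g : Cm q → ι → ℂ} {z : Cm q} (h : ∀ l, AnalyticAt ℂ (fun w => g w l) z) :
    HasStrictFDerivAt g (Lm (Matrix.of fun l k => dz k (fun w => g w l) z)) z := by
  refine hasStrictFDerivAt_pi'' fun l => (h l).hasStrictFDerivAt.congr_fderiv ?_
  have e : ∀ k, dz k (fun w => g w l) z = fderiv ℂ (fun w => g w l) z (Pi.single k 1) := by
    intro k
    have a : (Pi.single k I : Cm q) = I • (Pi.single k 1 : Cm q) := by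
      rw [← Pi.single_smul, smul_eq_mul, mul_one]
    rw [dz, (h l).differentiableAt.fderiv_restrictScalars ℝ]
    simp only [ContinuousLinearMap.coe_restrictScalars', a, map_smul, smul_eq_mul]
    linear_combination (-fderiv ℂ (fun w => g w l) z (Pi.single k 1) / 2) * I_mul_I
  ext v
  show _ = ∑ k, dz k (fun w => g w l) z * v k
  conv_lhs => rw [pi_eq_sum_univ' v, map_sum]
  simp only [e, map_smul, smul_eq_mul, mul_comm]

variable {q : ℕ} {N : Type} [TopologicalSpace N] (𝒜 : Set (Chart q N)) (F : N → ι → ℂ)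
  (K : Set N) (φ : ℂ → N) (Y : ℂ → Matrix (Fin q) ι ℂ)

/-- the uniform local statement -/
structure Pc (c : ℝ) (τ : ℂ) : Prop where
  a : ∀ y ∈ K, ∀ y' ∈ K, ‖F y - F (φ τ)‖ < c → ‖F y' - F (φ τ)‖ < c →
    c * ‖F y - F y'‖ ≤ ‖Y τ *ᵥ (F y - F y')‖
  b : ∀ y ∈ K, ‖F y - F (φ τ)‖ < c → ∀ e ∈ 𝒜, y ∈ e.source → (Y τ * dM F e y).det ≠ 0
  c : ∀ w, ‖w‖ < c → ∃ y ∈ K, c * ‖F y - F (φ τ)‖ ≤ ‖w‖ ∧ Y τ *ᵥ (F y - F (φ τ)) = w

variable {𝒜 F K φ Y}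

theorem Pc.mono {c c' : ℝ} {τ : ℂ} (h : Pc 𝒜 F K φ Y c τ) (hc : c' ≤ c) : Pc 𝒜 F K φ Y c' τ where
  a y hy y' hy' h1 h2 := (mul_le_mul_of_nonneg_right hc (norm_nonneg _)).trans
    (h.a y hy y' hy' (h1.trans_le hc) (h2.trans_le hc))
  b y hy h1 := h.b y hy (h1.trans_le hc)
  c w hw := by
    obtain ⟨y, hy, h1, h2⟩ := h.c w (hw.trans_le hc)
    exact ⟨y, hy, (mul_le_mul_of_nonneg_right hc (norm_nonneg _)).trans h1, h2⟩

theorem loc1 (hA : At 𝒜) (hH : Ho 𝒜 F) (hF : Continuous F) (hK : IsCompact K) (hi : InjOn F K)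
    (hj : ∀ e ∈ 𝒜, ∀ e' ∈ 𝒜, ∀ y ∈ e.source, y ∈ e'.source → dM F e y = dM F e' y * jacM e e' y)
    {D : Set ℂ} {τ₀ : ℂ} (hφ : ContinuousWithinAt φ D τ₀) (hK0 : K ∈ 𝓝 (φ τ₀))
    (hY : ∀ i l, ContinuousWithinAt (fun τ => Y τ i l) D τ₀)
    (hd : ∀ e ∈ 𝒜, φ τ₀ ∈ e.source → (Y τ₀ * dM F e (φ τ₀)).det ≠ 0) :
    ∃ c : ℝ, 0 < c ∧ ∀ᶠ τ in 𝓝[D] τ₀, Pc 𝒜 F K φ Y c τ := by
  obtain ⟨e, he, h0⟩ := hA.cov (φ τ₀)
  have ht := e.map_source h0
  obtain ⟨s, hs, c, hc, h1⟩ := loc0 (strict (hH e he _ ht)) (hd e he h0)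
  have hec := e.continuousAt h0
  have hdet : ∀ᶠ p : ℂ × N in 𝓝[D] τ₀ ×ˢ 𝓝 (φ τ₀), (Y p.1 * dM F e p.2).det ≠ 0 := by
    have a : Tendsto (fun p : ℂ × N => Y p.1) (𝓝[D] τ₀ ×ˢ 𝓝 (φ τ₀)) (𝓝 (Y τ₀)) :=
      tendsto_pi_nhds.2 fun i => tendsto_pi_nhds.2 fun l => (hY i l).tendsto.comp tendsto_fst
    have b : Tendsto (fun p : ℂ × N => dM F e p.2) (𝓝[D] τ₀ ×ˢ 𝓝 (φ τ₀))
        (𝓝 (dM F e (φ τ₀))) := by
      refine tendsto_pi_nhds.2 fun l => tendsto_pi_nhds.2 fun k => ?_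
      have b1 : ContinuousAt (fderiv ℝ fun w => F (e.symm w) l) (e (φ τ₀)) :=
        ((hH e he _ ht l).restrictScalars (𝕜 := ℝ)).fderiv.continuousAt
      have b2 : ContinuousAt (dz k fun w => F (e.symm w) l) (e (φ τ₀)) := by
        unfold dz
        fun_prop
      exact (b2.tendsto.comp hec.tendsto).comp tendsto_snd
    have d : Continuous fun p : Matrix (Fin q) ι ℂ × Matrix ι (Fin q) ℂ => (p.1 * p.2).det :=
      (continuous_fst.matrix_mul continuous_snd).matrix_det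
    exact ((d.tendsto _).comp (a.prodMk_nhds b)).eventually_ne (hd e he h0)
  obtain ⟨pa, hpa, pb, hpb, hdet⟩ := eventually_prod_iff.1 hdet
  have hs' : s ∩ (e.target ∩ e.symm ⁻¹' K) ∈ 𝓝 (e (φ τ₀)) := by
    refine inter_mem hs (inter_mem (e.open_target.mem_nhds ht) ?_)
    refine (e.continuousAt_symm ht).preimage_mem_nhds ?_
    rwa [e.left_inv h0]
  obtain ⟨ρ, hρ, hρ1⟩ := Metric.nhds_basis_closedBall.mem_iff.1 hs'
  have hV : ∀ᶠ y in 𝓝 (φ τ₀), y ∈ e.source ∧ e y ∈ s ∧ pb y :=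
    (e.open_source.eventually_mem h0).and ((hec.eventually_mem hs).and hpb)
  have hV' := (emb hK hF hi (l := comap F (𝓝 (F (φ τ₀))) ⊓ 𝓟 K) (f := id) (mem_of_mem_nhds hK0)
    (mem_inf_of_right (mem_principal_self K))
    (tendsto_comap.mono_left inf_le_left)).eventually hV
  rw [eventually_inf_principal, eventually_comap, Metric.eventually_nhds_iff] at hV'
  obtain ⟨δ, hδ, hV'⟩ := hV'
  have e1 : ∀ᶠ τ in 𝓝[D] τ₀, n1 (Y τ - Y τ₀) < c := by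
    have : Tendsto (fun τ => n1 (Y τ - Y τ₀)) (𝓝[D] τ₀) (𝓝 (n1 (Y τ₀ - Y τ₀))) :=
      tendsto_finsetSum _ fun i _ => tendsto_finsetSum _ fun l _ =>
        ((hY i l).tendsto.sub_const _).norm
    exact this.eventually_lt_const (by simpa [n1] using hc)
  have e2 : ∀ᶠ τ in 𝓝[D] τ₀, dist (F (φ τ)) (F (φ τ₀)) < δ / 2 :=
    Metric.tendsto_nhds.1 ((hF.tendsto _).comp hφ.tendsto) _ (by positivity)
  have e3 : ∀ᶠ τ in 𝓝[D] τ₀, dist (e (φ τ)) (e (φ τ₀)) < ρ / 2 :=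
    Metric.tendsto_nhds.1 (hec.tendsto.comp hφ.tendsto) _ (by positivity)
  refine ⟨min (min c (δ / 2)) (c * (ρ / 2)), by positivity, ?_⟩
  filter_upwards [e1, e2, e3, hpa, hφ.tendsto.eventually hV] with τ a1 a2 a3 a4 a5
  obtain ⟨b1, b2⟩ := h1 (Y τ) a1.le
  have m1 : min (min c (δ / 2)) (c * (ρ / 2)) ≤ c := (min_le_left _ _).trans (min_le_left _ _)
  have nr : ∀ y ∈ K, ‖F y - F (φ τ)‖ < min (min c (δ / 2)) (c * (ρ / 2)) →
      y ∈ e.source ∧ e y ∈ s ∧ pb y := by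
    intro y hy h
    have := h.trans_le ((min_le_left _ _).trans (min_le_right _ _))
    rw [← dist_eq_norm] at this
    exact hV' (y := F y) (by linarith [dist_triangle (F y) (F (φ τ)) (F (φ τ₀))]) y rfl hy
  refine ⟨fun y hy y' hy' h h' => ?_, fun y hy h e' he' hy' => ?_, fun w hw => ?_⟩
  · have := b1 _ (nr y hy h).2.1 _ (nr y' hy' h').2.1
    rw [e.left_inv (nr y hy h).1, e.left_inv (nr y' hy' h').1] at this
    exact (mul_le_mul_of_nonneg_right m1 (norm_nonneg _)).trans this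
  · have := hdet a4 (nr y hy h).2.2
    rw [hj e he e' he' y (nr y hy h).1 hy', ← Matrix.mul_assoc, Matrix.det_mul] at this
    exact left_ne_zero_of_mul this
  · have hb : closedBall (e (φ τ)) (ρ / 2) ⊆ s ∩ (e.target ∩ e.symm ⁻¹' K) :=
      (closedBall_subset_closedBall' (by linarith)).trans hρ1
    obtain ⟨z, hz, h⟩ := b2 _ _ (by positivity) (hb.trans inter_subset_left) w
      (hw.le.trans (min_le_right _ _))
    have := b1 _ (hb hz).1 _ a5.2.1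
    rw [h] at this
    rw [e.left_inv a5.1] at h this
    exact ⟨_, (hb hz).2.2, (mul_le_mul_of_nonneg_right m1 (norm_nonneg _)).trans this, h⟩

end Tub1

open Tub1 in
theorem tub1 (h : LIPK) : TUB1 := by
  intro q N _ _ 𝒜 ι _ F K φ Y hA hH hK hE hφ hK0 hY hd
  classical
  obtain ⟨hF, -, hj, -⟩ := h q N 𝒜 ι F hA hH
  obtain ⟨c, hc, hc1, hP⟩ : ∃ c : ℝ, 0 < c ∧ c ≤ 1 ∧
      ∀ τ ∈ closedBall (0 : ℂ) 1, Pc 𝒜 F K φ Y c τ := by
    refine (isCompact_closedBall (0 : ℂ) 1).induction_on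
      (p := fun s => ∃ c : ℝ, 0 < c ∧ c ≤ 1 ∧ ∀ τ ∈ s, Pc 𝒜 F K φ Y c τ)
      ⟨1, one_pos, le_rfl, fun _ h => h.elim⟩ ?_ ?_ fun τ hτ => ?_
    · rintro s t hst ⟨c, hc, hc1, h⟩
      exact ⟨c, hc, hc1, fun τ hτ => h τ (hst hτ)⟩
    · rintro s t ⟨c, hc, hc1, h⟩ ⟨c', hc', -, h'⟩
      exact ⟨min c c', lt_min hc hc', (min_le_left _ _).trans hc1, fun τ hτ => hτ.elim
        (fun a => (h τ a).mono (min_le_left _ _)) fun a => (h' τ a).mono (min_le_right _ _)⟩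
    · obtain ⟨c, hc, h⟩ := loc1 hA hH hF hK hE.1
        (fun e he e' he' y hy hy' => (hj e he e' he' y hy hy').1) (hφ τ hτ) (hK0 τ hτ)
        (fun i l => hY i l τ hτ) (hd τ hτ)
      exact ⟨_, h, min c 1, lt_min hc one_pos, min_le_right _ _,
        fun τ hτ => hτ.mono (min_le_left _ _)⟩
  have hn : ContinuousOn (fun τ => n1 (Y τ)) (closedBall (0 : ℂ) 1) :=
    continuousOn_finsetSum _ fun i _ => continuousOn_finsetSum _ fun l _ => (hY i l).norm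
  obtain ⟨M, hM⟩ := (isCompact_closedBall (0 : ℂ) 1).exists_bound_of_continuousOn hn
  have hM0 : 0 ≤ M := (norm_nonneg _).trans (hM 0 (mem_closedBall_self zero_le_one))
  let Ξ : ℂ → Cm q → N := fun τ w =>
    if h : ∃ y ∈ K, ‖F y - F (φ τ)‖ < c / 4 ∧ Y τ *ᵥ (F y - F (φ τ)) = w then h.choose else φ τ
  have sp : ∀ τ w, (∃ y ∈ K, ‖F y - F (φ τ)‖ < c / 4 ∧ Y τ *ᵥ (F y - F (φ τ)) = w) →
      Ξ τ w ∈ K ∧ ‖F (Ξ τ w) - F (φ τ)‖ < c / 4 ∧ Y τ *ᵥ (F (Ξ τ w) - F (φ τ)) = w := by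
    intro τ w h
    simp only [Ξ, dif_pos h]
    exact h.choose_spec
  have sq : ∀ τ ∈ closedBall (0 : ℂ) 1, ∀ w ∈ ball (0 : Cm q) (c * (c / 4)),
      Ξ τ w ∈ K ∧ ‖F (Ξ τ w) - F (φ τ)‖ < c / 4 ∧ Y τ *ᵥ (F (Ξ τ w) - F (φ τ)) = w := by
    intro τ hτ w hw
    rw [mem_ball_zero_iff] at hw
    obtain ⟨y, hy, h1, h2⟩ := (hP τ hτ).c w (hw.trans_le (by nlinarith))
    exact sp τ w ⟨y, hy, lt_of_mul_lt_mul_left (h1.trans_lt hw) hc.le, h2⟩
  have lip : ∀ τ ∈ closedBall (0 : ℂ) 1, ∀ w ∈ ball (0 : Cm q) (c * (c / 4)),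
      ∀ τ' ∈ closedBall (0 : ℂ) 1, ∀ w' ∈ ball (0 : Cm q) (c * (c / 4)),
      ‖F (Ξ τ w) - F (Ξ τ' w')‖ ≤ ((M + 1) / c + 2) *
        (‖τ - τ'‖ + ‖w - w'‖ + ‖F (φ τ) - F (φ τ')‖ + n1 (Y τ - Y τ')) := by
    intro τ hτ w hw τ' hτ' w' hw'
    obtain ⟨a1, a2, a3⟩ := sq τ hτ w hw
    obtain ⟨b1, b2, b3⟩ := sq τ' hτ' w' hw'
    have p1 := norm_nonneg (τ - τ')
    have p2 := norm_nonneg (w - w')
    have p3 := norm_nonneg (F (φ τ) - F (φ τ'))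
    have p4 := n10 (Y τ - Y τ')
    have p5 : 0 ≤ (M + 1) / c := by positivity
    rcases le_or_gt (c / 2) ‖F (φ τ) - F (φ τ')‖ with h | h
    · have e : F (Ξ τ w) - F (Ξ τ' w') = (F (Ξ τ w) - F (φ τ)) + (F (φ τ) - F (φ τ')) -
          (F (Ξ τ' w') - F (φ τ')) := by abel
      have := norm_sub_le_of_le (norm_add_le (F (Ξ τ w) - F (φ τ)) (F (φ τ) - F (φ τ'))) b2.le
      rw [← e] at this
      nlinarith
    · have b4 : ‖F (Ξ τ' w') - F (φ τ)‖ < c := by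
        have := norm_sub_le (F (Ξ τ' w') - F (φ τ')) (F (φ τ) - F (φ τ'))
        rw [sub_sub_sub_cancel_right] at this
        linarith
      have k := (hP τ hτ).a _ a1 _ b1 (by linarith) b4
      have e : Y τ *ᵥ (F (Ξ τ w) - F (Ξ τ' w')) = (w - w') + Y τ *ᵥ (F (φ τ) - F (φ τ')) -
          (Y τ - Y τ') *ᵥ (F (Ξ τ' w') - F (φ τ')) := by
        rw [Matrix.sub_mulVec, b3]
        nth_rewrite 2 [← a3]
        simp only [Matrix.mulVec_sub]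
        abel
      have m1 : n1 (Y τ) ≤ M := (le_abs_self _).trans (hM τ hτ)
      have k2 := norm_sub_le_of_le (norm_add_le_of_le (le_refl ‖w - w'‖)
        ((mv_le (Y τ) (F (φ τ) - F (φ τ'))).trans (mul_le_mul_of_nonneg_right m1 p3)))
        ((mv_le (Y τ - Y τ') (F (Ξ τ' w') - F (φ τ'))).trans
          (mul_le_of_le_one_right p4 (by linarith)))
      rw [← e] at k2
      have k3 : ‖F (Ξ τ w) - F (Ξ τ' w')‖ ≤ (M + 1) / c *
          (‖τ - τ'‖ + ‖w - w'‖ + ‖F (φ τ) - F (φ τ')‖ + n1 (Y τ - Y τ')) := by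
        rw [div_mul_eq_mul_div, le_div_iff₀ hc]
        nlinarith [mul_nonneg hM0 p1, mul_nonneg hM0 p2, mul_nonneg hM0 p4]
      nlinarith
  refine ⟨c * (c / 4), (M + 1) / c + 2, Ξ, by positivity, by positivity, ?_, fun τ hτ =>
    ⟨?_, fun w hw => ⟨(sq τ hτ w hw).1, (sq τ hτ w hw).2.2,
      (hP τ hτ).b _ (sq τ hτ w hw).1 (by linarith [(sq τ hτ w hw).2.1]), lip τ hτ w hw⟩⟩⟩
  · rintro ⟨τ, w⟩ ⟨hτ, hw⟩
    refine emb hK hF hE.1 (sq τ hτ w hw).1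
      (eventually_mem_nhdsWithin.mono fun p hp => (sq _ hp.1 _ hp.2).1) ?_
    rw [tendsto_iff_norm_sub_tendsto_zero]
    have t1 : Tendsto (fun p : ℂ × Cm q => p.1) (𝓝[closedBall 0 1 ×ˢ ball 0 (c * (c / 4))] (τ, w))
        (𝓝[closedBall 0 1] τ) :=
      continuous_fst.continuousWithinAt.tendsto_nhdsWithin fun p hp => hp.1
    have t2 : Tendsto (fun p : ℂ × Cm q => ((M + 1) / c + 2) * (‖p.1 - τ‖ + ‖p.2 - w‖ +
        ‖F (φ p.1) - F (φ τ)‖ + n1 (Y p.1 - Y τ))) (𝓝[closedBall 0 1 ×ˢ ball 0 (c * (c / 4))] (τ, w))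
        (𝓝 (((M + 1) / c + 2) * (‖τ - τ‖ + ‖w - w‖ + ‖F (φ τ) - F (φ τ)‖ + n1 (Y τ - Y τ)))) := by
      refine Tendsto.const_mul _ (((Tendsto.add ?_ ?_).add ?_).add ?_)
      · exact (continuous_fst.continuousWithinAt.tendsto.sub_const _).norm
      · exact (continuous_snd.continuousWithinAt.tendsto.sub_const _).norm
      · exact (((hF.tendsto _).comp ((hφ τ hτ).tendsto.comp t1)).sub_const _).norm
      · exact tendsto_finsetSum _ fun i _ => tendsto_finsetSum _ fun l _ =>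
          (((hY i l τ hτ).tendsto.comp t1).sub_const _).norm
    simp only [sub_self, norm_zero, add_zero, n1, Matrix.zero_apply, Finset.sum_const_zero,
      mul_zero] at t2
    exact squeeze_zero' (Eventually.of_forall fun _ => norm_nonneg _)
      (eventually_mem_nhdsWithin.mono fun p hp => lip _ hp.1 _ hp.2 τ hτ w hw) t2
  · have e2 : ∀ᶠ y in 𝓝 (φ τ), dist (F y) (F (φ τ)) < c / 4 :=
      Metric.tendsto_nhds.1 (hF.tendsto _) _ (by positivity)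
    filter_upwards [e2, hK0 τ hτ] with y h1 h2
    rw [dist_eq_norm] at h1
    obtain ⟨a1, a2, a3⟩ := sp τ _ ⟨y, h2, h1, rfl⟩
    have k := (hP τ hτ).a _ a1 _ h2 (by linarith) (by linarith)
    have e : Y τ *ᵥ (F (Ξ τ (Y τ *ᵥ (F y - F (φ τ)))) - F y) = 0 := by
      rw [← sub_sub_sub_cancel_right _ _ (F (φ τ)), Matrix.mulVec_sub, a3, sub_self]
    rw [e, norm_zero] at k
    refine hE.1 a1 h2 (sub_eq_zero.1 (norm_le_zero_iff.1 ?_))
    exact le_of_mul_le_mul_left (by simpa using k) hc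

end Vale.Agent.P253W.A
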