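import Vale.Agent.P253W.A.Defs0

/-!
# P253W, block A, row TUBE: deformations of a disc
-/

open Complex Metric Set Filter Topology
open scoped Matrix
open Vale.Agent.P272.K (Cm Chart)

noncomputable section

namespace Vale.Agent.P253W.A

open WM

namespace Tube

variable {ι κ : Type} [Fintype ι] [Fintype κ]

theorem mv_deriv (M : Matrix ι κ ℂ) {g : ℂ → κ → ℂ} {g' : κ → ℂ} {s : ℂ} (h : HasDerivAt g g' s) :
    HasDerivAt (fun s => M *ᵥ g s) (M *ᵥ g') s :=
  (LinearMap.toContinuousLinearMap M.mulVecLin).hasFDerivAt.comp_hasDerivAt s h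

theorem mv_diff {Y : ℂ → Matrix ι κ ℂ} {g : ℂ → κ → ℂ} {U : Set ℂ}
    (hY : ∀ i l, DifferentiableOn ℂ (fun τ => Y τ i l) U)
    (hg : ∀ l, DifferentiableOn ℂ (fun τ => g τ l) U) :
    DifferentiableOn ℂ (fun τ => Y τ *ᵥ g τ) U :=
  differentiableOn_pi.2 fun i => DifferentiableOn.fun_sum fun l _ => (hY i l).mul (hg l)

end Tube

open Tube in
theorem tube (h1 : LIPK) (h2 : HOLI) (h3 : TUB1) : TUBE := by
  intro q N _ _ 𝒜 ι _ F K φ c Y U hA hH hK hE hφ hK0 wF wY wU hd ⟨r₁, hr₁, hc⟩ hc0 hU0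
  obtain ⟨-, hF, -, -⟩ := h1 q N 𝒜 ι F hA hH
  obtain ⟨r₀, C, Ξ, hr₀, hC, hΞ, hX⟩ :=
    h3 q N 𝒜 ι F K φ Y hA hH hK hE hφ.1 hK0 (fun i l => (wY i l).da.cb) hd
  have h0 : (0 : ℂ) ∈ closedBall (0 : ℂ) 1 := mem_closedBall_self zero_le_one
  have cU : ContinuousOn U (closedBall 0 1) := continuousOn_pi.2 fun i => (wU i).da.cb
  obtain ⟨M, hM⟩ := (isCompact_closedBall (0 : ℂ) 1).exists_bound_of_continuousOn cU
  have dc : DifferentiableOn ℂ (fun s => F (c s)) (ball 0 r₁) :=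
    differentiableOn_pi.2 (hF c _ isOpen_ball hc)
  set v : ℂ → Cm q := fun s => Y 0 *ᵥ (F (c s) - F (φ 0)) - s • U 0 with hv
  have dv : DifferentiableOn ℂ v (ball 0 r₁) := fun s hs =>
    (((mv_deriv (Y 0) ((dc.differentiableAt (isOpen_ball.mem_nhds hs)).hasDerivAt.sub_const
      _)).differentiableAt).fun_sub (differentiableAt_id.smul_const _)).differentiableWithinAt
  have v0 : v 0 = 0 := by simp [hv, hc0]
  have dv0 : HasDerivAt v 0 0 := by
    have := (mv_deriv (Y 0) ((dc.differentiableAt (ball_mem_nhds _ hr₁)).hasDerivAt.sub_const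
      (F (φ 0)))).fun_sub ((hasDerivAt_id (0 : ℂ)).smul_const (U 0))
    rwa [hU0, one_smul, sub_self] at this
  have e1 : ∀ᶠ s in 𝓝 (0 : ℂ), ‖s‖ * M + ‖v s‖ < r₀ := by
    have := ((continuous_norm.tendsto (0 : ℂ)).mul_const M).add dv0.continuousAt.tendsto.norm
    exact this.eventually_lt_const (by simpa [v0] using hr₀)
  have e2 : ∀ᶠ s in 𝓝 (0 : ℂ), Ξ 0 (Y 0 *ᵥ (F (c s) - F (φ 0))) = c s := by
    have := (hc.1.continuousAt (ball_mem_nhds _ hr₁)).tendsto
    rw [hc0] at this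
    exact this.eventually (hX 0 h0).1
  obtain ⟨r, hr, hb⟩ := Metric.eventually_nhds_iff_ball.1
    (e1.and (e2.and ((isOpen_ball.eventually_mem (mem_ball_self hr₁)).and
      (isOpen_ball.eventually_mem (mem_ball_self one_pos)))))
  have hw : ∀ s ∈ ball (0 : ℂ) r, ∀ τ ∈ closedBall (0 : ℂ) 1,
      s • U τ + v s ∈ ball (0 : Cm q) r₀ := by
    intro s hs τ hτ
    rw [mem_ball_zero_iff]
    refine (norm_add_le _ _).trans_lt (lt_of_le_of_lt ?_ (hb s hs).1)
    rw [norm_smul]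
    gcongr
    exact hM τ hτ
  have dv' : DifferentiableOn ℂ v (ball 0 r) := dv.mono fun s hs => (hb s hs).2.2.1
  have eq : ∀ s ∈ ball (0 : ℂ) r, ∀ τ ∈ closedBall (0 : ℂ) 1,
      Y τ *ᵥ F (Ξ τ (s • U τ + v s)) = s • U τ + v s + Y τ *ᵥ F (φ τ) := by
    intro s hs τ hτ
    have := ((hX τ hτ).2 _ (hw s hs τ hτ)).2.1
    rwa [Matrix.mulVec_sub, sub_eq_iff_eq_add] at this
  have cy : ContinuousOn (Function.uncurry fun s τ => Ξ τ (s • U τ + v s))
      (ball 0 r ×ˢ closedBall 0 1) :=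
    hΞ.comp (f := fun p : ℂ × ℂ => (p.2, p.1 • U p.2 + v p.1))
      (continuousOn_snd.prodMk ((continuousOn_fst.smul
        (cU.comp continuousOn_snd fun _ hp => hp.2)).add
        (dv'.continuousOn.comp continuousOn_fst fun _ hp => hp.1)))
      fun p hp => ⟨hp.2, hw _ hp.1 _ hp.2⟩
  have hs : ∀ τ ∈ closedBall (0 : ℂ) 1, HolOn 𝒜 (fun s => Ξ τ (s • U τ + v s)) (ball 0 r) := by
    intro τ hτ
    refine h2 q N 𝒜 ι F _ _ (fun _ => Y τ) (fun s => s • U τ + v s + Y τ *ᵥ F (φ τ)) hA hH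
      isOpen_ball (cy.comp (f := fun s => (s, τ)) (by fun_prop) fun s hs => ⟨hs, hτ⟩)
      (fun _ _ => differentiableOn_const _)
      (((differentiableOn_id.smul_const _).add dv').add_const _)
      fun s hs => ⟨eq s hs τ hτ, ((hX τ hτ).2 _ (hw s hs τ hτ)).2.2.1⟩
  obtain ⟨A, hZ⟩ : W12 fun τ => ((τ, U τ), F (φ τ), fun i l => Y τ i l) :=
    (dq_id.w12.prodMk (W12.pi fun i => (wU i).w)).prodMk
      ((W12.pi fun i => (wF i).w).prodMk (W12.pi fun i => W12.pi fun l => (wY i l).w))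
  refine ⟨r, C * (3 + q * Fintype.card ι) * A, fun s τ => Ξ τ (s • U τ + v s),
    ⟨hr, fun τ hτ => ?_, cy, fun s hs => ?_, hs⟩,
    fun s hs => ⟨?_, fun l => ?_, fun τ hτ => ((hX τ hτ).2 _ (hw s hs τ hτ)).1⟩, fun τ hτ => ?_⟩
  · simpa [v0] using (hX τ hτ).1.self_of_nhds
  · refine h2 q N 𝒜 ι F _ _ Y (fun τ => s • U τ + v s + Y τ *ᵥ F (φ τ)) hA hH isOpen_ball
      (cy.comp (f := fun τ => (s, τ)) (by fun_prop) fun τ hτ => ⟨hs, ball_subset_closedBall hτ⟩)
      (fun i l => (wY i l).da.differentiableOn)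
      ((((differentiableOn_pi.2 fun i => (wU i).da.differentiableOn).const_smul s).add_const _).add
        (mv_diff (fun i l => (wY i l).da.differentiableOn) fun l => (wF l).da.differentiableOn))
      fun τ hτ => ⟨eq s hs τ (ball_subset_closedBall hτ),
        ((hX τ (ball_subset_closedBall hτ)).2 _ (hw s hs τ (ball_subset_closedBall hτ))).2.2.1⟩
  · simpa [hv] using (hb s hs).2.1
  · refine hZ.of_le (by positivity) fun σ hσ τ hτ => ?_
    have hσ' := sphere_subset_closedBall hσ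
    have hτ' := sphere_subset_closedBall hτ
    refine (dist_le_pi_dist _ _ l).trans ?_
    rw [dist_eq_norm]
    refine (((hX σ hσ').2 _ (hw s hs σ hσ')).2.2.2 τ hτ' _ (hw s hs τ hτ')).trans ?_
    rw [mul_assoc]
    refine mul_le_mul_of_nonneg_left ?_ hC
    set d := dist ((σ, U σ), F (φ σ), fun i l => Y σ i l) ((τ, U τ), F (φ τ), fun i l => Y τ i l)
      with hd
    have a1 : ‖σ - τ‖ ≤ d := by
      rw [← dist_eq_norm]
      exact (le_max_left _ _).trans (le_max_left _ _)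
    have a2 : ‖s • U σ + v s - (s • U τ + v s)‖ ≤ d := by
      rw [add_sub_add_right_eq_sub, ← smul_sub, norm_smul, ← dist_eq_norm]
      exact (mul_le_of_le_one_left dist_nonneg (mem_ball_zero_iff.1 (hb s hs).2.2.2).le).trans
        ((le_max_right _ _).trans (le_max_left _ _))
    have a3 : ‖F (φ σ) - F (φ τ)‖ ≤ d := by
      rw [← dist_eq_norm]
      exact (le_max_left _ _).trans (le_max_right _ _)
    have a4 : ∀ i l, ‖Y σ i l - Y τ i l‖ ≤ d := by
      intro i l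
      rw [← dist_eq_norm]
      exact ((dist_le_pi_dist (Y σ i) (Y τ i) l).trans (dist_le_pi_dist (fun i l => Y σ i l)
        (fun i l => Y τ i l) i)).trans ((le_max_right _ _).trans (le_max_right _ _))
    have a5 : ∑ i, ∑ l, ‖Y σ i l - Y τ i l‖ ≤ q * Fintype.card ι * d := by
      refine (Finset.sum_le_sum fun i _ => Finset.sum_le_sum fun l _ => a4 i l).trans ?_
      simp [mul_assoc]
    linarith
  · have g := ((differentiableOn_pi.2 (hF _ _ isOpen_ball (hs τ hτ))).differentiableAt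
      (ball_mem_nhds _ hr)).hasDerivAt
    have a := (mv_deriv (Y τ) g).congr_of_eventuallyEq
      (Filter.eventually_of_mem (ball_mem_nhds _ hr) fun s hs => (eq s hs τ hτ).symm)
    have b := (((hasDerivAt_id (0 : ℂ)).smul_const (U τ)).fun_add dv0).add_const (Y τ *ᵥ F (φ τ))
    simpa using a.unique b

end Vale.Agent.P253W.A
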