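import Vale.Agent.P253W.A.Defs1
import Vale.Agent.P253W.A.Exb
import Vale.Agent.P253W.WM.Four

/-!
# P253W, block A: one disc moves (VAR1)
-/

open Complex Metric Set Filter Topology
open scoped Matrix ComplexConjugate ComplexOrder
open Vale.Agent.P272.K (Cm dz cHess jacM Chart)

noncomputable section

namespace Vale.Agent.P253W.A

open WM

namespace Var1

theorem zc_append {n : ℕ} (u v : Cm n) : zc (Fin.append u v : Cm (n + n)) = u := by
  funext i
  exact Fin.append_left u v i

theorem vc_append {n : ℕ} (u v : Cm n) : vc (Fin.append u v : Cm (n + n)) = v := by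
  funext i
  exact Fin.append_right u v i

theorem upd {α β : Type*} {m : ℕ} (f : α → β) (D : Fin m → α) (i : Fin m) (E : α) :
    (fun j => f (Function.update D i E j)) = Function.update (fun j => f (D j)) i (f E) := by
  funext j
  by_cases h : j = i
  · subst h
    simp
  · simp [Function.update_of_ne h]

theorem sum_upd {α : Type*} {m : ℕ} (f : α → ℝ) (D : Fin m → α) (i : Fin m) (E : α) :
    ∑ j, f (Function.update D i E j) = ∑ j, f (D j) - f (D i) + f E := by
  rw [← Finset.add_sum_erase _ _ (Finset.mem_univ i),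
    ← Finset.add_sum_erase _ (fun j => f (D j)) (Finset.mem_univ i), Function.update_self,
    Finset.sum_congr rfl fun j hj => by rw [Function.update_of_ne (Finset.ne_of_mem_erase hj)]]
  ring

/-- the gauge of a single block -/
theorem gq_block {m : ℕ} {κ : Type} [Fintype κ] (R : ℝ) (i : Fin m) (V : ℂ → κ → ℂ) :
    gq R (fun τ (l : Fin m × κ) => if l.1 = i then V τ l.2 else 0) = gq R V := by
  unfold gq
  rw [Fintype.sum_prod_type, Finset.sum_eq_single i]
  · simp
  · intro j _ hj
    simp [hj, l2, en, fc, av_const]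
  · simp

/-- the gauge along a family in which one block moves -/
theorem gex (h2 : GEX) {m : ℕ} {κ : Type} [Fintype κ] {R r A : ℝ} (i : Fin m)
    {X : Fin m → ℂ → κ → ℂ} {Y : ℂ → ℂ → κ → ℂ} {g : ℂ → Fin m × κ → ℂ} (hR : 0 < R)
    (hr : 0 < r) (hg : HWv g) (hX : ∀ j, HWv (X j))
    (hY : ∀ s ∈ ball (0 : ℂ) r, HWv (Y s) ∧ Dqv A (Y s))
    (h0 : EqOn (Y 0) (X i) (closedBall 0 1))
    (hc : ContinuousOn (Function.uncurry Y) (ball 0 r ×ˢ closedBall 0 1))
    (hd : ∀ τ ∈ closedBall (0 : ℂ) 1, ∀ l, DifferentiableOn ℂ (fun s => Y s τ l) (ball 0 r)) :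
    gq R ((fun τ (l : Fin m × κ) => Function.update X i (Y 0) l.1 τ l.2) - g) =
      gq R ((fun τ (l : Fin m × κ) => X l.1 τ l.2) - g) ∧
    ∃ α : ℂ, ‖α‖ ^ 2 ≤ gq R ((fun τ (l : Fin m × κ) => X l.1 τ l.2) - g) *
        gq R (fun τ => deriv (fun s => Y s τ) 0) ∧
      Ex (fun s => gq R ((fun τ (l : Fin m × κ) => Function.update X i (Y s) l.1 τ l.2) - g)) α
        (gq R fun τ => deriv (fun s => Y s τ) 0) := by
  obtain ⟨A₀, -, hA₀⟩ := HWv.exists_dqv (f := fun τ (l : Fin m × κ) => X l.1 τ l.2)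
    fun l => hX l.1 l.2
  have hd' : ∀ τ ∈ closedBall (0 : ℂ) 1, ∀ l : Fin m × κ,
      DifferentiableOn ℂ (fun s => Function.update X i (Y s) l.1 τ l.2) (ball 0 r) := by
    intro τ hτ l
    by_cases h : l.1 = i
    · simpa [h] using hd τ hτ l.2
    · simp [Function.update_of_ne h]
  obtain ⟨α, a1, a2⟩ := h2 (Fin m × κ) R r (max A A₀)
    (fun s τ l => Function.update X i (Y s) l.1 τ l.2) g hR hr hg
    (fun s hs => ⟨fun l => by
      by_cases h : l.1 = i
      · simpa [h] using (hY s hs).1 l.2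
      · simpa [Function.update_of_ne h] using hX l.1 l.2, fun l => by
      by_cases h : l.1 = i
      · simpa [h] using ((hY s hs).2 l.2).mono (le_max_left A A₀)
      · simpa [Function.update_of_ne h] using (hA₀ l).mono (le_max_right A A₀)⟩)
    (continuousOn_pi.2 fun l => by
      by_cases h : l.1 = i
      · simpa [h, Function.uncurry_def] using continuousOn_pi.1 hc l.2
      · simpa [Function.update_of_ne h, Function.uncurry_def, Function.comp_def] using
          (hX l.1 l.2).cb.comp (continuousOn_snd (s := ball (0 : ℂ) r ×ˢ closedBall (0 : ℂ) 1))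
            fun _ hp => hp.2) hd'
  have e0 : gq R ((fun τ (l : Fin m × κ) => Function.update X i (Y 0) l.1 τ l.2) - g) =
      gq R ((fun τ (l : Fin m × κ) => X l.1 τ l.2) - g) := by
    refine gq_congr R fun τ hτ => funext fun l => ?_
    by_cases h : l.1 = i
    · simp [h, h0 (sphere_subset_closedBall hτ)]
    · simp [Function.update_of_ne h]
  have e1 : gq R (fun τ => deriv
      (fun s (l : Fin m × κ) => Function.update X i (Y s) l.1 τ l.2) 0) =
      gq R fun τ => deriv (fun s => Y s τ) 0 := by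
    rw [← gq_block R i fun τ => deriv (fun s => Y s τ) 0]
    refine gq_congr R fun τ hτ => ?_
    have hτ' := sphere_subset_closedBall hτ
    rw [deriv_pi fun l => (hd' τ hτ' l).differentiableAt (ball_mem_nhds 0 hr),
      deriv_pi fun l => (hd τ hτ' l).differentiableAt (ball_mem_nhds 0 hr)]
    funext l
    by_cases h : l.1 = i
    · simp [h]
    · simp [h]
  exact ⟨e0, α, by rwa [e0, e1] at a1, by rwa [e1] at a2⟩

end Var1

open Var1 in
/-- **VAR1** -/
theorem var1 {n : ℕ} {N : Type} [TopologicalSpace N] [T2Space N] (B : Bs n N) (_hB : B.Ok)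
    (h1 : B.MOV) (h2 : GEX) (_h3 : EXB) (h4 : JO) (h5 : JM) (h6 : JA) : B.VAR1 := by
  intro σ l₀ P m f q₀ δ e₁ ε R x g i v y he hε hR hx hg hl hy
  obtain ⟨r, A, a, b, c, E, hr, hE, e0, eγ, eP, hc, hd, xγ, aP, hsv⟩ :=
    h1 σ l₀ P (x.D i) x.q (Fin.append 0 v) y (x.ctr i) (x.bd i) (x.hw i) hy
  simp only [zc_append, vc_append, smul_zero, add_zero, Prod.mk.eta] at hE
  set γ : Fin m → ℝ := fun j => (x.D j).γ with hγ
  set p : Fin m → Cm n := fun j => (x.D j).p with hp
  have hz : AnalyticAt ℂ (fun s : ℂ => p i + s • v) 0 := by fun_prop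
  have dz : deriv (fun s : ℂ => p i + s • v) 0 = v := by
    simpa using (((hasDerivAt_id (0 : ℂ)).smul_const v).const_add (p i)).deriv
  have pd : (Zm γ p).PosDef := x.pd
  have u0 : Function.update γ i (E 0).γ = γ := by rw [eγ]; exact Function.update_eq_self i γ
  have u1 : Function.update p i (p i + (0 : ℂ) • v) = p := by simp
  -- positivity along the family
  have hpd := (h5 n m (fun s => Function.update γ i (E s).γ)
    (fun s => Function.update p i (p i + s • v)) (Function.update 0 i c)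
    (Function.update 0 i (a - ‖c‖ ^ 2)) (by simpa only [u0, u1] using pd)
    (fun j => by
      by_cases h : j = i
      · simpa [h] using hz
      · simpa [Function.update_of_ne h] using analyticAt_const)
    (fun j => by
      by_cases h : j = i
      · simpa [h] using xγ
      · simpa [Function.update_of_ne h] using Ex.const (γ j))).1
  have xJ := h4 n m γ p i (fun s => (E s).γ) (fun s => p i + s • v) c (a - ‖c‖ ^ 2) pd eγ
    (by simp) hz xγ
  rw [dz] at xJ
  obtain ⟨g0, α, hα, xg⟩ := gex h2 i (X := fun j => P.Y (x.D j)) (Y := fun s => P.Y (E s)) hR hr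
    hx.1 x.hw (fun s hs => ⟨(hE s hs).2.2.2.1, (hE s hs).2.2.2.2.1⟩) e0 hc hd
  have key := pen_sq he (xJ.add (xg.smul hε.le)) aP (by
    filter_upwards [hpd, ball_mem_nhds (0 : ℂ) hr] with s s1 s2
    obtain ⟨b1, b2, b3, b4, -, b6⟩ := hE s s2
    refine ⟨b6, ?_⟩
    have eg : (fun j => (Function.update x.D i (E s) j).γ) = Function.update γ i (E s).γ :=
      upd Bs.Dk.γ x.D i (E s)
    have ep : (fun j => (Function.update x.D i (E s) j).p) =
        Function.update p i (p i + s • v) := by rw [upd Bs.Dk.p x.D i (E s), b2]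
    have all : ∀ {Q : B.Dk → Prop}, (∀ j, Q (x.D j)) → Q (E s) →
        ∀ j, Q (Function.update x.D i (E s) j) := by
      intro Q q1 q2 j
      by_cases h : j = i
      · simpa [h] using q2
      · simpa [Function.update_of_ne h] using q1 j
    have hm := hx.2 ⟨Function.update x.D i (E s), x.q, x.hq, all (Q := fun D => D.At x.q) x.ctr b1,
      by simpa only [Bs.Z, eg, ep] using s1,
      all (Q := fun D => ∀ τ ∈ sphere (0 : ℂ) 1, D.φ τ ∈ P.W) x.bd b3,
      all (Q := fun D => HWv (P.Y D)) x.hw b4⟩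
    have eY : (fun τ (l : Fin m × Option (Fin P.L)) =>
        P.Y (Function.update x.D i (E s) l.1) τ l.2) = fun τ l =>
          Function.update (fun j => P.Y (x.D j)) i (P.Y (E s)) l.1 τ l.2 := by
      rw [← upd P.Y x.D i (E s)]
    unfold Bs.Pen.Ad.Fn Bs.Pen.Ad.Y Bs.J at hm
    simp only [eg, ep, eY] at hm
    rw [sum_upd (fun D => e₁ * Real.log (1 + P.Pi D))] at hm
    simp only [u0, u1, g0, eP]
    linarith)
  set G := gq R fun τ => deriv (fun s => P.Y (E s) τ) 0 with hG
  have G0 : 0 ≤ G := gq_nonneg _ _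
  have hβ : ‖(ε : ℂ) * α‖ ^ 2 ≤ e₁ * (ε * G) := by
    rw [norm_mul, Complex.norm_real, Real.norm_of_nonneg hε.le, mul_pow]
    calc ε ^ 2 * ‖α‖ ^ 2 ≤ ε ^ 2 * (gq R (x.Y - g) * G) := by gcongr; exact hα
      _ = ε * gq R (x.Y - g) * (ε * G) := by ring
      _ ≤ e₁ * (ε * G) := by gcongr
  have fin := h6.1 n m γ p i v c (ε * α) (lev γ p i * a + x.g e₁ i * b + ε * G) e₁ (ε * G) pd he
    hl hβ (by
      refine key.trans (le_of_eq ?_)
      simp only [eP, Bs.Pen.Ad.g]
      ring)
  rw [hsv]
  refine fin.trans (le_of_eq ?_)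
  simp only [Bs.lv]
  ring

end Vale.Agent.P253W.A
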