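import Vale.Agent.P253W.A.Defs1
import Vale.Agent.P253W.WM.Four
import Vale.Agent.P272.K.C2.Wirt

/-!
# P253W, block A, row VAR2: all discs move
-/

set_option linter.all false

open Metric Set Filter Topology
open scoped Matrix ComplexOrder
open Vale.Agent.P272.K (Cm cHess)

noncomputable section

namespace Vale.Agent.P253W.A

open WM

theorem var2 {n : ℕ} {N : Type} [TopologicalSpace N] (B : Bs n N) (h1 : B.MOV) (h2 : GEX)
    (h3 : EXB) (h4 : JM) : B.VAR2 := by
  intro σ l₀ P m f q₀ δ e₁ ε R x g v v' y he hε hR hm hq cf hy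
  choose r A a b c E r0 k1 k2 k3 k4 k5 k6 k7 k8 k9 using fun i =>
    h1 σ l₀ P (x.D i) x.q _ (y i) (x.ctr i) (x.bd i) (x.hw i) (hy i)
  obtain ⟨ρ, ρ0, hρ⟩ := Metric.eventually_nhds_iff_ball.1
    (eventually_all.2 fun i => ball_mem_nhds (0 : ℂ) (r0 i))
  obtain ⟨A', hA⟩ := Finite.exists_le A
  have z i : zc (Fin.append v (v' i)) = v := funext fun j => Fin.append_left _ _ j
  obtain ⟨α, -, hα⟩ := h2 _ R ρ A' (fun s τ (l : Fin m × Option (Fin P.L)) => P.Y (E l.1 s) τ l.2) g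
    hR ρ0 hm.1 (fun s hs => ⟨fun l => (k1 _ s (hρ s hs _)).2.2.2.1 l.2,
      fun l => ((k1 _ s (hρ s hs _)).2.2.2.2.1 l.2).mono (hA _)⟩)
    (continuousOn_pi.2 fun l => (continuousOn_pi.1 (k5 l.1) l.2).mono
      (prod_mono (fun s hs => hρ s hs _) le_rfl))
    fun τ hτ l => (k6 l.1 τ hτ l.2).mono fun s hs => hρ s hs _
  have d i τ (hτ : τ ∈ sphere (0 : ℂ) 1) l : DifferentiableAt ℂ (fun s => P.Y (E i s) τ l) 0 :=
    (k6 i τ (sphere_subset_closedBall hτ) l).differentiableAt (ball_mem_nhds _ (r0 i))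
  rw [gq_congr R (g := fun τ l => deriv (fun s => P.Y (E l.1 s) τ) 0 l.2) fun τ hτ => by
    simp only [deriv_pi fun l => d _ τ hτ _], gq, Fintype.sum_prod_type] at hα
  have g0 : (fun i => (E i 0).γ) = fun i => (x.D i).γ := funext k3
  have p0 : (fun i => (E i 0).p) = fun i => (x.D i).p := funext fun i => by
    simpa using (k1 i 0 (mem_ball_self (r0 i))).2.1
  obtain ⟨j1, j2⟩ := h4 n m (fun s i => (E i s).γ) (fun s i => (E i s).p) c _
    (by rw [g0, p0]; exact x.pd) (fun i => AnalyticAt.congr (f := fun s : ℂ => (x.D i).p + s • _)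
      (by fun_prop) (mem_of_superset (ball_mem_nhds _ (r0 i)) fun s hs => (k1 i s hs).2.1.symm)) k7
  have hu : ContDiffAt ℝ 2 (fun w => f (x.q.1, w)) x.q.2 :=
    cf.comp x.q.2 (contDiffAt_const.prodMk contDiffAt_id)
  obtain ⟨_, j3⟩ := h3.2.2.2.2.2.2.1 n (fun w => -f (x.q.1, w)) (fun s => x.q.2 + s • v)
    (by fun_prop) (by simpa using hu.neg)
  have := h3.2.2.2.2.2.2.2.2.1 m _ (fun i s => P.Pi (E i s)) _ e₁ b he
    (h3.2.1 _ _ _ _ (h3.2.1 _ _ _ _ j2 j3.snd) (h3.2.2.2.1 _ _ ε hε.le hα.snd)) k8 (by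
      filter_upwards [ball_mem_nhds _ ρ0, j1, (by fun_prop : Continuous fun s : ℂ =>
        (x.q.1, x.q.2 + s • v)).continuousAt.preimage_mem_nhds (isOpen_ball.mem_nhds
          (by simpa using hq))] with s hs s1 s2
      refine ⟨fun i => (k1 i s (hρ s hs i)).2.2.2.2.2, ?_⟩
      have := hm.2 ⟨fun i => E i s, _, ball_subset_closedBall s2,
        fun i => z i ▸ (k1 i s (hρ s hs i)).1, s1, fun i => (k1 i s (hρ s hs i)).2.2.1,
        fun i => (k1 i s (hρ s hs i)).2.2.2.1⟩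
      rw [gq_congr R (f := x.Y - g) (g := (fun τ l => P.Y (E l.1 0) τ l.2) - g) fun τ hτ => by
        ext l
        simp [Bs.Pen.Ad.Y, k2 l.1 (sphere_subset_closedBall hτ)]] at this
      simp only [g0, p0, k4, zero_smul, add_zero]
      simp only [Bs.Pen.Ad.Fn, Bs.J] at this
      exact le_of_eq_of_le (by ring)
        (this.trans_eq (by rw [add_right_comm, sub_eq_add_neg]; rfl)))
  rw [show deriv (fun s : ℂ => x.q.2 + s • v) 0 = v by simp [deriv_smul_const], zero_smul, add_zero,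
    P272.K.C2.cHess_neg hu, g0, p0, Finset.mul_sum] at this
  have e : hf (-cHess (fun w => f (x.q.1, w)) x.q.2)ᵀ v =
      -hf (cHess (fun w => f (x.q.1, w)) x.q.2)ᵀ v := by simp [hf, Matrix.neg_mulVec]
  rw [e, add_right_comm _ (-_), add_right_comm _ (-_), ← Finset.sum_add_distrib,
    ← Finset.sum_add_distrib, le_add_neg_iff_le] at this
  refine this.trans (Finset.sum_le_sum fun i _ => ?_)
  have l0 : 0 ≤ Bs.lv x.D i :=
    mul_nonneg (Real.exp_pos _).le (x.pd.inv.posSemidef.re_dotProduct_nonneg _)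
  have := mul_nonneg hε.le (gq_nonneg R fun τ => deriv (fun s => P.Y (E i s) τ) 0)
  rw [k9, k4]
  change Bs.lv x.D i * _ + ε * gq R _ + x.g e₁ i * _ ≤ _
  nlinarith [mul_nonneg l0 (sq_nonneg ‖c i‖)]

end Vale.Agent.P253W.A
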