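import Vale.Agent.P253W.A.Defs1
import Vale.Agent.P253W.WM.Emb

/-!
# P253W, block A: the variation of the time
-/

open Complex Metric Set Filter Topology
open scoped Matrix ComplexConjugate ComplexOrder
open Vale.Agent.P272.K (Cm dz cHess jacM Chart)

noncomputable section

namespace Vale.Agent.P253W.A

open WM

namespace Vt

theorem nonneg_of_min {ψ : ℝ → ℝ} {d : ℝ} (h : HasDerivAt ψ d 0)
    (hm : ∀ᶠ s in 𝓝[>] (0 : ℝ), ψ 0 ≤ ψ s) : 0 ≤ d := by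
  have h1 := (hasDerivAt_iff_tendsto_slope_zero.1 h).mono_left (nhdsGT_le_nhdsNE 0)
  refine ge_of_tendsto h1 ?_
  filter_upwards [hm, self_mem_nhdsWithin] with s hs hs'
  have : (0 : ℝ) < s := hs'
  simp only [zero_add, smul_eq_mul]
  exact mul_nonneg (inv_nonneg.2 this.le) (sub_nonneg.2 hs)

theorem tm_pos (ζ : ℂ) : 0 < tm ζ := Real.exp_pos _

theorem tm_sub (ζ p : ℂ) (s : ℝ) :
    tm (ζ - ((s / 2 : ℝ) : ℂ) * p) = tm ζ * Real.exp (-(s * p.re)) := by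
  rw [tm, tm, ← Real.exp_add, sub_re, re_ofReal_mul]
  congr 1
  ring

theorem cs_tm {ζ : ℂ → ℂ} (h : DA ζ) : ContinuousOn (fun τ => tm (ζ τ)) (sphere 0 1) :=
  Real.continuous_exp.comp_continuousOn
    (continuousOn_const.mul (Complex.continuous_re.comp_continuousOn h.cs))

variable {n : ℕ} {N : Type} [TopologicalSpace N] {B : Bs n N}

/-- the disc with the changed time -/
def mv (D : B.Dk) (p : ℂ → ℂ) (hp : DA p) (h0 : ∀ τ ∈ closedBall (0 : ℂ) 1, 0 ≤ (p τ).re)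
    (s : ℝ) (hs : 0 ≤ s) : B.Dk where
  φ := D.φ
  ζ := fun τ => D.ζ τ - ((s / 2 : ℝ) : ℂ) * p τ
  dn := D.dn
  da := D.da.sub' ((da_const _).mul hp)
  le := fun τ hτ => by
    rw [tm_sub]
    refine le_trans (mul_le_of_le_one_right (tm_pos _).le ?_) (D.le τ hτ)
    exact Real.exp_le_one_iff.2 (neg_nonpos.2 (mul_nonneg hs (h0 τ hτ)))
  ne := D.ne

theorem tm_mem (D : B.Dk) {τ : ℂ} (hτ : τ ∈ sphere (0 : ℂ) 1) : tm (D.ζ τ) ∈ Ioo 0 (B.S + 1) :=
  ⟨tm_pos _, (D.le τ (sphere_subset_closedBall hτ)).trans_lt (lt_add_one _)⟩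

theorem cs_φ (D : B.Dk) : ContinuousOn D.φ (sphere 0 1) := D.dn.1.mono sphere_subset_closedBall

theorem cs_pair (D : B.Dk) {u : ℝ → N → ℝ} {K : Set N}
    (hu : ContinuousOn (Function.uncurry u) (Ico 0 (B.S + 1) ×ˢ K))
    (hK : ∀ τ ∈ sphere (0 : ℂ) 1, D.φ τ ∈ K) :
    ContinuousOn (Function.uncurry fun s τ => u s (D.φ τ)) (Ioo 0 (B.S + 1) ×ˢ sphere 0 1) := by
  have h1 : ContinuousOn (fun a : ℝ × ℂ => (a.1, D.φ a.2)) (Ioo 0 (B.S + 1) ×ˢ sphere 0 1) :=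
    continuousOn_fst.prodMk ((cs_φ D).comp continuousOn_snd fun a ha => ha.2)
  exact hu.comp h1 fun a ha => ⟨Ioo_subset_Ico_self ha.1, hK _ ha.2⟩

theorem cs_disc (D : B.Dk) {u : ℝ → N → ℝ} {K : Set N}
    (hu : ContinuousOn (Function.uncurry u) (Ico 0 (B.S + 1) ×ˢ K))
    (hK : ∀ τ ∈ sphere (0 : ℂ) 1, D.φ τ ∈ K) :
    ContinuousOn (fun τ => u (tm (D.ζ τ)) (D.φ τ)) (sphere 0 1) :=
  (cs_pair D hu hK).comp ((cs_tm D.da).prodMk continuousOn_id) fun _ hτ => ⟨tm_mem D hτ, hτ⟩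

variable {σ l₀ : ℝ} (P : B.Pen σ l₀)

theorem pi_nonneg (D : B.Dk) (hW : ∀ τ ∈ sphere (0 : ℂ) 1, D.φ τ ∈ P.W) : 0 ≤ P.Pi D :=
  add_nonneg (av_nonneg fun τ hτ => (P.wall _
    ⟨(tm_pos _).le, D.le τ (sphere_subset_closedBall hτ)⟩ _ (hW τ hτ)).1) (P.T_nn _)

theorem d_gamma (hB : B.Ok) (h1 : TD) (D : B.Dk) (hW : ∀ τ ∈ sphere (0 : ℂ) 1, D.φ τ ∈ P.W)
    {p : ℂ → ℂ} (hp : DA p) :
    HasDerivAt (fun s : ℝ => av fun τ =>
      Real.log (B.H (tm (D.ζ τ) * Real.exp (-(s * (p τ).re))) (D.φ τ)))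
      (-av fun τ => P.h₁ (tm (D.ζ τ)) (D.φ τ) * (p τ).re) 0 := by
  refine h1 (fun s τ => Real.log (B.H s (D.φ τ))) (fun s τ => P.h₁ s (D.φ τ))
    (fun τ => tm (D.ζ τ)) (fun τ => (p τ).re) (B.S + 1) (cs_tm D.da)
    (Complex.continuous_re.comp_continuousOn hp.cs) (fun τ hτ => tm_mem D hτ) ?_
    (cs_pair D P.c₁ fun τ hτ => P.WK (hW τ hτ)) fun s hs τ hτ => (P.dt s hs _ (hW τ hτ)).1
  exact (cs_pair D hB.cH fun _ _ => mem_univ _).log fun a ha =>
    (hB.pH _ (Ioo_subset_Ico_self ha.1) _ (D.ne _ ha.2)).ne'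

theorem d_pi (h1 : TD) (D : B.Dk) (hW : ∀ τ ∈ sphere (0 : ℂ) 1, D.φ τ ∈ P.W)
    {p : ℂ → ℂ} (hp : DA p) :
    HasDerivAt (fun s : ℝ => (av fun τ =>
      P.b (tm (D.ζ τ) * Real.exp (-(s * (p τ).re))) (D.φ τ)) + P.T D.φ)
      (-av fun τ => P.h₂ (tm (D.ζ τ)) (D.φ τ) * (p τ).re) 0 :=
  (h1 (fun s τ => P.b s (D.φ τ)) (fun s τ => P.h₂ s (D.φ τ))
    (fun τ => tm (D.ζ τ)) (fun τ => (p τ).re) (B.S + 1) (cs_tm D.da)
    (Complex.continuous_re.comp_continuousOn hp.cs) (fun _ hτ => tm_mem D hτ)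
    (cs_pair D P.cb hW) (cs_pair D P.c₂ fun τ hτ => P.WK (hW τ hτ))
    fun s hs τ hτ => (P.dt s hs _ (hW τ hτ)).2).add_const _

theorem av_X (D : B.Dk) (hW : ∀ τ ∈ sphere (0 : ℂ) 1, D.φ τ ∈ P.W) {p : ℂ → ℂ} (hp : DA p)
    (l g : ℝ) : (av fun τ => P.X D l g τ * (p τ).re) =
      l * (av fun τ => P.h₁ (tm (D.ζ τ)) (D.φ τ) * (p τ).re) +
        g * av fun τ => P.h₂ (tm (D.ζ τ)) (D.φ τ) * (p τ).re := by
  have hr : ContinuousOn (fun τ => (p τ).re) (sphere 0 1) :=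
    Complex.continuous_re.comp_continuousOn hp.cs
  have a1 := (cs_disc D P.c₁ fun τ hτ => P.WK (hW τ hτ)).mul hr
  have a2 := (cs_disc D P.c₂ fun τ hτ => P.WK (hW τ hτ)).mul hr
  rw [← av_mul_real, ← av_mul_real]
  refine Eq.trans (av_congr fun τ _ => ?_)
    (av_add (continuousOn_const.mul a1) (continuousOn_const.mul a2))
  simp only [Bs.Pen.X]
  ring

/-- the direction of the variation in the ambient coordinates -/
def pv {m L : ℕ} (p : Fin m → ℂ → ℂ) (τ : ℂ) : Fin m × Option (Fin L) → ℂ :=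
  fun l => l.2.elim (p l.1 τ) fun _ => 0

theorem hw_pv {m L : ℕ} {p : Fin m → ℂ → ℂ} (hp : ∀ i, HW (p i)) : HWv (pv (L := L) p) := by
  rintro ⟨i, _ | l⟩
  · exact hp i
  · exact hw_const 0

theorem gq_pv {m L : ℕ} {p : Fin m → ℂ → ℂ} {R C : ℝ}
    (h : ∀ i, l2 (p i) + en (p i) / R ^ 2 ≤ C) : gq R (pv (L := L) p) ≤ m * C := by
  have z1 : l2 (fun _ => (0 : ℂ)) = 0 := by simp [l2, av_const]
  have z2 : en (fun _ => (0 : ℂ)) = 0 := by simp [en, fc, av_const]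
  rw [gq, Fintype.sum_prod_type]
  calc _ ≤ ∑ _i : Fin m, C := Finset.sum_le_sum fun i _ => by
        rw [Fintype.sum_option]
        simpa [pv, z1, z2] using h i
    _ = m * C := by simp

end Vt

open Vt in
theorem vart {n : ℕ} {N : Type} [TopologicalSpace N] (B : Bs n N) (hB : B.Ok) (h1 : TD)
    (h2 : JA) : B.VART := by
  intro σ l₀ P m f q₀ δ e₁ ε R C x g p he hε hR hmin hq hf hp
  set γ : ℝ → Fin m → ℝ := fun s i => av fun τ =>
    Real.log (B.H (tm ((x.D i).ζ τ) * Real.exp (-(s * (p i τ).re))) ((x.D i).φ τ)) with hγ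
  set π : ℝ → Fin m → ℝ := fun s i => (av fun τ =>
    P.b (tm ((x.D i).ζ τ) * Real.exp (-(s * (p i τ).re))) ((x.D i).φ τ)) + P.T (x.D i).φ with hπ
  have γ0 : γ 0 = fun i => (x.D i).γ := by
    funext i
    simp [hγ, Bs.Dk.γ]
  have π0 : ∀ i, π 0 i = P.Pi (x.D i) := fun i => by simp [hπ, Bs.Pen.Pi]
  obtain ⟨hpd, hJ⟩ := h2.2.2.1 n m γ (fun i => (x.D i).p) _ (by rw [γ0]; exact x.pd)
    fun i => d_gamma P hB h1 (x.D i) (x.bd i) (hp i).1.da
  have ht : HasDerivAt (fun s : ℝ => x.q.1 * Real.exp (-s)) (-x.q.1) 0 := by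
    simpa using ((hasDerivAt_neg (0 : ℝ)).exp).const_mul x.q.1
  have hf1 : HasDerivAt (fun s => f (s, x.q.2)) (deriv (fun s => f (s, x.q.2)) x.q.1)
      (x.q.1 * Real.exp (-0)) := by
    rw [neg_zero, Real.exp_zero, mul_one]
    refine DifferentiableAt.hasDerivAt ?_
    exact (hf.differentiableAt (by norm_num)).comp x.q.1
      (differentiableAt_id.prodMk (differentiableAt_const _))
  have hF := hf1.comp (0 : ℝ) ht
  have hL : ∀ i, HasDerivAt (fun s => e₁ * Real.log (1 + π s i))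
      (e₁ * ((-av fun τ => P.h₂ (tm ((x.D i).ζ τ)) ((x.D i).φ τ) * (p i τ).re) /
        (1 + π 0 i))) 0 := fun i => by
    refine HasDerivAt.const_mul _ (HasDerivAt.log
      ((d_pi P h1 (x.D i) (x.bd i) (hp i).1.da).const_add 1) ?_)
    have := pi_nonneg P (x.D i) (x.bd i)
    change 1 + π 0 i ≠ 0
    rw [π0]
    positivity
  have hS := HasDerivAt.fun_sum (u := Finset.univ) fun i _ => hL i
  have hG : HasDerivAt (fun s : ℝ => ε * (√(gq R (x.Y - g)) + s / 2 * √(m * C)) ^ 2)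
      (ε * √(gq R (x.Y - g)) * √(m * C)) 0 := by
    have := ((((hasDerivAt_id (0 : ℝ)).div_const 2).mul_const √(m * C)).const_add
      √(gq R (x.Y - g))).pow 2 |>.const_mul ε
    refine this.congr_deriv ?_
    simp only [id, zero_div, zero_mul, add_zero]
    ring
  have hxY : HWv x.Y := fun l => x.hw l.1 l.2
  have key := nonneg_of_min (((hJ.sub hF).add hS).add hG) (by
    have hb : ∀ᶠ s in 𝓝 (0 : ℝ), (x.q.1 * Real.exp (-s), x.q.2) ∈ ball q₀ δ := by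
      refine ContinuousAt.eventually_mem (f := fun s : ℝ => (x.q.1 * Real.exp (-s), x.q.2))
        (by fun_prop) (isOpen_ball.mem_nhds ?_)
      simpa using hq
    filter_upwards [mem_nhdsWithin_of_mem_nhds hb, self_mem_nhdsWithin] with s hs hs'
    have hs0 : (0 : ℝ) ≤ s := le_of_lt hs'
    set D : Fin m → B.Dk := fun i => mv (x.D i) (p i) (hp i).1.da (hp i).2.2.1 s hs0 with hD
    have γs : (fun i => (D i).γ) = γ s := by
      funext i
      simp only [hD, hγ, Bs.Dk.γ, mv, tm_sub]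
    have πs : ∀ i, P.Pi (D i) = π s i := fun i => by
      simp only [hD, hπ, Bs.Pen.Pi, mv, tm_sub]
    let y : P.Ad m q₀ δ :=
      { D := D
        q := (x.q.1 * Real.exp (-s), x.q.2)
        hq := ball_subset_closedBall hs
        ctr := fun i => ⟨(x.ctr i).1, (x.ctr i).2.1, by
          change tm ((x.D i).ζ 0 - ((s / 2 : ℝ) : ℂ) * p i 0) = x.q.1 * Real.exp (-s)
          rw [tm_sub, (x.ctr i).2.2, (hp i).2.1, one_re, mul_one]⟩
        pd := by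
          rw [Bs.Z, γs]
          exact hpd s
        bd := x.bd
        hw := fun i l => by
          rcases l with _ | l
          · exact (x.hw i none).sub ((hw_const _).mul (hp i).1)
          · exact x.hw i (some l) }
    have hy := hmin.2 y
    have eY : y.Y - g = (x.Y - g) - (((s / 2 : ℝ) : ℂ) • pv p) := by
      funext τ l
      obtain ⟨i, _ | l⟩ := l
      · simp only [y, hD, Bs.Pen.Ad.Y, Bs.Pen.Y, mv, pv, Pi.sub_apply, Pi.smul_apply,
          Option.elim, smul_eq_mul]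
        ring
      · simp [y, hD, Bs.Pen.Ad.Y, Bs.Pen.Y, mv, pv]
    have hv : HWv (pv (L := P.L) p) := hw_pv fun i => (hp i).1
    have b1 : √(gq R (y.Y - g)) ≤ √(gq R (x.Y - g)) + s / 2 * √(m * C) := by
      rw [eY]
      refine (sqrt_gq_sub_le R (hxY.sub hmin.1) (hv.smul _)).trans ?_
      rw [gq_smul R _ hv, Real.sqrt_mul (sq_nonneg _), Real.sqrt_sq (norm_nonneg _),
        Complex.norm_real, Real.norm_of_nonneg (by positivity)]
      gcongr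
      exact gq_pv fun i => (hp i).2.2.2
    have b2 : gq R (y.Y - g) ≤ (√(gq R (x.Y - g)) + s / 2 * √(m * C)) ^ 2 := by
      rw [← Real.sq_sqrt (gq_nonneg R (y.Y - g))]
      exact pow_le_pow_left₀ (Real.sqrt_nonneg _) b1 2
    have e1 : y.Fn f e₁ = Jm (γ s) (fun i => (x.D i).p) - f (x.q.1 * Real.exp (-s), x.q.2) +
        ∑ i, e₁ * Real.log (1 + π s i) := by
      simp only [y, Bs.Pen.Ad.Fn, Bs.J, γs, πs]
      rfl
    have e0 : x.Fn f e₁ = Jm (γ 0) (fun i => (x.D i).p) - f (x.q.1 * Real.exp (-0), x.q.2) +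
        ∑ i, e₁ * Real.log (1 + π 0 i) := by
      simp [Bs.Pen.Ad.Fn, Bs.J, γ0, π0]
    simp only [Pi.add_apply, Pi.sub_apply, Function.comp_apply]
    rw [← e1, ← e0, zero_div, zero_mul, add_zero, Real.sq_sqrt (gq_nonneg _ _)]
    nlinarith [mul_le_mul_of_nonneg_left b2 hε.le])
  simp only [av_X P _ (x.bd _) (hp _).1.da, Finset.sum_add_distrib]
  simp only [γ0, π0, mul_neg, Finset.sum_neg_distrib, neg_div] at key
  have e2 : ∀ i, x.g e₁ i * (av fun τ => P.h₂ (tm ((x.D i).ζ τ)) ((x.D i).φ τ) * (p i τ).re) =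
      e₁ * ((av fun τ => P.h₂ (tm ((x.D i).ζ τ)) ((x.D i).φ τ) * (p i τ).re) /
        (1 + P.Pi (x.D i))) := fun i => by
    rw [Bs.Pen.Ad.g]
    ring
  simp only [e2, Bs.lv]
  linarith

end Vale.Agent.P253W.A
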