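import Vale.Agent.P253W.A.Defs0

/-!
# P253W, block A: the distance to the wall
-/

open Complex Metric Set Filter Topology MeasureTheory

noncomputable section

namespace Vale.Agent.P253W.A

open WM

namespace Wal

theorem key {D β : ℝ → ℝ} {p q θ s l M : ℝ} (hβ : Continuous β) (D0 : ∀ x, 0 < D x)
    (hD : ∀ x, (D x ^ 4)⁻¹ ≤ β x) (M0 : 0 < M) (hH : ∀ x ∈ Icc p q, (D x - D θ) ^ 2 ≤ |x - θ| * M)
    (l0 : 0 < l) (s0 : 0 ≤ s) (s1 : s ≤ 1) (hp : p ≤ θ - s * l) (hq : θ + (1 - s) * l ≤ q) :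
    (D θ ^ 2)⁻¹ ≤ 1 + 16 * (∫ x in p..q, β x) / l + 16 * M * ∫ x in p..q, β x := by
  have d0 := D0 θ
  have β0 : ∀ x, 0 ≤ β x := fun x => le_trans (by have := D0 x; positivity) (hD x)
  obtain ⟨k, hk⟩ : ∃ k, k = min l (D θ ^ 2 / M) := ⟨_, rfl⟩
  have k0 : 0 < k := by rw [hk]; positivity
  have k1 : k ≤ l := hk ▸ min_le_left _ _
  have k2 : k * M ≤ D θ ^ 2 := (le_div_iff₀ M0).1 (hk ▸ min_le_right _ _)
  have a1 := mul_le_mul_of_nonneg_left k1 s0
  have a2 := mul_le_mul_of_nonneg_left k1 (sub_nonneg.2 s1)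
  have a3 := mul_nonneg s0 k0.le
  have a4 := mul_nonneg (sub_nonneg.2 s1) k0.le
  have I := (intervalIntegral.integral_mono_on (a := θ - s * k) (b := θ + (1 - s) * k)
    (f := fun _ => (16 * D θ ^ 4)⁻¹) (μ := volume) (by linarith) intervalIntegrable_const
    (hβ.intervalIntegrable _ _)
    fun x hx => by
      have h1 := hH x ⟨by linarith [hx.1], by linarith [hx.2]⟩
      have h2 : |x - θ| ≤ k := abs_le.2 ⟨by linarith [hx.1], by linarith [hx.2]⟩
      have h3 := (abs_le_of_sq_le_sq' (h1.trans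
        ((mul_le_mul_of_nonneg_right h2 M0.le).trans k2)) d0.le).2
      refine le_trans (inv_anti₀ (pow_pos (D0 x) 4) ?_) (hD x)
      exact (pow_le_pow_left₀ (D0 x).le (show D x ≤ 2 * D θ by linarith) 4).trans_eq (by ring)).trans
    (intervalIntegral.integral_mono_interval (c := p) (d := q) (by linarith) (by linarith)
      (by linarith) (.of_forall β0) (hβ.intervalIntegrable _ _))
  rw [intervalIntegral.integral_const, smul_eq_mul,
    show θ + (1 - s) * k - (θ - s * k) = k by ring, mul_inv, ← mul_assoc,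
    show (D θ ^ 4)⁻¹ = (D θ ^ 2)⁻¹ ^ 2 by rw [inv_pow, ← pow_mul]] at I
  have x0 : 0 < (D θ ^ 2)⁻¹ := by positivity
  have P0 : 0 ≤ ∫ x in p..q, β x := le_trans (by positivity) I
  rcases min_cases l (D θ ^ 2 / M) with e | e <;> rw [hk, e.1] at I
  · have : (D θ ^ 2)⁻¹ ^ 2 ≤ 16 * (∫ x in p..q, β x) / l := by rw [le_div_iff₀ l0]; linarith
    nlinarith [mul_nonneg M0.le P0]
  · rw [show D θ ^ 2 / M * 16⁻¹ * (D θ ^ 2)⁻¹ ^ 2 = (D θ ^ 2)⁻¹ / (16 * M) by field_simp,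
      div_le_iff₀' (by positivity)] at I
    have : 0 ≤ 16 * (∫ x in p..q, β x) / l := by positivity
    linarith

theorem per {F : Type*} (f : ℂ → F) :
    Function.Periodic (fun θ => f (circleMap 0 1 θ)) (2 * Real.pi) :=
  (periodic_circleMap 0 1).comp f

theorem int_per (f : ℂ → ℝ) (θ : ℝ) :
    ∫ s in θ..θ + 2 * Real.pi, f (circleMap 0 1 s) = 2 * Real.pi * av f := by
  rw [(per f).intervalIntegral_add_eq θ 0, zero_add, av, Real.circleAverage_def, smul_eq_mul,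
    mul_inv_cancel_left₀ Real.two_pi_pos.ne']

theorem dens {ι : Type} [Fintype ι] (h : DENS) {A : ℝ} {Y : ℂ → ι → ℂ} (hY : Dqv A Y) :
    ∃ m : ℂ → ℝ, (∀ τ, 0 ≤ m τ) ∧ CircleIntegrable m 0 1 ∧ av m ≤ Fintype.card ι * A ^ 2 ∧
      ∀ p q, ∀ x ∈ Icc p q, ∀ y ∈ Icc p q, ‖Y (circleMap 0 1 x) - Y (circleMap 0 1 y)‖ ^ 2 ≤
        |x - y| * ∫ s in p..q, m (circleMap 0 1 s) := by
  choose m m0 mi ma hm using fun i => h _ A (hY i)
  have i1 := fun i => (per (m i)).intervalIntegrable₀ Real.two_pi_pos.ne' (mi i)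
  have s0 : ∀ τ, 0 ≤ ∑ i, m i τ := fun τ => Finset.sum_nonneg fun i _ => m0 i τ
  refine ⟨fun τ => ∑ i, m i τ, s0, ?_, ?_, fun p q x hx y hy => ?_⟩
  · simpa only [CircleIntegrable, Finset.sum_fn] using
      IntervalIntegrable.sum Finset.univ fun i _ => i1 i 0 (2 * Real.pi)
  · rw [av, Real.circleAverage_fun_sum fun i _ => mi i]
    exact (Finset.sum_le_card_nsmul _ _ _ fun i _ => ma i).trans_eq (by simp)
  wlog l : y ≤ x generalizing x y
  · rw [norm_sub_rev, abs_sub_comm]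
    exact this y hy x hx (not_le.1 l).le
  have n0 := fun i => intervalIntegral.integral_nonneg (μ := volume) (hx.1.trans hx.2)
    fun s _ => m0 i (circleMap 0 1 s)
  rw [intervalIntegral.integral_finsetSum fun i _ => i1 i p q]
  have S0 := Finset.sum_nonneg fun i (_ : i ∈ Finset.univ) => n0 i
  refine (Real.le_sqrt (norm_nonneg _) (by positivity)).1
    ((pi_norm_le_iff_of_nonneg (Real.sqrt_nonneg _)).2 fun i => Real.le_sqrt_of_sq_le ?_)
  refine (hm i y x l).trans (mul_le_mul (le_abs_self _) ((intervalIntegral.integral_mono_interval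
    hy.1 l hx.2 (.of_forall fun s => m0 i _) (i1 i p q)).trans
      (Finset.single_le_sum (fun i _ => n0 i) (Finset.mem_univ i)))
        (intervalIntegral.integral_nonneg l fun s _ => m0 i _) (abs_nonneg _))

variable {ι : Type} [Fintype ι] {C₀ : ℝ} {Y : ℂ → ι → ℂ} {d B m : ℂ → ℝ}

theorem key' (w : Wall C₀ Y d B) {p q θ s l M P : ℝ} (hm : ∀ x ∈ Icc p q, ∀ y ∈ Icc p q,
    ‖Y (circleMap 0 1 x) - Y (circleMap 0 1 y)‖ ^ 2 ≤ |x - y| * ∫ s in p..q, m (circleMap 0 1 s))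
    (M0 : 0 < M) (hM : ∫ s in p..q, m (circleMap 0 1 s) ≤ M)
    (hP : ∫ s in p..q, (1 + B (circleMap 0 1 s)) ≤ P)
    (l0 : 0 < l) (s0 : 0 ≤ s) (s1 : s ≤ 1) (hp : p ≤ θ - s * l) (hq : θ + (1 - s) * l ≤ q) :
    (d (circleMap 0 1 θ) ^ 2)⁻¹ ≤ 1 + 16 * (|C₀| + 1) * P / l + 16 * (|C₀| + 1) ^ 3 * M * P := by
  have c1 : C₀ ≤ |C₀| + 1 := by linarith [le_abs_self C₀]
  have := key (D := fun x => d (circleMap 0 1 x))
    (β := fun x => (|C₀| + 1) * (1 + B (circleMap 0 1 x))) (M := (|C₀| + 1) ^ 2 * M)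
    (continuous_const.mul (continuous_const.add
      (w.cB.comp_continuous (continuous_circleMap 0 1) cm_mem))) (fun x => (w.pos _ (cm_mem x)).1)
    (fun x => (w.pos _ (cm_mem x)).2.2.trans (mul_le_mul_of_nonneg_right c1
      (by linarith [(w.pos _ (cm_mem x)).2.1]))) (by positivity) (fun x hx => by
        have h1 := (w.lip _ (cm_mem x) _ (cm_mem θ)).trans
          (mul_le_mul_of_nonneg_right c1 (norm_nonneg _))
        have h2 := (hm x hx θ ⟨by nlinarith, by nlinarith⟩).trans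
          (mul_le_mul_of_nonneg_left hM (abs_nonneg _))
        rw [← sq_abs, mul_left_comm]
        refine (pow_le_pow_left₀ (abs_nonneg _) h1 2).trans ?_
        rw [mul_pow]
        exact mul_le_mul_of_nonneg_left h2 (sq_nonneg _)) l0 s0 s1 hp hq
  rw [intervalIntegral.integral_const_mul] at this
  refine this.trans (add_le_add (add_le_add_right ?_ 1) ?_)
  · rw [mul_assoc]
    gcongr
  · calc _ ≤ 16 * ((|C₀| + 1) ^ 2 * M) * ((|C₀| + 1) * P) := by gcongr
      _ = _ := by ring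

end Wal

open Wal in
/-- **the distance to the wall** -/
theorem wal (h1 : DENS) (h2 : POI) : WAL := by
  intro ι _ C₀
  obtain ⟨Cp, hp⟩ := h2
  have π3 := Real.pi_gt_three
  refine ⟨⟨Fintype.card ι + 4 + 16 * (|C₀| + 1) * (4 * |Cp| + 1) +
    16 * (|C₀| + 1) ^ 3 * (4 * |Cp| + 1) ^ 2, by positivity, fun N Y d B N1 hY w hB => ?_⟩,
    fun A b => ?_⟩
  · obtain ⟨m, m0, mi, ma, hm⟩ := dens h1 hY
    have c1 : ContinuousOn (fun τ => 1 + B τ) (sphere 0 1) := continuousOn_const.add w.cB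
    obtain ⟨g, gc, g0, ga, -, hg⟩ := hp m N N1 (fun τ _ => m0 τ) mi
    obtain ⟨k, kc, k0, ka, -, hk⟩ := hp _ N N1 (fun τ hτ => by linarith [(w.pos τ hτ).2.1]) (ci c1)
    have N0 : 0 < N := by linarith
    have c2 : ContinuousOn (fun τ => (N ^ 2)⁻¹ * g τ) (sphere 0 1) := continuousOn_const.mul gc
    have c3 : ContinuousOn (fun τ => 1 + (N ^ 2)⁻¹ * g τ) (sphere 0 1) := continuousOn_const.add c2
    refine ⟨fun τ => 1 + (N ^ 2)⁻¹ * g τ + k τ, c3.add kc, ?_, fun τ hτ => ?_⟩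
    · rw [av_add c3 kc, av_add continuousOn_const c2, av_mul_real, ga, ka,
        av_add continuousOn_const w.cB, av_const]
      have : (N ^ 2)⁻¹ * av m ≤ Fintype.card ι := by rwa [inv_mul_le_iff₀' (by positivity)]
      have : 0 ≤ 16 * (|C₀| + 1) * (4 * |Cp| + 1) := by positivity
      have : 0 ≤ 16 * (|C₀| + 1) ^ 3 * (4 * |Cp| + 1) ^ 2 := by positivity
      linarith
    beta_reduce
    have g1 := g0 τ hτ
    have k1 := k0 τ hτ
    have g2 : 0 ≤ (N ^ 2)⁻¹ * g τ := by positivity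
    refine ⟨by linarith, fun h => ?_⟩
    wlog hπ : |h| ≤ Real.pi generalizing h
    · obtain ⟨h', l, e⟩ := exists_rt (rt_mem h hτ) hτ
      rw [e]
      refine (this h' l).trans ?_
      have := l.trans (not_le.1 hπ).le
      gcongr
    obtain ⟨θ, rfl⟩ := exists_cm hτ
    have i0 := inv_pos.2 N0
    have i1 : N⁻¹ ≤ 1 := inv_le_one_of_one_le₀ N1
    obtain ⟨r, hr⟩ : ∃ r, r = max |h| N⁻¹ := ⟨_, rfl⟩
    have r1 : |h| ≤ r := hr ▸ le_max_left _ _
    have r2 : N⁻¹ ≤ r := hr ▸ le_max_right _ _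
    have r3 : r ≤ Real.pi := hr ▸ max_le hπ (by linarith)
    obtain ⟨u, hu⟩ : ∃ u, u = 1 + N * |h| := ⟨_, rfl⟩
    have u0 : 0 ≤ N * |h| := by positivity
    have u1 : 1 ≤ u := by linarith
    have r4 : 1 + N * r ≤ 2 * u := by
      rw [hr, mul_max_of_nonneg _ _ N0.le, mul_inv_cancel₀ N0.ne']
      linarith [max_le (show N * |h| ≤ 1 + N * |h| by linarith) (show 1 ≤ 1 + N * |h| by linarith)]
    have r5 : Cp * (1 + N * r) ^ 2 ≤ (4 * |Cp| + 1) * u ^ 2 := by
      have := mul_le_mul (le_abs_self Cp) (pow_le_pow_left₀ (by nlinarith) r4 2) (sq_nonneg _)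
        (abs_nonneg _)
      nlinarith
    obtain ⟨a, ha⟩ : ∃ a, a = 1 + (N ^ 2)⁻¹ * g (circleMap 0 1 θ) + k (circleMap 0 1 θ) := ⟨_, rfl⟩
    have a1 : 1 ≤ a := by linarith
    have e1 := (hg θ r (by linarith) r3).trans (mul_le_mul r5
      (show _ ≤ N ^ 2 * a by rw [← inv_mul_le_iff₀ (by positivity)]; linarith) g1 (by positivity))
    have e2 := (hk θ r (by linarith) r3).trans (mul_le_mul r5 (show _ ≤ a by linarith) k1
      (by positivity))
    have := key' w (θ := θ + h) (s := if 0 ≤ h then 1 else 0) (l := N⁻¹)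
      (M := (4 * |Cp| + 1) * u ^ 2 * (N * a)) (P := (4 * |Cp| + 1) * u ^ 2 * a / N)
      (hm (θ - r) (θ + r)) (by positivity) (le_of_mul_le_mul_left (by linarith) N0)
      ((le_div_iff₀' N0).2 e2) i0 (by positivity) (by split_ifs <;> norm_num)
      (by split_ifs <;> linarith [abs_le.1 r1]) (by split_ifs <;> linarith [abs_le.1 r1])
    rw [rt_cm, ← hu, ← ha]
    refine this.trans ?_
    have v1 : 1 ≤ u ^ 2 * a := one_le_mul_of_one_le_of_one_le (one_le_pow₀ u1) a1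
    calc _ = 1 + 16 * (|C₀| + 1) * (4 * |Cp| + 1) * (u ^ 2 * a) +
          16 * (|C₀| + 1) ^ 3 * (4 * |Cp| + 1) ^ 2 * (u ^ 2 * a) ^ 2 := by field_simp
      _ ≤ (Fintype.card ι + 4) * (u ^ 2 * a) ^ 2 + 16 * (|C₀| + 1) * (4 * |Cp| + 1) *
          (u ^ 2 * a) ^ 2 + 16 * (|C₀| + 1) ^ 3 * (4 * |Cp| + 1) ^ 2 * (u ^ 2 * a) ^ 2 := by
        gcongr
        · exact one_le_mul_of_one_le_of_one_le (by linarith [(Fintype.card ι).cast_nonneg (α := ℝ)])
            (one_le_pow₀ v1)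
        · exact le_self_pow₀ v1 two_ne_zero
      _ = _ := by ring
  · obtain ⟨K, hK⟩ : ∃ K, K = 1 + 16 * (|C₀| + 1) * (2 * Real.pi * (1 + |b|)) / 1 +
      16 * (|C₀| + 1) ^ 3 * (2 * Real.pi * (Fintype.card ι * A ^ 2) + 1) *
        (2 * Real.pi * (1 + |b|)) := ⟨_, rfl⟩
    have K1 : 1 ≤ K := hK ▸ le_add_of_le_of_nonneg (le_add_of_nonneg_right (by positivity))
      (by positivity)
    refine ⟨K⁻¹, by positivity, fun Y d B hY w hB τ hτ => ?_⟩
    obtain ⟨m, m0, mi, ma, hm⟩ := dens h1 hY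
    obtain ⟨θ, rfl⟩ := exists_cm hτ
    have := (key' w (θ := θ) (s := 0) (l := 1) (hm θ (θ + 2 * Real.pi)) (by positivity)
      (by rw [int_per]; nlinarith) (by
        rw [int_per fun τ => 1 + B τ, av_add continuousOn_const w.cB, av_const]
        nlinarith [le_abs_self b]) one_pos le_rfl zero_le_one (by linarith)
      (by linarith)).trans_eq hK.symm
    have d0 := (w.pos _ hτ).1
    rw [inv_le_iff_one_le_mul₀ (by positivity)] at this ⊢
    by_contra l
    nlinarith [mul_lt_mul_of_pos_right (not_le.1 l) d0, mul_le_mul_of_nonneg_left K1 d0.le]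

end Vale.Agent.P253W.A
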