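import Vale.Agent.P253W.WM.All
import Vale.Agent.P253W.WM.Dens
import Vale.Agent.P253W.WM.Poi
import Vale.Agent.P253W.WM.Bump
import Vale.Agent.P253W.A.Apr
import Vale.Agent.P253W.A.Cmp
import Vale.Agent.P253W.A.Core
import Vale.Agent.P253W.A.Exb
import Vale.Agent.P253W.A.Fin
import Vale.Agent.P253W.A.Frm
import Vale.Agent.P253W.A.Gex
import Vale.Agent.P253W.A.Holi
import Vale.Agent.P253W.A.Ja
import Vale.Agent.P253W.A.Jm
import Vale.Agent.P253W.A.Jo
import Vale.Agent.P253W.A.Ker
import Vale.Agent.P253W.A.Lin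
import Vale.Agent.P253W.A.Lipk
import Vale.Agent.P253W.A.Log
import Vale.Agent.P253W.A.Log1
import Vale.Agent.P253W.A.Log2
import Vale.Agent.P253W.A.Mov
import Vale.Agent.P253W.A.One
import Vale.Agent.P253W.A.Prd
import Vale.Agent.P253W.A.Sym
import Vale.Agent.P253W.A.Tay
import Vale.Agent.P253W.A.Tay0
import Vale.Agent.P253W.A.Tim
import Vale.Agent.P253W.A.Tub1
import Vale.Agent.P253W.A.Tube
import Vale.Agent.P253W.A.Var1
import Vale.Agent.P253W.A.Var2
import Vale.Agent.P253W.A.Vart
import Vale.Agent.P253W.A.Vis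
import Vale.Agent.P253W.A.Wal

/-!
# P253W, block A: the abstract part is assembled
-/

namespace Vale.Agent.P253W.A

open WM

theorem wal' : WAL := wal (dens enq) poi

theorem core' : CORE :=
  core (sym bump All.wme (prd (dens enq) enq) ker apr enq) (log (log1 wal') log2) All.jen lin

theorem frm' : FRM := frm All.iso2 lipk (tube lipk holi (tub1 lipk))

theorem tay' : TAY := tay tay0

theorem visA {n : ℕ} {N : Type} [TopologicalSpace N] [T2Space N] (B : Bs n N) (hB : B.Ok)
    (hs : B.START) (hp : B.PEN) : B.VIS :=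
  have hm := mov B hB lipk All.gau exb
  have hg := gex All.gau All.gau2
  vis B hB hs hp (min B All.bpw (cmp B hB lipk wal' ja))
    (one B hB frm' core' (tim All.psm) lipk lin) (var1 B hB hm hg exb jo jm ja)
    (var2 B hm hg exb jm) (vart B hB td ja) num (fin lin) js ja

end Vale.Agent.P253W.A
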