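import Vale.Agent.P253W.A.Defs2
import Vale.Agent.P253W.A.Lipk

/-!
# P253W, block A: AR1, the weighted area of a disc
-/

open scoped Manifold ContDiff Bundle ENNReal Topology ComplexConjugate ComplexOrder Matrix Laplacian
open Bundle MeasureTheory Set Metric Filter Vale.Agent.P253Z
open Vale.Agent.P272.K (Cm dz cHess jacM Chart)

set_option linter.all false

noncomputable section

namespace Vale.Agent.P253W.A

open WM

namespace Ar1

theorem d2_sq {h : ℂ → ℂ} {τ : ℂ} (hh : AnalyticAt ℂ h τ) (v : ℂ) :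
    iteratedFDeriv ℝ 2 (fun z => ‖h z‖ ^ 2) τ ![v, v] =
      2 * (inner ℝ (h τ) (deriv (deriv h) τ * v * v) + ‖deriv h τ * v‖ ^ 2) := by
  have c2 : ContDiffAt ℝ 2 (fun z => ‖h z‖ ^ 2) τ :=
    (hh.contDiffAt.restrict_scalars ℝ).norm_sq ℝ
  have hd : DifferentiableAt ℝ (fderiv ℝ fun z => ‖h z‖ ^ 2) τ :=
    (c2.fderiv_right (m := 1) le_rfl).differentiableAt one_ne_zero
  have e1 : (fun z => fderiv ℝ (fun z => ‖h z‖ ^ 2) z v) =ᶠ[𝓝 τ]
      fun z => 2 * inner ℝ (h z) (deriv h z * v) := by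
    filter_upwards [hh.eventually_analyticAt] with z hz
    rw [hz.differentiableAt.hasDerivAt.complexToReal_fderiv.norm_sq.fderiv]
    simp [mul_add]
  have h1 := hh.differentiableAt.hasDerivAt.complexToReal_fderiv
  have h2 := (hh.deriv.differentiableAt.hasDerivAt.mul_const v).complexToReal_fderiv
  have e2 : fderiv ℝ (fderiv ℝ fun z => ‖h z‖ ^ 2) τ v v =
      fderiv ℝ (fun z => fderiv ℝ (fun z => ‖h z‖ ^ 2) z v) τ v := by
    rw [fderiv_clm_apply hd (differentiableAt_const v)]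
    simp
  rw [iteratedFDeriv_two_apply]
  simp only [Matrix.cons_val_zero, Matrix.cons_val_one]
  rw [e2, e1.fderiv_eq, fderiv_const_mul (h1.differentiableAt.inner ℝ h2.differentiableAt),
    ContinuousLinearMap.smul_apply, fderiv_inner_apply ℝ h1.differentiableAt h2.differentiableAt,
    h1.fderiv, h2.fderiv]
  simp only [ContinuousLinearMap.smul_apply, ContinuousLinearMap.one_apply, smul_eq_mul,
    real_inner_self_eq_norm_sq]

theorem lap_sq {h : ℂ → ℂ} {τ : ℂ} (hh : AnalyticAt ℂ h τ) :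
    (Δ fun z => ‖h z‖ ^ 2) τ = 4 * ‖deriv h τ‖ ^ 2 := by
  rw [InnerProductSpace.laplacian_eq_iteratedFDeriv_complexPlane]
  simp only [d2_sq hh, mul_assoc (deriv (deriv h) τ), Complex.I_mul_I, mul_one, mul_neg,
    inner_neg_right, norm_mul, Complex.norm_I]
  ring

theorem lap_sum {ι : Type} (s : Finset ι) {h : ι → ℂ → ℂ} {τ : ℂ}
    (hh : ∀ l, AnalyticAt ℂ (h l) τ) :
    (Δ fun z => ∑ l ∈ s, ‖h l z‖ ^ 2) τ = 4 * ∑ l ∈ s, ‖deriv (h l) τ‖ ^ 2 := by
  classical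
  have c2 : ∀ l, ContDiffAt ℝ 2 (fun z => ‖h l z‖ ^ 2) τ := fun l =>
    ((hh l).contDiffAt.restrict_scalars ℝ).norm_sq ℝ
  induction s using Finset.induction_on with
  | empty => simp
  | insert a s ha ih =>
    simp only [Finset.sum_insert ha]
    rw [mul_add, ← ih, ← lap_sq (hh a)]
    exact (c2 a).laplacian_add (ContDiffAt.sum fun l _ => c2 l)

theorem fatou {ι : Type} {u : Filter ι} [u.NeBot] [u.IsCountablyGenerated] {φ : ι → ℂ → ℝ}
    {ψ : ℂ → ℝ} (hc : ∀ i, ContinuousOn (φ i) (ball 0 1))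
    (hl : ∀ τ ∈ ball (0 : ℂ) 1, Tendsto (fun i => φ i τ) u (𝓝 (ψ τ))) :
    ∫⁻ τ in ball (0 : ℂ) 1, ENNReal.ofReal (ψ τ) ≤
      liminf (fun i => ∫⁻ τ in ball (0 : ℂ) 1, ENNReal.ofReal (φ i τ)) u := by
  refine le_trans (le_of_eq ?_) (lintegral_liminf_le' fun i =>
    ((hc i).aemeasurable measurableSet_ball).ennreal_ofReal)
  exact setLIntegral_congr_fun measurableSet_ball fun τ hτ =>
    ((ENNReal.tendsto_ofReal (hl τ hτ)).liminf_eq).symm

/-- the weighted energy of bounded holomorphic functions -/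
theorem energy (g : GRN) {ι : Type} [Fintype ι] {h : ι → ℂ → ℂ} {B : ℝ}
    (hh : ∀ l, DifferentiableOn ℂ (h l) (ball 0 1))
    (hB : ∀ τ ∈ ball (0 : ℂ) 1, ∑ l, ‖h l τ‖ ^ 2 ≤ B) :
    ∫⁻ τ in ball (0 : ℂ) 1, ENNReal.ofReal ((1 - ‖τ‖ ^ 2) * ∑ l, ‖deriv (h l) τ‖ ^ 2) ≤
      ENNReal.ofReal (Real.pi * B) := by
  have an : ∀ l, AnalyticOnNhd ℂ (h l) (ball 0 1) := fun l => (hh l).analyticOnNhd isOpen_ball
  have cS : ContinuousOn (fun τ => ∑ l, ‖deriv (h l) τ‖ ^ 2) (ball 0 1) :=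
    continuousOn_finset_sum _ fun l _ => ((an l).deriv.continuousOn.norm).pow 2
  have S0 : ∀ τ, 0 ≤ ∑ l, ‖deriv (h l) τ‖ ^ 2 := fun τ => by positivity
  have c2 : ContDiffOn ℝ 2 (fun z => ∑ l, ‖h l z‖ ^ 2) (ball 0 1) := fun τ hτ =>
    (ContDiffAt.sum fun l _ =>
      ((an l τ hτ).contDiffAt.restrict_scalars ℝ).norm_sq ℝ).contDiffWithinAt
  have B0 : 0 ≤ B := le_trans (by positivity) (hB 0 (mem_ball_self one_pos))
  have cφ : ∀ ρ : ℝ, ContinuousOn (fun τ : ℂ => (ρ ^ 2 - ‖τ‖ ^ 2) * ∑ l, ‖deriv (h l) τ‖ ^ 2)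
      (ball 0 1) := fun ρ => ContinuousOn.mul (by fun_prop) cS
  refine (fatou (u := 𝓝[<] (1 : ℝ)) cφ fun τ _ => ?_).trans (liminf_le_of_frequently_le' ?_)
  · refine Tendsto.mono_left ?_ nhdsWithin_le_nhds
    have := Continuous.tendsto (f := fun ρ : ℝ =>
      (ρ ^ 2 - ‖τ‖ ^ 2) * ∑ l, ‖deriv (h l) τ‖ ^ 2) (by fun_prop) 1
    rwa [one_pow] at this
  refine Eventually.frequently ?_
  filter_upwards [Ioo_mem_nhdsLT (zero_lt_one' ℝ)] with ρ hρ
  have sub : closedBall (0 : ℂ) ρ ⊆ ball 0 1 := closedBall_subset_ball hρ.2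
  have e1 : ∫⁻ τ in ball (0 : ℂ) 1, ENNReal.ofReal ((ρ ^ 2 - ‖τ‖ ^ 2) * ∑ l, ‖deriv (h l) τ‖ ^ 2) =
      ∫⁻ τ in ball (0 : ℂ) ρ, ENNReal.ofReal ((ρ ^ 2 - ‖τ‖ ^ 2) * ∑ l, ‖deriv (h l) τ‖ ^ 2) := by
    rw [← lintegral_indicator measurableSet_ball, ← lintegral_indicator measurableSet_ball]
    refine lintegral_congr fun τ => ?_
    by_cases h1 : τ ∈ ball (0 : ℂ) ρ
    · rw [indicator_of_mem h1, indicator_of_mem (sub (ball_subset_closedBall h1))]
    · rw [indicator_of_notMem h1]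
      refine indicator_apply_eq_zero.2 fun _ => ENNReal.ofReal_of_nonpos ?_
      have : ρ ≤ ‖τ‖ := by simpa using h1
      exact mul_nonpos_of_nonpos_of_nonneg (sub_nonpos.2 (by gcongr; exact hρ.1.le)) (S0 τ)
  have int : IntegrableOn (fun τ : ℂ => (ρ ^ 2 - ‖τ‖ ^ 2) * ∑ l, ‖deriv (h l) τ‖ ^ 2) (ball 0 ρ) :=
    (((cφ ρ).mono sub).integrableOn_compact (isCompact_closedBall _ _)).mono_set
      ball_subset_closedBall
  rw [e1, ← ofReal_integral_eq_lintegral_ofReal int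
    ((ae_restrict_iff' measurableSet_ball).2 (.of_forall fun τ hτ => mul_nonneg
      (sub_nonneg.2 (by gcongr; exact (mem_ball_zero_iff.1 hτ).le)) (S0 τ)))]
  refine ENNReal.ofReal_le_ofReal ?_
  have G := (g _ 1 ρ hρ.1 hρ.2 c2).1 fun τ _ => by positivity
  have e2 : ∫ τ in ball (0 : ℂ) ρ, (ρ ^ 2 - ‖τ‖ ^ 2) * (Δ fun z => ∑ l, ‖h l z‖ ^ 2) τ =
      4 * ∫ τ in ball (0 : ℂ) ρ, (ρ ^ 2 - ‖τ‖ ^ 2) * ∑ l, ‖deriv (h l) τ‖ ^ 2 := by
    rw [← integral_const_mul]
    refine setIntegral_congr_fun measurableSet_ball fun τ hτ => ?_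
    rw [lap_sum _ fun l => an l τ (sub (ball_subset_closedBall hτ))]
    ring
  have sp : sphere (0 : ℂ) |ρ| ⊆ ball 0 1 := by
    rw [abs_of_pos hρ.1]
    exact sphere_subset_closedBall.trans sub
  have A : Real.circleAverage (fun z => ∑ l, ‖h l z‖ ^ 2) 0 ρ ≤ B :=
    Real.circleAverage_mono_on_of_le_circle
      ((c2.continuousOn.mono (sphere_subset_closedBall.trans sub)).circleIntegrable hρ.1.le)
      fun τ hτ => hB τ (sp hτ)
  have r1 : ρ ^ 2 ≤ 1 := pow_le_one₀ hρ.1.le hρ.2.le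
  have : 4 * Real.pi * ρ ^ 2 * Real.circleAverage (fun z => ∑ l, ‖h l z‖ ^ 2) 0 ρ ≤
      4 * Real.pi * 1 * B :=
    (mul_le_mul_of_nonneg_left A (by positivity)).trans (by gcongr)
  rw [e2] at G
  linarith

theorem qf_le {n : ℕ} (H : Mx n) (v : Cm n) : qf H v ≤ (∑ j, ∑ k, ‖H j k‖) * ‖v‖ ^ 2 := by
  refine (Complex.re_le_norm _).trans ?_
  simp only [dotProduct, Matrix.mulVec, Finset.sum_mul]
  refine norm_sum_le_of_le _ fun j _ => ?_
  rw [Finset.mul_sum]
  refine norm_sum_le_of_le _ fun k _ => ?_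
  rw [norm_mul, norm_mul, Pi.star_apply, norm_star, mul_left_comm, sq]
  gcongr <;> exact norm_le_pi_norm v _

theorem qf_cont {n : ℕ} : Continuous fun p : Mx n × Cm n => qf p.1 p.2 := by
  unfold qf
  simp only [dotProduct, Matrix.mulVec, Pi.star_apply]
  fun_prop

theorem sq_le {ι : Type} [Fintype ι] (v : ι → ℂ) : ‖v‖ ^ 2 ≤ ∑ l, ‖v l‖ ^ 2 := by
  have h0 : 0 ≤ ∑ l, ‖v l‖ ^ 2 := by positivity
  rw [← Real.le_sqrt (norm_nonneg _) h0]
  exact (pi_norm_le_iff_of_nonneg (Real.sqrt_nonneg _)).2 fun l => Real.le_sqrt_of_sq_le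
    (Finset.single_le_sum (f := fun l => ‖v l‖ ^ 2) (fun _ _ => by positivity) (Finset.mem_univ l))

variable {n : ℕ} {M : Type} [MetricSpace M] [ChartedSpace (Cm n) M]
  [RiemannianBundle fun x : M => TangentSpace 𝓘(ℝ, Cm n) x] {F : Flow n M}

/-- the density of the area in a chart -/
theorem nv_eq (h : Cx F) {f : ℂ → M} {τ : ℂ} {e : Chart n M} (he : Hc e) (hτ : f τ ∈ e.source)
    (hc : ContinuousAt f τ) (hd : DifferentiableAt ℂ (fun s => e (f s)) τ) :
    F.nv 0 (f τ) (d1 n f τ) = qf (hm e (e (f τ))) (deriv (fun s => e (f s)) τ) := by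
  have hp := h.a.chart (f τ)
  have hs := mem_chart_source (Cm n) (f τ)
  have an := h.a.hol e _ he hp _ (e.map_source hτ) (by rwa [e.left_inv hτ])
  rw [h.b.wch e _ he hp _ hτ hs, qf_pb, h.a.jac_eq e _ he hp _ hτ hs, LinearMap.toMatrix'_mulVec,
    Flow.nv, Flow.gx, h.b1.g_zero]
  congr 1
  have ev : (fun s => pc n (f τ) (f s)) =ᶠ[𝓝 τ]
      (fun y => pc n (f τ) (e.symm y)) ∘ fun s => e (f s) :=
    (hc.eventually (e.eventually_left_inverse hτ)).mono fun s hs => by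
      simp only [Function.comp, hs]
  rw [d1, ev.deriv_eq]
  exact (an.differentiableAt.hasFDerivAt.comp_hasDerivAt τ hd.hasDerivAt).deriv

theorem hm_cont (h : Cx F) {e : Chart n M} (he : Hc e) {x : M} (hx : x ∈ e.source) :
    ContinuousAt (fun y => hm e (e y)) x :=
  continuousAt_pi.2 fun j => continuousAt_pi.2 fun k =>
    (h.b.wsm e he _ (e.map_source hx) j k).continuousAt.comp (e.continuousAt hx)

theorem hol_nhds {f : ℂ → M} {U : Set ℂ} (hU : IsOpen U) (hf : HolOn (AM n M) f U) {τ : ℂ}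
    (hτ : τ ∈ U) {e : Chart n M} (he : Hc e) (hx : f τ ∈ e.source) :
    U ∩ f ⁻¹' e.source ∈ 𝓝 τ ∧ AnalyticAt ℂ (fun s => e (f s)) τ := by
  have m := (hf.1.isOpen_inter_preimage hU e.open_source).mem_nhds ⟨hτ, hx⟩
  exact ⟨m, (hf.2 e he).analyticAt m⟩

theorem nv_eq' (h : Cx F) {f : ℂ → M} {U : Set ℂ} (hU : IsOpen U) (hf : HolOn (AM n M) f U)
    {τ : ℂ} (hτ : τ ∈ U) {e : Chart n M} (he : Hc e) (hx : f τ ∈ e.source) :
    F.nv 0 (f τ) (d1 n f τ) = qf (hm e (e (f τ))) (deriv (fun s => e (f s)) τ) :=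
  nv_eq h he hx (hf.1.continuousAt (hU.mem_nhds hτ)) (hol_nhds hU hf hτ he hx).2.differentiableAt

/-- the density is continuous -/
theorem nv_cont (h : Cx F) {f : ℂ → M} {U : Set ℂ} (hU : IsOpen U) (hf : HolOn (AM n M) f U) :
    ContinuousOn (fun τ => F.nv 0 (f τ) (d1 n f τ)) U := by
  intro τ hτ
  have he := h.a.chart (f τ)
  have hx := mem_chart_source (Cm n) (f τ)
  obtain ⟨m, an⟩ := hol_nhds hU hf hτ he hx
  refine (ContinuousAt.congr (qf_cont.continuousAt.comp₂ (f := fun p : Mx n × Cm n => qf p.1 p.2)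
    ((hm_cont h he hx).comp (hf.1.continuousAt (hU.mem_nhds hτ))) an.deriv.continuousAt)
    ?_).continuousWithinAt
  filter_upwards [m] with s hs using (nv_eq' h hU hf hs.1 he hs.2).symm

theorem loc_bd (h : Cx F) {L : ℕ} {a : M → Fin L → ℂ} (ha : Ho (AM n M) a) {e : Chart n M}
    (he : Hc e) {x : M} (hx : x ∈ e.source) (hi : Function.Injective (dM a e x).mulVec) :
    ∃ C, 0 ≤ C ∧ ∀ᶠ y in 𝓝 x, y ∈ e.source ∧
      ∀ v, qf (hm e (e y)) v ≤ C * ‖fderiv ℂ (fun w => a (e.symm w)) (e y) v‖ ^ 2 := by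
  have hG : AnalyticAt ℂ (fun w => a (e.symm w)) (e x) :=
    analyticAt_pi_iff.2 (ha e he _ (e.map_source hx))
  obtain ⟨K, K0, hK⟩ :=
    (fderiv ℂ (fun w => a (e.symm w)) (e x)).toLinearMap.exists_antilipschitzWith
      (LinearMap.ker_eq_bot.2 fun v w h => hi ((Lipk.fd_eq hG.differentiableAt v).symm.trans
        (h.trans (Lipk.fd_eq hG.differentiableAt w))))
  have K1 : (0 : ℝ) < K := K0
  have c1 : ContinuousAt (fun y => fderiv ℂ (fun w => a (e.symm w)) (e y)) x :=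
    hG.fderiv.continuousAt.comp (e.continuousAt hx)
  have c2 : ContinuousAt (fun y => ∑ j, ∑ k, ‖hm e (e y) j k‖) x :=
    (Continuous.continuousAt (f := fun H : Mx n => ∑ j, ∑ k, ‖H j k‖) (by fun_prop)).comp
      (hm_cont h he hx)
  refine ⟨(∑ j, ∑ k, ‖hm e (e x) j k‖ + 1) * (2 * K) ^ 2, by positivity, ?_⟩
  filter_upwards [e.open_source.mem_nhds hx, c2.eventually (gt_mem_nhds (lt_add_one _)),
    Metric.tendsto_nhds.1 c1 (1 / (2 * K)) (by positivity)] with y y1 y2 y3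
  refine ⟨y1, fun v => (qf_le _ v).trans ?_⟩
  have h1 : ‖v‖ ≤ K * ‖fderiv ℂ (fun w => a (e.symm w)) (e x) v‖ :=
    ZeroHomClass.bound_of_antilipschitz _ hK v
  have h2 : ‖fderiv ℂ (fun w => a (e.symm w)) (e y) v - fderiv ℂ (fun w => a (e.symm w)) (e x) v‖ ≤
      1 / (2 * K) * ‖v‖ := by
    rw [dist_eq_norm] at y3
    rw [← ContinuousLinearMap.sub_apply]
    exact (ContinuousLinearMap.le_opNorm _ v).trans (by gcongr)
  have h3 := norm_sub_norm_le (fderiv ℂ (fun w => a (e.symm w)) (e x) v)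
    (fderiv ℂ (fun w => a (e.symm w)) (e y) v)
  rw [norm_sub_rev] at h3
  have h4 : ‖v‖ ≤ 2 * K * ‖fderiv ℂ (fun w => a (e.symm w)) (e y) v‖ := by
    have := mul_le_mul_of_nonneg_left (h3.trans h2) K1.le
    have e : (K : ℝ) * (1 / (2 * K) * ‖v‖) = ‖v‖ / 2 := by field_simp
    nlinarith
  rw [mul_assoc, ← mul_pow]
  gcongr

theorem bd (h : Cx F) (t : TOP n M) (s : SEP F) (g : GRN) (K : Set M) (hK : IsCompact K) :
    ∃ C : ℝ, ∀ f, Dn (AM n M) f → (∀ τ ∈ closedBall (0 : ℂ) 1, f τ ∈ K) →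
      T0 F f ≤ ENNReal.ofReal C := by
  obtain ⟨L, a, ha, hE⟩ := s.1 K hK
  obtain ⟨ca, da, -⟩ := lipk n M (AM n M) (Fin L) a t.atm ha
  obtain ⟨C, C0, hC⟩ : ∃ C, 0 ≤ C ∧ ∀ y ∈ K, ∃ e : Chart n M, Hc e ∧ y ∈ e.source ∧
      ∀ v, qf (hm e (e y)) v ≤ C * ‖fderiv ℂ (fun w => a (e.symm w)) (e y) v‖ ^ 2 := by
    refine hK.induction_on (p := fun T => ∃ C, 0 ≤ C ∧ ∀ y ∈ T, ∃ e : Chart n M, Hc e ∧
      y ∈ e.source ∧ ∀ v, qf (hm e (e y)) v ≤ C * ‖fderiv ℂ (fun w => a (e.symm w)) (e y) v‖ ^ 2)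
      ⟨0, le_rfl, fun _ h => h.elim⟩ (fun s t hst ⟨C, a, b⟩ => ⟨C, a, fun p hp => b p (hst hp)⟩)
      (fun s t ⟨C, a, b⟩ ⟨C', a', b'⟩ => ⟨C + C', by positivity, fun y hy => ?_⟩) fun x hx => ?_
    · rcases hy with hy | hy
      · obtain ⟨e, e1, e2, e3⟩ := b y hy
        exact ⟨e, e1, e2, fun v => (e3 v).trans (by gcongr; linarith)⟩
      · obtain ⟨e, e1, e2, e3⟩ := b' y hy
        exact ⟨e, e1, e2, fun v => (e3 v).trans (by gcongr; linarith)⟩
    · have he := h.a.chart x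
      have hs := mem_chart_source (Cm n) x
      obtain ⟨C, C0, hC⟩ := loc_bd h ha he hs (hE.2 x hx _ he hs)
      exact ⟨_, mem_nhdsWithin_of_mem_nhds hC, C, C0, fun y hy => ⟨_, he, hy⟩⟩
  obtain ⟨B, hB⟩ := hK.exists_bound_of_continuousOn
    (f := fun y => ∑ l, ‖a y l‖ ^ 2) (Continuous.continuousOn (by fun_prop))
  refine ⟨C * B, fun f hf hfK => ?_⟩
  have dh := da f _ isOpen_ball hf.2
  have E := energy g dh fun τ hτ =>
    (le_abs_self _).trans (hB _ (hfK τ (ball_subset_closedBall hτ)))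
  have P := Real.pi_pos
  calc T0 F f ≤ ∫⁻ τ in ball (0 : ℂ) 1, ENNReal.ofReal (C / Real.pi) *
        ENNReal.ofReal ((1 - ‖τ‖ ^ 2) * ∑ l, ‖deriv (fun τ => a (f τ) l) τ‖ ^ 2) := by
        refine setLIntegral_mono' measurableSet_ball fun τ hτ => ?_
        rw [← ENNReal.ofReal_mul (by positivity)]
        refine ENNReal.ofReal_le_ofReal ?_
        obtain ⟨e, he, hx, hq⟩ := hC _ (hfK τ (ball_subset_closedBall hτ))
        obtain ⟨m, an⟩ := hol_nhds isOpen_ball hf.2 hτ he hx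
        have hG : AnalyticAt ℂ (fun w => a (e.symm w)) (e (f τ)) :=
          analyticAt_pi_iff.2 (ha e he _ (e.map_source hx))
        have e1 : fderiv ℂ (fun w => a (e.symm w)) (e (f τ)) (deriv (fun s => e (f s)) τ) =
            fun l => deriv (fun τ => a (f τ) l) τ := by
          rw [← deriv_pi fun l => (dh l).differentiableAt (isOpen_ball.mem_nhds hτ),
            ← (hG.differentiableAt.hasFDerivAt.comp_hasDerivAt τ an.differentiableAt.hasDerivAt).deriv]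
          refine Filter.EventuallyEq.deriv_eq ?_
          filter_upwards [m] with s hs
          simp only [Function.comp, e.left_inv hs.2]
        have h1 := hq (deriv (fun s => e (f s)) τ)
        rw [← nv_eq' h isOpen_ball hf.2 hτ he hx, e1] at h1
        have h2 := h1.trans (mul_le_mul_of_nonneg_left (sq_le _) C0)
        have h3 : 0 ≤ 1 - ‖τ‖ ^ 2 :=
          sub_nonneg.2 (pow_le_one₀ (norm_nonneg _) (mem_ball_zero_iff.1 hτ).le)
        calc _ ≤ (1 - ‖τ‖ ^ 2) * (C * ∑ l, ‖deriv (fun τ => a (f τ) l) τ‖ ^ 2) / Real.pi := by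
              gcongr
          _ = _ := by ring
    _ ≤ ENNReal.ofReal (C / Real.pi) * ENNReal.ofReal (Real.pi * B) := by
        rw [lintegral_const_mul' _ _ ENNReal.ofReal_ne_top]
        gcongr
    _ = ENNReal.ofReal (C * B) := by
        rw [← ENNReal.ofReal_mul (by positivity)]
        congr 1
        field_simp

theorem lim_loc {f : ℕ → ℂ → M} {g : ℂ → M} (hf : ∀ k, Dn (AM n M) (f k))
    (hu : TendstoUniformlyOn f g atTop (closedBall 0 1)) {τ : ℂ} (hτ : τ ∈ ball (0 : ℂ) 1)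
    {e : Chart n M} (he : Hc e) (hx : g τ ∈ e.source) :
    DifferentiableAt ℂ (fun s => e (g s)) τ ∧
      Tendsto (fun k => deriv (fun s => e (f k s)) τ) atTop (𝓝 (deriv (fun s => e (g s)) τ)) := by
  have cg : ContinuousOn g (closedBall 0 1) := hu.continuousOn (.of_forall fun k => (hf k).1)
  have nb : ∀ x ∈ ball (0 : ℂ) 1, closedBall (0 : ℂ) 1 ∈ 𝓝 x := fun x hx =>
    mem_of_superset (isOpen_ball.mem_nhds hx) ball_subset_closedBall
  have T2 : ∀ x ∈ ball (0 : ℂ) 1, Tendsto (fun y : ℕ × ℂ => g y.2) (atTop ×ˢ 𝓝 x) (𝓝 (g x)) :=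
    fun x hx => (cg.continuousAt (nb x hx)).tendsto.comp tendsto_snd
  have T1 : ∀ x ∈ ball (0 : ℂ) 1, Tendsto (fun y : ℕ × ℂ => f y.1 y.2) (atTop ×ˢ 𝓝 x) (𝓝 (g x)) :=
    fun x hx => by
      have := tendstoLocallyUniformlyOn_iff_forall_tendsto.1 hu.tendstoLocallyUniformlyOn x
        (ball_subset_closedBall hx)
      rw [nhdsWithin_eq_nhds.2 (nb x hx)] at this
      exact (T2 x hx).congr_uniformity this
  obtain ⟨p, hp, q, hq, hpq⟩ :=
    eventually_prod_iff.1 ((T1 τ hτ).eventually (e.open_source.mem_nhds hx))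
  obtain ⟨δ, δ0, hδ⟩ := Metric.eventually_nhds_iff_ball.1 (hq.and
    (((cg.continuousAt (nb τ hτ)).eventually (e.open_source.mem_nhds hx)).and
      (isOpen_ball.mem_nhds hτ)))
  have lu : TendstoLocallyUniformlyOn (fun k s => e (f k s)) (fun s => e (g s)) atTop
      (ball τ δ) := by
    refine tendstoLocallyUniformlyOn_iff_forall_tendsto.2 fun x hx => ?_
    have ce := (e.continuousAt (hδ x hx).2.1).tendsto
    refine Tendsto.mono_left ?_ (prod_mono le_rfl nhdsWithin_le_nhds)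
    exact ((ce.comp (T2 x (hδ x hx).2.2)).prodMk_nhds (ce.comp (T1 x (hδ x hx).2.2))).mono_right
      (nhds_le_uniformity _)
  have df : ∀ᶠ k in atTop, DifferentiableOn ℂ (fun s => e (f k s)) (ball τ δ) :=
    hp.mono fun k hk => ((hf k).2.2 e he).mono fun x hx => ⟨(hδ x hx).2.2, hpq hk (hδ x hx).1⟩
  exact ⟨(lu.differentiableOn df isOpen_ball).differentiableAt (ball_mem_nhds τ δ0),
    (lu.deriv df isOpen_ball).tendsto_at (mem_ball_self δ0)⟩

theorem lsc (h : Cx F) (f : ℕ → ℂ → M) (g : ℂ → M) (hf : ∀ k, Dn (AM n M) (f k))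
    (hu : TendstoUniformlyOn f g atTop (closedBall 0 1)) :
    Dn (AM n M) g ∧ T0 F g ≤ liminf (fun k => T0 F (f k)) atTop := by
  have cg : ContinuousOn g (closedBall 0 1) := hu.continuousOn (.of_forall fun k => (hf k).1)
  have hg : HolOn (AM n M) g (ball 0 1) := ⟨cg.mono ball_subset_closedBall, fun e he τ hτ =>
    (lim_loc hf hu hτ.1 he hτ.2).1.differentiableWithinAt⟩
  refine ⟨⟨cg, hg⟩, fatou (fun k => (ContinuousOn.mul (by fun_prop)
    (nv_cont h isOpen_ball (hf k).2)).div_const _) fun τ hτ => ?_⟩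
  refine (Tendsto.const_mul _ ?_).div_const _
  have he := h.a.chart (g τ)
  have hx := mem_chart_source (Cm n) (g τ)
  have l := hu.tendsto_at (ball_subset_closedBall hτ)
  rw [nv_eq' h isOpen_ball hg hτ he hx]
  refine ((qf_cont.tendsto (_, _)).comp (((hm_cont h he hx).tendsto.comp l).prodMk_nhds
    (lim_loc hf hu hτ he hx).2)).congr' ?_
  filter_upwards [l.eventually ((chartAt (Cm n) (g τ)).open_source.mem_nhds hx)] with k hk
  exact (nv_eq' h isOpen_ball (hf k).2 hτ he hk).symm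

end Ar1

open Ar1 in
theorem ar1 {n : ℕ} {M : Type} [MetricSpace M] [ChartedSpace (Cm n) M]
    [RiemannianBundle fun x : M => TangentSpace 𝓘(ℝ, Cm n) x] {F : Flow n M}
    (h : Cx F) (t : TOP n M) (s : SEP F) (g : GRN) : AR1 F := by
  refine ⟨fun f f' e => ?_, bd h t s g, lsc h, fun f r A r0 r1 hA => ?_⟩
  · refine setLIntegral_congr_fun measurableSet_ball fun τ hτ => ?_
    have ev : f =ᶠ[𝓝 τ] f' := e.eventuallyEq_of_mem
      (mem_of_superset (isOpen_ball.mem_nhds hτ) ball_subset_closedBall)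
    have : d1 n f τ = d1 n f' τ := by
      rw [d1, d1, ev.eq_of_nhds]
      exact (ev.fun_comp _).deriv_eq
    simp only [ev.eq_of_nhds, this]
  · have P := Real.pi_pos
    have p : 0 < 1 - r ^ 2 := sub_pos.2 (pow_lt_one₀ r0.le r1 two_ne_zero)
    calc F.ar f r ≤ ∫⁻ τ in ball (0 : ℂ) r, ENNReal.ofReal (Real.pi / (1 - r ^ 2)) *
          ENNReal.ofReal ((1 - ‖τ‖ ^ 2) * F.nv 0 (f τ) (d1 n f τ) / Real.pi) := by
          refine setLIntegral_mono' measurableSet_ball fun τ hτ => ?_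
          rw [← ENNReal.ofReal_mul (by positivity)]
          rcases le_total (F.nv 0 (f τ) (d1 n f τ)) 0 with h0 | h0
          · rw [ENNReal.ofReal_of_nonpos h0]
            exact zero_le
          · refine ENNReal.ofReal_le_ofReal ?_
            have h1 : 1 - r ^ 2 ≤ 1 - ‖τ‖ ^ 2 := by
              gcongr
              exact (mem_ball_zero_iff.1 hτ).le
            calc _ = Real.pi / (1 - r ^ 2) *
                  ((1 - r ^ 2) * F.nv 0 (f τ) (d1 n f τ) / Real.pi) := by field_simp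
              _ ≤ _ := by gcongr
      _ ≤ ENNReal.ofReal (Real.pi / (1 - r ^ 2)) * ENNReal.ofReal A := by
          rw [lintegral_const_mul' _ _ ENNReal.ofReal_ne_top]
          gcongr
          exact (lintegral_mono_set (ball_subset_ball r1.le)).trans hA
      _ = _ := by
          rw [← ENNReal.ofReal_mul (by positivity)]
          congr 1
          ring

end Vale.Agent.P253W.A
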