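import Vale.Agent.P253W.A.Ar1
import Vale.Agent.P268.Hol
import Vale.Agent.P272.GEO.Joint

/-!
# P253W, block A: AR2, the second variation of the weighted area
-/

open scoped Manifold ContDiff Bundle ENNReal Topology ComplexConjugate ComplexOrder Matrix Laplacian
open Bundle MeasureTheory Set Metric Filter Vale.Agent.P253Z
open Vale.Agent.P272.K (Cm Chart)

set_option linter.all false

noncomputable section

namespace Vale.Agent.P253W.A

open WM Ar1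

variable {n : ℕ} {M : Type} [MetricSpace M] [ChartedSpace (Cm n) M]

namespace Ar2

variable {φ : ℂ → M} {r : ℝ} {y : ℂ → ℂ → M} {e : Chart n M} {s τ : ℂ}

theorem box (hy : Fam (AM n M) φ r y) (he : Hc e) (hs : s ∈ ball (0 : ℂ) r)
    (hτ : τ ∈ closedBall (0 : ℂ) 1) (hx : y s τ ∈ e.source) : ∃ B W, IsOpen B ∧ IsOpen W ∧ s ∈ B ∧
      τ ∈ W ∧ B ⊆ ball 0 r ∧ (∀ s ∈ B, ∀ τ ∈ W ∩ closedBall 0 1, y s τ ∈ e.source) ∧
      ContinuousOn (fun p : ℂ × ℂ => e (y p.1 p.2)) (B ×ˢ (W ∩ closedBall 0 1)) ∧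
      ∀ τ ∈ W ∩ closedBall 0 1, DifferentiableOn ℂ (fun s => e (y s τ)) B := by
  obtain ⟨u, hu, v, hv, k⟩ := mem_nhdsWithin_prod_iff.1
    (hy.cont (s, τ) ⟨hs, hτ⟩ (e.open_source.mem_nhds hx))
  rw [isOpen_ball.nhdsWithin_eq hs] at hu
  obtain ⟨B, b1, b2, b3⟩ := _root_.mem_nhds_iff.1 (inter_mem hu (isOpen_ball.mem_nhds hs))
  obtain ⟨W, w1, w2, w3⟩ := mem_nhdsWithin.1 hv
  have k' : ∀ s ∈ B, ∀ τ ∈ W ∩ closedBall 0 1, y s τ ∈ e.source := fun s hs τ hτ =>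
    k (mk_mem_prod (b1 hs).1 (w3 hτ))
  exact ⟨B, W, b2, w1, b3, w2, fun s hs => (b1 hs).2, k',
    e.continuousOn.comp (hy.cont.mono fun p hp => ⟨(b1 hp.1).2, hp.2.2⟩)
      fun p hp => k' _ hp.1 _ hp.2, fun τ hτ =>
    ((hy.hs τ hτ.2).2 e he).mono fun s hs => ⟨(b1 hs).2, k' s hs τ hτ⟩⟩

theorem ana (hy : Fam (AM n M) φ r y) (he : Hc e) (hs : s ∈ ball (0 : ℂ) r)
    (hτ : τ ∈ ball (0 : ℂ) 1) (hx : y s τ ∈ e.source) :
    AnalyticAt ℂ (fun p : ℂ × ℂ => e (y p.1 p.2)) (s, τ) := by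
  obtain ⟨B, W, oB, oW, sB, tW, hB, k, c, d⟩ := box hy he hs (ball_subset_closedBall hτ) hx
  have sub : W ∩ ball 0 1 ⊆ W ∩ closedBall 0 1 := inter_subset_inter_right _ ball_subset_closedBall
  have oV := oW.inter (isOpen_ball (x := (0 : ℂ)) (ε := 1))
  exact P268.analyticAt_of_differentiableOn (oB.prod oV) (fun p hp =>
    (P272.GEO.differentiableAt_joint (G := fun s τ => e (y s τ)) oB oV
      (c.mono (prod_mono_right sub)) (fun τ h => d τ (sub h)) (fun s h =>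
        ((hy.hτ s (hB h)).2 e he).mono fun τ h' => ⟨h'.2, k s h τ (sub h')⟩)
      hp.1 hp.2).differentiableWithinAt) ⟨sB, tW, hτ⟩

end Ar2

open Ar2 in
/-- **AR2** -/
theorem ar2 [RiemannianBundle fun x : M => TangentSpace 𝓘(ℝ, Cm n) x] {F : Flow n M} (h : Cx F)
    (t : TOP n M) (a1 : AR1 F) (c : CLS) (g : GR2) : AR2 F := by
  intro φ r y hy
  have r0 := hy.pos
  have sub : ball (0 : ℂ) (r / 2) ⊆ ball 0 r := ball_subset_ball (half_le_self r0.le)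
  have nn : ∀ x v, 0 ≤ F.nv 0 x v := fun x v => by
    simpa [Flow.nv, qf, Flow.gx] using (h.is.pos 0 le_rfl _ (h.a.chart x) _
      (mem_chart_target (Cm n) x)).posSemidef.re_dotProduct_nonneg (star v)
  have key : ∀ s ∈ ball (0 : ℂ) r, ∀ τ ∈ ball (0 : ℂ) 1,
      ContDiffAt ℝ ∞ (fun q : ℂ × ℂ => F.nv 0 (y q.1 q.2) (d1 n (y q.1) q.2)) (s, τ) ∧
      ContDiffAt ℝ ∞ (fun q : ℂ × ℂ => F.nv 0 (y q.1 q.2) (d1 n (fun s => y s q.2) q.1)) (s, τ) ∧
      (Δ fun s => F.nv 0 (y s τ) (d1 n (y s) τ)) s =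
        (Δ fun τ => F.nv 0 (y s τ) (d1 n (fun s => y s τ) s)) τ := fun s hs τ hτ => by
    have he := h.a.chart (y s τ)
    have hx := mem_chart_source (Cm n) (y s τ)
    generalize chartAt (Cm n) (y s τ) = e at he hx
    have o : ball (0 : ℂ) r ×ˢ ball (0 : ℂ) 1 ∈ 𝓝 (s, τ) :=
      (isOpen_ball.prod isOpen_ball).mem_nhds ⟨hs, hτ⟩
    have m : ∀ᶠ q : ℂ × ℂ in 𝓝 (s, τ), y q.1 q.2 ∈ e.source := (hy.cont.continuousAt
      (mem_of_superset o (prod_mono_right ball_subset_closedBall))).eventually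
        (e.open_source.mem_nhds hx)
    obtain ⟨c1, c2, c3⟩ := c n (hm e) _ s τ (ana hy he hs hτ hx) (h.b.wsm e he _ (e.map_source hx))
      (mem_of_superset (e.open_target.mem_nhds (e.map_source hx)) fun z hz =>
        ⟨(h.b.wpos e he z hz).isHermitian, h.b.wcl e he z hz⟩)
    have e1 : (fun q : ℂ × ℂ => F.nv 0 (y q.1 q.2) (d1 n (y q.1) q.2)) =ᶠ[𝓝 (s, τ)] fun q =>
        qf (hm e (e (y q.1 q.2))) (deriv (fun τ => e (y q.1 τ)) q.2) := by
      filter_upwards [o, m] with q a b using nv_eq' h isOpen_ball (hy.hτ _ a.1) a.2 he b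
    have e2 : (fun q : ℂ × ℂ => F.nv 0 (y q.1 q.2) (d1 n (fun s => y s q.2) q.1)) =ᶠ[𝓝 (s, τ)]
        fun q => qf (hm e (e (y q.1 q.2))) (deriv (fun s => e (y s q.2)) q.1) := by
      filter_upwards [o, m] with q a b using
        nv_eq' h isOpen_ball (hy.hs _ (ball_subset_closedBall a.2)) a.1 he b
    refine ⟨c1.congr_of_eventuallyEq e1, c2.congr_of_eventuallyEq e2, ?_⟩
    exact (InnerProductSpace.laplacian_congr_nhds (e1.comp_tendsto
      (Continuous.prodMk_left τ).continuousAt)).eq_of_nhds.trans (c3.trans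
        (InnerProductSpace.laplacian_congr_nhds (e2.comp_tendsto
          (Continuous.prodMk_right s).continuousAt)).eq_of_nhds.symm)
  obtain ⟨C, hC⟩ := a1.bd _ (((isCompact_closedBall (0 : ℂ) (r / 2)).prod
    (isCompact_closedBall (0 : ℂ) 1)).image_of_continuousOn
      (hy.cont.mono (prod_mono_left (closedBall_subset_ball (half_lt_self r0)))))
  refine g (fun q => F.nv 0 (y q.1 q.2) (d1 n (y q.1) q.2))
    (fun q => F.nv 0 (y q.1 q.2) (d1 n (fun s => y s q.2) q.1)) (r / 2) (half_pos r0)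
    (fun q hq => (key _ (sub hq.1) _ hq.2).1.contDiffWithinAt)
    (fun q hq => (key _ (sub hq.1) _ hq.2).2.1.contDiffWithinAt) (fun q hq => ?_)
    (fun s hs τ hτ => ⟨nn _ _, nn _ _, (key s (sub hs) τ hτ).2.2⟩)
    ⟨C, fun s hs => hC (y s) ⟨hy.cont.comp (Continuous.prodMk_right s).continuousOn
      fun τ hτ => ⟨sub hs, hτ⟩, hy.hτ s (sub hs)⟩ fun τ hτ =>
        ⟨(s, τ), ⟨ball_subset_closedBall hs, hτ⟩, rfl⟩⟩
  have he := h.a.chart (y q.1 q.2)
  have hx := mem_chart_source (Cm n) (y q.1 q.2)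
  generalize chartAt (Cm n) (y q.1 q.2) = e at he hx
  obtain ⟨B, W, oB, oW, sB, tW, hB, k, c1, d⟩ := box hy he (sub hq.1) hq.2 hx
  have c2 := (P272.GEO.continuousOn_deriv_of (G := fun τ s => e (y s τ)) oB
    (c1.comp continuous_swap.continuousOn fun p hp => ⟨hp.2, hp.1⟩) d).comp
      continuous_swap.continuousOn (s := B ×ˢ (W ∩ closedBall 0 1)) fun p hp => ⟨hp.2, hp.1⟩
  have c3 : ContinuousOn (fun p : ℂ × ℂ => hm e (e (y p.1 p.2))) (B ×ˢ (W ∩ closedBall 0 1)) :=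
    fun p hp => (hm_cont h he (k _ hp.1 _ hp.2)).comp_continuousWithinAt
      (f := fun p : ℂ × ℂ => y p.1 p.2) ((hy.cont.mono fun p hp => ⟨hB hp.1, hp.2.2⟩) p hp)
  refine (((qf_cont.comp_continuousOn (c3.prodMk c2)).congr fun p hp =>
    nv_eq' h isOpen_ball (hy.hs _ hp.2.2) (hB hp.1) he (k _ hp.1 _ hp.2)) q
      ⟨sB, tW, hq.2⟩).mono_of_mem_nhdsWithin ?_
  filter_upwards [self_mem_nhdsWithin, mem_nhdsWithin_of_mem_nhds ((oB.prod oW).mem_nhds ⟨sB, tW⟩)]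
    with p a b using ⟨b.1, b.2, a.2⟩

end Vale.Agent.P253W.A
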