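import Vale.Agent.P253W.A.Defs2
import Vale.Agent.P272.K.N.Hess

/-!
# P253W, block A: the pull-back of a Kähler form to a bidisc is closed
-/

open scoped Topology ComplexConjugate ContDiff Laplacian Matrix
open Filter Set Complex
open Vale.Agent.P272.K (Cm dz dzb cHess)
open Vale.Agent.P272.K.C2

noncomputable section

namespace Vale.Agent.P253W.A.Cls

variable {n m : ℕ}

theorem single_I (i : Fin m) : (Pi.single i I : Cm m) = I • Pi.single i 1 := by
  rw [← Pi.single_smul]; simp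

theorem dz_hol {f : Cm m → ℂ} {z : Cm m} (h : DifferentiableAt ℂ f z) (i : Fin m) :
    dz i f z = fderiv ℂ f z (Pi.single i 1) ∧ dzb i f z = 0 := by
  simp only [dz, dzb, h.fderiv_restrictScalars ℝ, ContinuousLinearMap.coe_restrictScalars',
    single_I, map_smul, smul_eq_mul]
  constructor
  · linear_combination (-(fderiv ℂ f z (Pi.single i 1)) / 2) * I_mul_I
  · linear_combination ((fderiv ℂ f z (Pi.single i 1)) / 2) * I_mul_I

theorem lin_single (L : Cm n →L[ℝ] ℂ) (l : Fin n) (c : ℂ) :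
    L (Pi.single l c) = c.re * L (Pi.single l 1) + c.im * L (Pi.single l I) := by
  have : (Pi.single l c : Cm n) = c.re • (Pi.single l 1 : Cm n) + c.im • (Pi.single l I : Cm n) := by
    rw [← Pi.single_smul, ← Pi.single_smul, ← Pi.single_add]
    congr 1
    simp
  rw [this, map_add, map_smul, map_smul]
  simp

theorem lin (L : Cm n →L[ℝ] ℂ) (v : Cm n) : L v - I * L (I • v) =
    ∑ l, (L (Pi.single l 1) - I * L (Pi.single l I)) * v l := by
  have h : ∀ w : Cm n, L w = ∑ l, L (Pi.single l (w l)) := fun w => by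
    rw [← map_sum, Finset.univ_sum_single]
  rw [h v, h (I • v), Finset.mul_sum, ← Finset.sum_sub_distrib]
  refine Finset.sum_congr rfl fun l _ => ?_
  rw [lin_single L l (v l), lin_single L l ((I • v) l)]
  have e := re_add_im (v l)
  simp only [Pi.smul_apply, smul_eq_mul, mul_re, mul_im, I_re, I_im]
  push_cast
  linear_combination (L (Pi.single l 1) - I * L (Pi.single l I)) * e +
    ((v l).im * L (Pi.single l I)) * I_mul_I

/-- the columns of the Jacobian -/
def J (F : Cm m → Cm n) (a : Fin m) (w : Cm m) : Cm n := fderiv ℂ F w (Pi.single a 1)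

theorem chain {f : Cm n → ℂ} {F : Cm m → Cm n} {z : Cm m} (hf : DifferentiableAt ℝ f (F z))
    (h : DifferentiableAt ℂ F z) (a : Fin m) :
    dz a (fun y => f (F y)) z = ∑ l, dz l f (F z) * J F a z l := by
  have e : fderiv ℝ (fun y => f (F y)) z =
      (fderiv ℝ f (F z)).comp ((fderiv ℂ F z).restrictScalars ℝ) :=
    (hf.hasFDerivAt.comp z (h.hasFDerivAt.restrictScalars ℝ)).fderiv
  simp only [dz, e, ContinuousLinearMap.comp_apply, ContinuousLinearMap.coe_restrictScalars']
  rw [single_I a, map_smul, lin, Finset.sum_div]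
  exact Finset.sum_congr rfl fun l _ => by rw [J]; ring

theorem J_an {F : Cm m → Cm n} {z : Cm m} (h : AnalyticAt ℂ F z) (a : Fin m) (j : Fin n) :
    AnalyticAt ℂ (fun w => J F a w j) z :=
  (((ContinuousLinearMap.proj (R := ℂ) (φ := fun _ : Fin n => ℂ) j).comp
    (ContinuousLinearMap.apply ℂ (Cm n) (Pi.single a 1 : Cm m))).analyticAt
      (fderiv ℂ F z)).comp h.fderiv

theorem J_sm {F : Cm m → Cm n} {z : Cm m} (h : AnalyticAt ℂ F z) (a : Fin m) (j : Fin n) :
    ContDiffAt ℝ ∞ (fun w => J F a w j) z :=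
  ((J_an h a j).contDiffAt (n := ∞)).restrict_scalars ℝ

theorem J_symm {F : Cm m → Cm n} {z : Cm m} (h : AnalyticAt ℂ F z) (a c : Fin m) (j : Fin n) :
    dz c (fun w => J F a w j) z = dz a (fun w => J F c w j) z := by
  have e : ∀ b : Fin m, (fun w => J F b w j) =ᶠ[𝓝 z] dz b fun w => F w j := fun b => by
    filter_upwards [h.eventually_analyticAt] with w hw
    rw [(dz_hol (differentiableAt_pi.1 hw.differentiableAt j) b).1,
      fderiv_apply hw.differentiableAt j]
    rfl
  rw [dz_congr c (e a), dz_congr a (e c)]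
  exact dz_dz_comm _ _ (contDiffAt_pi.1 ((h.contDiffAt (n := 2)).restrict_scalars ℝ) j)

variable {W : Cm n → Mx n} {F : Cm m → Cm n} {z : Cm m}

variable (W F) in
/-- the pull-back -/
def V (a b : Fin m) (w : Cm m) : ℂ := ∑ j, ∑ k, J F a w j * (W (F w) j k * conj (J F b w k))

theorem V_sm (h : AnalyticAt ℂ F z) (hW : ∀ j k, ContDiffAt ℝ ∞ (fun y => W y j k) (F z))
    (a b : Fin m) : ContDiffAt ℝ ∞ (V W F a b) z :=
  ContDiffAt.sum fun j _ => ContDiffAt.sum fun k _ => (J_sm h a j).mul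
    (((hW j k).comp z ((h.contDiffAt (n := ∞)).restrict_scalars ℝ)).mul
      (contDiffAt_conj (J_sm h b k)))

theorem V_dz (h : AnalyticAt ℂ F z) (hW : ∀ j k, DifferentiableAt ℝ (fun y => W y j k) (F z))
    (a b c : Fin m) : dz c (V W F a b) z = ∑ k, ((∑ j, dz c (fun w => J F a w j) z * W (F z) j k) +
      ∑ j, ∑ l, J F a z j * J F c z l * dz l (fun y => W y j k) (F z)) * conj (J F b z k) := by
  have dJ : ∀ a j, DifferentiableAt ℝ (fun w => J F a w j) z := fun a j =>
    (J_sm h a j).differentiableAt (by simp)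
  have dW : ∀ j k, DifferentiableAt ℝ (fun w => W (F w) j k) z := fun j k =>
    (hW j k).comp z (h.differentiableAt.restrictScalars ℝ)
  have dP : ∀ j k, DifferentiableAt ℝ (fun w => W (F w) j k * conj (J F b w k)) z := fun j k =>
    (dW j k).mul (differentiableAt_conj (dJ b k))
  have dQ : ∀ j k, DifferentiableAt ℝ
      (fun w => J F a w j * (W (F w) j k * conj (J F b w k))) z := fun j k => (dJ a j).mul (dP j k)
  unfold V
  rw [dz_sum c _ fun j _ => DifferentiableAt.fun_sum fun k _ => dQ j k]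
  simp only [← Finset.sum_add_distrib, Finset.sum_mul]
  rw [Finset.sum_comm]
  refine Finset.sum_congr rfl fun j _ => ?_
  rw [dz_sum c _ fun k _ => dQ j k]
  refine Finset.sum_congr rfl fun k _ => ?_
  rw [dz_mul c (dJ a j) (dP j k), dz_mul c (dW j k) (differentiableAt_conj (dJ b k)),
    dz_conj c (dJ b k), (dz_hol (J_an h b k).differentiableAt c).2,
    chain (f := fun y => W y j k) (hW j k) h.differentiableAt c, map_zero, mul_zero, add_zero,
    add_mul, Finset.sum_mul, Finset.sum_mul, Finset.mul_sum, mul_assoc]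
  congr 1
  exact Finset.sum_congr rfl fun l _ => by ring

theorem V_closed (h : AnalyticAt ℂ F z) (hW : ∀ j k, DifferentiableAt ℝ (fun y => W y j k) (F z))
    (hK : ∀ j k l, dz l (fun y => W y j k) (F z) = dz j (fun y => W y l k) (F z)) (a b c : Fin m) :
    dz c (V W F a b) z = dz a (V W F c b) z := by
  rw [V_dz h hW, V_dz h hW]
  refine Finset.sum_congr rfl fun k _ => ?_
  congr 2
  · exact Finset.sum_congr rfl fun j _ => by rw [J_symm h]
  · rw [Finset.sum_comm]
    exact Finset.sum_congr rfl fun j _ => Finset.sum_congr rfl fun l _ => by rw [hK]; ring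

theorem V_conj (h : (W (F z)).IsHermitian) (a b : Fin m) :
    V W F a b z = conj (V W F b a z) := by
  simp only [V, map_sum, map_mul, conj_conj]
  rw [Finset.sum_comm]
  refine Finset.sum_congr rfl fun j _ => Finset.sum_congr rfl fun k _ => ?_
  rw [← h.apply k j]
  simp only [star_def]
  ring

theorem V_re (a : Fin m) (w : Cm m) : (V W F a a w).re = qf (W (F w)) (J F a w) := by
  simp only [V, qf, dotProduct, Matrix.mulVec, Finset.mul_sum, Pi.star_apply, star_def]

theorem hess_eq (h : AnalyticAt ℂ F z) (hW : ∀ j k, ContDiffAt ℝ ∞ (fun y => W y j k) (F z))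
    (hK : ∀ᶠ y in 𝓝 (F z), (W y).IsHermitian ∧
      ∀ j k l, dz l (fun y => W y j k) y = dz j (fun y => W y l k) y) (a b : Fin m) :
    cHess (fun w => (V W F b b w).re) z a a = cHess (fun w => (V W F a a w).re) z b b := by
  have h1 : ∀ᶠ y in 𝓝 (F z), ∀ j k, DifferentiableAt ℝ (fun y => W y j k) y := by
    simp only [eventually_all]
    exact fun j k => (eventually_contDiffAt (m := 1) ((hW j k).of_le (by simp))).mono
      fun y hy => hy.differentiableAt (by simp)
  have hc := h.continuousAt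
  have hH : ∀ᶠ w in 𝓝 z, (W (F w)).IsHermitian := (hc.eventually hK).mono fun _ h => h.1
  have s2 : ∀ a b, ContDiffAt ℝ 2 (V W F a b) z := fun a b => 
    (V_sm h hW a b).of_le (WithTop.coe_le_coe.2 (le_top : (2 : ℕ∞) ≤ ⊤))
  have c1 : ∀ a b c, dz c (V W F a b) =ᶠ[𝓝 z] dz a (V W F c b) := fun a b c => by
    filter_upwards [h.eventually_analyticAt, hc.eventually h1, hc.eventually hK] with w p q r
    exact V_closed p q r.2 a b c
  have d : ∀ a b, ∀ᶠ w in 𝓝 z, DifferentiableAt ℝ (V W F a b) w := fun a b =>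
    (eventually_contDiffAt (m := 2) (s2 a b)).mono fun y hy => hy.differentiableAt (by simp)
  have cj : ∀ a b c, dzb c (V W F a b) =ᶠ[𝓝 z] fun w => conj (dz c (V W F b a) w) :=
    fun a b c => by
      filter_upwards [hH.eventually_nhds, d b a] with w p q
      rw [← dzb_conj c q]
      exact dzb_congr c (p.mono fun y hy => V_conj hy a b)
  have c2 : ∀ a b c, dzb c (V W F a b) =ᶠ[𝓝 z] dzb b (V W F a c) := fun a b c => by
    filter_upwards [cj a b c, cj a c b, c1 b a c] with w p q r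
    rw [p, q, r]
  have re : ∀ a, (fun w => (((V W F a a w).re : ℝ) : ℂ)) =ᶠ[𝓝 z] V W F a a := fun a =>
    hH.mono fun w hw => conj_eq_iff_re.1 (V_conj hw a a).symm
  rw [cHess_apply, cHess_apply, dz_congr a (dzb_eventuallyEq a (re b)),
    dz_congr b (dzb_eventuallyEq b (re a)), dz_congr a (c2 b b a), dz_dzb_comm _ _ (s2 b a),
    dzb_congr b (c1 b a a), dz_dzb_comm _ _ (s2 a a)]

/-- the Laplacian along a coordinate line -/
theorem lap_slice {u : Cm m → ℝ} (p : Cm m) (a : Fin m) (s : ℂ)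
    (hu : ContDiffAt ℝ 2 u (p + Pi.single a s)) :
    (Δ fun t : ℂ => u (p + Pi.single a t)) s = 4 * (cHess u (p + Pi.single a s) a a).re := by
  set L : ℂ →L[ℝ] Cm m := ContinuousLinearMap.single ℝ (fun _ : Fin m => ℂ) a with hL
  have hγ : ∀ t : ℂ, HasFDerivAt (fun t : ℂ => p + Pi.single a t) L t := fun t =>
    L.hasFDerivAt.const_add p
  have hd : DifferentiableAt ℝ (fderiv ℝ u) (p + Pi.single a s) :=
    (hu.fderiv_right (m := 1) (by norm_num)).differentiableAt (by norm_num)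
  have e : fderiv ℝ (fun t : ℂ => u (p + Pi.single a t)) =ᶠ[𝓝 s]
      fun t => (fderiv ℝ u (p + Pi.single a t)).comp L := by
    filter_upwards [(hγ s).continuousAt.eventually (eventually_contDiffAt (m := 2) hu)] with t ht
    exact ((ht.differentiableAt (by norm_num)).hasFDerivAt.comp t (hγ t)).fderiv
  have e2 := ((hd.hasFDerivAt.comp s (hγ s)).clm_comp (hasFDerivAt_const L s)).fderiv
  rw [InnerProductSpace.laplacian_eq_iteratedFDeriv_complexPlane, P272.K.N.cHess_eq_lev hd, P272.K.N.lev_apply]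
  simp only [iteratedFDeriv_two_apply, e.fderiv_eq]
  erw [e2]
  simp [hL]
  ring

/-- `ℂ² → ℂ × ℂ` -/
def io : Cm 2 →L[ℂ] ℂ × ℂ :=
  (ContinuousLinearMap.proj (R := ℂ) (φ := fun _ : Fin 2 => ℂ) 0).prod
    (ContinuousLinearMap.proj (R := ℂ) (φ := fun _ : Fin 2 => ℂ) 1)

/-- `ℂ × ℂ → ℂ²` -/
def ka (q : ℂ × ℂ) : Cm 2 := Pi.single 0 q.1 + Pi.single 1 q.2

theorem io_ka (q : ℂ × ℂ) : io (ka q) = q := by
  ext <;> simp [io, ka]

theorem ka_sm : ContDiff ℝ ∞ ka :=
  ((ContinuousLinearMap.single ℝ (fun _ : Fin 2 => ℂ) 0).contDiff.comp contDiff_fst).add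
    ((ContinuousLinearMap.single ℝ (fun _ : Fin 2 => ℂ) 1).contDiff.comp contDiff_snd)

theorem J_io {Y : ℂ × ℂ → Cm n} {q : ℂ × ℂ} (h : DifferentiableAt ℂ Y q) :
    J (fun w => Y (io w)) 0 (ka q) = deriv (fun s => Y (s, q.2)) q.1 ∧
      J (fun w => Y (io w)) 1 (ka q) = deriv (fun τ => Y (q.1, τ)) q.2 := by
  have h' : HasFDerivAt Y (fderiv ℂ Y q) (io (ka q)) := by rw [io_ka]; exact h.hasFDerivAt
  have e : fderiv ℂ (fun w => Y (io w)) (ka q) = (fderiv ℂ Y q).comp io :=
    (h'.comp (ka q) io.hasFDerivAt).fderiv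
  have e0 : HasDerivAt (fun s => Y (s, q.2)) (fderiv ℂ Y q (1, 0)) q.1 :=
    h.hasFDerivAt.comp_hasDerivAt q.1 ((hasDerivAt_id q.1).prodMk (hasDerivAt_const q.1 q.2))
  have e1 : HasDerivAt (fun τ => Y (q.1, τ)) (fderiv ℂ Y q (0, 1)) q.2 :=
    h.hasFDerivAt.comp_hasDerivAt q.2 ((hasDerivAt_const q.2 q.1).prodMk (hasDerivAt_id q.2))
  rw [e0.deriv, e1.deriv, J, J, e]
  constructor <;> · rw [ContinuousLinearMap.comp_apply]; congr 1

end Cls

open Cls in
/-- **CLS** -/
theorem cls : CLS := by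
  intro n W Y s τ hY hW hK
  have hz : io (ka (s, τ)) = (s, τ) := io_ka _
  have hF : AnalyticAt ℂ (fun w => Y (io w)) (ka (s, τ)) :=
    AnalyticAt.comp (g := Y) (by rw [hz]; exact hY) (io.analyticAt _)
  have hW' : ∀ j k, ContDiffAt ℝ ∞ (fun y => W y j k) (Y (io (ka (s, τ)))) := by rwa [hz]
  have sm : ∀ a, ContDiffAt ℝ ∞ (fun w => (V W (fun w => Y (io w)) a a w).re) (ka (s, τ)) :=
    fun a => reCLM.contDiff.contDiffAt.comp _ (V_sm hF hW' a a)
  have e0 : (fun q : ℂ × ℂ => qf (W (Y q)) (deriv (fun s => Y (s, q.2)) q.1)) =ᶠ[𝓝 (s, τ)]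
      fun q => (V W (fun w => Y (io w)) 0 0 (ka q)).re := by
    filter_upwards [hY.eventually_analyticAt] with q hq
    rw [V_re, (J_io hq.differentiableAt).1, io_ka]
  have e1 : (fun q : ℂ × ℂ => qf (W (Y q)) (deriv (fun τ => Y (q.1, τ)) q.2)) =ᶠ[𝓝 (s, τ)]
      fun q => (V W (fun w => Y (io w)) 1 1 (ka q)).re := by
    filter_upwards [hY.eventually_analyticAt] with q hq
    rw [V_re, (J_io hq.differentiableAt).2, io_ka]
  refine ⟨((sm 1).comp _ ka_sm.contDiffAt).congr_of_eventuallyEq e1,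
    ((sm 0).comp _ ka_sm.contDiffAt).congr_of_eventuallyEq e0, ?_⟩
  have two : (2 : WithTop ℕ∞) ≤ ∞ := WithTop.coe_le_coe.2 (le_top : (2 : ℕ∞) ≤ ⊤)
  have k0 : ∀ t : ℂ, ka (t, τ) = Pi.single 1 τ + Pi.single 0 t := fun t => add_comm _ _
  have l0 := lap_slice (Pi.single 1 τ) 0 s (k0 s ▸ (sm 1).of_le two)
  have l1 := lap_slice (Pi.single 0 s) 1 τ ((sm 0).of_le two)
  have c0 : Tendsto (fun t : ℂ => (t, τ)) (𝓝 s) (𝓝 (s, τ)) :=
    (continuous_id.prodMk continuous_const).tendsto s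
  have c1 : Tendsto (fun t : ℂ => (s, t)) (𝓝 τ) (𝓝 (s, τ)) :=
    (continuous_const.prodMk continuous_id).tendsto τ
  have f0 := (InnerProductSpace.laplacian_congr_nhds (e1.comp_tendsto c0)).self_of_nhds
  have f1 := (InnerProductSpace.laplacian_congr_nhds (e0.comp_tendsto c1)).self_of_nhds
  simp only [Function.comp_def, k0] at f0
  refine (f0.trans l0).trans (Eq.trans ?_ (f1.trans l1).symm)
  rw [← k0, hess_eq hF hW' (by rwa [hz]) 0 1]
  rfl

end Vale.Agent.P253W.A
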