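import Vale.Agent.P253W.WM.Defs2
import Vale.Agent.P272.K.Stmt

/-!
# P253W, block A: abstract statements (circle analysis, determinants, manifolds with an atlas)
-/

open Complex Metric Set Filter Topology MeasureTheory
open scoped Matrix ComplexConjugate ComplexOrder ENNReal
open Vale.Agent.P272.K (Cm dz cHess jacM Chart)

noncomputable section

namespace Vale.Agent.P253W.A

open WM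

/-- the Hermitian form `U^* a U` -/
def hf {ι : Type*} [Fintype ι] (a : Matrix ι ι ℂ) (U : ι → ℂ) : ℝ := (star U ⬝ᵥ a *ᵥ U).re

/-- the square of the norm of the bivector `π` for the form `a` -/
def Qf {ι : Type*} [Fintype ι] (π a : Matrix ι ι ℂ) : ℝ := (πᴴ * a * π * aᵀ).trace.re / 2

/-- entrywise bound -/
def Bd {ι κ : Type*} (C : ℝ) (a : Matrix ι κ ℂ) : Prop := ∀ i j, ‖a i j‖ ≤ C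

/-- entrywise continuity on the circle -/
def Cs {ι κ : Type*} (a : ℂ → Matrix ι κ ℂ) : Prop :=
  ∀ i j, ContinuousOn (fun τ => a τ i j) (sphere 0 1)

/-- the measure of a set of angles -/
def pr (p : ℂ → Prop) : ℝ≥0∞ := volume {θ ∈ Ioc 0 (2 * Real.pi) | p (circleMap 0 1 θ)}

/-- the mean of the rotations -/
def cvm {ι κ : Type*} (ν : Measure ℝ) (a : ℂ → Matrix ι κ ℂ) (τ : ℂ) : Matrix ι κ ℂ :=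
  Matrix.of fun i j => ∫ h, a (rt h τ) i j ∂ν

/-- the Poisson bivector of `T^*ℂⁿ` -/
def pz (n : ℕ) : Matrix (Fin (n + n)) (Fin (n + n)) ℂ :=
  Matrix.reindex finSumFinEquiv finSumFinEquiv (Matrix.fromBlocks 0 1 (-1) 0)

/-! ### analysis on the circle -/

/-- **PRD**: the gauge of a product -/
def PRD : Prop := ∀ (ι q : Type) [Fintype ι] [Fintype q] [DecidableEq q], ∃ C : ℝ, 0 < C ∧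
  ∀ (L : ℝ) (Θ : ℂ → Matrix ι q ℂ), Dqm L Θ → (∀ τ ∈ sphere (0 : ℂ) 1, (Θ τ)ᴴ * Θ τ = 1) →
    ∃ m : ℂ → ℝ, (∀ τ, 0 ≤ m τ) ∧ CircleIntegrable m 0 1 ∧ av m ≤ C * L ^ 2 ∧
      ∀ (N B : ℝ) (U : ℂ → q → ℂ), 0 < N → Dqv B U →
        gq N (fun τ => Θ τ *ᵥ U τ) ≤ av (fun τ => ∑ j, ‖U τ j‖ ^ 2) +
          C * (B ^ 2 + av fun τ => m τ * ∑ j, ‖U τ j‖ ^ 2) / N ^ 2

/-- **KER**: a semiconvex kernel at the scale `1/N` -/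
def KER : Prop := ∀ p : ℕ, ∃ C : ℝ, 0 < C ∧ ∀ N : ℝ, 1 ≤ N → ∃ κ : ℝ → ℝ, Continuous κ ∧
  (∀ s, 0 ≤ κ s) ∧ Integrable κ ∧ ∫ s, κ s = 1 ∧
  ∫⁻ s, ENNReal.ofReal ((1 + N * |s|) ^ p * κ s) ≤ ENNReal.ofReal C ∧
  ∀ s h : ℝ, |h| ≤ 1 / N → κ (s + h) + κ (s - h) ≤ (2 + (C * N * h) ^ 2) * κ s ∧
    |κ (s + h) - κ s| ≤ C * N * |h| * κ s

/-- **APR**: the a priori estimate for the outer factor of a semiconvex symbol -/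
def APR : Prop := ∀ (q : Type) [Fintype q] [DecidableEq q] (A Φ : ℂ → Matrix q q ℂ) (μ L δ : ℝ),
  0 < μ → 0 ≤ L → 0 < δ → Cs A → (∀ i j, DA fun τ => Φ τ i j) →
  (∀ τ ∈ closedBall (0 : ℂ) 1, (Φ τ).det ≠ 0) →
  (∀ τ ∈ sphere (0 : ℂ) 1, (A τ - (μ : ℂ) • (1 : Matrix q q ℂ)).PosSemidef ∧
    (Φ τ)ᴴ * A τ * Φ τ = 1 ∧ ∀ h : ℝ, |h| ≤ δ →
      (((2 + (L * h) ^ 2 : ℝ) : ℂ) • A τ - A (rt h τ) - A (rt (-h) τ)).PosSemidef) →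
  ∀ w : q → ℂ, Dqv (L * √(∑ j, ‖w j‖ ^ 2) / √μ) fun τ => Φ τ *ᵥ w

/-- **SYM**: from the second order condition to a positive symbol and its outer factor -/
def SYM : Prop := ∀ (ι q : Type) [Fintype ι] [Fintype q] [DecidableEq q] (p : ℕ), ∃ C : ℝ, 0 < C ∧
  ∀ N : ℝ, 1 ≤ N → ∃ ν : Measure ℝ, IsProbabilityMeasure ν ∧
    ∫⁻ h, ENNReal.ofReal ((1 + N * |h|) ^ p) ∂ν ≤ ENNReal.ofReal C ∧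
    ∀ (a : ℂ → Matrix q q ℂ) (Θ : ℂ → Matrix ι q ℂ) (ε μ : ℝ), Cs a →
    (∀ τ ∈ sphere (0 : ℂ) 1, (a τ).IsHermitian ∧ (Θ τ)ᴴ * Θ τ = 1) → HWm Θ → Dqm N Θ →
    0 < ε → 0 < μ →
    (∀ U : ℂ → q → ℂ, HWv U → U 0 = 0 →
      0 ≤ av (fun τ => hf (a τ) (U τ)) + ε * gq N fun τ => Θ τ *ᵥ U τ) →
    ∃ (ρ : ℂ → ℝ) (Ψ : ℂ → Matrix q q ℂ), ContinuousOn ρ (sphere 0 1) ∧ av ρ ≤ μ + C * ε ∧
      HWm Ψ ∧ (Ψ 0).det ≠ 0 ∧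
      (∀ τ ∈ sphere (0 : ℂ) 1, μ ≤ ρ τ ∧ (Ψ τ)ᴴ * Ψ τ = cvm ν a τ + (ρ τ : ℂ) • 1) ∧
      ∀ w : q → ℂ, ∃ U : ℂ → q → ℂ, HWv U ∧ U 0 = w ∧
        av (fun τ => hf (a τ) (U τ)) + ε * gq N (fun τ => Θ τ *ᵥ U τ) ≤
          (1 + C * ε / μ) * hf ((Ψ 0)ᴴ * Ψ 0) w

/-- `d > 0` is the distance to the wall along the loop `Y`, `B` is the density of the penalty -/
structure Wall {ι : Type*} [Fintype ι] (C : ℝ) (Y : ℂ → ι → ℂ) (d B : ℂ → ℝ) : Prop where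
  cB : ContinuousOn B (sphere 0 1)
  pos : ∀ τ ∈ sphere (0 : ℂ) 1, 0 < d τ ∧ 0 ≤ B τ ∧ (d τ ^ 4)⁻¹ ≤ C * (1 + B τ)
  lip : ∀ τ ∈ sphere (0 : ℂ) 1, ∀ τ' ∈ sphere (0 : ℂ) 1, |d τ - d τ'| ≤ C * ‖Y τ - Y τ'‖

/-- **WAL**: the distance to the wall -/
def WAL : Prop := ∀ (ι : Type) [Fintype ι] (C₀ : ℝ),
  (∃ C : ℝ, 0 < C ∧ ∀ (N : ℝ) (Y : ℂ → ι → ℂ) (d B : ℂ → ℝ), 1 ≤ N → Dqv N Y → Wall C₀ Y d B →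
    av B ≤ 1 → ∃ A : ℂ → ℝ, ContinuousOn A (sphere 0 1) ∧ av A ≤ C ∧ ∀ τ ∈ sphere (0 : ℂ) 1,
      1 ≤ A τ ∧ ∀ h : ℝ, (d (rt h τ) ^ 2)⁻¹ ≤ C * (1 + N * |h|) ^ 4 * A τ ^ 2) ∧
  ∀ A b : ℝ, ∃ c : ℝ, 0 < c ∧ ∀ (Y : ℂ → ι → ℂ) (d B : ℂ → ℝ), Dqv A Y → Wall C₀ Y d B →
    av B ≤ b → ∀ τ ∈ sphere (0 : ℂ) 1, c ≤ d τ

/-- the data of one disc on the circle -/
structure Dat {ι ι' q : Type*} [Fintype ι] [Fintype ι'] [Fintype q] [DecidableEq q]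
    (C₀ σ δ d₀ η C₁ L : ℝ) (Y : ℂ → ι' → ℂ) (Θ : ℂ → Matrix ι q ℂ) (π : ℂ → Matrix q q ℂ)
    (a : ℂ → Matrix ι ι ℂ) (d B k X w : ℂ → ℝ) (κ : ℝ) : Prop where
  dY : Dqv L Y
  dΘ : Dqm L Θ
  iso : ∀ τ ∈ sphere (0 : ℂ) 1, (Θ τ)ᴴ * Θ τ = 1
  cπ : Cs π
  ca : Cs a
  wall : Wall C₀ Y d B
  avB : av B ≤ 1
  ck : ContinuousOn k (sphere 0 1)
  cX : ContinuousOn X (sphere 0 1)
  cw : ContinuousOn w (sphere 0 1)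
  bd : ∀ τ ∈ sphere (0 : ℂ) 1, (a τ).IsHermitian ∧ Bd C₀ (π τ) ∧ Bd (C₀ * (d τ ^ 6)⁻¹) (a τ) ∧
    0 < k τ ∧ k τ ≤ C₀ ∧ d τ ≤ 1
  mod : ∀ τ ∈ sphere (0 : ℂ) 1, ∀ τ' ∈ sphere (0 : ℂ) 1, d₀ ≤ d τ → d₀ ≤ d τ' →
    Bd (η + C₁ * ‖Y τ - Y τ'‖) (a τ - a τ')
  pde : ∀ τ ∈ sphere (0 : ℂ) 1, k τ * Qf (π τ) ((Θ τ)ᴴ * a τ * Θ τ) ≤ X τ + w τ
  lev : pr (fun τ => κ < X τ) ≤ ENNReal.ofReal δ
  avw : av (fun τ => Real.log (1 + max (w τ - σ) 0 / σ)) ≤ σ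

/-- **LOG1**: the smoothed symbol is close to the symbol off a small set -/
def LOG1 : Prop := ∀ (ι ι' q : Type) [Fintype ι] [Fintype ι'] [Fintype q] [DecidableEq q]
  (C₀ C : ℝ), ∃ C' : ℝ, 0 < C' ∧ ∀ β : ℝ, 0 < β → ∃ M : ℝ, 0 < M ∧ ∀ t : ℝ, 0 < t →
  ∃ d₀ η : ℝ, 0 < d₀ ∧ 0 < η ∧ ∀ C₁ : ℝ, ∃ κ₀ : ℝ, 0 < κ₀ ∧ κ₀ ≤ 1 ∧
  ∀ (N : ℝ) (ν : Measure ℝ) (Y : ℂ → ι' → ℂ)
    (Θ : ℂ → Matrix ι q ℂ) (π : ℂ → Matrix q q ℂ) (a : ℂ → Matrix ι ι ℂ) (d B k X w : ℂ → ℝ)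
    (κ σ δ : ℝ), 1 ≤ N → IsProbabilityMeasure ν →
    ∫⁻ h, ENNReal.ofReal ((1 + N * |h|) ^ 16) ∂ν ≤ ENNReal.ofReal C →
    Dat C₀ σ δ d₀ η C₁ (κ₀ * N) Y Θ π a d B k X w κ →
    Cs (cvm ν fun τ => (Θ τ)ᴴ * a τ * Θ τ) ∧
    (∃ A : ℂ → ℝ, ContinuousOn A (sphere 0 1) ∧ av A ≤ C' ∧ ∀ τ ∈ sphere (0 : ℂ) 1, 1 ≤ A τ ∧
      Bd (C' * A τ ^ 6) (cvm ν (fun τ => (Θ τ)ᴴ * a τ * Θ τ) τ)) ∧
    pr (fun τ => ¬(Bd M ((Θ τ)ᴴ * a τ * Θ τ) ∧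
      Bd t (cvm ν (fun τ => (Θ τ)ᴴ * a τ * Θ τ) τ - (Θ τ)ᴴ * a τ * Θ τ))) ≤ ENNReal.ofReal β

/-- **LOG2**: small sets do not matter for logarithmic means -/
def LOG2 : Prop := ∀ C σ : ℝ, 0 < σ → σ ≤ 1 / 4 → ∃ β : ℝ, 0 < β ∧
  ∀ (Q A w : ℂ → ℝ) (κ : ℝ) (p : ℂ → Prop), ContinuousOn Q (sphere 0 1) →
    ContinuousOn A (sphere 0 1) → ContinuousOn w (sphere 0 1) → pr p ≤ ENNReal.ofReal β →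
    av A ≤ C → av (fun τ => Real.log (1 + max (w τ - σ) 0 / σ)) ≤ σ →
    (∀ τ ∈ sphere (0 : ℂ) 1, 1 ≤ A τ ∧ 0 ≤ Q τ ∧ Q τ ≤ C * A τ ^ 12 ∧
      (¬p τ → Q τ ≤ κ + σ + w τ)) →
    σ ≤ κ + 5 * σ ∧ av (fun τ => Real.log (max σ (Q τ))) ≤ Real.log (κ + 5 * σ) + 2 * σ

/-- **LOG**: the logarithmic mean of the smoothed symbol -/
def LOG : Prop := ∀ (ι ι' q : Type) [Fintype ι] [Fintype ι'] [Fintype q] [DecidableEq q]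
  (C₀ C σ : ℝ), 0 < σ → σ ≤ 1 / 4 → ∃ δ d₀ η μ : ℝ, 0 < δ ∧ 0 < d₀ ∧ 0 < η ∧ 0 < μ ∧
  ∀ C₁ : ℝ, ∃ κ₀ : ℝ, 0 < κ₀ ∧ κ₀ ≤ 1 ∧ ∀ (N : ℝ) (ν : Measure ℝ) (Y : ℂ → ι' → ℂ)
    (Θ : ℂ → Matrix ι q ℂ) (π : ℂ → Matrix q q ℂ) (a : ℂ → Matrix ι ι ℂ) (d B k X w ρ : ℂ → ℝ)
    (κ : ℝ), 1 ≤ N → IsProbabilityMeasure ν →
    ∫⁻ h, ENNReal.ofReal ((1 + N * |h|) ^ 16) ∂ν ≤ ENNReal.ofReal C →
    Dat C₀ σ δ d₀ η C₁ (κ₀ * N) Y Θ π a d B k X w κ → ContinuousOn ρ (sphere 0 1) →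
    (∀ τ ∈ sphere (0 : ℂ) 1, μ ≤ ρ τ) → av ρ ≤ μ + κ₀ →
    (∀ τ ∈ sphere (0 : ℂ) 1,
      0 ≤ Qf (π τ) (cvm ν (fun τ => (Θ τ)ᴴ * a τ * Θ τ) τ + (ρ τ : ℂ) • 1)) →
    σ ≤ κ + 5 * σ ∧ av (fun τ => Real.log (max σ (k τ *
      Qf (π τ) (cvm ν (fun τ => (Θ τ)ᴴ * a τ * Θ τ) τ + (ρ τ : ℂ) • 1)))) ≤
        Real.log (κ + 5 * σ) + 2 * σ

/-- **CORE**: the form at the centre of one disc -/
def CORE : Prop := ∀ (ι ι' q : Type) [Fintype ι] [Fintype ι'] [Fintype q] [DecidableEq q]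
  (C₀ σ : ℝ), 0 < σ → σ ≤ 1 / 4 → ∃ δ d₀ η : ℝ, 0 < δ ∧ 0 < d₀ ∧ 0 < η ∧
  ∀ C₁ : ℝ, ∃ κ₀ : ℝ, 0 < κ₀ ∧ ∀ (N ε : ℝ) (Y : ℂ → ι' → ℂ)
    (Θ : ℂ → Matrix ι q ℂ) (π : ℂ → Matrix q q ℂ) (a : ℂ → Matrix ι ι ℂ) (ζ : ℂ → ℂ)
    (d B k X w : ℂ → ℝ) (κ : ℝ), 1 ≤ N → 0 < ε → ε ≤ κ₀ → HWm Θ → (∀ i j, DA fun τ => π τ i j) →
    DA ζ → ContinuousOn k (sphere 0 1) → (∀ τ ∈ sphere (0 : ℂ) 1, 0 < k τ) →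
    Dat C₀ σ δ d₀ η C₁ (κ₀ * N) Y Θ π a d B (fun τ => Real.exp (2 * (ζ τ).re) * k τ) X w κ →
    (∀ U : ℂ → q → ℂ, HWv U → U 0 = 0 →
      0 ≤ av (fun τ => hf (a τ) (Θ τ *ᵥ U τ)) + ε * gq N fun τ => Θ τ *ᵥ U τ) →
    ∃ c : Matrix q q ℂ, c.PosDef ∧ 0 ≤ κ + 5 * σ ∧
      Real.exp (2 * (ζ 0).re) * Qf (π 0) c ≤
        (κ + 5 * σ) * Real.exp (2 * σ - av fun τ => Real.log (k τ)) ∧
      ∀ v : q → ℂ, ∃ U : ℂ → q → ℂ, HWv U ∧ U 0 = v ∧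
        av (fun τ => hf (a τ) (Θ τ *ᵥ U τ)) + ε * gq N (fun τ => Θ τ *ᵥ U τ) ≤ (1 + σ) * hf c v

/-- **TIM**: the test function for the variation of the time -/
def TIM : Prop := ∀ (ι : Type) [Fintype ι] (δ η C₁ : ℝ), 0 < δ → 0 < η → ∃ C κ₀ : ℝ, 0 < κ₀ ∧
  ∀ (N : ℝ) (Y : ℂ → ι → ℂ) (X : ℂ → ℝ), 1 ≤ N → Dqv (κ₀ * N) Y → ContinuousOn X (sphere 0 1) →
    (∀ τ ∈ sphere (0 : ℂ) 1, ∀ τ' ∈ sphere (0 : ℂ) 1, |X τ - X τ'| ≤ η + C₁ * ‖Y τ - Y τ'‖) →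
    ∃ p : ℂ → ℂ, HW p ∧ p 0 = 1 ∧ (∀ τ ∈ closedBall (0 : ℂ) 1, 0 ≤ (p τ).re) ∧
      l2 p + en p / N ^ 2 ≤ C ∧
      pr (fun τ => av (fun τ => X τ * (p τ).re) + 4 * η < X τ) ≤ ENNReal.ofReal δ

/-! ### expansions and determinants -/

/-- upper bound for the circle means -/
def Av (g : ℂ → ℝ) (L : ℝ) : Prop := ∀ η : ℝ, 0 < η → ∀ᶠ ρ in 𝓝[>] (0 : ℝ),
  CircleIntegrable g 0 ρ ∧ Real.circleAverage g 0 ρ ≤ g 0 + ρ ^ 2 * (L + η)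

/-- first order expansion with the complex derivative `c`, and Levi form at most `L` -/
structure Ex (g : ℂ → ℝ) (c : ℂ) (L : ℝ) : Prop where
  cont : ∀ᶠ s in 𝓝 (0 : ℂ), ContinuousAt g s
  fst : ∃ C : ℝ, ∀ᶠ s in 𝓝 (0 : ℂ), |g s - g 0 - 2 * (c * s).re| ≤ C * ‖s‖ ^ 2
  snd : Av g L

/-- `Σ exp (-γ_i) p_i p_i^*` -/
def Zm {n m : ℕ} (γ : Fin m → ℝ) (p : Fin m → Cm n) : Matrix (Fin n) (Fin n) ℂ :=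
  ∑ i, (Real.exp (-γ i) : ℂ) • Matrix.vecMulVec (p i) (star (p i))

/-- `- log det Z` -/
def Jm {n m : ℕ} (γ : Fin m → ℝ) (p : Fin m → Cm n) : ℝ := -Real.log (Zm γ p).det.re

/-- the leverage -/
def lev {n m : ℕ} (γ : Fin m → ℝ) (p : Fin m → Cm n) (i : Fin m) : ℝ :=
  Real.exp (-γ i) * hf (Zm γ p)⁻¹ (p i)

/-- **EXB**: closure properties, smooth functions along holomorphic curves, concave penalties -/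
def EXB : Prop :=
  (∀ g g' c c' L L', Ex g c L → Ex g' c' L' → Ex (fun s => g s + g' s) (c + c') (L + L')) ∧
  (∀ g g' L L', Av g L → Av g' L' → Av (fun s => g s + g' s) (L + L')) ∧
  (∀ g c L (t : ℝ), 0 ≤ t → Ex g c L → Ex (fun s => t * g s) (t * c) (t * L)) ∧
  (∀ g L (t : ℝ), 0 ≤ t → Av g L → Av (fun s => t * g s) (t * L)) ∧
  (∀ g g' c L, Ex g c L → g =ᶠ[𝓝 0] g' → Ex g' c L) ∧
  (∀ g g' L, Av g L → g =ᶠ[𝓝 0] g' → Av g' L) ∧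
  (∀ (q : ℕ) (u : Cm q → ℝ) (z : ℂ → Cm q), AnalyticAt ℂ z 0 → ContDiffAt ℝ 2 u (z 0) →
    ∃ c, Ex (fun s => u (z s)) c (hf (cHess u (z 0))ᵀ (deriv z 0))) ∧
  (∀ h : ℂ → ℂ, AnalyticAt ℂ h 0 → h 0 ≠ 0 → ∃ c, Ex (fun s => Real.log (‖h s‖ ^ 2)) c 0) ∧
  (∀ (m : ℕ) (A : ℂ → ℝ) (P : Fin m → ℂ → ℝ) (L e : ℝ) (L' : Fin m → ℝ), 0 < e → Av A L →
    (∀ i, Av (P i) (L' i)) → (∀ᶠ s in 𝓝 (0 : ℂ), (∀ i, 0 ≤ P i s) ∧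
      A 0 + ∑ i, e * Real.log (1 + P i 0) ≤ A s + ∑ i, e * Real.log (1 + P i s)) →
    0 ≤ L + ∑ i, e / (1 + P i 0) * L' i) ∧
  ∀ (A P : ℂ → ℝ) (c : ℂ) (L L' e : ℝ), 0 < e → Ex A c L → Av P L' →
    (∀ᶠ s in 𝓝 (0 : ℂ), 0 ≤ P s ∧
      A 0 + e * Real.log (1 + P 0) ≤ A s + e * Real.log (1 + P s)) →
    ‖c‖ ^ 2 / e ≤ L + e / (1 + P 0) * L'

/-- **JM**: all discs move -/
def JM : Prop := ∀ (n m : ℕ) (γ : ℂ → Fin m → ℝ) (p : ℂ → Fin m → Cm n) (c : Fin m → ℂ)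
  (L : Fin m → ℝ), (Zm (γ 0) (p 0)).PosDef → (∀ i, AnalyticAt ℂ (fun s => p s i) 0) →
  (∀ i, Ex (fun s => γ s i) (c i) (L i)) →
  (∀ᶠ s in 𝓝 (0 : ℂ), (Zm (γ s) (p s)).PosDef) ∧
    Av (fun s => Jm (γ s) (p s)) (∑ i, lev (γ 0) (p 0) i * L i)

/-- **JO**: one disc moves -/
def JO : Prop := ∀ (n m : ℕ) (γ : Fin m → ℝ) (p : Fin m → Cm n) (i : Fin m) (g : ℂ → ℝ)
  (z : ℂ → Cm n) (c : ℂ) (L : ℝ), (Zm γ p).PosDef → g 0 = γ i → z 0 = p i → AnalyticAt ℂ z 0 →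
  Ex g c L → Ex (fun s => Jm (Function.update γ i (g s)) (Function.update p i (z s)))
    (lev γ p i * c - Real.exp (-γ i) * (star (p i) ⬝ᵥ (Zm γ p)⁻¹ *ᵥ deriv z 0))
    (lev γ p i * L -
      (1 - lev γ p i) * (Real.exp (-γ i) * hf (Zm γ p)⁻¹ (deriv z 0 - c • p i)))

/-- **JA**: algebra of the leverages -/
def JA : Prop :=
  (∀ (n m : ℕ) (γ : Fin m → ℝ) (p : Fin m → Cm n) (i : Fin m) (v : Cm n) (c β : ℂ) (a e G : ℝ),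
    (Zm γ p).PosDef → 0 < e → 0 < lev γ p i → ‖β‖ ^ 2 ≤ e * G →
    ‖lev γ p i * c - Real.exp (-γ i) * (star (p i) ⬝ᵥ (Zm γ p)⁻¹ *ᵥ v) + β‖ ^ 2 / e ≤
      a - lev γ p i * ‖c‖ ^ 2 -
        (1 - lev γ p i) * (Real.exp (-γ i) * hf (Zm γ p)⁻¹ (v - c • p i)) →
    (1 - lev γ p i - 2 * e / lev γ p i) * (Real.exp (-γ i) * hf (Zm γ p)⁻¹ v) ≤ a + G) ∧
  (∀ (n m : ℕ) (γ : Fin m → ℝ) (p : Fin m → Cm n) (G : Matrix (Fin n) (Fin n) ℂ) (x : ℝ),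
    (Zm γ p).PosDef → G.PosDef → n < m → 0 ≤ x →
    (∀ (i : Fin m) (g : ℝ) (v : Cm n), ((∃ j, g = γ j ∧ v = p j) ∨ (v ≠ 0 ∧ Real.exp g = hf G v)) →
      (Zm (Function.update γ i g) (Function.update p i v)).PosDef →
      Jm γ p ≤ Jm (Function.update γ i g) (Function.update p i v) + x) →
    (∀ i, 1 - Real.exp x / (1 + n / m) ≤ lev γ p i ∧ lev γ p i ≤ Real.exp x / (1 - n / m) - 1) ∧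
      (((Real.exp x / (1 - n / m) - 1 : ℝ) : ℂ) • G - (Zm γ p)⁻¹).PosSemidef) ∧
  (∀ (n m : ℕ) (γ : ℝ → Fin m → ℝ) (p : Fin m → Cm n) (γ' : Fin m → ℝ), (Zm (γ 0) p).PosDef →
    (∀ i, HasDerivAt (fun s => γ s i) (γ' i) 0) → (∀ s, (Zm (γ s) p).PosDef) ∧
      HasDerivAt (fun s => Jm (γ s) p) (∑ i, lev (γ 0) p i * γ' i) 0) ∧
  (∀ (n m : ℕ) (γ : Fin m → ℝ) (p : Fin m → Cm n) (G : Matrix (Fin n) (Fin n) ℂ), 0 < n →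
    (Zm γ p).PosDef → G.PosDef → (∀ i, Real.exp (-γ i) * hf G (p i) ≤ 1) →
    Real.log G.det.re ≤ Jm γ p + n * Real.log (m / n)) ∧
  ∀ (n m : ℕ) (γ : Fin m → ℝ) (p : Fin m → Cm n), (Zm γ p).PosSemidef ∧
    ((Zm γ p).PosDef ↔ 0 < (Zm γ p).det.re) ∧
    ∀ T : Matrix (Fin n) (Fin n) ℂ, Zm γ (fun i => p i ᵥ* T) = Tᵀ * Zm γ p * Tᵀᴴ

/-- **LIN**: the trace inequality -/
def LIN : Prop :=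
  (∀ (n m : ℕ) (c : Fin m → Matrix (Fin (n + n)) (Fin (n + n)) ℂ)
    (W A B : Matrix (Fin n) (Fin n) ℂ) (θ : ℝ) (ω b : Fin m → ℝ), (∀ i, (c i).PosDef) →
    A.IsHermitian → B.PosSemidef → (W - B).PosSemidef → 0 ≤ θ → (∀ i, 0 < ω i) →
    (∀ i v, θ * (ω i * hf W v) ≤ hf (c i) (Fin.append 0 v)) →
    (∀ (v : Cm n) (v' : Fin m → Cm n), hf Aᵀ v ≤ ∑ i, hf (c i) (Fin.append v (v' i))) →
    (∀ i, Qf (pz n) (c i) ≤ ω i * b i) → θ * (B * A).trace.re ≤ ∑ i, b i) ∧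
  (∀ (n : ℕ) (W G : Matrix (Fin n) (Fin n) ℂ), W.PosDef → G.PosDef → (G - W).PosSemidef →
    (W - ((W.det.re / G.det.re : ℝ) : ℂ) • G).PosSemidef) ∧
  ∀ (ι q : Type) [Fintype ι] [Fintype q] (D : Matrix ι q ℂ) (π : Matrix q q ℂ)
    (a : Matrix ι ι ℂ), Qf (D * π * Dᵀ) a = Qf π (Dᴴ * a * D) ∧
      (∀ v, hf (Dᴴ * a * D) v = hf a (D *ᵥ v)) ∧ ∀ t : ℝ, Qf π ((t : ℂ) • (Dᴴ * a * D)) =
        t ^ 2 * Qf π (Dᴴ * a * D)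

/-! ### a space with a holomorphic atlas -/

section

variable {q : ℕ} {N : Type} [TopologicalSpace N] (𝒜 : Set (Chart q N)) {ι : Type}

/-- a holomorphic atlas -/
structure At : Prop where
  cov : ∀ y, ∃ e ∈ 𝒜, y ∈ e.source
  hol : ∀ e ∈ 𝒜, ∀ e' ∈ 𝒜, ∀ z ∈ e.target, e.symm z ∈ e'.source →
    AnalyticAt ℂ (fun w => e' (e.symm w)) z

/-- holomorphic maps to `ℂ^ι` -/
def Ho (F : N → ι → ℂ) : Prop :=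
  ∀ e ∈ 𝒜, ∀ z ∈ e.target, ∀ l, AnalyticAt ℂ (fun w => F (e.symm w) l) z

/-- the differential in the chart `e` -/
def dM (F : N → ι → ℂ) (e : Chart q N) (y : N) : Matrix ι (Fin q) ℂ :=
  Matrix.of fun l k => dz k (fun w => F (e.symm w) l) (e y)

/-- an injective immersion on `K` -/
def Em (F : N → ι → ℂ) (K : Set N) : Prop :=
  InjOn F K ∧ ∀ y ∈ K, ∀ e ∈ 𝒜, y ∈ e.source → Function.Injective (dM F e y).mulVec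

/-- every compact set is embedded by finitely many holomorphic functions -/
def Sep : Prop := ∀ K : Set N, IsCompact K → ∃ (L : ℕ) (F : N → Fin L → ℂ), Ho 𝒜 F ∧ Em 𝒜 F K

/-- holomorphic curves -/
def HolOn (φ : ℂ → N) (U : Set ℂ) : Prop := ContinuousOn φ U ∧
  ∀ e ∈ 𝒜, DifferentiableOn ℂ (fun τ => e (φ τ)) (U ∩ φ ⁻¹' e.source)

/-- closed discs -/
def Dn (φ : ℂ → N) : Prop := ContinuousOn φ (closedBall 0 1) ∧ HolOn 𝒜 φ (ball 0 1)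

/-- holomorphic families of closed discs -/
structure Fam (φ : ℂ → N) (r : ℝ) (y : ℂ → ℂ → N) : Prop where
  pos : 0 < r
  zero : EqOn (y 0) φ (closedBall 0 1)
  cont : ContinuousOn (Function.uncurry y) (ball 0 r ×ˢ closedBall 0 1)
  hτ : ∀ s ∈ ball (0 : ℂ) r, HolOn 𝒜 (y s) (ball 0 1)
  hs : ∀ τ ∈ closedBall (0 : ℂ) 1, HolOn 𝒜 (fun s => y s τ) (ball 0 r)

/-- `u` is of class `C^k` on `O` -/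
def Ck {V : Type} [NormedAddCommGroup V] [NormedSpace ℝ V] (k : ℕ) (u : ℝ → N → V)
    (O : Set (ℝ × N)) : Prop := ∀ e ∈ 𝒜, ContDiffOn ℝ k (fun p : ℝ × Cm q => u p.1 (e.symm p.2))
      {p | p.2 ∈ e.target ∧ (p.1, e.symm p.2) ∈ O}

/-- the Levi matrix in the chart `e` -/
def lm (u : N → ℝ) (e : Chart q N) (y : N) : Matrix (Fin q) (Fin q) ℂ :=
  (cHess (fun w => u (e.symm w)) (e y))ᵀ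

end

/-- **LIPK**: Lipschitz bounds and moduli of continuity on compact sets; basic facts -/
def LIPK : Prop := ∀ (q : ℕ) (N : Type) [TopologicalSpace N] [T2Space N] (𝒜 : Set (Chart q N))
  (ι : Type) [Fintype ι] (F : N → ι → ℂ), At 𝒜 → Ho 𝒜 F → Continuous F ∧
  (∀ φ U, IsOpen U → HolOn 𝒜 φ U → ∀ l, DifferentiableOn ℂ (fun τ => F (φ τ) l) U) ∧
  (∀ e ∈ 𝒜, ∀ e' ∈ 𝒜, ∀ y ∈ e.source, y ∈ e'.source → dM F e y = dM F e' y * jacM e e' y ∧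
    ∀ u : N → ℝ, ContDiffAt ℝ 2 (fun w => u (e'.symm w)) (e' y) →
      lm u e y = (jacM e e' y)ᴴ * lm u e' y * jacM e e' y) ∧
  ∀ K : Set N, IsCompact K → Em 𝒜 F K →
    (∀ u : N → ℂ, (∀ y ∈ K, ∀ e ∈ 𝒜, y ∈ e.source →
      ContDiffAt ℝ 1 (fun w => u (e.symm w)) (e y)) →
      ∃ C : ℝ, 0 ≤ C ∧ ∀ y ∈ K, ∀ y' ∈ K, ‖u y - u y'‖ ≤ C * ‖F y - F y'‖) ∧
    ∀ (u : ℝ × N → ℂ) (S η : ℝ), 0 < η → ContinuousOn u (Icc 0 S ×ˢ K) →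
      ∃ C : ℝ, 0 ≤ C ∧ ∀ p ∈ Icc 0 S ×ˢ K, ∀ p' ∈ Icc 0 S ×ˢ K,
        ‖u p - u p'‖ ≤ η + C * (|p.1 - p'.1| + ‖F p.2 - F p'.2‖)

/-- **AMB**: a field of Hermitian forms in the ambient coordinates -/
def AMB : Prop := ∀ (q : ℕ) (N : Type) [TopologicalSpace N] (𝒜 : Set (Chart q N))
  (ι : Type) [Fintype ι] (F : N → ι → ℂ) (O : Set (ℝ × N))
  (a : Chart q N → ℝ → N → Matrix (Fin q) (Fin q) ℂ), At 𝒜 → Ho 𝒜 F →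
  (∀ p ∈ O, ∀ e ∈ 𝒜, p.2 ∈ e.source → Function.Injective (dM F e p.2).mulVec ∧
    (a e p.1 p.2).IsHermitian ∧ ∀ e' ∈ 𝒜, p.2 ∈ e'.source →
      a e p.1 p.2 = (jacM e e' p.2)ᴴ * a e' p.1 p.2 * jacM e e' p.2) →
  (∀ e ∈ 𝒜, ∀ i j, ContinuousOn (fun p : ℝ × N => a e p.1 p.2 i j) (O ∩ {p | p.2 ∈ e.source})) →
  ∃ b : ℝ → N → Matrix ι ι ℂ, (∀ i j, ContinuousOn (fun p : ℝ × N => b p.1 p.2 i j) O) ∧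
    ∀ p ∈ O, (b p.1 p.2).IsHermitian ∧ ∀ e ∈ 𝒜, p.2 ∈ e.source →
      (dM F e p.2)ᴴ * b p.1 p.2 * dM F e p.2 = a e p.1 p.2

/-- **HOLI**: continuous solutions of holomorphic equations are holomorphic -/
def HOLI : Prop := ∀ (q : ℕ) (N : Type) [TopologicalSpace N] (𝒜 : Set (Chart q N))
  (ι : Type) [Fintype ι] (F : N → ι → ℂ) (U : Set ℂ) (y : ℂ → N)
  (Y : ℂ → Matrix (Fin q) ι ℂ) (w : ℂ → Cm q), At 𝒜 → Ho 𝒜 F → IsOpen U → ContinuousOn y U →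
  (∀ i l, DifferentiableOn ℂ (fun s => Y s i l) U) → DifferentiableOn ℂ w U →
  (∀ s ∈ U, Y s *ᵥ F (y s) = w s ∧ ∀ e ∈ 𝒜, y s ∈ e.source → (Y s * dM F e (y s)).det ≠ 0) →
  HolOn 𝒜 y U

/-- **TUB1**: uniform local inverses along a disc -/
def TUB1 : Prop := ∀ (q : ℕ) (N : Type) [TopologicalSpace N] [T2Space N] (𝒜 : Set (Chart q N))
  (ι : Type) [Fintype ι] (F : N → ι → ℂ) (K : Set N) (φ : ℂ → N)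
  (Y : ℂ → Matrix (Fin q) ι ℂ), At 𝒜 → Ho 𝒜 F → IsCompact K → Em 𝒜 F K →
  ContinuousOn φ (closedBall 0 1) → (∀ τ ∈ closedBall (0 : ℂ) 1, K ∈ 𝓝 (φ τ)) →
  (∀ i l, ContinuousOn (fun τ => Y τ i l) (closedBall 0 1)) →
  (∀ τ ∈ closedBall (0 : ℂ) 1, ∀ e ∈ 𝒜, φ τ ∈ e.source → (Y τ * dM F e (φ τ)).det ≠ 0) →
  ∃ (r C : ℝ) (Ξ : ℂ → Cm q → N), 0 < r ∧ 0 ≤ C ∧
    ContinuousOn (Function.uncurry Ξ) (closedBall 0 1 ×ˢ ball 0 r) ∧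
    ∀ τ ∈ closedBall (0 : ℂ) 1, (∀ᶠ y in 𝓝 (φ τ), Ξ τ (Y τ *ᵥ (F y - F (φ τ))) = y) ∧
      ∀ w ∈ ball (0 : Cm q) r, Ξ τ w ∈ K ∧ Y τ *ᵥ (F (Ξ τ w) - F (φ τ)) = w ∧
        (∀ e ∈ 𝒜, Ξ τ w ∈ e.source → (Y τ * dM F e (Ξ τ w)).det ≠ 0) ∧
        ∀ τ' ∈ closedBall (0 : ℂ) 1, ∀ w' ∈ ball (0 : Cm q) r, ‖F (Ξ τ w) - F (Ξ τ' w')‖ ≤
          C * (‖τ - τ'‖ + ‖w - w'‖ + ‖F (φ τ) - F (φ τ')‖ + ∑ i, ∑ l, ‖Y τ i l - Y τ' i l‖)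

/-- **TUBE**: deformations of a disc -/
def TUBE : Prop := ∀ (q : ℕ) (N : Type) [TopologicalSpace N] [T2Space N] (𝒜 : Set (Chart q N))
  (ι : Type) [Fintype ι] (F : N → ι → ℂ) (K : Set N) (φ c : ℂ → N)
  (Y : ℂ → Matrix (Fin q) ι ℂ) (U : ℂ → Cm q), At 𝒜 → Ho 𝒜 F → IsCompact K → Em 𝒜 F K →
  Dn 𝒜 φ → (∀ τ ∈ closedBall (0 : ℂ) 1, K ∈ 𝓝 (φ τ)) → HWv (fun τ => F (φ τ)) → HWm Y → HWv U →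
  (∀ τ ∈ closedBall (0 : ℂ) 1, ∀ e ∈ 𝒜, φ τ ∈ e.source → (Y τ * dM F e (φ τ)).det ≠ 0) →
  (∃ r > 0, HolOn 𝒜 c (ball 0 r)) → c 0 = φ 0 → Y 0 *ᵥ deriv (fun s => F (c s)) 0 = U 0 →
  ∃ (r A : ℝ) (y : ℂ → ℂ → N), Fam 𝒜 φ r y ∧
    (∀ s ∈ ball (0 : ℂ) r, y s 0 = c s ∧ Dqv A (fun τ => F (y s τ)) ∧
      ∀ τ ∈ closedBall (0 : ℂ) 1, y s τ ∈ K) ∧
    ∀ τ ∈ closedBall (0 : ℂ) 1, Y τ *ᵥ deriv (fun s => F (y s τ)) 0 = U τ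

/-- a frame along the disc `φ`, isometric on the circle for the embedding `F` -/
structure Frm {n : ℕ} {N : Type} [TopologicalSpace N] (𝒜 : Set (Chart (n + n) N)) {ι : Type}
    [Fintype ι] (F : N → ι → ℂ) (φ : ℂ → N) (Θ : ℂ → Matrix ι (Fin (n + n)) ℂ)
    (π : ℂ → Matrix (Fin (n + n)) (Fin (n + n)) ℂ) : Prop where
  hΘ : HWm Θ
  hπ : HWm π
  iso : ∀ τ ∈ sphere (0 : ℂ) 1, (Θ τ)ᴴ * Θ τ = 1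
  poi : ∀ τ ∈ sphere (0 : ℂ) 1, ∀ e ∈ 𝒜, φ τ ∈ e.source →
    Θ τ * π τ * (Θ τ)ᵀ = dM F e (φ τ) * pz n * (dM F e (φ τ))ᵀ
  fam : ∀ e ∈ 𝒜, φ 0 ∈ e.source → ∃ T : Matrix (Fin (n + n)) (Fin (n + n)) ℂ, T.det ≠ 0 ∧
    T * π 0 * Tᵀ = pz n ∧ ∀ (U : ℂ → Cm (n + n)) (c : ℂ → Cm (n + n)), HWv U →
      AnalyticAt ℂ c 0 → c 0 = e (φ 0) → deriv c 0 = T *ᵥ U 0 →
      ∃ (r A : ℝ) (y : ℂ → ℂ → N), Fam 𝒜 φ r y ∧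
        (∀ s ∈ ball (0 : ℂ) r, y s 0 = e.symm (c s) ∧ c s ∈ e.target ∧
          Dqv A fun τ => F (y s τ)) ∧
        ∀ τ ∈ closedBall (0 : ℂ) 1, deriv (fun s => F (y s τ)) 0 = Θ τ *ᵥ U τ

/-- **FRM**: slowly varying frames -/
def FRM : Prop := ∀ (n : ℕ) (N : Type) [TopologicalSpace N] [T2Space N]
  (𝒜 : Set (Chart (n + n) N)) (ι : Type) [Fintype ι] (F : N → ι → ℂ) (K : Set N), At 𝒜 →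
  (∀ e ∈ 𝒜, ∀ e' ∈ 𝒜, ∀ y ∈ e.source, y ∈ e'.source →
    jacM e e' y * pz n * (jacM e e' y)ᵀ = pz n ∧ (jacM e e' y).det = 1) →
  Sep 𝒜 → Ho 𝒜 F → IsCompact K → Em 𝒜 F K → ∃ C : ℝ, 0 ≤ C ∧ ∀ (φ : ℂ → N) (B : ℝ), Dn 𝒜 φ →
    (∀ τ ∈ sphere (0 : ℂ) 1, φ τ ∈ K) → Dqv B (fun τ => F (φ τ)) →
    ∃ Θ π, Frm 𝒜 F φ Θ π ∧ Dqm (C * B) Θ ∧ ∀ τ ∈ sphere (0 : ℂ) 1, Bd C (π τ)

/-- **TAY0**: means of a continuous family of `C²` functions -/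
def TAY0 : Prop := ∀ (h : ℂ → ℂ → ℝ) (D₁ : ℂ → ℂ → ℂ →L[ℝ] ℝ) (D₂ : ℂ → ℂ → ℂ →L[ℝ] ℂ →L[ℝ] ℝ)
  (r : ℝ), 0 < r → (∀ s ∈ ball (0 : ℂ) r, ∀ τ ∈ sphere (0 : ℂ) 1,
    HasFDerivAt (fun s => h s τ) (D₁ s τ) s ∧ HasFDerivAt (fun s => D₁ s τ) (D₂ s τ) s) →
  ContinuousOn (Function.uncurry h) (ball 0 r ×ˢ sphere 0 1) →
  ContinuousOn (Function.uncurry D₁) (ball 0 r ×ˢ sphere 0 1) →
  ContinuousOn (Function.uncurry D₂) (ball 0 r ×ˢ sphere 0 1) →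
  Ex (fun s => av (h s)) (av fun τ => ((D₁ 0 τ 1 : ℂ) - I * (D₁ 0 τ I : ℂ)) / 2)
    (av fun τ => (D₂ 0 τ 1 1 + D₂ 0 τ I I) / 4)

/-- **TAY**: means over the circle along a family -/
def TAY : Prop := ∀ (q : ℕ) (N : Type) [TopologicalSpace N] (𝒜 : Set (Chart q N))
  (ι : Type) [Fintype ι] (F : N → ι → ℂ) (O : Set (ℝ × N)) (u : ℝ → N → ℝ) (t : ℂ → ℝ)
  (φ : ℂ → N) (r : ℝ) (y : ℂ → ℂ → N) (b : ℂ → Matrix ι ι ℂ), At 𝒜 → Ho 𝒜 F → IsOpen O →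
  Ck 𝒜 2 u O → ContinuousOn t (sphere 0 1) → Fam 𝒜 φ r y → Cs b →
  (∀ τ ∈ sphere (0 : ℂ) 1, (t τ, φ τ) ∈ O ∧ ∀ e ∈ 𝒜, φ τ ∈ e.source →
    (dM F e (φ τ))ᴴ * b τ * dM F e (φ τ) = lm (u (t τ)) e (φ τ)) →
  ContinuousOn (fun τ => deriv (fun s => F (y s τ)) 0) (sphere 0 1) ∧
  (∃ c, Ex (fun s => av fun τ => u (t τ) (y s τ)) c
    (av fun τ => hf (b τ) (deriv (fun s => F (y s τ)) 0))) ∧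
  ((∀ τ ∈ sphere (0 : ℂ) 1, 0 < u (t τ) (φ τ)) →
    ∃ c, Ex (fun s => av fun τ => Real.log (u (t τ) (y s τ))) c
      ((av fun τ => hf (b τ) (deriv (fun s => F (y s τ)) 0) / u (t τ) (φ τ)) - ‖c‖ ^ 2))

end Vale.Agent.P253W.A
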