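import Vale.Agent.P253W.A.Defs0

/-!
# P253W, block A: the variational argument over an abstract cotangent bundle
-/

open Complex Metric Set Filter Topology
open scoped Matrix ComplexConjugate ComplexOrder
open Vale.Agent.P272.K (Cm dz cHess jacM Chart)

noncomputable section

namespace Vale.Agent.P253W.A

open WM

/-- the base coordinates -/
def zc {n : ℕ} (w : Cm (n + n)) : Cm n := fun i => w (Fin.castAdd n i)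

/-- the fibre coordinates -/
def vc {n : ℕ} (w : Cm (n + n)) : Cm n := fun i => w (Fin.natAdd n i)

/-- the time -/
def tm (ζ : ℂ) : ℝ := Real.exp (2 * ζ.re)

/-- `N` is the cotangent bundle, `e` the chart over `U`, `O` the complement of the zero section,
`O₁` the unit sphere bundle, `H t` the square of the norm, `G t` the inverse of the metric -/
structure Bs (n : ℕ) (N : Type) [TopologicalSpace N] where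
  𝒜 : Set (Chart (n + n) N)
  e : Chart (n + n) N
  U : Set (Cm n)
  O : Set N
  O₁ : Set N
  S : ℝ
  H : ℝ → N → ℝ
  G : ℝ → Cm n → Matrix (Fin n) (Fin n) ℂ

namespace Bs

variable {n : ℕ} {N : Type} [TopologicalSpace N] (B : Bs n N)

/-- the standing hypotheses -/
structure Ok : Prop where
  npos : 0 < n
  atl : At B.𝒜
  he : B.e ∈ B.𝒜
  sym : ∀ e ∈ B.𝒜, ∀ e' ∈ B.𝒜, ∀ y ∈ e.source, y ∈ e'.source →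
    jacM e e' y * pz n * (jacM e e' y)ᵀ = pz n ∧ (jacM e e' y).det = 1
  sep : Sep B.𝒜
  tgt : ∀ w, w ∈ B.e.target ↔ zc w ∈ B.U
  cl : ∀ C ⊆ B.U, IsCompact C → IsClosed {y | y ∈ B.e.source ∧ zc (B.e y) ∈ C}
  pos : ∀ t ∈ Ioc 0 B.S, ∀ z ∈ B.U, (B.G t z).PosDef ∧ ∀ v : Cm n,
    B.H t (B.e.symm (Fin.append z v)) = hf (B.G t z) v ∧
      (v ≠ 0 → B.e.symm (Fin.append z v) ∈ B.O)
  cH : ContinuousOn (Function.uncurry B.H) (Ico 0 (B.S + 1) ×ˢ univ)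
  pH : ∀ t ∈ Ico 0 (B.S + 1), ∀ y ∈ B.O, 0 < B.H t y

/-- closed discs in `N × ℂ` -/
structure Dk where
  φ : ℂ → N
  ζ : ℂ → ℂ
  dn : Dn B.𝒜 φ
  da : DA ζ
  le : ∀ τ ∈ closedBall (0 : ℂ) 1, tm (ζ τ) ≤ B.S
  ne : ∀ τ ∈ sphere (0 : ℂ) 1, φ τ ∈ B.O

variable {B}

/-- the mean of `log H` -/
def Dk.γ (D : B.Dk) : ℝ := av fun τ => Real.log (B.H (tm (D.ζ τ)) (D.φ τ))

/-- the covector at the centre -/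
def Dk.p (D : B.Dk) : Cm n := vc (B.e (D.φ 0))

/-- the centre lies over `q = (t, z)` -/
def Dk.At (D : B.Dk) (q : ℝ × Cm n) : Prop :=
  D.φ 0 ∈ B.e.source ∧ zc (B.e (D.φ 0)) = q.2 ∧ tm (D.ζ 0) = q.1

/-- boundary regularity -/
def Dk.Reg (D : B.Dk) : Prop := W12 D.ζ ∧ ∀ (L : ℕ) (F : N → Fin L → ℂ), Ho B.𝒜 F →
  ∀ l, W12 fun τ => F (D.φ τ) l

/-- the matrix `Z` of a tuple -/
def Z {m : ℕ} (D : Fin m → B.Dk) : Matrix (Fin n) (Fin n) ℂ :=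
  Zm (fun i => (D i).γ) fun i => (D i).p

/-- `- log det Z` -/
def J {m : ℕ} (D : Fin m → B.Dk) : ℝ := Jm (fun i => (D i).γ) fun i => (D i).p

/-- the leverages -/
def lv {m : ℕ} (D : Fin m → B.Dk) (i : Fin m) : ℝ := lev (fun i => (D i).γ) (fun i => (D i).p) i

variable (B)

/-- **START**: regular discs with boundary in the unit sphere bundle -/
def START : Prop := ∀ (D : B.Dk) (q : ℝ × Cm n) (ε : ℝ), D.At q → 0 < ε →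
  ∃ (D' : B.Dk) (c : ℂ), c ≠ 0 ∧ D'.At q ∧ D'.p = c • D.p ∧
    D'.γ ≤ D.γ + Real.log (‖c‖ ^ 2) + ε ∧ D'.Reg ∧ ∀ τ ∈ sphere (0 : ℂ) 1, D'.φ τ ∈ B.O₁

/-- The penalty: `W` is the region inside the walls, `d` the distance to the walls, `b` the
density, `T` the area term, `aH` and `ab` the Levi forms in the ambient coordinates `F`. -/
structure Pen (σ l₀ : ℝ) where
  L : ℕ
  F : N → Fin L → ℂ
  K : Set N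
  W : Set N
  d : N → ℝ
  b : ℝ → N → ℝ
  T : (ℂ → N) → ℝ
  h₁ : ℝ → N → ℝ
  h₂ : ℝ → N → ℝ
  w : ℝ → N → ℝ
  aH : ℝ → N → Matrix (Fin L) (Fin L) ℂ
  ab : ℝ → N → Matrix (Fin L) (Fin L) ℂ
  C : ℝ
  ho : Ho B.𝒜 F
  cpt : IsCompact K
  em : Em B.𝒜 F K
  op : IsOpen W
  WK : W ⊆ K
  KO : K ⊆ B.O
  mem : ∀ y ∈ K, (y ∈ W ↔ 0 < d y) ∧ d y ≤ 1
  lip : ∀ y ∈ K, ∀ y' ∈ K, |d y - d y'| ≤ C * ‖F y - F y'‖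
  cb : ContinuousOn (Function.uncurry b) (Ico 0 (B.S + 1) ×ˢ W)
  c₁ : ContinuousOn (Function.uncurry h₁) (Ico 0 (B.S + 1) ×ˢ K)
  c₂ : ContinuousOn (Function.uncurry h₂) (Ico 0 (B.S + 1) ×ˢ K)
  cw : ContinuousOn (Function.uncurry w) (Icc 0 B.S ×ˢ W)
  cH : ∀ i j, ContinuousOn (fun p : ℝ × N => aH p.1 p.2 i j) (Icc 0 B.S ×ˢ K)
  ca : ∀ i j, ContinuousOn (fun p : ℝ × N => ab p.1 p.2 i j) (Icc 0 B.S ×ˢ W)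
  wall : ∀ t ∈ Icc 0 B.S, ∀ y ∈ W, 0 ≤ b t y ∧ (d y ^ 4)⁻¹ ≤ C * (1 + b t y) ∧
    (aH t y).IsHermitian ∧ (ab t y).IsHermitian ∧ Bd (C * (d y ^ 6)⁻¹) (ab t y) ∧
    Real.log (1 + max (w t y - σ) 0 / σ) ≤ 6 * b t y
  dt : ∀ t ∈ Ioo 0 (B.S + 1), ∀ y ∈ W,
    HasDerivAt (fun s => Real.log (B.H s y)) (h₁ t y / t) t ∧
      HasDerivAt (fun s => b s y) (h₂ t y / t) t
  pde : ∀ t ∈ Ioc 0 B.S, ∀ y ∈ W, ∀ e ∈ B.𝒜, y ∈ e.source → ∀ l ∈ Icc l₀ 1, ∀ g ∈ Icc (0 : ℝ) 1,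
    t * (B.H t y / l) * Qf (pz n)
      ((dM F e y)ᴴ * ((l : ℂ) • aH t y + (g : ℂ) • ab t y) * dM F e y) ≤
        l * h₁ t y + g * h₂ t y + w t y
  T_nn : ∀ φ, 0 ≤ T φ
  T_congr : ∀ φ φ', EqOn φ φ' (closedBall 0 1) → T φ = T φ'
  var : ∀ (t : ℂ → ℝ) (φ : ℂ → N) (r : ℝ) (y : ℂ → ℂ → N), ContinuousOn t (sphere 0 1) →
    (∀ τ ∈ sphere (0 : ℂ) 1, t τ ∈ Ioc 0 B.S ∧ φ τ ∈ W) → Fam B.𝒜 φ r y →
    (∃ c, Ex (fun s => av fun τ => Real.log (B.H (t τ) (y s τ))) c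
      ((av fun τ => hf (aH (t τ) (φ τ)) (deriv (fun s => F (y s τ)) 0)) - ‖c‖ ^ 2)) ∧
    Av (fun s => (av fun τ => b (t τ) (y s τ)) + T (y s))
      (av fun τ => hf (ab (t τ) (φ τ)) (deriv (fun s => F (y s τ)) 0))
  kn : ∀ (φ : ℕ → ℂ → N) (g : ℂ → Fin L → ℂ) (A : ℝ),
    (∀ k, Dn B.𝒜 (φ k) ∧ T (φ k) ≤ A ∧ ∀ τ ∈ sphere (0 : ℂ) 1, φ k τ ∈ K) →
    TendstoUniformlyOn (fun k τ => F (φ k τ)) g atTop (sphere 0 1) →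
    ∃ ψ, Dn B.𝒜 ψ ∧ (∀ τ ∈ closedBall (0 : ℂ) 1, Tendsto (fun k => φ k τ) atTop (𝓝 (ψ τ))) ∧
      ∀ η : ℝ, 0 < η → ∀ᶠ k in atTop, T ψ ≤ T (φ k) + η

/-- **PEN**: penalties which are small on given discs -/
def PEN : Prop := ∀ (σ l₀ ε : ℝ) (m : ℕ) (φ : Fin m → ℂ → N), 0 < σ → 0 < l₀ → 0 < ε →
  (∀ i, Dn B.𝒜 (φ i) ∧ ∀ τ ∈ sphere (0 : ℂ) 1, φ i τ ∈ B.O₁) →
  ∃ P : B.Pen σ l₀, ∀ i, P.T (φ i) ≤ ε ∧ ∀ τ ∈ sphere (0 : ℂ) 1, φ i τ ∈ P.W ∧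
    ∀ t ∈ Icc 0 B.S, P.b t (φ i τ) ≤ ε

/-- the test function `f` lies below the envelope on the closed ball -/
structure Low (m : ℕ) (f : ℝ × Cm n → ℝ) (q₀ : ℝ × Cm n) (δ : ℝ) : Prop where
  sub : closedBall q₀ δ ⊆ Ioo 0 B.S ×ˢ B.U
  sm : ∀ q ∈ closedBall q₀ δ, ContDiffAt ℝ 2 f q
  le : ∀ q ∈ closedBall q₀ δ, ∀ D : Fin m → B.Dk, (∀ i, (D i).At q) → (Z D).PosDef →
    f q + dist q q₀ ^ 4 ≤ J D + n * Real.log (m / n)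

/-- **VIS**: the viscosity inequality for a fixed number of discs -/
def VIS : Prop := ∀ θ : ℝ, 0 ≤ θ → θ < 1 → ∃ m₀ : ℕ, ∀ m, m₀ ≤ m →
  ∀ (f : ℝ × Cm n → ℝ) (q₀ : ℝ × Cm n) (δ c σ : ℝ), 0 < δ → 0 < σ → 2 * c < δ ^ 4 →
    B.Low m f q₀ δ → (∃ q ∈ closedBall q₀ δ, ∃ D : Fin m → B.Dk, (∀ i, (D i).At q) ∧
      (Z D).PosDef ∧ J D + n * Real.log (m / n) < f q + c) →
    ∃ q : ℝ × Cm n, dist q q₀ ^ 4 ≤ 2 * c ∧ ∀ A : Matrix (Fin n) (Fin n) ℂ, A.PosSemidef →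
      (B.G q.1 q.2 - A).PosSemidef →
      θ * (Real.exp (f q) / (B.G q.1 q.2).det.re) *
        (A * cHess (fun w => f (q.1, w)) q.2).trace.re ≤ deriv (fun s => f (s, q.2)) q.1 + σ

variable {B}

namespace Pen

variable {σ l₀ : ℝ} (P : B.Pen σ l₀)

/-- the ambient coordinates of a disc -/
def Y (D : B.Dk) (τ : ℂ) : Option (Fin P.L) → ℂ := fun l => l.elim (D.ζ τ) (P.F (D.φ τ))

/-- the penalty of a disc -/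
def Pi (D : B.Dk) : ℝ := (av fun τ => P.b (tm (D.ζ τ)) (D.φ τ)) + P.T D.φ

/-- the symbol of a disc -/
def sy (D : B.Dk) (l g : ℝ) (τ : ℂ) : Matrix (Fin P.L) (Fin P.L) ℂ :=
  (l : ℂ) • P.aH (tm (D.ζ τ)) (D.φ τ) + (g : ℂ) • P.ab (tm (D.ζ τ)) (D.φ τ)

/-- the density of the time derivative -/
def X (D : B.Dk) (l g : ℝ) (τ : ℂ) : ℝ :=
  l * P.h₁ (tm (D.ζ τ)) (D.φ τ) + g * P.h₂ (tm (D.ζ τ)) (D.φ τ)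

/-- a family of discs whose centre moves in the direction `v` -/
def Fm (D : B.Dk) (v : Cm (n + n)) (y : ℂ → ℂ → N) : Prop := ∃ r A : ℝ, Fam B.𝒜 D.φ r y ∧
  ∀ s ∈ ball (0 : ℂ) r, B.e (D.φ 0) + s • v ∈ B.e.target ∧
    y s 0 = B.e.symm (B.e (D.φ 0) + s • v) ∧ Dqv A fun τ => P.F (y s τ)

/-- the second variation along a family -/
def sv (D : B.Dk) (l g ε R : ℝ) (y : ℂ → ℂ → N) : ℝ :=
  (av fun τ => hf (P.sy D l g τ) (deriv (fun s => P.F (y s τ)) 0)) +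
    ε * gq R fun τ => deriv (fun s => P.F (y s τ)) 0

/-- admissible tuples -/
structure Ad (m : ℕ) (q₀ : ℝ × Cm n) (δ : ℝ) where
  D : Fin m → B.Dk
  q : ℝ × Cm n
  hq : q ∈ closedBall q₀ δ
  ctr : ∀ i, (D i).At q
  pd : (Z D).PosDef
  bd : ∀ i, ∀ τ ∈ sphere (0 : ℂ) 1, (D i).φ τ ∈ P.W
  hw : ∀ i, HWv (P.Y (D i))

variable {P} {m : ℕ} {q₀ : ℝ × Cm n} {δ : ℝ}

/-- the ambient coordinates of a tuple -/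
def Ad.Y (x : P.Ad m q₀ δ) (τ : ℂ) : Fin m × Option (Fin P.L) → ℂ :=
  fun l => P.Y (x.D l.1) τ l.2

/-- the functional -/
def Ad.Fn (x : P.Ad m q₀ δ) (f : ℝ × Cm n → ℝ) (e₁ : ℝ) : ℝ :=
  J x.D - f x.q + ∑ i, e₁ * Real.log (1 + P.Pi (x.D i))

/-- the derivative of the concave penalty -/
def Ad.g (x : P.Ad m q₀ δ) (e₁ : ℝ) (i : Fin m) : ℝ := e₁ / (1 + P.Pi (x.D i))

/-- `x` is a minimum of the perturbed functional -/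
def Ad.Min (x : P.Ad m q₀ δ) (f : ℝ × Cm n → ℝ) (e₁ ε R : ℝ)
    (g : ℂ → Fin m × Option (Fin P.L) → ℂ) : Prop := HWv g ∧ ∀ y : P.Ad m q₀ δ,
  x.Fn f e₁ + ε * gq R (x.Y - g) ≤ y.Fn f e₁ + ε * gq R (y.Y - g)

end Pen

variable (B)

/-- **CMP**: completeness and lower semicontinuity -/
def CMP : Prop := ∀ (σ l₀ : ℝ) (P : B.Pen σ l₀) (m : ℕ) (f : ℝ × Cm n → ℝ) (q₀ : ℝ × Cm n)
  (δ e₁ c A : ℝ) (x : ℕ → P.Ad m q₀ δ) (g : ℂ → Fin m × Option (Fin P.L) → ℂ), 0 < e₁ →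
  B.Low m f q₀ δ → (∀ k, (x k).Fn f e₁ ≤ c) → HWv g → (∀ k, Dqv A (x k).Y) →
  TendstoUniformlyOn (fun k => (x k).Y) g atTop (closedBall 0 1) →
  ∃ x' : P.Ad m q₀ δ, EqOn x'.Y g (closedBall 0 1) ∧
    ∀ η : ℝ, 0 < η → ∀ᶠ k in atTop, x'.Fn f e₁ ≤ (x k).Fn f e₁ + η

/-- **MIN**: existence of a slowly varying minimum -/
def MIN : Prop := ∀ (σ l₀ : ℝ) (P : B.Pen σ l₀) (m : ℕ) (f : ℝ × Cm n → ℝ) (q₀ : ℝ × Cm n)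
  (δ e₁ κ ε : ℝ) (x₀ : P.Ad m q₀ δ), 0 < e₁ → 0 < κ → 0 < ε → B.Low m f q₀ δ →
  ∃ (R : ℝ) (x : P.Ad m q₀ δ) (g : ℂ → Fin m × Option (Fin P.L) → ℂ), 1 ≤ R ∧
    x.Min f e₁ ε R g ∧ x.Fn f e₁ ≤ x₀.Fn f e₁ ∧ gq R (x.Y - g) ≤ κ ^ 2 ∧ Dqv (2 * κ * R) x.Y

/-- **MOV**: one moving disc -/
def MOV : Prop := ∀ (σ l₀ : ℝ) (P : B.Pen σ l₀) (D : B.Dk) (q : ℝ × Cm n) (v : Cm (n + n))
  (y : ℂ → ℂ → N), D.At q → (∀ τ ∈ sphere (0 : ℂ) 1, D.φ τ ∈ P.W) → HWv (P.Y D) → P.Fm D v y →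
  ∃ (r A a b : ℝ) (c : ℂ) (E : ℂ → B.Dk), 0 < r ∧
    (∀ s ∈ ball (0 : ℂ) r, (E s).At (q.1, q.2 + s • zc v) ∧ (E s).p = D.p + s • vc v ∧
      (∀ τ ∈ sphere (0 : ℂ) 1, (E s).φ τ ∈ P.W) ∧ HWv (P.Y (E s)) ∧ Dqv A (P.Y (E s)) ∧
      0 ≤ P.Pi (E s)) ∧
    EqOn (P.Y (E 0)) (P.Y D) (closedBall 0 1) ∧ (E 0).γ = D.γ ∧ P.Pi (E 0) = P.Pi D ∧
    ContinuousOn (Function.uncurry fun s => P.Y (E s)) (ball 0 r ×ˢ closedBall 0 1) ∧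
    (∀ τ ∈ closedBall (0 : ℂ) 1, ∀ l, DifferentiableOn ℂ (fun s => P.Y (E s) τ l) (ball 0 r)) ∧
    Ex (fun s => (E s).γ) c (a - ‖c‖ ^ 2) ∧ Av (fun s => P.Pi (E s)) b ∧
    ∀ l g ε R : ℝ, P.sv D l g ε R y =
      l * a + g * b + ε * gq R fun τ => deriv (fun s => P.Y (E s) τ) 0

/-- **VAR1**: one disc moves, the base point is fixed -/
def VAR1 : Prop := ∀ (σ l₀ : ℝ) (P : B.Pen σ l₀) (m : ℕ) (f : ℝ × Cm n → ℝ) (q₀ : ℝ × Cm n)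
  (δ e₁ ε R : ℝ) (x : P.Ad m q₀ δ) (g : ℂ → Fin m × Option (Fin P.L) → ℂ) (i : Fin m)
  (v : Cm n) (y : ℂ → ℂ → N), 0 < e₁ → 0 < ε → 0 < R → x.Min f e₁ ε R g →
  ε * gq R (x.Y - g) ≤ e₁ → 0 < lv x.D i → P.Fm (x.D i) (Fin.append 0 v) y →
  (1 - lv x.D i - 2 * e₁ / lv x.D i) * (Real.exp (-(x.D i).γ) * hf (Z x.D)⁻¹ v) ≤
    P.sv (x.D i) (lv x.D i) (x.g e₁ i) (2 * ε) R y

/-- **VAR2**: all discs move -/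
def VAR2 : Prop := ∀ (σ l₀ : ℝ) (P : B.Pen σ l₀) (m : ℕ) (f : ℝ × Cm n → ℝ) (q₀ : ℝ × Cm n)
  (δ e₁ ε R : ℝ) (x : P.Ad m q₀ δ) (g : ℂ → Fin m × Option (Fin P.L) → ℂ)
  (v : Cm n) (v' : Fin m → Cm n) (y : Fin m → ℂ → ℂ → N), 0 < e₁ → 0 < ε → 0 < R →
  x.Min f e₁ ε R g → x.q ∈ ball q₀ δ → ContDiffAt ℝ 2 f x.q →
  (∀ i, P.Fm (x.D i) (Fin.append v (v' i)) (y i)) →
  hf (cHess (fun w => f (x.q.1, w)) x.q.2)ᵀ v ≤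
    ∑ i, P.sv (x.D i) (lv x.D i) (x.g e₁ i) (2 * ε) R (y i)

/-- **VART**: variation of the time -/
def VART : Prop := ∀ (σ l₀ : ℝ) (P : B.Pen σ l₀) (m : ℕ) (f : ℝ × Cm n → ℝ) (q₀ : ℝ × Cm n)
  (δ e₁ ε R C : ℝ) (x : P.Ad m q₀ δ) (g : ℂ → Fin m × Option (Fin P.L) → ℂ)
  (p : Fin m → ℂ → ℂ), 0 < e₁ → 0 < ε → 0 < R → x.Min f e₁ ε R g → x.q ∈ ball q₀ δ →
  ContDiffAt ℝ 2 f x.q → (∀ i, HW (p i) ∧ p i 0 = 1 ∧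
    (∀ τ ∈ closedBall (0 : ℂ) 1, 0 ≤ (p i τ).re) ∧ l2 (p i) + en (p i) / R ^ 2 ≤ C) →
  ∑ i, (av fun τ => P.X (x.D i) (lv x.D i) (x.g e₁ i) τ * (p i τ).re) ≤
    x.q.1 * deriv (fun s => f (s, x.q.2)) x.q.1 + ε * √(gq R (x.Y - g)) * √(m * C)

/-- **ONE**: the form at the centre of one slowly varying disc -/
def ONE : Prop := ∀ (σ l₀ : ℝ) (P : B.Pen σ l₀), 0 < σ → σ ≤ 1 / 4 → 0 < l₀ →
  ∃ κ C : ℝ, 0 < κ ∧ ∀ (R ε l g : ℝ) (D : B.Dk) (q : ℝ × Cm n), 1 ≤ R → 0 < ε → ε ≤ κ →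
    l ∈ Icc l₀ 1 → g ∈ Icc (0 : ℝ) 1 → D.At q → (∀ τ ∈ sphere (0 : ℂ) 1, D.φ τ ∈ P.W) →
    Dqv (κ * R) (P.Y D) → 6 * P.Pi D ≤ σ → (∀ y, P.Fm D 0 y → 0 ≤ P.sv D l g ε R y) →
    ∃ (p : ℂ → ℂ) (c : Matrix (Fin (n + n)) (Fin (n + n)) ℂ), HW p ∧ p 0 = 1 ∧
      (∀ τ ∈ closedBall (0 : ℂ) 1, 0 ≤ (p τ).re) ∧ l2 p + en p / R ^ 2 ≤ C ∧ c.PosDef ∧
      0 ≤ (av fun τ => P.X D l g τ * (p τ).re) + 6 * σ ∧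
      q.1 * Qf (pz n) c ≤ l * Real.exp (-D.γ) *
        ((av fun τ => P.X D l g τ * (p τ).re) + 6 * σ) * Real.exp (2 * σ) ∧
      ∀ v, ∃ y, P.Fm D v y ∧ P.sv D l g ε R y ≤ (1 + σ) * hf c v

end Bs

/-- **GEX**: the expansion of the gauge along a holomorphic family -/
def GEX : Prop := ∀ (ι : Type) [Fintype ι] (N r A : ℝ) (Y : ℂ → ℂ → ι → ℂ) (g : ℂ → ι → ℂ),
  0 < N → 0 < r → HWv g → (∀ s ∈ ball (0 : ℂ) r, HWv (Y s) ∧ Dqv A (Y s)) →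
  ContinuousOn (Function.uncurry Y) (ball 0 r ×ˢ closedBall 0 1) →
  (∀ τ ∈ closedBall (0 : ℂ) 1, ∀ i, DifferentiableOn ℂ (fun s => Y s τ i) (ball 0 r)) →
  ∃ α : ℂ, ‖α‖ ^ 2 ≤ gq N (Y 0 - g) * gq N (fun τ => deriv (fun s => Y s τ) 0) ∧
    Ex (fun s => gq N (Y s - g)) α (gq N fun τ => deriv (fun s => Y s τ) 0)

/-- **TD**: the derivative of a mean along a change of the time -/
def TD : Prop := ∀ (u h : ℝ → ℂ → ℝ) (t p : ℂ → ℝ) (T : ℝ), ContinuousOn t (sphere 0 1) →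
  ContinuousOn p (sphere 0 1) → (∀ τ ∈ sphere (0 : ℂ) 1, t τ ∈ Ioo 0 T) →
  ContinuousOn (Function.uncurry u) (Ioo 0 T ×ˢ sphere 0 1) →
  ContinuousOn (Function.uncurry h) (Ioo 0 T ×ˢ sphere 0 1) →
  (∀ s ∈ Ioo 0 T, ∀ τ ∈ sphere (0 : ℂ) 1, HasDerivAt (fun s => u s τ) (h s τ / s) s) →
  HasDerivAt (fun s => av fun τ => u (t τ * Real.exp (-(s * p τ))) τ)
    (-av fun τ => h (t τ) τ * p τ) 0

/-- **JS**: monotonicity of `J` -/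
def JS : Prop := ∀ (n m : ℕ) (γ γ' : Fin m → ℝ) (p : Fin m → Cm n) (c : Fin m → ℂ) (ε : ℝ),
  (Zm γ p).PosDef → (∀ i, c i ≠ 0 ∧ γ' i ≤ γ i + Real.log (‖c i‖ ^ 2) + ε) →
  (Zm γ' fun i => c i • p i).PosDef ∧ Jm γ' (fun i => c i • p i) ≤ Jm γ p + n * ε

/-- **NUM**: the choice of the constants -/
def NUM : Prop := ∀ (n : ℕ) (θ : ℝ), 0 < n → θ < 1 → ∃ m₀ : ℕ, ∀ m : ℕ, m₀ ≤ m → n < m ∧
  ∃ x e₁ l₀ : ℝ, 0 < x ∧ 0 < e₁ ∧ e₁ ≤ 1 ∧ 0 < l₀ ∧ l₀ ≤ 1 - Real.exp x / (1 + n / m) ∧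
    0 < Real.exp x / (1 - n / m) - 1 ∧
    0 ≤ 1 - (Real.exp x / (1 - n / m) - 1) - 2 * e₁ / l₀ ∧
    θ ≤ (1 - (Real.exp x / (1 - n / m) - 1) - 2 * e₁ / l₀) *
      (n / (m * (Real.exp x / (1 - n / m) - 1))) ^ n

/-- **FIN**: the last inequality -/
def FIN : Prop := ∀ (n m : ℕ) (γ κ : Fin m → ℝ) (p : Fin m → Cm n)
  (G A A' : Matrix (Fin n) (Fin n) ℂ) (c : Fin m → Matrix (Fin (n + n)) (Fin (n + n)) ℂ)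
  (θ θ₁ Λ σ t E a : ℝ), 0 < n → 0 < m → (Zm γ p).PosDef → G.PosDef → A.IsHermitian →
  A'.PosSemidef → (G - A').PosSemidef → ((Λ : ℂ) • G - (Zm γ p)⁻¹).PosSemidef → 0 < Λ →
  0 ≤ θ → 0 ≤ θ₁ → θ ≤ θ₁ * (n / (m * Λ)) ^ n → a ≤ Jm γ p + n * Real.log (m / n) → 0 < t →
  0 ≤ σ → 0 ≤ E → (∀ i, lev γ p i ≤ Λ ∧ (c i).PosDef ∧ 0 ≤ κ i ∧
    t * Qf (pz n) (c i) ≤ lev γ p i * Real.exp (-γ i) * κ i * E ∧
    ∀ v, θ₁ * (Real.exp (-γ i) * hf (Zm γ p)⁻¹ v) ≤ (1 + σ) * hf (c i) (Fin.append 0 v)) →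
  (∀ (v : Cm n) (v' : Fin m → Cm n),
    hf Aᵀ v ≤ ∑ i, (1 + σ) * hf (c i) (Fin.append v (v' i))) →
  θ * (Real.exp a / G.det.re) * (A' * A).trace.re ≤ (1 + σ) ^ 2 * E * (∑ i, κ i) / t

end Vale.Agent.P253W.A
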