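import Vale.Agent.P253W.A.Defs1
import Vale.Agent.P253W.Defs
import Vale.Agent.P253W.FG.Defs

/-!
# P253W, block A: the cotangent bundle, the penalty, the envelope
-/

open scoped Manifold ContDiff Bundle ENNReal Topology ComplexConjugate ComplexOrder Matrix Laplacian
open Bundle MeasureTheory Set Metric Filter Vale.Agent.P253Z
open Vale.Agent.P272.K (Cm dz cHess jacM Chart)

noncomputable section

namespace Vale.Agent.P253W.A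

open WM

/-! ### statements in charts -/

/-- the wall -/
def wb (x : ℝ) : ℝ := Real.smoothTransition (2 * x) / (1 - x) ^ 4

/-- the size of the derivatives -/
def wd (f : ℝ → ℝ) (x : ℝ) : ℝ := |deriv f x| + |deriv (deriv f) x|

/-- **WB**: the wall -/
structure WB : Prop where
  sm : ContDiffOn ℝ ∞ wb (Iio 1)
  nn : ∀ x, 0 ≤ wb x
  zero : ∀ x ≤ 0, wb x = 0 ∧ wd wb x = 0
  mono : ∀ x < 1, 0 ≤ deriv wb x
  big : ∀ x, 1 / 2 ≤ x → wb x = ((1 - x) ^ 4)⁻¹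
  cont : ContinuousOn (deriv wb) (Iio 1) ∧ ContinuousOn (deriv (deriv wb)) (Iio 1)
  bd : ∃ C : ℝ, 0 ≤ C ∧ (∀ x < 1, wd wb x ≤ C * (min 1 (1 - x) ^ 6)⁻¹) ∧
    ∀ η ∈ Ioc (0 : ℝ) 1, ∀ s, η * s ^ 2 < 1 →
      wd (fun s => wb (η * s ^ 2)) s ≤ C * √η * (min 1 (1 - η * s ^ 2) ^ 6)⁻¹

/-- the horizontal form with the coefficient matrix `a` -/
def hb {n : ℕ} (a : Mx n) : Mx (n + n) :=
  Matrix.reindex finSumFinEquiv finSumFinEquiv (Matrix.fromBlocks aᵀ 0 0 0)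

/-- the square of the norm as a function on `T^*U` -/
def Hq {n : ℕ} (W : Cm n → Mx n) (w : Cm (n + n)) : ℝ := hq (W (zc w)) (vc w)

/-- the bilinear form of `Qf` -/
def Bf {n : ℕ} (a b : Mx (n + n)) : ℝ := ((pz n)ᴴ * a * pz n * bᵀ).trace.re / 2

/-- weighted bounds for the blocks of a matrix -/
def Wt {n : ℕ} (C : ℝ) (p : Cm n) (a : Mx (n + n)) : Prop := ∀ i j : Fin n,
  ‖a (Fin.castAdd n i) (Fin.castAdd n j)‖ ≤ C ∧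
  ‖a (Fin.castAdd n i) (Fin.natAdd n j)‖ ≤ C / ‖p‖ ∧
  ‖a (Fin.natAdd n i) (Fin.castAdd n j)‖ ≤ C / ‖p‖ ∧
  ‖a (Fin.natAdd n i) (Fin.natAdd n j)‖ ≤ C / ‖p‖ ^ 2

/-- **PDE0** (2.1) -/
def PDE0 : Prop := ∀ (n : ℕ) (W : Cm n → Mx n) (z ξ : Cm n),
  (∀ j k, ContDiffAt ℝ ∞ (fun y => W y j k) z) → (∀ᶠ y in 𝓝 z, (W y).PosDef) →
  (∀ᶠ y in 𝓝 z, ∀ j k l, dz l (fun y => W y j k) y = dz j (fun y => W y l k) y) →
  Qf (pz n) (cHess (Hq W) (Fin.append z ξ))ᵀ = (star ((W z)⁻¹ *ᵥ ξ) ⬝ᵥ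
    (cHess (fun y => -Real.log (W y).det.re) z *ᵥ ((W z)⁻¹ *ᵥ ξ))).re ∧
  ∀ (a : Mx n) (c : ℝ), a.IsHermitian →
    Qf (pz n) ((c : ℂ) • (cHess (Hq W) (Fin.append z ξ))ᵀ + hb a) =
      c ^ 2 * Qf (pz n) (cHess (Hq W) (Fin.append z ξ))ᵀ + c * trg (W z) a

/-- **HOM**: homogeneity -/
def HOM : Prop := ∀ n : ℕ,
  (∀ (U C : Set (Cm n)) (W : ℝ → Cm n → Mx n) (S : ℝ), IsOpen U → IsCompact C → C ⊆ U →
    (∀ j k, ContDiffOn ℝ ∞ (fun q : ℝ × Cm n => W q.1 q.2 j k) (Ici 0 ×ˢ U)) →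
    (∀ t, 0 ≤ t → ∀ z ∈ U, (W t z).PosDef) → ∃ A : ℝ, 0 ≤ A ∧ ∀ t ∈ Icc 0 S, ∀ z ∈ C,
      ∀ p : Cm n, p ≠ 0 → hq (W t z) p ≤ A * ‖p‖ ^ 2 ∧
        Wt A p ((((hq (W t z) p)⁻¹ : ℝ) : ℂ) • (cHess (Hq (W t)) (Fin.append z p))ᵀ) ∧
        Wt A p (cHess (fun w => Real.log (Hq (W t) w)) (Fin.append z p))ᵀ) ∧
  (∀ (A A' : ℝ) (p : Cm n) (a b : Mx (n + n)), p ≠ 0 → Wt A p a → Wt A' p b →
    |Bf a b| ≤ 2 * n ^ 2 * A * A' / ‖p‖ ^ 2) ∧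
  (∀ (A : ℝ) (p : Cm n) (a : Mx n), Bd A a → 0 ≤ A → Wt A p (hb a)) ∧
  (∀ a b : Mx (n + n), Qf (pz n) (a + b) = Qf (pz n) a + Bf a b + Bf b a + Bf b b) ∧
  (∀ (a : Mx n) (w : Cm (n + n)), hf (hb a) w = qf a (zc w)) ∧
  (∀ (f : Cm n → ℝ) (w : Cm (n + n)), ContDiffAt ℝ 2 f (zc w) →
    (cHess (fun w => f (zc w)) w)ᵀ = hb (cHess f (zc w))) ∧
  ∀ (φ : ℝ → ℝ) (u : Cm n → ℝ) (z : Cm n), ContDiffAt ℝ 2 u z → ContDiffAt ℝ 2 φ (u z) →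
    cHess (fun y => φ (u y)) z = ((deriv φ (u z) : ℝ) : ℂ) • cHess u z +
      ((deriv (deriv φ) (u z) : ℝ) : ℂ) • FG.gg u z

/-- **GRN**: two consequences of the formula of Green -/
def GRN : Prop := ∀ (b : ℂ → ℝ) (R ρ : ℝ), 0 < ρ → ρ < R → ContDiffOn ℝ 2 b (ball 0 R) →
  ((∀ τ ∈ ball (0 : ℂ) R, 0 ≤ b τ) → ∫ τ in ball (0 : ℂ) ρ, (ρ ^ 2 - ‖τ‖ ^ 2) * (Δ b) τ ≤
    4 * Real.pi * ρ ^ 2 * Real.circleAverage b 0 ρ) ∧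
  ∀ L : ℝ, (∀ τ ∈ ball (0 : ℂ) R, (Δ b) τ ≤ 4 * L) →
    Real.circleAverage b 0 ρ ≤ b 0 + L * ρ ^ 2

/-- **CLS**: the pull-back of a Kähler form to a bidisc is closed -/
def CLS : Prop := ∀ (n : ℕ) (W : Cm n → Mx n) (Y : ℂ × ℂ → Cm n) (s τ : ℂ),
  AnalyticAt ℂ Y (s, τ) → (∀ j k, ContDiffAt ℝ ∞ (fun y => W y j k) (Y (s, τ))) →
  (∀ᶠ y in 𝓝 (Y (s, τ)), (W y).IsHermitian ∧
    ∀ j k l, dz l (fun y => W y j k) y = dz j (fun y => W y l k) y) →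
  ContDiffAt ℝ ∞ (fun q : ℂ × ℂ => qf (W (Y q)) (deriv (fun τ => Y (q.1, τ)) q.2)) (s, τ) ∧
  ContDiffAt ℝ ∞ (fun q : ℂ × ℂ => qf (W (Y q)) (deriv (fun s => Y (s, q.2)) q.1)) (s, τ) ∧
  (Δ fun s => qf (W (Y (s, τ))) (deriv (fun τ => Y (s, τ)) τ)) s =
    (Δ fun τ => qf (W (Y (s, τ))) (deriv (fun s => Y (s, τ)) s)) τ

/-- **GR2**: the second variation of the weighted area -/
def GR2 : Prop := ∀ (a b : ℂ × ℂ → ℝ) (r : ℝ), 0 < r →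
  ContDiffOn ℝ ∞ a (ball 0 r ×ˢ ball 0 1) → ContDiffOn ℝ ∞ b (ball 0 r ×ˢ ball 0 1) →
  ContinuousOn b (ball 0 r ×ˢ closedBall 0 1) →
  (∀ s ∈ ball (0 : ℂ) r, ∀ τ ∈ ball (0 : ℂ) 1, 0 ≤ a (s, τ) ∧ 0 ≤ b (s, τ) ∧
    (Δ fun s => a (s, τ)) s = (Δ fun τ => b (s, τ)) τ) →
  (∃ C : ℝ, ∀ s ∈ ball (0 : ℂ) r, ∫⁻ τ in ball (0 : ℂ) 1,
    ENNReal.ofReal ((1 - ‖τ‖ ^ 2) * a (s, τ) / Real.pi) ≤ ENNReal.ofReal C) →
  Av (fun s => (∫⁻ τ in ball (0 : ℂ) 1,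
    ENNReal.ofReal ((1 - ‖τ‖ ^ 2) * a (s, τ) / Real.pi)).toReal) (av fun τ => b (0, τ))

/-! ### the cotangent bundle -/

/-- the cotangent bundle; covectors are given in the preferred charts -/
def TS (n : ℕ) (M : Type) : Type := M × Cm n

variable {n : ℕ} {M : Type} [MetricSpace M] [ChartedSpace (Cm n) M]

/-- the chart over `e` -/
def tq (e : Chart n M) (y : TS n M) : Cm (n + n) := Fin.append (e y.1) (cv e y.1 y.2)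

/-- its inverse -/
def tqi (e : Chart n M) (w : Cm (n + n)) : TS n M :=
  (e.symm (zc w), vc w ᵥ* jacM (pc n (e.symm (zc w))) e (e.symm (zc w)))

instance : TopologicalSpace (TS n M) := TopologicalSpace.generateFrom
  {s | ∃ e : Chart n M, Hc e ∧ ∃ V, IsOpen V ∧ s = {y | y.1 ∈ e.source ∧ tq e y ∈ V}}

/-- `c` is the chart over `e` -/
structure Tc (e : Chart n M) (c : Chart (n + n) (TS n M)) : Prop where
  he : Hc e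
  src : c.source = {y | y.1 ∈ e.source}
  tgt : c.target = {w | zc w ∈ e.target}
  map : ∀ y, c y = tq e y
  inv : ∀ w, c.symm w = tqi e w

variable (n M) in
/-- the atlas of the cotangent bundle -/
def AT : Set (Chart (n + n) (TS n M)) := {c | ∃ e, Tc e c}

variable (n M) in
/-- the atlas of the base -/
def AM : Set (Chart n M) := {e | Hc e}

/-- multiplication of covectors by scalars -/
def sc (a : ℂ) (y : TS n M) : TS n M := (y.1, a • y.2)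

variable (n M) in
/-- **TOP**: the topology of the cotangent bundle -/
structure TOP : Prop where
  ex : ∀ e : Chart n M, Hc e → ∃ c, Tc e c
  uniq : ∀ (e e' : Chart n M) c, Tc e c → Tc e' c → e = e'
  t2 : T2Space (TS n M)
  atl : At (AT n M)
  atm : At (AM n M)
  fst : Continuous fun y : TS n M => y.1
  opn : IsOpen {y : TS n M | y.2 ≠ 0}
  sc : Continuous fun q : ℂ × TS n M => sc q.1 q.2
  tq_sc : ∀ (e : Chart n M) (a : ℂ) (y : TS n M),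
    tq e (A.sc a y) = Fin.append (zc (tq e y)) (a • vc (tq e y))
  vc_ne : ∀ e : Chart n M, Hc e → ∀ y : TS n M, y.1 ∈ e.source → (vc (tq e y) = 0 ↔ y.2 = 0)
  hol : ∀ (φ : ℂ → TS n M) (U : Set ℂ), IsOpen U → (HolOn (AT n M) φ U ↔
    HolOn (AM n M) (fun τ => (φ τ).1) U ∧ ∀ e : Chart n M, Hc e → DifferentiableOn ℂ
      (fun τ => cv e (φ τ).1 (φ τ).2) (U ∩ (fun τ => (φ τ).1) ⁻¹' e.source))
  cont : ∀ (X : Type) [TopologicalSpace X] (φ : X → TS n M) (U : Set X), ContinuousOn φ U ↔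
    ContinuousOn (fun τ => (φ τ).1) U ∧ ∀ e : Chart n M, Hc e → ContinuousOn
      (fun τ => cv e (φ τ).1 (φ τ).2) (U ∩ (fun τ => (φ τ).1) ⁻¹' e.source)
  h1 : ∀ (f : ℂ → M) (U : Set ℂ), IsOpen U → (HolOn (AM n M) f U ↔ H1 n f U)
  ho : ∀ (ι : Type) (a : M → ι → ℂ), (∀ l, IsSec n 0 fun x => a x l) →
    Ho (AM n M) a ∧ Ho (AT n M) fun y => a y.1

variable (n M) in
/-- **SYP**: the changes of charts are symplectic -/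
def SYP : Prop := ∀ (e e' : Chart n M) c c', Tc e c → Tc e' c' → ∀ y ∈ c.source, y ∈ c'.source →
  jacM c c' y * pz n * (jacM c c' y)ᵀ = pz n ∧ (jacM c c' y).det = 1 ∧
    ∀ a : Mx n, (jacM c c' y)ᴴ * hb a * jacM c c' y = hb (pb (jacM e e' y.1) a)

variable [RiemannianBundle fun x : M => TangentSpace 𝓘(ℝ, Cm n) x] (F : Flow n M)

/-- the standing hypotheses -/
structure Cx : Prop where
  npos : 0 < n
  a : B1a n M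
  b : B1b n M
  is : F.Is
  b1 : F.Bas1
  b2 : F.Bas2
  proper : ∀ r, IsCompact (closedBall F.o r)
  eta : ∀ x, ∃ z : Fin n → M → ℂ, (∀ i, IsSec n 0 (z i)) ∧ F.jc z x ≠ 0
  sep : ∀ x y : M, x ≠ y → ∃ a, IsSec n 0 a ∧ a x ≠ a y
  kpa : F.KPA
  rho : ∃ (K : ℝ) (ϱ : M → ℝ), 0 ≤ K ∧ FG.Rho n F.o K ϱ
  sup : F.SUPER
  g0 : F.G0
  lip : F.LIP

/-- `H_t` -/
def HT (t : ℝ) (y : TS n M) : ℝ := F.H t y.1 y.2

/-- its time derivative -/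
def Ht (t : ℝ) (y : TS n M) : ℝ := (star ((F.gx t y.1)⁻¹ *ᵥ y.2) ⬝ᵥ
  (hs (F.u t) (pc n y.1) (pc n y.1 y.1) *ᵥ ((F.gx t y.1)⁻¹ *ᵥ y.2))).re

/-- the abstract data -/
def bs (e : Chart n M) (c : Chart (n + n) (TS n M)) (S : ℝ) : Bs n (TS n M) where
  𝒜 := AT n M
  e := c
  U := e.target
  O := {y | y.2 ≠ 0}
  O₁ := {y | HT F 0 y = 1}
  S := S
  H := HT F
  G := fun t z => (F.g t e z)⁻¹

/-- **SEP**: holomorphic functions separate -/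
def SEP : Prop := Sep (AM n M) ∧ Sep (AT n M) ∧ ∀ K : Set M, IsCompact K →
  ∃ (L : ℕ) (G : TS n M → Fin L → ℂ) (C : ℝ), Ho (AT n M) G ∧
    (∀ y : TS n M, y.1 ∈ K → HT F 0 y ≤ C * ‖G y‖ ^ 2) ∧
    ∀ y y' : TS n M, y.1 ∈ K → y.1 = y'.1 → G y = G y' → y = y'

/-- **REG**: regularity of `H` -/
structure REG : Prop where
  eq : ∀ e c, Tc e c → ∀ t, 0 ≤ t → ∀ w ∈ c.target, HT F t (c.symm w) = Hq (F.g t e) w
  sm : ∀ e c, Tc e c → ContDiffOn ℝ ∞ (fun q : ℝ × Cm (n + n) => HT F q.1 (c.symm q.2))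
    (Ici 0 ×ˢ c.target)
  cH : ContinuousOn (Function.uncurry (HT F)) (Ici 0 ×ˢ univ)
  cHt : ContinuousOn (Function.uncurry (Ht F)) (Ici 0 ×ˢ univ)
  pde : ∀ c ∈ AT n M, ∀ t, 0 ≤ t → ∀ y ∈ c.source, Qf (pz n) (lm (HT F t) c y) = Ht F t y
  lm_eq : ∀ e c, Tc e c → ∀ t, 0 ≤ t → ∀ y ∈ c.source,
    lm (HT F t) c y = (cHess (Hq (F.g t e)) (c y))ᵀ ∧ lm (fun y => Real.log (HT F t y)) c y =
      (cHess (fun w => Real.log (Hq (F.g t e) w)) (c y))ᵀ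
  lm_hb : ∀ e c, Tc e c → ∀ f : M → ℝ, Sm n f → ∀ y ∈ c.source,
    lm (fun y : TS n M => f y.1) c y = hb (hs f e (e y.1))
  sc : ∀ t (a : ℂ) (y : TS n M), HT F t (sc a y) = ‖a‖ ^ 2 * HT F t y
  cpt : ∀ (K : Set M) (A : ℝ), IsCompact K → IsCompact {y : TS n M | y.1 ∈ K ∧ HT F 0 y ≤ A}
  dt : ∀ (T : ℝ) (f : ℝ → M → ℝ), SmT n (Ico 0 T) f → ∃ f' : ℝ → M → ℝ,
    ContinuousOn (Function.uncurry f) (Ico 0 T ×ˢ univ) ∧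
    ContinuousOn (Function.uncurry f') (Ico 0 T ×ˢ univ) ∧ (∀ t ∈ Ico 0 T, Sm n (f t)) ∧
    (∀ e : Chart n M, Hc e → ∀ j k, ContinuousOn (fun q : ℝ × Cm n => hs (f q.1) e q.2 j k)
      (Ico 0 T ×ˢ e.target)) ∧ ∀ t ∈ Ioo 0 T, ∀ x, HasDerivAt (fun s => f s x) (f' t x) t

/-- **OK** -/
def OK : Prop := ∀ e c, Tc e c → ∀ S, (bs F e c S).Ok

/-- **START** -/
def STA : Prop := ∀ e c, Tc e c → ∀ S, (bs F e c S).START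

/-! ### the area -/

/-- the weighted area -/
def T0 (f : ℂ → M) : ℝ≥0∞ := ∫⁻ τ in ball (0 : ℂ) 1,
  ENNReal.ofReal ((1 - ‖τ‖ ^ 2) * F.nv 0 (f τ) (d1 n f τ) / Real.pi)

/-- **AR1** -/
structure AR1 : Prop where
  congr : ∀ f f' : ℂ → M, EqOn f f' (closedBall 0 1) → T0 F f = T0 F f'
  bd : ∀ K : Set M, IsCompact K → ∃ C : ℝ, ∀ f, Dn (AM n M) f →
    (∀ τ ∈ closedBall (0 : ℂ) 1, f τ ∈ K) → T0 F f ≤ ENNReal.ofReal C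
  lsc : ∀ (f : ℕ → ℂ → M) (g : ℂ → M), (∀ k, Dn (AM n M) (f k)) →
    TendstoUniformlyOn f g atTop (closedBall 0 1) →
    Dn (AM n M) g ∧ T0 F g ≤ liminf (fun k => T0 F (f k)) atTop
  ar : ∀ (f : ℂ → M) (r A : ℝ), 0 < r → r < 1 → T0 F f ≤ ENNReal.ofReal A →
    F.ar f r ≤ ENNReal.ofReal (Real.pi * A / (1 - r ^ 2))

/-- **AR2** -/
def AR2 : Prop := ∀ (φ : ℂ → M) (r : ℝ) (y : ℂ → ℂ → M), Fam (AM n M) φ r y →
  Av (fun s => (T0 F (y s)).toReal) (av fun τ => F.nv 0 (y 0 τ) (d1 n (fun s => y s τ) 0))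

/-- **KN1**: convergence in the base -/
def KN1 : Prop := ∀ (f : ℕ → ℂ → M) (g : ℂ → M) (A : ℝ),
  (∀ k, Dn (AM n M) (f k) ∧ T0 F (f k) ≤ ENNReal.ofReal A) →
  TendstoUniformlyOn f g atTop (sphere 0 1) → (∃ R, ∀ k, ∀ τ ∈ sphere (0 : ℂ) 1, F.r (f k τ) ≤ R) →
  ∃ g', TendstoUniformlyOn f g' atTop (closedBall 0 1)

/-- **KN**: convergence in the cotangent bundle -/
def KN : Prop := ∀ (K : Set (TS n M)) (L : ℕ) (G : TS n M → Fin L → ℂ) (φ : ℕ → ℂ → TS n M)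
  (g : ℂ → Fin L → ℂ) (A : ℝ), IsCompact K → Ho (AT n M) G → InjOn G K →
  (∀ k, Dn (AT n M) (φ k) ∧ T0 F (fun τ => (φ k τ).1) ≤ ENNReal.ofReal A ∧
    ∀ τ ∈ sphere (0 : ℂ) 1, φ k τ ∈ K) →
  TendstoUniformlyOn (fun k τ => G (φ k τ)) g atTop (sphere 0 1) →
  ∃ ψ, Dn (AT n M) ψ ∧ (∀ τ ∈ closedBall (0 : ℂ) 1, Tendsto (fun k => φ k τ) atTop (𝓝 (ψ τ))) ∧
    T0 F (fun τ => (ψ τ).1) ≤ liminf (fun k => T0 F fun τ => (φ k τ).1) atTop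

/-! ### the penalty -/

/-- the parameters of the penalty -/
structure Pd (M : Type) where
  η : ℝ
  R : ℝ
  P : ℝ → M → ℝ
  X : ℝ → M → ℝ
  ϱ : M → ℝ

namespace Pd

variable (p : Pd M) (η₁ : ℝ)

/-- the first wall -/
def x₁ (y : TS n M) : ℝ := p.ϱ y.1 - p.R

/-- the second wall -/
def x₂ (y : TS n M) : ℝ := η₁ * Real.log (HT F 0 y) ^ 2

/-- the density -/
def b (t : ℝ) (y : TS n M) : ℝ :=
  p.η * p.P t y.1 + p.X t y.1 + wb (p.x₁ y) + wb (x₂ F η₁ y)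

/-- inside the walls -/
def W : Set (TS n M) := {y | y.2 ≠ 0 ∧ p.x₁ y < 1 ∧ x₂ F η₁ y < 1}

/-- up to the walls -/
def K : Set (TS n M) := {y | y.2 ≠ 0 ∧ p.x₁ y ≤ 1 ∧ x₂ F η₁ y ≤ 1}

/-- the distance to the walls -/
def d (y : TS n M) : ℝ := min (min 1 (1 - p.x₁ y)) (min 1 (1 - x₂ F η₁ y))

/-- the Levi form of the penalty in the chart `c` over `e` -/
def L (e : Chart n M) (c : Chart (n + n) (TS n M)) (t : ℝ) (y : TS n M) : Mx (n + n) :=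
  lm (p.b F η₁ t) c y + ((p.η / 2 : ℝ) : ℂ) • hb (hm e (e y.1))

/-- the hypotheses on the parameters -/
structure Ok (S κ : ℝ) : Prop where
  η_pos : 0 < p.η
  κ_nn : 0 ≤ κ
  smP : SmT n (Ico 0 (S + 1)) p.P
  smX : SmT n (Ico 0 (S + 1)) p.X
  sm : Sm n p.ϱ
  cpt : IsCompact {x | p.ϱ x ≤ p.R + 1}
  sup : ∀ t ∈ Ioc 0 S, ∀ x, p.ϱ x ≤ p.R + 1 →
    F.y t x / 2 + F.lap t (p.P t) x ≤ dt p.P t x ∧ F.lap t (p.X t) x ≤ dt p.X t x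
  hess : ∀ e : Chart n M, Hc e → ∀ z ∈ e.target, p.ϱ (e.symm z) ≤ p.R + 1 →
    ((2 : ℂ) • hm e z - hs p.ϱ e z).PosSemidef ∧
      ((κ : ℂ) • hm e z - FG.gg (fun y => p.ϱ (e.symm y)) z).PosSemidef

end Pd

/-- **LB**: the walls and the Levi form of the density -/
def LB : Prop := ∀ (p : Pd M) (S κ η₁ : ℝ), p.Ok F S κ → 0 < η₁ →
  IsCompact (p.K F η₁) ∧ IsOpen (p.W F η₁) ∧
  ContinuousOn (Function.uncurry (p.b F η₁)) (Ico 0 (S + 1) ×ˢ p.W F η₁) ∧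
  Ck (AT n M) 2 (p.b F η₁) (Ioo 0 (S + 1) ×ˢ p.W F η₁) ∧
  (∀ y ∈ p.K F η₁, ∀ c ∈ AT n M, y ∈ c.source →
    ContDiffAt ℝ 1 (fun w => p.x₁ (c.symm w)) (c y) ∧
      ContDiffAt ℝ 1 (fun w => Pd.x₂ F η₁ (c.symm w)) (c y)) ∧
  ∀ e c, Tc e c → ∀ t ∈ Ico 0 (S + 1), ∀ y ∈ p.W F η₁, y ∈ c.source → lm (p.b F η₁ t) c y =
    hb ((p.η : ℂ) • hs (p.P t) e (e y.1) + hs (p.X t) e (e y.1) +
      ((deriv wb (p.x₁ y) : ℝ) : ℂ) • hs p.ϱ e (e y.1) +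
      ((deriv (deriv wb) (p.x₁ y) : ℝ) : ℂ) • FG.gg (fun w => p.ϱ (e.symm w)) (e y.1)) +
    (((deriv (fun s => wb (η₁ * s ^ 2)) (Real.log (HT F 0 y)) -
        deriv (deriv fun s => wb (η₁ * s ^ 2)) (Real.log (HT F 0 y)) : ℝ) : ℂ) •
        lm (fun y => Real.log (HT F 0 y)) c y +
      ((deriv (deriv fun s => wb (η₁ * s ^ 2)) (Real.log (HT F 0 y)) / HT F 0 y : ℝ) : ℂ) •
        lm (HT F 0) c y)

/-- **PDE1**: the differential inequality for the symbol -/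
def PDE1 : Prop := ∀ (p : Pd M) (S κ l₀ : ℝ), p.Ok F S κ → 0 < l₀ → ∃ C : ℝ, 0 ≤ C ∧
  ∀ η₁ ∈ Ioc (0 : ℝ) 1, ∀ t ∈ Ioc 0 S, ∀ y ∈ p.W F η₁, ∀ e c, Tc e c → y ∈ c.source →
    ∀ l ∈ Icc l₀ 1, ∀ g ∈ Icc (0 : ℝ) 1, t * (HT F t y / l) * Qf (pz n)
      (((l / HT F t y : ℝ) : ℂ) • lm (HT F t) c y + (g : ℂ) • p.L F η₁ e c t y) ≤
        l * (t * Ht F t y / HT F t y) + g * (t * (p.η * dt p.P t y.1 + dt p.X t y.1)) +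
          (S * (2 + κ) * wd wb (p.x₁ y) * F.y t y.1 + C * √η₁ * (p.d F η₁ y ^ 18)⁻¹)

/-- **SYB**: the symbols in ambient coordinates -/
def SYB : Prop := ∀ (p : Pd M) (S κ η₁ : ℝ) (L : ℕ) (G : TS n M → Fin L → ℂ), p.Ok F S κ →
  η₁ ∈ Ioc (0 : ℝ) 1 → Ho (AT n M) G → Em (AT n M) G (p.K F η₁) →
  ∃ (aH ab : ℝ → TS n M → Mx L) (C : ℝ),
    (∀ i j, ContinuousOn (fun q : ℝ × TS n M => aH q.1 q.2 i j) (Icc 0 S ×ˢ p.K F η₁)) ∧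
    (∀ i j, ContinuousOn (fun q : ℝ × TS n M => ab q.1 q.2 i j) (Icc 0 S ×ˢ p.W F η₁)) ∧
    ∀ t ∈ Icc 0 S, ∀ y ∈ p.W F η₁, (aH t y).IsHermitian ∧ (ab t y).IsHermitian ∧
      Bd (C * (p.d F η₁ y ^ 6)⁻¹) (ab t y) ∧ ∀ e c, Tc e c → y ∈ c.source →
        (dM G c y)ᴴ * aH t y * dM G c y = (((HT F t y)⁻¹ : ℝ) : ℂ) • lm (HT F t) c y ∧
        (dM G c y)ᴴ * ab t y * dM G c y = p.L F η₁ e c t y

/-- **VRB**: the second variation of the penalty -/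
def VRB : Prop := ∀ (p : Pd M) (S κ η₁ : ℝ) (L : ℕ) (G : TS n M → Fin L → ℂ)
  (aH ab : ℝ → TS n M → Mx L), p.Ok F S κ → η₁ ∈ Ioc (0 : ℝ) 1 → Ho (AT n M) G →
  Em (AT n M) G (p.K F η₁) →
  (∀ i j, ContinuousOn (fun q : ℝ × TS n M => aH q.1 q.2 i j) (Icc 0 S ×ˢ p.K F η₁)) →
  (∀ i j, ContinuousOn (fun q : ℝ × TS n M => ab q.1 q.2 i j) (Icc 0 S ×ˢ p.W F η₁)) →
  (∀ t ∈ Icc 0 S, ∀ y ∈ p.W F η₁, ∀ e c, Tc e c → y ∈ c.source →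
    (dM G c y)ᴴ * aH t y * dM G c y = (((HT F t y)⁻¹ : ℝ) : ℂ) • lm (HT F t) c y ∧
    (dM G c y)ᴴ * ab t y * dM G c y = p.L F η₁ e c t y) →
  ∀ (t : ℂ → ℝ) (φ : ℂ → TS n M) (r : ℝ) (y : ℂ → ℂ → TS n M), ContinuousOn t (sphere 0 1) →
    (∀ τ ∈ sphere (0 : ℂ) 1, t τ ∈ Ioc 0 S ∧ φ τ ∈ p.W F η₁) → Fam (AT n M) φ r y →
    (∃ c, Ex (fun s => av fun τ => Real.log (HT F (t τ) (y s τ))) c
      ((av fun τ => hf (aH (t τ) (φ τ)) (deriv (fun s => G (y s τ)) 0)) - ‖c‖ ^ 2)) ∧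
    Av (fun s => (av fun τ => p.b F η₁ (t τ) (y s τ)) +
        p.η / 2 * (T0 F fun τ => (y s τ).1).toReal)
      (av fun τ => hf (ab (t τ) (φ τ)) (deriv (fun s => G (y s τ)) 0))

/-- **PAR**: the choice of the parameters -/
def PAR : Prop := ∀ (S σ ε ρ₁ A : ℝ), 0 < S → 0 < σ → 0 < ε → ∃ (p : Pd M) (κ : ℝ),
  p.Ok F S κ ∧ p.η * A ≤ ε ∧
  (∀ t ∈ Icc 0 S, ∀ x, 0 ≤ p.P t x ∧ 0 ≤ p.X t x ∧
    (F.r x ≤ ρ₁ → p.ϱ x ≤ p.R ∧ p.η * p.P t x + p.X t x ≤ ε)) ∧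
  ∀ t ∈ Icc 0 S, ∀ x, p.ϱ x - p.R < 1 →
    Real.log (1 + S * (2 + κ) * wd wb (p.ϱ x - p.R) * F.y t x / σ) ≤
      2 * (p.η * p.P t x + p.X t x + wb (p.ϱ x - p.R))

/-- **PENT** -/
def PENT : Prop := ∀ e c, Tc e c → ∀ S, 0 < S → (bs F e c S).PEN

/-! ### the envelope -/

/-- the value of a tuple of discs -/
def vl {S : ℝ} {m : ℕ} (D : Fin m → Disc n M S) (x : M) : ℝ :=
  Real.log (‖F.Ω x‖ ^ 2 / (F.Z D).det.re) + n * Real.log (m / n)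

/-- the values over one point -/
def Vl (S t : ℝ) (x : M) : Set ℝ := {a | ∃ (m : ℕ) (D : Fin m → Disc n M S),
  (∀ i, (D i).At t x) ∧ 0 < (F.Z D).det.re ∧ a = vl F D x}

/-- the envelope -/
def el (S t : ℝ) (x : M) : ℝ := sInf (Vl F S t x)

/-- **ENV0**: elementary properties of the envelope -/
def ENV0 : Prop := ∀ S : ℝ, (∀ t ∈ Ioo 0 S, ∀ x, (Vl F S t x).Nonempty ∧
    (∀ a ∈ Vl F S t x, F.u 0 x ≤ a) ∧ ∀ a ∈ Vl F S t x, ∀ m₀ : ℕ, ∃ m, m₀ ≤ m ∧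
      ∃ D : Fin m → Disc n M S, (∀ i, (D i).At t x) ∧ 0 < (F.Z D).det.re ∧ a = vl F D x) ∧
  ∀ (x : M) (t t' : ℝ), 0 < t → t < t' → t' < S → el F S t' x ≤
    el F S t x + n * (Real.log (t' / t) / Real.log (S / t) * (F.u S x - F.u 0 x))

/-- **TRN**: the two kinds of discs -/
def TRN : Prop := ∀ e c, Tc e c → ∀ (S : ℝ) (m : ℕ) (t : ℝ), ∀ z ∈ e.target,
  (∀ D : Fin m → Disc n M S, (∀ i, (D i).At t (e.symm z)) → 0 < (F.Z D).det.re →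
    ∃ E : Fin m → (bs F e c S).Dk, (∀ i, (E i).At (t, z)) ∧ (Bs.Z E).PosDef ∧
      vl F D (e.symm z) = Real.log (‖co 1 F.Ω e z‖ ^ 2) + (Bs.J E + n * Real.log (m / n))) ∧
  ∀ E : Fin m → (bs F e c S).Dk, (∀ i, (E i).At (t, z)) → (Bs.Z E).PosDef →
    ∃ D : Fin m → Disc n M S, (∀ i, (D i).At t (e.symm z)) ∧ 0 < (F.Z D).det.re ∧
      vl F D (e.symm z) = Real.log (‖co 1 F.Ω e z‖ ^ 2) + (Bs.J E + n * Real.log (m / n))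

/-- **VIST** -/
def VIST : Prop := ∀ e c, Tc e c → ∀ S, 0 < S → (bs F e c S).VIS

end Vale.Agent.P253W.A
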