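import Vale.Agent.P253W.A.Defs2

/-! P253W, row A.ENV0: elementary properties of the envelope, the two kinds of discs. -/

open scoped Manifold Bundle Topology ComplexOrder Matrix
open Bundle Set Metric Vale.Agent.P253Z
open Vale.Agent.P272.K (Cm jacM Chart)

noncomputable section

namespace Vale.Agent.P253W.A

variable {n : ℕ} {M : Type} [MetricSpace M] [ChartedSpace (Cm n) M]

namespace Env0

theorem exp_log {t : ℝ} (ht : 0 < t) :
    Real.exp (2 * ((Real.log t / 2 : ℝ) : ℂ).re) = t := by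
  rw [Complex.ofReal_re, mul_div_cancel₀ _ two_ne_zero, Real.exp_log ht]

/-- constant discs -/
def cst {S t : ℝ} (ht : t ∈ Ioo 0 S) (x : M) (i : Fin n) : Disc n M S where
  f _ := x
  ξ _ := Pi.single i 1
  ζ _ := (Real.log t / 2 : ℝ)
  cf := continuousOn_const
  hf := mdifferentiableOn_const
  cξ _ _ := continuousOn_const
  hξ _ _ := differentiableOn_const _
  ne _ _ := by simp
  hζ := diffContOnCl_const
  le _ _ := (exp_log ht.1).trans_le ht.2.le

/-- change of the time -/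
def tim {S t : ℝ} (ht : t ∈ Ioo 0 S) (D : Disc n M S) : Disc n M S :=
  { D with
    ζ := fun _ => (Real.log t / 2 : ℝ)
    hζ := diffContOnCl_const
    le := fun _ _ => (exp_log ht.1).trans_le ht.2.le }

theorem det_single (γ : Fin n → ℝ) : 0 < (Zm γ fun i => Pi.single i 1).det.re := by
  have : (Zm γ fun i => Pi.single i 1) = Matrix.diagonal fun i => (Real.exp (-γ i) : ℂ) := by
    ext j k
    simp only [Zm, Matrix.sum_apply, Matrix.smul_apply, Matrix.vecMulVec_apply, Pi.star_apply,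
      Pi.single_apply, Matrix.diagonal_apply, smul_eq_mul]
    rw [Finset.sum_eq_single j (fun i _ h => by simp [h.symm]) (by simp)]
    by_cases h : j = k
    · simp [h]
    · simp [h, Ne.symm h]
  rw [this, Matrix.det_diagonal, ← Complex.ofReal_prod, Complex.ofReal_re]
  exact Finset.prod_pos fun i _ => Real.exp_pos _

theorem det_inv {g : Mx n} (h : g.PosDef) : 0 < g.det.re ∧ g⁻¹.det.re = g.det.re⁻¹ := by
  obtain ⟨h1, h2⟩ := Complex.pos_iff.1 h.det_pos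
  refine ⟨h1, ?_⟩
  rw [Matrix.det_nonsing_inv, Ring.inverse_eq_inv, ← Complex.re_add_im g.det, ← h2]
  simp

theorem det_conj (T Z : Mx n) : (Tᵀ * Z * Tᵀᴴ).det.re = ‖T.det‖ ^ 2 * Z.det.re := by
  rw [Matrix.det_mul, Matrix.det_mul, Matrix.det_conjTranspose, Matrix.det_transpose,
    mul_right_comm, Complex.star_def, Complex.mul_conj', ← Complex.ofReal_pow,
    Complex.re_ofReal_mul]

variable [RiemannianBundle fun x : M => TangentSpace 𝓘(ℝ, Cm n) x] {F : Flow n M}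

theorem Z_eq {S : ℝ} {m : ℕ} (D : Fin m → Disc n M S) :
    F.Z D = Zm (fun i => F.γ (D i)) fun i => (D i).ξ 0 := rfl

theorem vl_eq (h : Cx F) {S : ℝ} {m : ℕ} {D : Fin m → Disc n M S} (k : 0 < (F.Z D).det.re)
    (x : M) : vl F D x = Real.log (‖F.Ω x‖ ^ 2) - Real.log (F.Z D).det.re +
      n * Real.log (m / n) := by
  rw [vl, Real.log_div (pow_pos (norm_pos_iff.2 (h.is.ne x)) 2).ne' k.ne']

theorem low (h : Cx F) (ja : JA) {S t : ℝ} {x : M} {a : ℝ} (ha : a ∈ Vl F S t x) :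
    F.u 0 x ≤ a := by
  obtain ⟨m, D, c, k, rfl⟩ := ha
  have p : (F.gx 0 x).PosDef :=
    h.is.pos 0 le_rfl _ (h.a.chart x) _ (mem_chart_target _ x)
  have := ja.2.2.2.1 n m _ _ _ h.npos ((ja.2.2.2.2 n m _ _).2.1.2 k) p.inv fun i => by
    rcases eq_or_ne ((D i).ξ 0) 0 with e | e
    · simp [e, hf]
    · have k := h.g0 S (D i) e
      rw [(c i).1, Real.log_le_iff_le_exp (h.b2.H_pos 0 le_rfl x _ e)] at k
      rw [Real.exp_neg, inv_mul_le_iff₀ (Real.exp_pos _), mul_one]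
      exact k
  rw [(det_inv p).2, Real.log_inv, Jm, ← Z_eq] at this
  rw [vl_eq h k, Flow.u,
    Real.log_div (pow_pos (norm_pos_iff.2 (h.is.ne x)) 2).ne' (det_inv p).1.ne']
  linarith

theorem ne {S t : ℝ} (ht : t ∈ Ioo 0 S) (x : M) : (Vl F S t x).Nonempty :=
  ⟨_, n, cst ht x, fun _ => ⟨rfl, exp_log ht.1⟩, det_single _, rfl⟩

theorem dup (h : Cx F) {S t : ℝ} {x : M} {a : ℝ} (ha : a ∈ Vl F S t x) (m₀ : ℕ) : ∃ m, m₀ ≤ m ∧
    ∃ D : Fin m → Disc n M S, (∀ i, (D i).At t x) ∧ 0 < (F.Z D).det.re ∧ a = vl F D x := by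
  obtain ⟨m, D, c, k, rfl⟩ := ha
  have n0 : (0 : ℝ) < n := Nat.cast_pos.2 h.npos
  have m0 : 0 < m := Nat.pos_of_ne_zero fun e => by
    subst e
    have : Nonempty (Fin n) := ⟨⟨0, h.npos⟩⟩
    simp [Flow.Z] at k
  have e : F.Z (fun j : Fin ((m₀ + 1) * m) => D (finProdFinEquiv.symm j).2) =
      ((m₀ + 1 : ℝ) : ℂ) • F.Z D := by
    rw [Flow.Z, finProdFinEquiv.symm.sum_comp fun p : Fin (m₀ + 1) × Fin m =>
      (Real.exp (-F.γ (D p.2)) : ℂ) • Matrix.vecMulVec ((D p.2).ξ 0) (star ((D p.2).ξ 0)),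
      Fintype.sum_prod_type]
    change ∑ _x : Fin (m₀ + 1), F.Z D = _
    rw [Finset.sum_const, Finset.card_univ, Fintype.card_fin, ← Nat.cast_smul_eq_nsmul ℂ]
    norm_cast
  have e' : (F.Z fun j : Fin ((m₀ + 1) * m) => D (finProdFinEquiv.symm j).2).det.re =
      (m₀ + 1 : ℝ) ^ n * (F.Z D).det.re := by
    rw [e, Matrix.det_smul, ← Complex.ofReal_pow, Complex.re_ofReal_mul, Fintype.card_fin]
  have k' := e' ▸ mul_pos (pow_pos (show (0 : ℝ) < m₀ + 1 by positivity) n) k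
  refine ⟨(m₀ + 1) * m, by nlinarith, _, fun j => c _, k', ?_⟩
  have m1 : (0 : ℝ) < m := Nat.cast_pos.2 m0
  rw [vl_eq h k, vl_eq h k', e', Real.log_mul (by positivity) k.ne', Real.log_pow _ n, Nat.cast_mul,
    mul_div_assoc, Real.log_mul (by positivity) (by positivity)]
  push_cast
  ring

theorem mov (h : Cx F) (ja : JA) (js : JS) {S t t' : ℝ} {x : M} {a ε : ℝ} (ha : a ∈ Vl F S t x)
    (h1 : t < t') (ht : t' ∈ Ioo 0 S) (hε : 0 < ε) : ∃ b ∈ Vl F S t' x,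
      b ≤ a + n * (Real.log (t' / t) / Real.log (S / t) * (F.u S x - F.u 0 x) + ε) := by
  obtain ⟨m, D, c, k, rfl⟩ := ha
  generalize hA : Real.log (t' / t) / Real.log (S / t) * (F.u S x - F.u 0 x) + ε = A
  have : ∀ i, ∃ (E : Disc n M S) (g : ℝ), E.At t' x ∧ g ≤ F.γ (D i) + A ∧
      (Real.exp (-F.γ E) : ℂ) • Matrix.vecMulVec (E.ξ 0) (star (E.ξ 0)) =
        (Real.exp (-g) : ℂ) • Matrix.vecMulVec ((D i).ξ 0) (star ((D i).ξ 0)) := fun i => by
    rcases eq_or_ne ((D i).ξ 0) 0 with e | e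
    · exact ⟨tim ht (D i), _, ⟨(c i).1, exp_log ht.1⟩, le_rfl, by simp [tim, e]⟩
    · obtain ⟨E, a1, a2, a3⟩ := h.lip S (D i) t t' x ε (c i) e h1 ht.2 hε
      exact ⟨E, F.γ E, a1, by linarith, by rw [a2]⟩
  choose E g a1 a2 a3 using this
  obtain ⟨b1, b2⟩ := js n m _ g _ (fun _ => 1) A ((ja.2.2.2.2 n m _ _).2.1.2 k)
    fun i => ⟨one_ne_zero, by simpa using a2 i⟩
  have e : F.Z E = Zm g fun i => (1 : ℂ) • (D i).ξ 0 := by simp only [Flow.Z, Zm, a3, one_smul]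
  have k' : 0 < (F.Z E).det.re := e ▸ (ja.2.2.2.2 n m _ _).2.1.1 b1
  refine ⟨_, ⟨m, E, a1, k', rfl⟩, ?_⟩
  rw [Jm, Jm, ← e, ← Z_eq] at b2
  rw [vl_eq h k, vl_eq h k']
  linarith

theorem cmp (h : Cx F) (ja : JA) {e : Chart n M} {c : Chart (n + n) (TS n M)} (k : Tc e c)
    {S : ℝ} {m : ℕ} {z : Cm n} (hz : z ∈ e.target) (D : Fin m → Disc n M S)
    (E : Fin m → (bs F e c S).Dk) (h1 : ∀ i, (D i).f 0 = e.symm z)
    (h2 : ∀ i, (E i).φ 0 = ((D i).f 0, (D i).ξ 0)) (h3 : ∀ i, (E i).γ = F.γ (D i)) :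
    ((Bs.Z E).PosDef ↔ 0 < (F.Z D).det.re) ∧ (0 < (F.Z D).det.re →
      vl F D (e.symm z) = Real.log (‖co 1 F.Ω e z‖ ^ 2) + (Bs.J E + n * Real.log (m / n))) := by
  have T0 := norm_pos_iff.2
    (h.a.jac_ne e _ k.he (h.a.chart (e.symm z)) _ (e.map_target hz) (mem_chart_source _ _))
  have e1 : (Bs.Z E).det.re = ‖(jacM e (pc n (e.symm z)) (e.symm z)).det‖ ^ 2 * (F.Z D).det.re := by
    rw [← det_conj, Z_eq, ← (ja.2.2.2.2 n m _ _).2.2, Bs.Z]
    congr 3
    · exact funext h3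
    · funext i j
      change c ((E i).φ 0) (Fin.natAdd n j) = _
      rw [k.map, h2, h1]
      exact Fin.append_right _ _ j
  refine ⟨((ja.2.2.2.2 n m _ _).2.1.trans ?_), fun p => ?_⟩
  · change 0 < (Bs.Z E).det.re ↔ _
    rw [e1, mul_pos_iff_of_pos_left (by positivity)]
  · change _ = _ + (-Real.log (Bs.Z E).det.re + _)
    rw [vl_eq h p, e1, co, zpow_one, norm_mul, mul_pow, Real.log_mul (by positivity)
      (pow_pos (norm_pos_iff.2 (h.is.ne _)) 2).ne', Real.log_mul (by positivity) p.ne']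
    ring

end Env0

variable [RiemannianBundle fun x : M => TangentSpace 𝓘(ℝ, Cm n) x] {F : Flow n M}

open Env0

theorem env0 (h : Cx F) (ja : JA) (js : JS) : ENV0 F := fun S => by
  refine ⟨fun t ht x => ⟨ne ht x, fun _ => low h ja, fun _ => dup h⟩, fun x t t' h0 h1 h2 => ?_⟩
  refine le_of_forall_pos_le_add fun ε hε => ?_
  have n0 : (0 : ℝ) < n := Nat.cast_pos.2 h.npos
  rw [add_assoc, ← sub_le_iff_le_add]
  refine le_csInf (ne ⟨h0, h1.trans h2⟩ x) fun a ha => ?_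
  obtain ⟨b, hb, k⟩ := mov h ja js ha h1 ⟨h0.trans h1, h2⟩ (div_pos hε n0)
  have : el F S t' x ≤ b := csInf_le ⟨_, fun _ => low h ja⟩ hb
  rw [mul_add, mul_div_cancel₀ _ n0.ne'] at k
  linarith

theorem trn (h : Cx F) (t : TOP n M) (ja : JA) : TRN F := fun e c k S m s z hz => by
  have hc : ∀ y : TS n M, zc (c y) = e y.1 := fun y => funext fun j => by
    rw [k.map, zc, tq, Fin.append_left]
  refine ⟨fun D a p => ?_, fun E a p => ?_⟩
  · let E : Fin m → (bs F e c S).Dk := fun i =>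
      { φ := fun τ => ((D i).f τ, (D i).ξ τ)
        ζ := (D i).ζ
        dn := ⟨(t.cont ℂ _ _).2 ⟨(D i).cf, (D i).cξ⟩,
          (t.hol _ _ isOpen_ball).2 ⟨(t.h1 _ _ isOpen_ball).2 (D i).hf, (D i).hξ⟩⟩
        da := (D i).hζ
        le := (D i).le
        ne := (D i).ne }
    obtain ⟨b1, b2⟩ := cmp h ja k hz D E (fun i => (a i).1) (fun _ => rfl) fun _ => rfl
    refine ⟨E, fun i => ⟨?_, (hc _).trans ?_, (a i).2⟩, b1.2 p, b2 p⟩
    · change ((D i).f 0, (D i).ξ 0) ∈ c.source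
      rw [k.src, (a i).1]
      exact e.map_target hz
    · change e ((D i).f 0) = z
      rw [(a i).1, e.right_inv hz]
  · let D : Fin m → Disc n M S := fun i =>
      { f := fun τ => ((E i).φ τ).1
        ξ := fun τ => ((E i).φ τ).2
        ζ := (E i).ζ
        cf := ((t.cont ℂ _ _).1 (E i).dn.1).1
        hf := (t.h1 _ _ isOpen_ball).1 ((t.hol _ _ isOpen_ball).1 (E i).dn.2).1
        cξ := ((t.cont ℂ _ _).1 (E i).dn.1).2
        hξ := ((t.hol _ _ isOpen_ball).1 (E i).dn.2).2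
        ne := (E i).ne
        hζ := (E i).da
        le := (E i).le }
    have a' : ∀ i, (D i).f 0 = e.symm z := fun i => by
      have h1 : (E i).φ 0 ∈ c.source := (a i).1
      rw [k.src] at h1
      exact (e.left_inv h1).symm.trans (congrArg e.symm ((hc _).symm.trans (a i).2.1))
    obtain ⟨b1, b2⟩ := cmp h ja k hz D E a' (fun _ => rfl) fun _ => rfl
    exact ⟨D, fun i => ⟨a' i, (a i).2.2⟩, b1.1 p, b2 (b1.1 p)⟩

end Vale.Agent.P253W.A
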