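import Vale.Agent.P253W.A.Defs2
import Vale.Agent.P253W.A.Tay
import Vale.Agent.P272.K.N.Det

/-!
# P253W, block A: row ENV1
-/

open scoped Manifold ContDiff Bundle Topology ComplexOrder Matrix
open Bundle Set Metric Filter Vale.Agent.P253Z
open Vale.Agent.P272.K (Cm cHess Chart cHess_sub cHess_log_norm_sq)

noncomputable section

namespace Vale.Agent.P253W.A

namespace En1

variable {n : ℕ} {φ : ℝ × Cm n → ℝ}

theorem cont_hess (h : ContDiff ℝ ∞ φ) : Continuous fun q : ℝ × Cm n =>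
    cHess (fun w => φ (q.1, w)) q.2 := by
  have k : Continuous fun q : ℝ × Cm n => fderiv ℝ (fderiv ℝ fun w => φ (q.1, w)) q.2 :=
    continuous_iff_continuousAt.2 fun q => (Ta.par (m := 0) (Ta.par (m := 1)
      (h.contDiffAt.of_le (by norm_cast)))).continuousAt
  refine continuous_matrix fun i j => ?_
  rw [funext fun q : ℝ × Cm n => Exb.cHess_eq (u := fun w => φ (q.1, w)) (x := q.2)
    ((h.comp (contDiff_const.prodMk contDiff_id)).contDiffAt.of_le (by norm_cast)) i j]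
  fun_prop

theorem cont_dt (h : ContDiff ℝ ∞ φ) : Continuous fun q : ℝ × Cm n =>
    deriv (fun s => φ (s, q.2)) q.1 :=
  ((h.continuous_fderiv (by simp)).clm_apply (continuous_const (y := (1, 0)))).congr fun q =>
    ((h.differentiable (by simp) q).hasFDerivAt.comp_hasDerivAt q.1
      ((hasDerivAt_id _).prodMk (hasDerivAt_const _ _))).deriv.symm

end En1

open En1

theorem env1 {n : ℕ} {M : Type} [MetricSpace M] [ChartedSpace (Cm n) M]
    [RiemannianBundle fun x : M => TangentSpace 𝓘(ℝ, Cm n) x] {F : Flow n M} (h : Cx F)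
    (t : TOP n M) (e0 : ENV0 F) (tr : TRN F) (v : VIST F) : F.ENV := fun S S0 => by
  obtain ⟨e1, e2⟩ := e0 S
  have up : ∀ t ∈ Ioo 0 S, ∀ x, ∀ a ∈ Vl F S t x, el F S t x ≤ a := fun t ht x a ha =>
    csInf_le ⟨_, (e1 t ht x).2.1⟩ ha
  refine ⟨el F S, fun t ht x => le_csInf (e1 t ht x).1 (e1 t ht x).2.1, fun t ht x D a b =>
    (up t ht x _ ⟨n, D, a, b, rfl⟩).trans_eq (by simp [vl, h.npos.ne']), e2,
    fun e he s z hs hz φ δ hφ hδ h1 h2 B b1 b2 => ?_⟩
  obtain ⟨c, hc⟩ := t.ex e he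
  have nb : Ioo 0 S ×ˢ e.target ∈ 𝓝 (s, z) := (isOpen_Ioo.prod e.open_target).mem_nhds ⟨hs, hz⟩
  have nb' : Ici 0 ×ˢ e.target ∈ 𝓝 (s, z) := mem_of_superset nb fun q hq => ⟨hq.1.1.le, hq.2⟩
  obtain ⟨δ', d0, d1⟩ := nhds_basis_closedBall.mem_iff.1 (inter_mem nb (ball_mem_nhds _ hδ))
  have ne : ∀ w ∈ e.target, co 1 F.Ω e w ≠ 0 := fun w hw => mul_ne_zero (zpow_ne_zero _
    (h.a.jac_ne _ _ he (h.a.chart _) _ (e.map_target hw) (mem_chart_source _ _))) (h.is.ne _)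
  have lam : ∀ w ∈ e.target, ContDiffAt ℝ 2 (fun w => Real.log (‖co 1 F.Ω e w‖ ^ 2)) w :=
    fun w hw => (((h.is.sec e he w hw).contDiffAt.restrict_scalars ℝ).norm_sq ℂ).log
      (pow_ne_zero _ (norm_ne_zero_iff.2 (ne w hw)))
  have low : ∀ m, (bs F e c S).Low m (fun q => φ q - Real.log (‖co 1 F.Ω e q.2‖ ^ 2)) (s, z) δ' :=
    fun m => ⟨fun q hq => (d1 hq).1, fun q hq => (hφ.contDiffAt.of_le (by norm_cast)).sub
      ((lam _ (d1 hq).1.2).comp q contDiffAt_snd), fun q hq E a b => by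
      obtain ⟨D, a1, a2, a3⟩ := (tr e c hc S m q.1 q.2 (d1 hq).1.2).2 E a b
      have := (h1 q (d1 hq).2).trans (up _ (d1 hq).1.1 _ _ ⟨m, D, a1, a2, rfl⟩)
      linarith⟩
  have pd := fun q (hq : q ∈ Ioo 0 S ×ˢ e.target) => h.is.pos _ hq.1.1.le e he _ hq.2
  have cG : ContinuousAt (fun q : ℝ × Cm n => (F.g q.1 e q.2)⁻¹) (s, z) :=
    ContinuousAt.comp (f := fun q : ℝ × Cm n => F.g q.1 e q.2) (continuousAt_matrix_inv _ (by
      rw [Ring.inverse_eq_inv']; exact continuousAt_inv₀ (pd (s, z) ⟨hs, hz⟩).det_pos.ne'))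
      (continuousAt_pi.2 fun j => continuousAt_pi.2 fun k =>
        (h.b1.g_sm e he j k).continuousOn.continuousAt nb')
  have key : ∀ θ ∈ Ioo (0 : ℝ) 1, ∀ σ > 0, θ * θ * (Real.exp (φ (s, z) - F.u s (e.symm z)) *
      (B * cHess (fun w => φ (s, w)) z).trace.re) - deriv (fun s => φ (s, z)) s ≤ σ := by
    intro θ hθ σ hσ
    obtain ⟨m₀, vis⟩ := v e c hc S S0 θ hθ.1.le hθ.2
    have p0 : (θ : ℂ) • B |>.PosSemidef := b1.smul (Complex.zero_le_real.2 hθ.1.le)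
    obtain ⟨ε, ε0, p1⟩ := P272.K.N.posDef_of_near (P := (F.g s e z)⁻¹ - (θ : ℂ) • B) (by
      rw [show (F.g s e z)⁻¹ - (θ : ℂ) • B = ((1 - θ : ℝ) : ℂ) • (F.g s e z)⁻¹ +
        (θ : ℂ) • ((F.g s e z)⁻¹ - B) by push_cast; module]
      exact ((pd (s, z) ⟨hs, hz⟩).inv.smul (Complex.zero_lt_real.2 (sub_pos.2 hθ.2))
        ).add_posSemidef (b2.smul (Complex.zero_le_real.2 hθ.1.le)))
    have p2 : ∀ᶠ q : ℝ × Cm n in 𝓝 (s, z), ∀ i j,
        ‖(F.g q.1 e q.2)⁻¹ i j - (F.g s e z)⁻¹ i j‖ ≤ ε :=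
      eventually_all.2 fun i => eventually_all.2 fun j => (((continuous_apply_apply i
        j).continuousAt.comp cG).eventually (closedBall_mem_nhds _ ε0)).mono fun y hy => by
          rwa [← dist_eq_norm]
    refine le_of_tendsto_of_frequently (x := 𝓝 (s, z)) (f := fun q : ℝ × Cm n =>
      θ * θ * (Real.exp (φ q - ch e F.u q) * (B * cHess (fun w => φ (q.1, w)) q.2).trace.re) -
        deriv (fun s => φ (s, q.2)) q.1) ((((hφ.continuous.continuousAt.sub ((h.b1.u_sm e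
          he).continuousOn.continuousAt nb')).rexp.mul (Complex.continuous_re.comp
          (continuous_const.matrix_mul (cont_hess hφ)).matrix_trace).continuousAt).const_mul _).sub
        (cont_dt hφ).continuousAt).tendsto (Frequently.mp (p := fun q => ∀ A : Mx n,
        A.PosSemidef → ((F.g q.1 e q.2)⁻¹ - A).PosSemidef →
        θ * (Real.exp (φ q - Real.log (‖co 1 F.Ω e q.2‖ ^ 2)) / ((F.g q.1 e q.2)⁻¹).det.re) *
          (A * cHess (fun w => φ (q.1, w) - Real.log (‖co 1 F.Ω e w‖ ^ 2)) q.2).trace.re ≤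
          deriv (fun s => φ (s, q.2) - Real.log (‖co 1 F.Ω e q.2‖ ^ 2)) q.1 + σ)
        (nhds_basis_closedBall.frequently_iff.2 fun r r0 => ?_) ?_)
    · have r1 : 0 < min r (δ' / 2) := lt_min r0 (half_pos d0)
      obtain ⟨q, hq, a⟩ := h2 (min (min r (δ' / 2) ^ 4 / 2) δ') (by positivity)
      have q1 := ball_subset_closedBall (ball_subset_ball (min_le_right _ _) hq)
      obtain ⟨a, a1, a2⟩ := exists_lt_of_csInf_lt (e1 _ (d1 q1).1.1 _).1 a
      obtain ⟨m, hm, D, a3, a4, rfl⟩ := (e1 _ (d1 q1).1.1 _).2.2 a a1 m₀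
      obtain ⟨E, a5, a6, a7⟩ := (tr e c hc S m q.1 q.2 (d1 q1).1.2).1 D a3 a4
      obtain ⟨q', a8, a9⟩ := vis m hm _ _ δ' (min r (δ' / 2) ^ 4 / 2) σ d0 hσ (by
        rw [mul_div_cancel₀ _ two_ne_zero]
        exact pow_lt_pow_left₀ ((min_le_right _ _).trans_lt (half_lt_self d0)) r1.le (by simp))
        (low m) ⟨q, q1, E, a5, a6, by linarith [min_le_left (min r (δ' / 2) ^ 4 / 2) δ']⟩
      rw [mul_div_cancel₀ _ two_ne_zero] at a8
      exact ⟨q', (le_of_pow_le_pow_left₀ (by simp) r1.le a8).trans (min_le_left _ _), a9⟩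
    filter_upwards [nb, p2] with q hq a k
    have k := k _ p0 (p1 _ ((pd q hq).inv.1.sub p0.1) fun i j => by simpa using a i j).posSemidef
    have d := (Complex.pos_iff.1 (pd q hq).det_pos).1
    rw [cHess_sub (f := fun w => φ (q.1, w)) ((hφ.comp (contDiff_const.prodMk contDiff_id)
      ).contDiffAt.of_le (by norm_cast)) (lam _ hq.2), cHess_log_norm_sq (h.is.sec e he _ hq.2).contDiffAt (ne _ hq.2), sub_zero,
      deriv_sub_const, Matrix.smul_mul, Matrix.trace_smul, smul_eq_mul, Complex.re_ofReal_mul] at k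
    rw [sub_le_iff_le_add', ch, h.b1.u_eq _ hq.1.1.le e he _ hq.2, Real.log_div
      (pow_ne_zero _ (norm_ne_zero_iff.2 (ne _ hq.2))) d.ne', ← sub_add, Real.exp_add,
      Real.exp_log d]
    refine le_of_eq_of_le ?_ k
    rw [show ((F.g q.1 e q.2)⁻¹).det.re = ((F.g q.1 e q.2).det.re)⁻¹ by
      obtain ⟨x, hx⟩ : ∃ x : ℝ, (x : ℂ) = (F.g q.1 e q.2).det :=
        ⟨_, Complex.ext rfl (Complex.pos_iff.1 (pd q hq).det_pos).2⟩
      rw [Matrix.det_nonsing_inv, Ring.inverse_eq_inv', ← hx, ← Complex.ofReal_inv,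
        Complex.ofReal_re, Complex.ofReal_re], div_inv_eq_mul]
    ring
  generalize Real.exp _ * _ = Γ at key ⊢
  refine le_of_tendsto (x := 𝓝[<] (1 : ℝ)) (f := fun θ => θ * θ * Γ)
    (tendsto_nhdsWithin_of_tendsto_nhds (Continuous.tendsto' (by fun_prop) _ _ (by simp))) ?_
  filter_upwards [Ioo_mem_nhdsLT zero_lt_one] with θ hθ
  exact sub_nonpos.1 (le_of_forall_pos_le_add fun σ hσ => (zero_add σ).symm ▸ key θ hθ σ hσ)

end Vale.Agent.P253W.A
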