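import Vale.Agent.P253W.A.Defs2

/-!
# P253W, block A: the second variation of the weighted area
-/

open scoped ContDiff Topology Laplacian
open MeasureTheory Set Metric Filter

noncomputable section

namespace Vale.Agent.P253W.A

namespace Gr2

variable {E : Type} [NormedAddCommGroup E] [NormedSpace ℝ E] {f : ℂ × ℂ → E} {U V K A : Set ℂ}
  {s : ℂ}

/-- the derivative in the first variable -/
def d1 (f : ℂ × ℂ → E) (q : ℂ × ℂ) : ℂ →L[ℝ] E := (fderiv ℝ f q).comp (.inl ℝ ℂ ℂ)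

/-- the domain of the parameter and the domain of integration -/
structure Dm (U V K A : Set ℂ) : Prop where
  u : IsOpen U
  v : IsOpen V
  k : IsCompact K
  a : MeasurableSet A
  ak : A ⊆ K
  kv : K ⊆ V

theorem Dm.sm (D : Dm U V K A) (h : ContDiffOn ℝ ∞ f (U ×ˢ V)) : ContDiffOn ℝ ∞ (d1 f) (U ×ˢ V) :=
  (h.fderiv_of_isOpen (D.u.prod D.v) (by simp)).clm_comp contDiffOn_const

theorem Dm.sl (D : Dm U V K A) (h : ContDiffOn ℝ ∞ f (U ×ˢ V)) (hs : s ∈ U) {τ : ℂ} (hτ : τ ∈ V) :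
    HasFDerivAt (fun s => f (s, τ)) (d1 f (s, τ)) s :=
  ((h.contDiffAt ((D.u.prod D.v).mem_nhds ⟨hs, hτ⟩)).differentiableAt (by simp)).hasFDerivAt.comp s
    (hasFDerivAt_prodMk_left s τ)

theorem Dm.int (D : Dm U V K A) (h : ContDiffOn ℝ ∞ f (U ×ˢ V)) (hs : s ∈ U) :
    IntegrableOn (fun τ => f (s, τ)) A := ((h.continuousOn.comp (Continuous.prodMk_right s).continuousOn
      fun _ e => ⟨hs, D.kv e⟩).integrableOn_compact D.k).mono_set D.ak

theorem Dm.der (D : Dm U V K A) (h : ContDiffOn ℝ ∞ f (U ×ˢ V)) (hs : s ∈ U) :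
    HasFDerivAt (fun s => ∫ τ in A, f (s, τ)) (∫ τ in A, d1 f (s, τ)) s := by
  obtain ⟨N, hN, e, c⟩ := local_compact_nhds (D.u.mem_nhds hs)
  obtain ⟨B, hB⟩ := (c.prod D.k).exists_bound_of_continuousOn
    ((D.sm h).continuousOn.mono (prod_mono e D.kv))
  exact hasFDerivAt_integral_of_dominated_of_fderiv_le (F := fun s τ => f (s, τ))
    (F' := fun s τ => d1 f (s, τ)) (bound := fun _ => B) hN
    ((D.u.eventually_mem hs).mono fun _ e => (D.int h e).1) (D.int h hs) (D.int (D.sm h) hs).1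
    (ae_restrict_of_forall_mem D.a fun τ t x m => hB _ ⟨m, D.ak t⟩)
    (integrableOn_const ((measure_mono D.ak).trans_lt D.k.measure_lt_top).ne)
    (ae_restrict_of_forall_mem D.a fun τ t x m => D.sl h (e m) (D.kv (D.ak t)))

theorem Dm.cd (D : Dm U V K A) (m : ℕ) : ∀ {E : Type} [NormedAddCommGroup E] [NormedSpace ℝ E]
    {f : ℂ × ℂ → E}, ContDiffOn ℝ ∞ f (U ×ˢ V) → ContDiffOn ℝ m (fun s => ∫ τ in A, f (s, τ)) U := by
  induction m with
  | zero => exact fun h => contDiffOn_zero.2 fun s e => (D.der h e).continuousAt.continuousWithinAt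
  | succ m ih =>
    exact fun h => (contDiffOn_succ_iff_fderiv_of_isOpen D.u).2 ⟨fun s e =>
      (D.der h e).differentiableAt.differentiableWithinAt, by simp,
      (ih (D.sm h)).congr fun s e => (D.der h e).fderiv⟩

theorem Dm.lap (D : Dm U V K A) {f : ℂ × ℂ → ℝ} (h : ContDiffOn ℝ ∞ f (U ×ˢ V)) (hs : s ∈ U) :
    (Δ fun s => ∫ τ in A, f (s, τ)) s = ∫ τ in A, (Δ fun s => f (s, τ)) s := by
  have i := D.int (D.sm (D.sm h)) hs
  have e1 : fderiv ℝ (fderiv ℝ fun s => ∫ τ in A, f (s, τ)) s = ∫ τ in A, d1 (d1 f) (s, τ) :=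
    ((D.der (D.sm h) hs).congr_of_eventuallyEq
      ((D.u.eventually_mem hs).mono fun _ e => (D.der h e).fderiv)).fderiv
  have e2 : ∀ τ ∈ A, fderiv ℝ (fderiv ℝ fun s => f (s, τ)) s = d1 (d1 f) (s, τ) := fun τ t =>
    ((D.sl (D.sm h) hs (D.kv (D.ak t))).congr_of_eventuallyEq
      ((D.u.eventually_mem hs).mono fun _ e => (D.sl h e (D.kv (D.ak t))).fderiv)).fderiv
  have j := fun v : ℂ => i.apply_continuousLinearMap v
  simp only [InnerProductSpace.laplacian_eq_iteratedFDeriv_complexPlane, iteratedFDeriv_two_apply,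
    e1, ContinuousLinearMap.integral_apply i, ContinuousLinearMap.integral_apply (j _)]
  rw [← integral_add ((j _).apply_continuousLinearMap _) ((j _).apply_continuousLinearMap _)]
  exact setIntegral_congr_fun D.a fun τ t => by simp only [e2 τ t]

end Gr2

open Gr2

/-- **GR2** -/
theorem gr2 (h : GRN) : GR2 := by
  rintro a b r r0 ha hb cb H ⟨C, hC⟩ η η0
  set L := WM.av fun τ => b (0, τ)
  have c0 : ContinuousOn (fun p : ℂ × ℝ => Real.circleAverage (fun τ => b (p.1, τ)) 0 p.2)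
      (ball 0 r ×ˢ Icc 0 1) := by
    rw [continuousOn_iff_continuous_domRestrict]
    refine (intervalIntegral.continuous_parametric_intervalIntegral_of_continuous' (μ := volume)
      (f := fun x : ↑(ball (0 : ℂ) r ×ˢ Icc (0 : ℝ) 1) => fun θ => b (x.1.1, circleMap 0 x.1.2 θ)) ?_
      0 (2 * Real.pi)).const_smul (2 * Real.pi)⁻¹
    refine cb.comp_continuous (by fun_prop [circleMap]) fun x => ⟨x.1.2.1, ?_⟩
    simpa [abs_of_nonneg x.1.2.2.1] using x.1.2.2.2
  obtain ⟨ε, ε0, hε⟩ := Metric.mem_nhdsWithin_iff.1 ((c0 (0, 1) ⟨mem_ball_self r0, by simp⟩).eventually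
    (gt_mem_nhds (lt_add_of_pos_right L η0)))
  obtain ⟨u, -, u1, u2⟩ := exists_seq_strictMono_tendsto' (show max 0 (1 - ε) < 1 by simp [ε0])
  have p0 : ∀ k, 0 < u k := fun k => (le_max_left _ _).trans_lt (u1 k).1
  have D : ∀ k, Dm (ball 0 r) (ball 0 1) (closedBall 0 (u k)) (ball 0 (u k)) := fun k =>
    ⟨isOpen_ball, isOpen_ball, isCompact_closedBall _ _, measurableSet_ball, ball_subset_closedBall,
      closedBall_subset_ball (u1 k).2⟩
  have sf : ∀ ρ : ℝ, ContDiffOn ℝ ∞ (fun q : ℂ × ℂ => (ρ ^ 2 - ‖q.2‖ ^ 2) * a q / Real.pi)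
      (ball 0 r ×ˢ ball 0 1) := fun ρ => ((contDiff_const.sub
        ((contDiff_norm_sq ℝ).comp contDiff_snd)).contDiffOn.mul ha).div_const _
  set T : ℕ → ℂ → ℝ := fun k s => ∫ τ in ball 0 (u k), (u k ^ 2 - ‖τ‖ ^ 2) * a (s, τ) / Real.pi
  have cT : ∀ k, ContDiffOn ℝ 2 (T k) (ball 0 r) := fun k => (D k).cd 2 (sf (u k))
  have lT : ∀ k, ∀ s ∈ ball (0 : ℂ) (min ε r), Δ (T k) s ≤ 4 * (L + η) := fun k s hs => by
    have s1 := ball_subset_ball (min_le_right _ _) hs
    have g := (h (fun τ => b (s, τ)) 1 (u k) (p0 k) (u1 k).2 ((hb.of_le (by norm_cast)).comp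
      (contDiff_prodMk_right s).contDiffOn fun _ e => ⟨s1, e⟩)).1 fun τ e => (H s s1 τ e).2.1
    have g1 : Real.circleAverage (fun τ => b (s, τ)) 0 (u k) < L + η := hε (a := (s, u k))
      ⟨by
        rw [← ball_prod_same]
        refine ⟨ball_subset_ball (min_le_left _ _) hs, ?_⟩
        rw [Real.ball_eq_Ioo]
        exact ⟨(le_max_right _ _).trans_lt (u1 k).1, (u1 k).2.trans (by simpa)⟩,
      s1, (p0 k).le, (u1 k).2.le⟩
    have g2 : 0 ≤ Real.circleAverage (fun τ => b (s, τ)) 0 (u k) :=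
      Real.circleAverage_nonneg_of_nonneg fun τ e => (H s s1 τ
        (sphere_subset_ball (by rw [abs_of_pos (p0 k)]; exact (u1 k).2) e)).2.1
    rw [(D k).lap (sf (u k)) s1, setIntegral_congr_fun (g := fun τ => (u k ^ 2 - ‖τ‖ ^ 2) *
      (Δ fun τ => b (s, τ)) τ / Real.pi) measurableSet_ball fun τ e => ?_, integral_div,
      div_le_iff₀ Real.pi_pos]
    · have := Real.pi_pos
      have := pow_le_one₀ (n := 2) (p0 k).le (u1 k).2.le
      refine g.trans ?_
      rw [show 4 * (L + η) * Real.pi = 4 * Real.pi * 1 * (L + η) by ring]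
      gcongr
    have t1 := ball_subset_ball (u1 k).2.le e
    have := InnerProductSpace.laplacian_smul (f := fun s => a (s, τ)) (x := s)
      ((u k ^ 2 - ‖τ‖ ^ 2) / Real.pi) (((ha.of_le (by norm_cast)).contDiffAt
        ((isOpen_ball.prod isOpen_ball).mem_nhds ⟨s1, t1⟩)).comp s (contDiff_prodMk_left τ).contDiffAt)
    simp only [← (H s s1 τ t1).2.2]
    rw [← div_mul_eq_mul_div, ← smul_eq_mul, ← this]
    exact congrFun (congrArg _ (funext fun s => (div_mul_eq_mul_div _ _ _).symm)) s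
  set G : ℂ → ℝ := fun s => (∫⁻ τ in ball (0 : ℂ) 1,
    ENNReal.ofReal ((1 - ‖τ‖ ^ 2) * a (s, τ) / Real.pi)).toReal
  have tT : ∀ s ∈ ball (0 : ℂ) r, Tendsto (fun k => T k s) atTop (𝓝 (G s)) ∧
      ∀ k, ‖T k s‖ ≤ max C 0 := fun s hs => by
    have ca : ContinuousOn (fun τ => a (s, τ)) (ball 0 1) :=
      ha.continuousOn.comp (Continuous.prodMk_right s).continuousOn fun _ e => ⟨hs, e⟩
    have m : ∀ {w : ℂ → ℝ}, Continuous w → AEStronglyMeasurable (fun τ => w τ * a (s, τ) / Real.pi)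
        (volume.restrict (ball 0 1)) := fun c =>
      ((c.continuousOn.mul ca).div_const _).aestronglyMeasurable measurableSet_ball
    have n1 : ∀ τ ∈ ball (0 : ℂ) 1, 0 ≤ 1 - ‖τ‖ ^ 2 := fun τ e =>
      sub_nonneg.2 (pow_le_one₀ (norm_nonneg _) (mem_ball_zero_iff.1 e).le)
    have nn : 0 ≤ᵐ[volume.restrict (ball 0 1)] fun τ => (1 - ‖τ‖ ^ 2) * a (s, τ) / Real.pi :=
      ae_restrict_of_forall_mem measurableSet_ball fun τ e =>
        div_nonneg (mul_nonneg (n1 τ e) (H s hs τ e).1) Real.pi_pos.le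
    have i : Integrable (fun τ => (1 - ‖τ‖ ^ 2) * a (s, τ) / Real.pi) (volume.restrict (ball 0 1)) :=
      ⟨m (by fun_prop), (hasFiniteIntegral_iff_ofReal nn).2 ((hC s hs).trans_lt ENNReal.ofReal_lt_top)⟩
    have eG := integral_eq_lintegral_of_nonneg_ae nn i.1
    have eT : ∀ k, T k s = ∫ τ in ball 0 1, max (u k ^ 2 - ‖τ‖ ^ 2) 0 * a (s, τ) / Real.pi := fun k => by
      rw [setIntegral_eq_of_subset_of_forall_sdiff_eq_zero measurableSet_ball
        (ball_subset_ball (u1 k).2.le) fun τ e => ?_]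
      · exact setIntegral_congr_fun measurableSet_ball fun τ e => by
          simp only [max_eq_left (sub_nonneg.2 (pow_le_pow_left₀ (norm_nonneg _)
            (mem_ball_zero_iff.1 e).le 2))]
      · rw [max_eq_right (sub_nonpos.2 (pow_le_pow_left₀ (p0 k).le
          (not_lt.1 (mt mem_ball_zero_iff.2 e.2)) 2)), zero_mul, zero_div]
    have bd : ∀ k, ∀ᵐ τ ∂volume.restrict (ball 0 1), ‖max (u k ^ 2 - ‖τ‖ ^ 2) 0 * a (s, τ) / Real.pi‖ ≤
        (1 - ‖τ‖ ^ 2) * a (s, τ) / Real.pi := fun k =>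
      ae_restrict_of_forall_mem measurableSet_ball fun τ e => by
        have := (H s hs τ e).1
        have := Real.pi_pos
        rw [Real.norm_of_nonneg (by positivity)]
        gcongr
        exact max_le (sub_le_sub_right (pow_le_one₀ (p0 k).le (u1 k).2.le) _) (n1 τ e)
    simp only [eT]
    refine ⟨(tendsto_integral_of_dominated_convergence _ (fun k => m (by fun_prop)) i bd
      (ae_restrict_of_forall_mem measurableSet_ball fun τ e => ?_)).trans_eq (congrArg 𝓝 eG), fun k =>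
      (norm_integral_le_of_norm_le i (bd k)).trans (eG.trans_le ?_)⟩
    · convert ((((u2.pow 2).sub_const (‖τ‖ ^ 2)).max (tendsto_const_nhds (x := 0))).mul_const
        (a (s, τ))).div_const Real.pi using 4
      exact (max_eq_left (n1 τ e)).symm.trans (by rw [one_pow])
    · exact (ENNReal.toReal_mono ENNReal.ofReal_ne_top (hC s hs)).trans_eq ENNReal.toReal_ofReal'
  filter_upwards [Ioo_mem_nhdsGT (lt_min ε0 r0)] with σ hσ
  have m : ∀ θ, circleMap 0 σ θ ∈ ball (0 : ℂ) r := fun θ => by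
    simpa [abs_of_pos hσ.1] using hσ.2.trans_le (min_le_right _ _)
  have mk : ∀ k, AEStronglyMeasurable (fun θ => T k (circleMap 0 σ θ))
      (volume.restrict (uIoc 0 (2 * Real.pi))) := fun k =>
    ((cT k).continuousOn.comp_continuous (continuous_circleMap 0 σ) m).aestronglyMeasurable
  refine ⟨(intervalIntegrable_const (c := max C 0)).mono_fun' (aestronglyMeasurable_of_tendsto_ae _ mk
    (.of_forall fun θ => (tT _ (m θ)).1)) (.of_forall fun θ => le_of_tendsto' (tT _ (m θ)).1.norm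
      (tT _ (m θ)).2), ?_⟩
  rw [mul_comm]
  exact le_of_tendsto_of_tendsto' ((intervalIntegral.tendsto_integral_filter_of_dominated_convergence
    (fun _ => max C 0) (.of_forall mk) (.of_forall fun k => .of_forall fun θ _ => (tT _ (m θ)).2 k)
    intervalIntegrable_const (.of_forall fun θ _ => (tT _ (m θ)).1)).const_smul _)
    ((tT 0 (mem_ball_self r0)).1.add_const _) fun k => (h (T k) _ σ hσ.1 hσ.2
      ((cT k).mono (ball_subset_ball (min_le_right _ _)))).2 _ (lT k)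

end Vale.Agent.P253W.A
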