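import Vale.Agent.P253W.A.Defs2
import Vale.Agent.P272.GJ.Green

/-!
# P253W, block A: two consequences of the formula of Green
-/

open scoped Real Topology Laplacian
open MeasureTheory Set Metric Complex Vale.Agent.P272.GJ

noncomputable section

namespace Vale.Agent.P253W.A

namespace Grn

variable {φ : ℂ → ℝ} {r : ℝ}

theorem lap_eq {z : ℂ} (h : ContDiffAt ℝ 2 φ z) : (Δ φ) z = 4 * ddb φ z := by
  rw [ddb_eq h, InnerProductSpace.laplacian_eq_iteratedFDeriv_complexPlane]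
  simp only [iteratedFDeriv_two_apply, Matrix.cons_val_zero, Matrix.cons_val_one]
  ring

theorem one {a b c : ℝ → ℝ} (hr : 0 < r) (ca : ContinuousOn a (Icc 0 r))
    (cb : ContinuousOn b (Icc 0 r)) (cc : ContinuousOn c (Icc 0 r))
    (d : ∀ ρ ∈ Ioo 0 r, HasDerivAt a (b ρ) ρ ∧ HasDerivAt b (c ρ) ρ) (p : ∀ ρ ∈ Ioo 0 r, 0 ≤ a ρ) :
    ∫ ρ in (0 : ℝ)..r, (r ^ 2 - ρ ^ 2) * (b ρ + ρ * c ρ) ≤ 2 * r ^ 2 * a r := by
  have := intervalIntegral.integral_le_sub_of_hasDeriv_right_of_le hr.le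
    (g := fun ρ => (r ^ 2 - ρ ^ 2) * (ρ * b ρ) + 2 * ρ ^ 2 * a ρ)
    (φ := fun ρ => (r ^ 2 - ρ ^ 2) * (b ρ + ρ * c ρ))
    (g' := fun ρ => (r ^ 2 - ρ ^ 2) * (b ρ + ρ * c ρ) + 4 * ρ * a ρ) (by fun_prop)
    (fun ρ hρ => ?_) (ContinuousOn.integrableOn_Icc (by fun_prop)) fun ρ hρ =>
      le_add_of_nonneg_right (mul_nonneg (by linarith [hρ.1]) (p ρ hρ))
  · simpa using this
  refine (((((hasDerivAt_pow 2 ρ).const_sub _).fun_mul ((hasDerivAt_id' ρ).fun_mul (d ρ hρ).2)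
    ).fun_add (((hasDerivAt_pow 2 ρ).const_mul 2).fun_mul (d ρ hρ).1)).congr_deriv ?_
      ).hasDerivWithinAt
  norm_num
  ring

theorem rad (hr : 0 < r) (hφ : ∀ z ∈ closedBall (0 : ℂ) r, ContDiffAt ℝ 2 φ z)
    (h0 : ∀ z ∈ closedBall (0 : ℂ) r, 0 ≤ φ z) (θ : ℝ) :
    ∫ ρ in (0 : ℝ)..r, (r ^ 2 - ρ ^ 2) * (fderiv ℝ φ (pt ρ θ) (exp (θ * I)) +
      ρ * fderiv ℝ (fderiv ℝ φ) (pt ρ θ) (exp (θ * I)) (exp (θ * I))) ≤ 2 * r ^ 2 * φ (pt r θ) := by
  set e : ℂ := exp (θ * I)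
  have m : MapsTo (fun ρ => pt ρ θ) (Icc 0 r) (closedBall (0 : ℂ) r) := fun ρ hρ =>
    pt_mem hρ.1 hρ.2 θ
  have c : Continuous fun ρ => pt ρ θ := by unfold pt; fun_prop
  have c0 : ContinuousOn (fun ρ => φ (pt ρ θ)) (Icc 0 r) := (contOn0 hφ).comp c.continuousOn m
  have c1 : ContinuousOn (fun ρ => fderiv ℝ φ (pt ρ θ) e) (Icc 0 r) :=
    ((contOn1 hφ).comp c.continuousOn m).clm_apply continuousOn_const
  have c2 : ContinuousOn (fun ρ => fderiv ℝ (fderiv ℝ φ) (pt ρ θ) e e) (Icc 0 r) :=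
    (((contOn2 hφ).comp c.continuousOn m).clm_apply continuousOn_const).clm_apply continuousOn_const
  have d : ∀ ρ ∈ Ioo 0 r, HasDerivAt (fun ρ => φ (pt ρ θ)) (fderiv ℝ φ (pt ρ θ) e) ρ ∧ HasDerivAt
      (fun ρ => fderiv ℝ φ (pt ρ θ) e) (fderiv ℝ (fderiv ℝ φ) (pt ρ θ) e e) ρ := fun ρ hρ => by
    have hz := hφ _ (m (Ioo_subset_Icc_self hρ))
    have d1 : HasDerivAt (fun ρ => fderiv ℝ φ (pt ρ θ)) (fderiv ℝ (fderiv ℝ φ) (pt ρ θ) e) ρ :=
      ((hz.fderiv_right (m := 1) (by norm_num)).differentiableAt (by norm_num)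
        ).hasFDerivAt.comp_hasDerivAt ρ (hasDerivAt_pt ρ θ)
    exact ⟨(hz.differentiableAt (by norm_num)).hasFDerivAt.comp_hasDerivAt ρ (hasDerivAt_pt ρ θ),
      by simpa using d1.clm_apply (hasDerivAt_const ρ e)⟩
  exact one hr c0 c1 c2 d fun ρ hρ => h0 _ (m (Ioo_subset_Icc_self hρ))

theorem wt (hr : 0 < r) (hφ : ∀ z ∈ closedBall (0 : ℂ) r, ContDiffAt ℝ 2 φ z)
    (h0 : ∀ z ∈ closedBall (0 : ℂ) r, 0 ≤ φ z) :
    ∫ z in ball (0 : ℂ) r, (r ^ 2 - ‖z‖ ^ 2) * (4 * ddb φ z) ≤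
      4 * π * r ^ 2 * Real.circleAverage φ 0 r := by
  let e : ℝ → ℂ := fun θ => exp (θ * I)
  have ce : Continuous e := by fun_prop
  have c1 := contOn_pt_prod (contOn1 hφ)
  have c2 := contOn_pt_prod (contOn2 hφ)
  have i : ∀ {g : ℝ × ℝ → ℝ}, ContinuousOn g (Icc 0 r ×ˢ Icc (-π) π) →
      IntegrableOn g (Ioo 0 r ×ˢ Ioo (-π) π) (volume.prod volume) := fun h =>
    (h.integrableOn_compact (isCompact_Icc.prod isCompact_Icc)).mono_set
      (prod_mono Ioo_subset_Icc_self Ioo_subset_Icc_self)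
  have i1 := i (g := fun p => (r ^ 2 - p.1 ^ 2) * (fderiv ℝ φ (pt p.1 p.2) (e p.2) +
    p.1 * fderiv ℝ (fderiv ℝ φ) (pt p.1 p.2) (e p.2) (e p.2))) (by fun_prop)
  have i2 := i (g := fun p => (r ^ 2 - p.1 ^ 2) * (p.1 * fderiv ℝ (fderiv ℝ φ) (pt p.1 p.2)
    (I * e p.2) (I * e p.2) - fderiv ℝ φ (pt p.1 p.2) (e p.2))) (by fun_prop)
  have hπ : -π ≤ π := by linarith [Real.pi_pos]
  have c0 : Continuous fun θ => φ (pt r θ) := continuousOn_univ.1
    ((contOn0 hφ).comp (by unfold pt; fun_prop) fun θ _ => pt_mem hr.le le_rfl θ)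
  have i3 := i1.swap
  rw [Function.comp_def] at i3
  rw [setIntegral_ball_polar, Measure.volume_eq_prod, setIntegral_congr_fun
    (measurableSet_Ioo.prod measurableSet_Ioo) (g := _ + _) ?_, integral_add' i1 i2,
    setIntegral_prod _ i2, setIntegral_congr_fun measurableSet_Ioo (g := fun _ => (0 : ℝ))
      (s := Ioo 0 r) fun ρ hρ => ?_, integral_zero, add_zero, ← setIntegral_prod_swap,
    setIntegral_prod _ i3, circleAverage_eq_pi, smul_eq_mul, intervalIntegral.integral_of_le hπ,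
    integral_Ioc_eq_integral_Ioo, ← mul_assoc,
    show 4 * π * r ^ 2 * (2 * π)⁻¹ = 2 * r ^ 2 by field_simp; norm_num, ← integral_const_mul]
  · refine setIntegral_mono_on ?_ (((continuous_const.mul c0).integrableOn_Icc).mono_set
      Ioo_subset_Icc_self) measurableSet_Ioo fun θ _ => ?_
    · unfold IntegrableOn at i3
      rw [← Measure.prod_restrict] at i3
      exact i3.integral_prod_left
    · have h := rad hr hφ h0 θ
      rwa [intervalIntegral.integral_of_le hr.le, integral_Ioc_eq_integral_Ioo] at h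
  · have h := angular hφ hρ.1.le hρ.2.le
    rw [intervalIntegral.integral_of_le hπ, integral_Ioc_eq_integral_Ioo] at h
    simp only [e]
    rw [integral_const_mul, h, mul_zero]
  · intro p hp
    simp only [ddb_eq_rot (hφ _ (pt_mem hp.1.1.le hp.1.2.le p.2)) p.2, norm_pt, sq_abs,
      Pi.add_apply, smul_eq_mul, e]
    ring

end Grn

open Grn in
/-- **GRN** -/
theorem grn : GRN := fun b R ρ h0 h1 hb => by
  have s : closedBall (0 : ℂ) ρ ⊆ ball 0 R := closedBall_subset_ball h1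
  have h : ∀ z ∈ closedBall (0 : ℂ) ρ, ContDiffAt ℝ 2 b z := fun z hz =>
    hb.contDiffAt (isOpen_ball.mem_nhds (s hz))
  refine ⟨fun p => le_of_eq_of_le (setIntegral_congr_fun measurableSet_ball fun z hz => ?_)
    (wt h0 h fun z hz => p z (s hz)), fun L hL => ?_⟩
  · rw [lap_eq (h z (ball_subset_closedBall hz))]
  obtain ⟨C, hC⟩ := (isCompact_closedBall (0 : ℂ) ρ).exists_bound_of_continuousOn (contOn_ddb h)
  rw [← sub_le_iff_le_add', ← green_jensen h0 h, ← integral_Gr h0, mul_comm, ← integral_mul_const]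
  refine setIntegral_mono_on ((integrableOn_Gr h0).mul_bdd (c := C)
    (((contOn_ddb h).mono ball_subset_closedBall).aestronglyMeasurable measurableSet_ball)
    (ae_restrict_of_forall_mem measurableSet_ball fun z hz => hC z (ball_subset_closedBall hz)))
    ((integrableOn_Gr h0).mul_const L) measurableSet_ball fun z hz =>
      mul_le_mul_of_nonneg_left ?_ (Gr_nonneg hz)
  linarith [hL z (s (ball_subset_closedBall hz)), lap_eq (h z (ball_subset_closedBall hz))]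

end Vale.Agent.P253W.A
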