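import Vale.Agent.P253W.A.Defs2
import Vale.Agent.P253W.FG.Ev

/-!
# P253W, row A.HOM: homogeneity
-/

open scoped ContDiff Topology ComplexConjugate ComplexOrder Matrix
open Set Metric Filter Matrix
open Vale.Agent.P272.K (Cm dz dzb cHess)
open Vale.Agent.P272.K.C2

noncomputable section

namespace Vale.Agent.P253W.A

namespace Hom

variable {n m : ℕ}

theorem dz_lin (L : Cm m →L[ℝ] Cm n) {j : Fin m} {j' : Fin n} {a : ℝ}
    (hL : ∀ c : ℂ, L (Pi.single j c) = a • Pi.single j' c) {f : Cm n → ℂ} {w : Cm m}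
    (hf : DifferentiableAt ℝ f (L w)) :
    dz j (fun y => f (L y)) w = a * dz j' f (L w) ∧
      dzb j (fun y => f (L y)) w = a * dzb j' f (L w) := by
  have h := (hf.hasFDerivAt.comp w L.hasFDerivAt).fderiv
  rw [Function.comp_def] at h
  simp only [dz, dzb, h, ContinuousLinearMap.comp_apply, hL, map_smul, Complex.real_smul]
  constructor <;> ring

theorem cHess_lin (L : Cm m →L[ℝ] Cm n) {j k : Fin m} {j' k' : Fin n} {a b : ℝ}
    (hj : ∀ c : ℂ, L (Pi.single j c) = a • Pi.single j' c)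
    (hk : ∀ c : ℂ, L (Pi.single k c) = b • Pi.single k' c) {u : Cm n → ℝ} {w : Cm m}
    (hu : ContDiffAt ℝ 2 u (L w)) :
    cHess (fun y => u (L y)) w j k = a * b * cHess u (L w) j' k' := by
  have h1 := contDiffAt_ofReal hu
  have h2 := differentiableAt_dzb k' h1
  have e : (dzb k fun y => (u (L y) : ℂ)) =ᶠ[𝓝 w] fun y => b * dzb k' (fun y => (u y : ℂ)) (L y) := by
    filter_upwards [L.continuous.continuousAt.eventually (eventually_contDiffAt (m := 2) h1)]
      with y hy using (dz_lin L hk (hy.differentiableAt (by norm_num))).2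
  rw [cHess_apply, cHess_apply, dz_congr j e,
    dz_const_mul j _ (h2.fun_comp' w L.differentiableAt), (dz_lin L hj h2).1]
  ring

theorem zc_app (z p : Cm n) : zc (Fin.append z p) = z := funext fun i => Fin.append_left z p i

theorem vc_app (z p : Cm n) : vc (Fin.append z p) = p := funext fun i => Fin.append_right z p i

theorem hb_cc (a : Mx n) (i j : Fin n) : hb a (Fin.castAdd n i) (Fin.castAdd n j) = a j i := by
  simp only [hb, reindex_apply, submatrix_apply, finSumFinEquiv_symm_apply_castAdd,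
    fromBlocks_apply₁₁, transpose_apply]

theorem hb_cn (a : Mx n) (i j : Fin n) : hb a (Fin.castAdd n i) (Fin.natAdd n j) = 0 := by
  simp only [hb, reindex_apply, submatrix_apply, finSumFinEquiv_symm_apply_castAdd,
    finSumFinEquiv_symm_apply_natAdd, fromBlocks_apply₁₂, Matrix.zero_apply]

theorem hb_nc (a : Mx n) (i j : Fin n) : hb a (Fin.natAdd n i) (Fin.castAdd n j) = 0 := by
  simp only [hb, reindex_apply, submatrix_apply, finSumFinEquiv_symm_apply_castAdd,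
    finSumFinEquiv_symm_apply_natAdd, fromBlocks_apply₂₁, Matrix.zero_apply]

theorem hb_nn (a : Mx n) (i j : Fin n) : hb a (Fin.natAdd n i) (Fin.natAdd n j) = 0 := by
  simp only [hb, reindex_apply, submatrix_apply, finSumFinEquiv_symm_apply_natAdd,
    fromBlocks_apply₂₂, Matrix.zero_apply]

theorem mul_pz (a : Mx (n + n)) (i : Fin (n + n)) (k : Fin n) :
    (a * pz n) i (Fin.castAdd n k) = -a i (Fin.natAdd n k) ∧
      (a * pz n) i (Fin.natAdd n k) = a i (Fin.castAdd n k) := by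
  simp only [mul_apply, Fin.sum_univ_add, pz, reindex_apply, submatrix_apply,
    finSumFinEquiv_symm_apply_castAdd, finSumFinEquiv_symm_apply_natAdd, fromBlocks_apply₁₁,
    fromBlocks_apply₁₂, fromBlocks_apply₂₁, fromBlocks_apply₂₂, Matrix.zero_apply,
    Matrix.neg_apply, one_apply]
  simp

theorem pz_mul (a : Mx (n + n)) (i : Fin (n + n)) (k : Fin n) :
    ((pz n)ᴴ * a) (Fin.castAdd n k) i = -a (Fin.natAdd n k) i ∧
      ((pz n)ᴴ * a) (Fin.natAdd n k) i = a (Fin.castAdd n k) i := by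
  simp only [mul_apply, Fin.sum_univ_add, pz, conjTranspose_apply, reindex_apply, submatrix_apply,
    finSumFinEquiv_symm_apply_castAdd, finSumFinEquiv_symm_apply_natAdd, fromBlocks_apply₁₁,
    fromBlocks_apply₁₂, fromBlocks_apply₂₁, fromBlocks_apply₂₂, Matrix.zero_apply,
    Matrix.neg_apply, one_apply]
  simp [apply_ite star]

theorem bf_eq (a b : Mx (n + n)) : ((pz n)ᴴ * a * pz n * bᵀ).trace = ∑ i, ∑ j,
    (a (Fin.natAdd n i) (Fin.natAdd n j) * b (Fin.castAdd n i) (Fin.castAdd n j) -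
      a (Fin.natAdd n i) (Fin.castAdd n j) * b (Fin.castAdd n i) (Fin.natAdd n j) -
      a (Fin.castAdd n i) (Fin.natAdd n j) * b (Fin.natAdd n i) (Fin.castAdd n j) +
      a (Fin.castAdd n i) (Fin.castAdd n j) * b (Fin.natAdd n i) (Fin.natAdd n j)) := by
  change ∑ i, ∑ j, ((pz n)ᴴ * a * pz n) i j * b i j = _
  simp only [Fin.sum_univ_add, (mul_pz _ _ _).1, (mul_pz _ _ _).2, (pz_mul _ _ _).1,
    (pz_mul _ _ _).2, ← Finset.sum_add_distrib]
  exact Finset.sum_congr rfl fun i _ => Finset.sum_congr rfl fun j _ => by ring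

theorem hom2 (A A' : ℝ) (p : Cm n) (a b : Mx (n + n)) (_hp : p ≠ 0) (ha : Wt A p a)
    (hb : Wt A' p b) : |Bf a b| ≤ 2 * n ^ 2 * A * A' / ‖p‖ ^ 2 := by
  have m : ∀ {x y : ℂ} {s t : ℝ}, ‖x‖ ≤ s → ‖y‖ ≤ t → s * t = A * A' / ‖p‖ ^ 2 →
      ‖x * y‖ ≤ A * A' / ‖p‖ ^ 2 := fun h1 h2 h3 =>
    (norm_mul_le_of_le h1 h2).trans_eq h3
  have h : ‖((pz n)ᴴ * a * pz n * bᵀ).trace‖ ≤ ∑ _i : Fin n, ∑ _j : Fin n,
      4 * (A * A' / ‖p‖ ^ 2) := by
    rw [bf_eq]
    refine norm_sum_le_of_le _ fun i _ => norm_sum_le_of_le _ fun j _ => ?_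
    refine (norm_add_le_of_le (norm_sub_le_of_le (norm_sub_le_of_le
      (m (ha i j).2.2.2 (hb i j).1 (by ring)) (m (ha i j).2.2.1 (hb i j).2.1 (by ring)))
      (m (ha i j).2.1 (hb i j).2.2.1 (by ring))) (m (ha i j).1 (hb i j).2.2.2 (by ring))).trans_eq
      (by ring)
  simp only [Finset.sum_const, Finset.card_univ, Fintype.card_fin, nsmul_eq_mul] at h
  rw [Bf, abs_div, abs_two, div_le_iff₀ two_pos]
  exact ((Complex.abs_re_le_norm _).trans h).trans_eq (by ring)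

theorem hom3 (A : ℝ) (p : Cm n) (a : Mx n) (h : Bd A a) (hA : 0 ≤ A) : Wt A p (hb a) := by
  intro i j
  rw [hb_cc, hb_cn, hb_nc, hb_nn, norm_zero]
  exact ⟨h j i, by positivity, by positivity, by positivity⟩

theorem hom4 (a b : Mx (n + n)) :
    Qf (pz n) (a + b) = Qf (pz n) a + Bf a b + Bf b a + Bf b b := by
  simp only [Qf, Bf, Matrix.mul_add, Matrix.add_mul, transpose_add, trace_add, Complex.add_re]
  ring

theorem hom5 (a : Mx n) (w : Cm (n + n)) : hf (hb a) w = qf a (zc w) := by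
  simp only [hf, qf, dotProduct, mulVec, Fin.sum_univ_add, hb_cc, hb_cn, hb_nc, hb_nn, zero_mul,
    mul_zero, Finset.sum_const_zero, add_zero, Finset.mul_sum, Pi.star_apply, zc]
  rw [Finset.sum_comm]
  exact congrArg _ (Finset.sum_congr rfl fun i _ => Finset.sum_congr rfl fun j _ => by ring)

/-- the projection to the base -/
def zL (n : ℕ) : Cm (n + n) →L[ℝ] Cm n :=
  ContinuousLinearMap.pi fun i => ContinuousLinearMap.proj (Fin.castAdd n i)

theorem hom6 (f : Cm n → ℝ) (w : Cm (n + n)) (h : ContDiffAt ℝ 2 f (zc w)) :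
    (cHess (fun w => f (zc w)) w)ᵀ = hb (cHess f (zc w)) := by
  have c1 : ∀ (i : Fin n) (c : ℂ),
      zL n (Pi.single (Fin.castAdd n i) c) = (1 : ℝ) • Pi.single i c := fun i c => by
    ext k
    simp [zL, Pi.single_apply]
  have c0 : ∀ (i : Fin n) (c : ℂ),
      zL n (Pi.single (Fin.natAdd n i) c) = (0 : ℝ) • Pi.single i c := fun i c => by
    ext k
    have : Fin.castAdd n k ≠ Fin.natAdd n i := fun e => by
      have := congrArg Fin.val e
      simp only [Fin.val_castAdd, Fin.val_natAdd] at this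
      omega
    simp only [zL, ContinuousLinearMap.pi_apply, ContinuousLinearMap.proj_apply,
      Pi.single_eq_of_ne this, zero_smul, Pi.zero_apply]
  ext i j
  refine Fin.addCases (fun i => ?_) (fun i => ?_) i <;>
    refine Fin.addCases (fun j => ?_) (fun j => ?_) j
  · rw [hb_cc]
    exact (cHess_lin (zL n) (c1 j) (c1 i) h).trans (by simp; rfl)
  · rw [hb_cn]
    exact (cHess_lin (zL n) (c0 j) (c1 i) h).trans (by simp)
  · rw [hb_nc]
    exact (cHess_lin (zL n) (c1 j) (c0 i) h).trans (by simp)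
  · rw [hb_nn]
    exact (cHess_lin (zL n) (c0 j) (c0 i) h).trans (by simp)

theorem hom7 (φ : ℝ → ℝ) (u : Cm n → ℝ) (z : Cm n) (hu : ContDiffAt ℝ 2 u z)
    (hφ : ContDiffAt ℝ 2 φ (u z)) : cHess (fun y => φ (u y)) z =
      ((deriv φ (u z) : ℝ) : ℂ) • cHess u z + ((deriv (deriv φ) (u z) : ℝ) : ℂ) • FG.gg u z := by
  have h1 : DifferentiableAt ℝ (deriv φ) (u z) :=
    (((hφ.fderiv_right (m := 1) (by norm_num)).clm_apply contDiffAt_const).differentiableAt
      one_ne_zero)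
  ext j k
  rw [cHess_comp ((eventually_contDiffAt (m := 2) hφ).mono fun s hs =>
    (hs.differentiableAt (by norm_num)).hasDerivAt) h1.hasDerivAt hu,
    dzb_real k (hu.differentiableAt (by norm_num))]
  rfl

/-- the weights of the scaling of the fibres -/
def wt (n : ℕ) (s : ℝ) : Fin (n + n) → ℝ := Fin.append (fun _ => 1) fun _ => s

/-- the scaling of the fibres -/
def sL (n : ℕ) (s : ℝ) : Cm (n + n) →L[ℝ] Cm (n + n) :=
  ContinuousLinearMap.pi fun i => wt n s i • ContinuousLinearMap.proj i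

theorem sL_single (s : ℝ) (j : Fin (n + n)) (c : ℂ) :
    sL n s (Pi.single j c) = wt n s j • Pi.single j c := by
  ext k
  by_cases h : k = j <;> simp [sL, h]

theorem zc_sL (s : ℝ) (w : Cm (n + n)) : zc (sL n s w) = zc w := by
  ext k
  simp only [sL, zc, wt, ContinuousLinearMap.pi_apply, _root_.smul_apply,
    ContinuousLinearMap.proj_apply, Fin.append_left, one_smul]

theorem vc_sL (s : ℝ) (w : Cm (n + n)) : vc (sL n s w) = (s : ℂ) • vc w := by
  ext k
  simp only [sL, vc, wt, ContinuousLinearMap.pi_apply, _root_.smul_apply,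
    ContinuousLinearMap.proj_apply, Fin.append_right, Pi.smul_apply, Complex.real_smul, smul_eq_mul]

theorem hq_smul (g : Mx n) (s : ℝ) (p : Cm n) : hq g ((s : ℂ) • p) = s ^ 2 * hq g p := by
  simp only [hq, star_smul, mulVec_smul, smul_dotProduct, dotProduct_smul, smul_eq_mul,
    RCLike.star_def, Complex.conj_ofReal, Complex.re_ofReal_mul]
  ring

theorem hq_pos {g : Mx n} (hg : g.PosDef) {p : Cm n} (hp : p ≠ 0) : 0 < hq g p :=
  (Complex.pos_iff.1 (hg.inv.dotProduct_mulVec_pos hp)).1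

theorem Hq_sL (W : Cm n → Mx n) (s : ℝ) (w : Cm (n + n)) : Hq W (sL n s w) = s ^ 2 * Hq W w := by
  rw [Hq, zc_sL, vc_sL, hq_smul, Hq]

theorem wt_of {a b : Mx (n + n)} {A : ℝ} {p : Cm n} (hp : p ≠ 0) (hb : Bd A b)
    (h : ∀ i j, (wt n ‖p‖ j : ℂ) * wt n ‖p‖ i * a i j = b i j) : Wt A p a := by
  have h0 := norm_pos_iff.2 hp
  have k : ∀ i j, |wt n ‖p‖ j| * |wt n ‖p‖ i| * ‖a i j‖ ≤ A := fun i j => by
    simpa [← h] using hb i j
  intro i j
  have k1 := k (Fin.castAdd n i) (Fin.castAdd n j)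
  have k2 := k (Fin.castAdd n i) (Fin.natAdd n j)
  have k3 := k (Fin.natAdd n i) (Fin.castAdd n j)
  have k4 := k (Fin.natAdd n i) (Fin.natAdd n j)
  simp only [wt, Fin.append_left, Fin.append_right, abs_one, one_mul, mul_one, abs_norm]
    at k1 k2 k3 k4
  exact ⟨k1, (le_div_iff₀' h0).2 k2, (le_div_iff₀' h0).2 k3,
    (le_div_iff₀' (pow_pos h0 2)).2 (by rwa [sq])⟩

theorem hom1 (U C : Set (Cm n)) (W : ℝ → Cm n → Mx n) (S : ℝ) (hU : IsOpen U) (hC : IsCompact C)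
    (hCU : C ⊆ U) (hW : ∀ j k, ContDiffOn ℝ ∞ (fun q : ℝ × Cm n => W q.1 q.2 j k) (Ici 0 ×ˢ U))
    (hp : ∀ t, 0 ≤ t → ∀ z ∈ U, (W t z).PosDef) : ∃ A : ℝ, 0 ≤ A ∧ ∀ t ∈ Icc 0 S, ∀ z ∈ C,
      ∀ p : Cm n, p ≠ 0 → hq (W t z) p ≤ A * ‖p‖ ^ 2 ∧
        Wt A p ((((hq (W t z) p)⁻¹ : ℝ) : ℂ) • (cHess (Hq (W t)) (Fin.append z p))ᵀ) ∧
        Wt A p (cHess (fun w => Real.log (Hq (W t) w)) (Fin.append z p))ᵀ := by
  obtain ⟨V, hV⟩ : ∃ V : Set (Cm (n + n)), V = {w | zc w ∈ U ∧ vc w ≠ 0} := ⟨_, rfl⟩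
  have cz : ContDiff ℝ ∞ (zc (n := n)) := contDiff_pi.2 fun i => contDiff_apply ℝ ℂ _
  have cv : ContDiff ℝ ∞ (vc (n := n)) := contDiff_pi.2 fun i => contDiff_apply ℝ ℂ _
  have oV : IsOpen V := hV ▸ (hU.preimage cz.continuous).inter (isOpen_ne.preimage cv.continuous)
  have mV : ∀ {z p : Cm n}, z ∈ C → p ≠ 0 → Fin.append z p ∈ V := fun hz h0 => by
    rw [hV, mem_ofPred, zc_app, vc_app]
    exact ⟨hCU hz, h0⟩
  have pos : ∀ q ∈ Ici (0 : ℝ) ×ˢ V, 0 < Hq (W q.1) q.2 := fun q hq =>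
    hq_pos (hp _ hq.1 _ (hV ▸ hq.2).1) (hV ▸ hq.2).2
  have s0 : ContDiffOn ℝ ∞ (fun q : ℝ × Cm (n + n) => Hq (W q.1) q.2) (Ici 0 ×ˢ V) := by
    have h1 := fun j k => (FG.sm_inv hW (fun q hq => posDef_det_ne_zero (hp _ hq.1 _ hq.2)) j k).comp
      (contDiff_fst.prodMk (cz.comp contDiff_snd)).contDiffOn (s := Ici 0 ×ˢ V)
      fun q hq => ⟨hq.1, (hV ▸ hq.2).1⟩
    have h2 : ∀ i, ContDiffOn ℝ ∞ (fun q : ℝ × Cm (n + n) => vc q.2 i) (Ici 0 ×ˢ V) := fun i =>
      ((contDiff_pi.1 cv i).comp contDiff_snd).contDiffOn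
    exact Complex.reCLM.contDiff.comp_contDiffOn (ContDiffOn.sum fun i _ =>
      (Complex.conjCLE.contDiff.comp_contDiffOn (h2 i)).mul
        (ContDiffOn.sum (s := Finset.univ) fun k _ => (h1 i k).mul (h2 k)))
  have s1 := s0.log fun q hq => (pos q hq).ne'
  have hK : IsCompact (Icc (0 : ℝ) S ×ˢ ((fun q : Cm n × Cm n => Fin.append q.1 q.2) ''
      (C ×ˢ sphere 0 1))) :=
    isCompact_Icc.prod ((hC.prod (isCompact_sphere 0 1)).image (by fun_prop))
  obtain ⟨A, hA⟩ := hK.exists_bound_of_continuousOn (f := fun q => (Hq (W q.1) q.2,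
      fun j k => ((((Hq (W q.1) q.2)⁻¹ : ℝ) : ℂ) * cHess (Hq (W q.1)) q.2 j k,
        cHess (fun w => Real.log (Hq (W q.1) w)) q.2 j k)))
    ((s0.continuousOn.prodMk (continuousOn_pi.2 fun j => continuousOn_pi.2 fun k =>
      ((Complex.continuous_ofReal.comp_continuousOn (s0.continuousOn.inv₀ fun q hq =>
        (pos q hq).ne')).mul (FG.Calc.hess (uniqueDiffOn_Ici 0) oV s0 j k).continuousOn).prodMk
        (FG.Calc.hess (uniqueDiffOn_Ici 0) oV s1 j k).continuousOn)).mono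
      (prod_mono Icc_subset_Ici_self (by
        rintro _ ⟨q, hq, rfl⟩
        exact mV hq.1 (ne_zero_of_mem_unit_sphere ⟨_, hq.2⟩))))
  refine ⟨max A 0, le_max_right _ _, fun t ht z hz p h0 => ?_⟩
  have n0 := norm_pos_iff.2 h0
  obtain ⟨u, hu, e0⟩ : ∃ u ∈ sphere (0 : Cm n) 1, p = ((‖p‖ : ℝ) : ℂ) • u :=
    ⟨((‖p‖ : ℝ) : ℂ)⁻¹ • p, by simp [norm_smul, h0], by
      rw [smul_inv_smul₀ (Complex.ofReal_ne_zero.2 n0.ne')]⟩
  have b := (hA (t, Fin.append z u) ⟨ht, (z, u), ⟨hz, hu⟩, rfl⟩).trans (le_max_left A 0)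
  have b2 := fun j k => (norm_le_pi_norm _ k).trans ((norm_le_pi_norm _ j).trans
    (norm_prod_le_iff.1 b).2)
  have m0 := mV hz (ne_zero_of_mem_unit_sphere ⟨u, hu⟩)
  have e1 : sL n ‖p‖ (Fin.append z u) = Fin.append z p := by
    rw [← Fin.append_castAdd_natAdd (f := sL n ‖p‖ _)]
    change Fin.append (zc _) (vc _) = _
    rw [zc_sL, vc_sL, zc_app, vc_app, ← e0]
  have e2 : hq (W t z) p = ‖p‖ ^ 2 * Hq (W t) (Fin.append z u) := by
    rw [← Hq_sL, e1, Hq, zc_app, vc_app]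
  have t0 : ∀ {w}, w ∈ V → ContDiffAt ℝ 2 (Hq (W t)) w := fun hw =>
    (FG.Calc.slice oV s0 ht.1 hw).of_le FG.Calc.two_le
  have p0 := pos (t, _) ⟨ht.1, m0⟩
  refine ⟨?_, wt_of h0 (fun i j => (norm_prod_le_iff.1 (b2 j i)).1) fun i j => ?_,
    wt_of h0 (fun i j => (norm_prod_le_iff.1 (b2 j i)).2) fun i j => ?_⟩
  · rw [e2, mul_comm]
    exact mul_le_mul_of_nonneg_right ((le_abs_self _).trans (norm_prod_le_iff.1 b).1) (sq_nonneg _)
  · have h1 := cHess_lin (sL n ‖p‖) (sL_single _ j) (sL_single _ i) (e1 ▸ t0 (mV hz h0))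
    simp only [Hq_sL] at h1
    rw [cHess_const_mul _ (t0 m0), e1] at h1
    simp only [Matrix.smul_apply, transpose_apply, smul_eq_mul, e2] at h1 ⊢
    rw [mul_left_comm, ← h1]
    have := Complex.ofReal_ne_zero.2 n0.ne'
    push_cast
    field_simp
  · have h1 := cHess_lin (sL n ‖p‖) (sL_single _ j) (sL_single _ i)
      (e1 ▸ (t0 (mV hz h0)).log (pos (t, _) ⟨ht.1, mV hz h0⟩).ne')
    rw [e1] at h1
    refine h1.symm.trans (congrFun (congrFun (?_ : _ = cHess _ _) j) i)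
    have e3 : (fun y => Real.log (Hq (W t) (sL n ‖p‖ y))) =ᶠ[𝓝 (Fin.append z u)]
        fun y => Real.log (‖p‖ ^ 2) + Real.log (Hq (W t) y) := by
      filter_upwards [oV.mem_nhds m0] with y hy
      rw [Hq_sL, Real.log_mul (pow_pos n0 2).ne' (pos (t, y) ⟨ht.1, hy⟩).ne']
    rw [cHess_congr e3, cHess_add contDiffAt_const ((t0 m0).log p0.ne'), cHess_const, zero_add]

end Hom

open Hom in
/-- **HOM** -/
theorem hom : HOM := fun _ => ⟨hom1, hom2, hom3, hom4, hom5, hom6, hom7⟩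

end Vale.Agent.P253W.A
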