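import Vale.Agent.P253W.A.Defs2
import Vale.Agent.P253W.A.Lipk
import Vale.Agent.P253W.WM.Alg

/-!
# P253W, block A: convergence of discs
-/

set_option linter.all false

open scoped Manifold ContDiff Bundle ENNReal Topology
open Bundle Set Metric Filter Vale.Agent.P253Z
open Vale.Agent.P272.K (Cm Chart)

noncomputable section

namespace Vale.Agent.P253W.A

open WM

namespace Kn

section
variable {X V Y : Type*} [TopologicalSpace X]

theorem cd [PseudoMetricSpace Y] {S : Set X} {f g : X → Y} (hf : ContinuousOn f S)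
    (hg : ContinuousOn g S) : ContinuousOn (fun x => dist (f x) (g x)) S :=
  continuous_dist.comp_continuousOn (hf.prodMk hg)

/-- a modulus of continuity with respect to `G` -/
theorem uc [PseudoMetricSpace Y] [MetricSpace V] {K : Set X} (hK : IsCompact K) {G : X → V}
    {u : X → Y} (hG : ContinuousOn G K) (hu : ContinuousOn u K) (hi : InjOn G K) {ε : ℝ}
    (hε : 0 < ε) : ∃ δ > 0, ∀ y ∈ K, ∀ y' ∈ K, dist (G y) (G y') < δ → dist (u y) (u y') < ε := by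
  have c1 : ContinuousOn (fun p : X × X => dist (G p.1) (G p.2)) (K ×ˢ K) :=
    cd (hG.comp continuousOn_fst fun _ h => h.1) (hG.comp continuousOn_snd fun _ h => h.2)
  have c2 : ContinuousOn (fun p : X × X => ε - dist (u p.1) (u p.2)) (K ×ˢ K) :=
    continuousOn_const.sub
      (cd (hu.comp continuousOn_fst fun _ h => h.1) (hu.comp continuousOn_snd fun _ h => h.2))
  obtain ⟨δ, hδ, h⟩ := (hK.prod hK).exists_forall_le' (c1.sup c2) (a := 0) fun p hp => by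
    by_cases e : p.1 = p.2
    · exact lt_sup_of_lt_right (by simpa [e] using hε)
    · exact lt_sup_of_lt_left (dist_pos.2 fun e' => e (hi hp.1 hp.2 e'))
  refine ⟨δ, hδ, fun y hy y' hy' hd => ?_⟩
  rcases le_sup_iff.1 (h (y, y') ⟨hy, hy'⟩) with a | a
  · exact absurd hd (not_lt.2 a)
  · dsimp only at a
    linarith

/-- uniformly Cauchy sequences -/
theorem cau_of [PseudoMetricSpace Y] [MetricSpace V] {K : Set X} (hK : IsCompact K) {G : X → V}
    {u : X → Y} (hG : ContinuousOn G K) (hu : ContinuousOn u K) (hi : InjOn G K) {S : Set ℂ}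
    {φ : ℕ → ℂ → X} (hφ : ∀ᶠ k in atTop, ∀ τ ∈ S, φ k τ ∈ K)
    (h : UniformCauchySeqOn (fun k τ => G (φ k τ)) atTop S) :
    UniformCauchySeqOn (fun k τ => u (φ k τ)) atTop S := by
  rw [Metric.uniformCauchySeqOn_iff] at h ⊢
  intro ε hε
  obtain ⟨δ, hδ, H⟩ := uc hK hG hu hi hε
  obtain ⟨N, hN⟩ := h δ hδ
  obtain ⟨N', hN'⟩ := eventually_atTop.1 hφ
  exact ⟨max N N', fun a ha b hb τ hτ => H _ (hN' a (le_of_max_le_right ha) τ hτ) _
    (hN' b (le_of_max_le_right hb) τ hτ)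
    (hN a (le_of_max_le_left ha) b (le_of_max_le_left hb) τ hτ)⟩

theorem lim [MetricSpace V] [CompleteSpace V] {S : Set ℂ} {f : ℕ → ℂ → V}
    (h : UniformCauchySeqOn f atTop S) : ∃ g, TendstoUniformlyOn f g atTop S :=
  ⟨fun τ => @limUnder _ _ _ ⟨f 0 τ⟩ atTop fun k => f k τ,
    h.tendstoUniformlyOn_of_tendsto fun τ hτ =>
      tendsto_nhds_limUnder (cauchySeq_tendsto_of_complete (h.cauchySeq hτ))⟩

/-- convergence in a compact set can be tested with an injective map -/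
theorem tends [TopologicalSpace V] [T2Space V] {K : Set X} (hK : IsCompact K) {E : X → V}
    (hE : Continuous E) (hi : InjOn E K) {ι : Type*} {l : Filter ι} {x : ι → X} {y : X}
    (hx : ∀ᶠ i in l, x i ∈ K) (hy : y ∈ K) (h : Tendsto (fun i => E (x i)) l (𝓝 (E y))) :
    Tendsto x l (𝓝 y) :=
  hK.tendsto_nhds_of_unique_mapClusterPt hx fun y' hy' hc => hi hy' hy
    (eq_of_nhds_neBot ((hc.continuousAt_comp hE.continuousAt).clusterPt.mono h))

end

/-- the maximum principle -/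
theorem norm_le {ι : Type} [Fintype ι] {Y : ℂ → ι → ℂ} (hY : ∀ l, DA fun τ => Y τ l) {C : ℝ}
    (h : ∀ τ ∈ sphere (0 : ℂ) 1, ‖Y τ‖ ≤ C) : ∀ τ ∈ closedBall (0 : ℂ) 1, ‖Y τ‖ ≤ C :=
  fun τ hτ => (pi_norm_le_iff_of_nonneg ((norm_nonneg _).trans (h 1 (by simp)))).2 fun l =>
    (hY l).norm_le (fun σ hσ => (norm_le_pi_norm _ l).trans (h σ hσ)) τ hτ

theorem cau {ι : Type} [Fintype ι] {Y : ℕ → ℂ → ι → ℂ} (hY : ∀ k l, DA fun τ => Y k τ l)
    (h : UniformCauchySeqOn Y atTop (sphere 0 1)) :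
    UniformCauchySeqOn Y atTop (closedBall 0 1) := by
  rw [Metric.uniformCauchySeqOn_iff] at h ⊢
  intro ε hε
  obtain ⟨N, hN⟩ := h (ε / 2) (half_pos hε)
  refine ⟨N, fun a ha b hb τ hτ => ?_⟩
  rw [dist_eq_norm]
  exact (norm_le (Y := fun τ => Y a τ - Y b τ) (fun l => (hY a l).sub' (hY b l))
    (fun σ hσ => (dist_eq_norm _ _).symm.trans_le (hN a ha b hb σ hσ).le) τ hτ).trans_lt
    (half_lt_self hε)

variable {q : ℕ} {N : Type} [TopologicalSpace N] {𝒜 : Set (Chart q N)}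

theorem dac [T2Space N] {ι : Type} [Fintype ι] {G : N → ι → ℂ} (hA : At 𝒜) (hG : Ho 𝒜 G)
    {φ : ℂ → N} (h : Dn 𝒜 φ) (l : ι) : DA fun τ => G (φ τ) l :=
  DA.mk' ((lipk q N 𝒜 ι G hA hG).2.1 φ _ isOpen_ball h.2 l)
    (((continuous_apply l).comp (lipk q N 𝒜 ι G hA hG).1).comp_continuousOn h.1)

/-- limits of holomorphic curves -/
theorem hol {φ : ℕ → ℂ → N} {ψ : ℂ → N} {U : Set ℂ} (hU : IsOpen U) (hφ : ∀ k, HolOn 𝒜 (φ k) U)
    (hψ : ContinuousOn ψ U)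
    (h : ∀ x ∈ U, Tendsto (fun p : ℕ × ℂ => φ p.1 p.2) (atTop ×ˢ 𝓝 x) (𝓝 (ψ x))) :
    HolOn 𝒜 ψ U := by
  refine ⟨hψ, fun e he x hx => DifferentiableAt.differentiableWithinAt ?_⟩
  obtain ⟨p, hp, r, hr, H⟩ := eventually_prod_iff.1
    ((h x hx.1).eventually (e.open_source.mem_nhds hx.2))
  obtain ⟨B, hB, oB, xB⟩ := _root_.mem_nhds_iff.1 (inter_mem hr
    ((hψ.isOpen_inter_preimage hU e.open_source).mem_nhds hx))
  refine (TendstoLocallyUniformlyOn.differentiableOn (F := fun k τ => e (φ k τ)) (φ := atTop)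
    (tendstoLocallyUniformlyOn_iff_forall_tendsto.2 fun y hy => ?_)
    (hp.mono fun k hk => ((hφ k).2 e he).mono fun τ hτ => ⟨(hB hτ).2.1, H hk (hB hτ).1⟩)
    oB).differentiableAt (oB.mem_nhds xB)
  have c := e.continuousAt (hB hy).2.2
  refine (Tendsto.prodMk_nhds ?_ ?_).mono_right (nhds_le_uniformity (e (ψ y)))
  · exact c.tendsto.comp ((hψ.continuousAt (hU.mem_nhds (hB hy).2.1)).tendsto.comp
      (tendsto_snd.mono_right nhdsWithin_le_nhds))
  · exact c.tendsto.comp ((h y (hB hy).2.1).mono_left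
      (Filter.prod_mono le_rfl nhdsWithin_le_nhds))

theorem near {τ : ℂ} {δ : ℝ} (h0 : δ < 1) (h : τ ∈ ann (1 - δ) 1) :
    ∃ σ ∈ sphere (0 : ℂ) 1, dist τ σ ≤ δ := by
  have p : 0 < ‖τ‖ := lt_of_lt_of_le (by linarith) h.1
  refine ⟨(‖τ‖⁻¹ : ℝ) • τ, by simp [p.ne'], ?_⟩
  rw [dist_eq_norm, show τ - (‖τ‖⁻¹ : ℝ) • τ = (1 - ‖τ‖⁻¹ : ℝ) • τ by rw [sub_smul, one_smul],
    norm_smul, Real.norm_eq_abs, ← abs_of_pos p, ← abs_mul, abs_of_pos p, sub_mul,
    inv_mul_cancel₀ p.ne', one_mul, abs_le]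
  exact ⟨by linarith [h.1], by linarith [h.1, h.2]⟩

end Kn

open Kn

variable {n : ℕ} {M : Type} [MetricSpace M] [ChartedSpace (Cm n) M]
  [RiemannianBundle fun x : M => TangentSpace 𝓘(ℝ, Cm n) x] {F : Flow n M}

theorem Cx.prop (h : Cx F) : ProperSpace M :=
  ⟨fun x r => (h.proper (r + dist x F.o)).of_isClosed_subset isClosed_closedBall
    (closedBall_subset_closedBall' le_rfl)⟩

theorem kn1 (h : Cx F) (t : TOP n M) (s : SEP F) (a1 : AR1 F) : KN1 F := by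
  rintro f g A hf hg ⟨R, hR⟩
  haveI := h.prop
  have hK := h.proper (R + 1)
  obtain ⟨L, a, ha, hi, -⟩ := s.1 _ hK
  have ca := (lipk n M _ _ a t.atm ha).1.continuousOn (s := closedBall F.o (R + 1))
  have m : ∀ k, ∀ τ ∈ sphere (0 : ℂ) 1, f k τ ∈ closedBall F.o (R + 1) := fun k τ hτ =>
    (hR k τ hτ).trans (by linarith)
  have hY := cau (fun k => dac t.atm ha (hf k).1) (cau_of hK continuousOn_id ca (injOn_id _)
    (.of_forall m) hg.uniformCauchySeqOn)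
  obtain ⟨c, hc, Hc⟩ := uc hK ca continuousOn_id hi one_pos
  obtain ⟨N, hN⟩ := Metric.uniformCauchySeqOn_iff.1 hY (c / 3) (by positivity)
  obtain ⟨δ, hδ, Hδ⟩ := uc (isCompact_closedBall (0 : ℂ) 1) continuousOn_id
    ((lipk n M _ _ a t.atm ha).1.comp_continuousOn (hf N).1.1) (injOn_id _)
    (show 0 < c / 3 by positivity)
  obtain ⟨d, d0, d1, d2⟩ : ∃ d : ℝ, 0 < d ∧ d < δ ∧ d < 1 :=
    ⟨min δ 1 / 2, by positivity, by linarith [min_le_left δ 1], by linarith [min_le_right δ 1]⟩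
  have sub : ann (1 - d) 1 ⊆ closedBall (0 : ℂ) 1 := fun τ hτ => mem_closedBall_zero_iff.2 hτ.2
  have m' : ∀ k ≥ N, ∀ τ ∈ ann (1 - d) 1, f k τ ∈ closedBall F.o (R + 1) := fun k hk τ hτ => by
    obtain ⟨σ, hσ, hd⟩ := near d2 hτ
    have hσ' := sphere_subset_closedBall hσ
    have key : ∀ x, dist x (f k σ) ≤ 1 → x ∈ closedBall F.o (R + 1) := fun x hx =>
      (dist_triangle x (f k σ) F.o).trans (by linarith [show dist (f k σ) F.o ≤ R from hR k σ hσ])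
    refine key _ (not_lt.1 fun hlt => ?_)
    obtain ⟨z, hz, e⟩ := ((convex_closedBall (0 : ℂ) 1).inter (convex_ball σ δ)).isPreconnected
      |>.intermediate_value ⟨hσ', mem_ball_self hδ⟩ ⟨sub hτ, hd.trans_lt d1⟩
      (cd ((hf k).1.1.mono inter_subset_left) (continuousOn_const (c := f k σ)))
      (show (1 : ℝ) ∈ Icc _ _ from ⟨by simp, hlt.le⟩)
    refine (Hc _ (key _ e.le) _ (m k σ hσ) ?_).ne e
    have e1 := hN k hk N le_rfl z hz.1
    have e2 := hN N le_rfl k hk σ hσ'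
    have e3 := Hδ z hz.1 σ hσ' hz.2
    have e4 := dist_triangle4 (a (f k z)) (a (f N z)) (a (f N σ)) (a (f k σ))
    dsimp only [Function.comp] at e1 e2 e3
    linarith
  have c1 : UniformCauchySeqOn f atTop (ann (1 - d) 1) :=
    cau_of hK ca continuousOn_id hi (eventually_atTop.2 ⟨N, m'⟩) (hY.mono sub)
  obtain ⟨g₁, hg₁⟩ := lim c1
  obtain ⟨g₂, hg₂⟩ := h.kpa f g₁ (1 - d) (1 - d / 2) 1 _ (by linarith) (by linarith) (by linarith)
    (fun k => (t.h1 _ _ isOpen_ball).1 (hf k).1.2)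
    (hg₁.mono fun τ hτ => ⟨hτ.1, hτ.2.trans (by linarith)⟩)
    fun k => a1.ar _ _ A (by linarith) (by linarith) (hf k).2
  refine lim fun u hu => ?_
  filter_upwards [c1 u hu, hg₂.uniformCauchySeqOn u hu] with p h1 h2 τ hτ
  rcases le_total ‖τ‖ (1 - d / 2) with e | e
  · exact h2 τ (mem_closedBall_zero_iff.2 e)
  · exact h1 τ ⟨by linarith, mem_closedBall_zero_iff.1 hτ⟩

theorem kn (h : Cx F) (t : TOP n M) (s : SEP F) (r : REG F) (a1 : AR1 F) (k1 : KN1 F) : KN F := by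
  intro K L G φ g A hK hG hi hφ hg
  haveI := h.prop
  haveI := t.t2
  have cG := (lipk _ _ _ _ G t.atl hG).1.continuousOn (s := K)
  have m : ∀ᶠ k in atTop, ∀ τ ∈ sphere (0 : ℂ) 1, φ k τ ∈ K := .of_forall fun k => (hφ k).2.2
  have dn : ∀ k, Dn (AM n M) fun τ => (φ k τ).1 := fun k =>
    ⟨t.fst.comp_continuousOn (hφ k).1.1, ((t.hol _ _ isOpen_ball).1 (hφ k).1.2).1⟩
  obtain ⟨g₁, hg₁⟩ := lim (cau_of hK cG t.fst.continuousOn hi m hg.uniformCauchySeqOn)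
  obtain ⟨R, hR⟩ := hK.bddAbove_image (f := fun y : TS n M => dist y.1 F.o)
    (t.fst.dist continuous_const).continuousOn
  obtain ⟨g', hg'⟩ := k1 _ g₁ A (fun k => ⟨dn k, (hφ k).2.1⟩) hg₁
    ⟨R, fun k τ hτ => hR ⟨_, (hφ k).2.2 τ hτ, rfl⟩⟩
  obtain ⟨dg, lsc⟩ := a1.lsc _ g' dn hg'
  obtain ⟨R', hR'⟩ := (isCompact_closedBall (0 : ℂ) 1).bddAbove_image
    (cd dg.1 (continuousOn_const (c := F.o)))
  obtain ⟨L', G', C, hG', hC, hi'⟩ := s.2.2 _ (h.proper (R' + 1))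
  have cG' := (lipk _ _ _ _ G' t.atl hG').1
  obtain ⟨B, hB⟩ := hK.bddAbove_image cG'.norm.continuousOn
  have dG := fun k => dac t.atl hG' (hφ k).1
  obtain ⟨w, hw⟩ := lim (cau dG (cau_of hK cG cG'.continuousOn hi m hg.uniformCauchySeqOn))
  have hK' := r.cpt _ (|C| * B ^ 2) (h.proper (R' + 1))
  set K' := {y : TS n M | y.1 ∈ closedBall F.o (R' + 1) ∧ HT F 0 y ≤ |C| * B ^ 2}
  have m' : ∀ᶠ k in atTop, ∀ τ ∈ closedBall (0 : ℂ) 1, φ k τ ∈ K' := by
    filter_upwards [Metric.tendstoUniformlyOn_iff.1 hg' 1 one_pos] with k hk τ hτ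
    have e : (φ k τ).1 ∈ closedBall F.o (R' + 1) :=
      (dist_triangle_left _ _ (g' τ)).trans (by linarith [hk τ hτ, hR' ⟨τ, hτ, rfl⟩])
    refine ⟨e, (hC _ e).trans ((mul_le_mul_of_nonneg_right (le_abs_self C) (by positivity)).trans
      (mul_le_mul_of_nonneg_left (pow_le_pow_left₀ (norm_nonneg _) (norm_le (dG k)
        (fun σ hσ => hB ⟨_, (hφ k).2.2 σ hσ, rfl⟩) τ hτ) 2) (abs_nonneg C)))⟩
  have cE : Continuous fun y : TS n M => (y.1, G' y) := t.fst.prodMk cG'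
  have iE : InjOn (fun y : TS n M => (y.1, G' y)) K' := fun y hy y' _ e =>
    hi' y y' hy.1 (Prod.mk.inj e).1 (Prod.mk.inj e).2
  have uE : TendstoUniformlyOn (fun k τ => ((φ k τ).1, G' (φ k τ))) (fun τ => (g' τ, w τ)) atTop
      (closedBall 0 1) := fun u hu =>
    (tendsto_id.prodMk tendsto_id).eventually (hg'.prodMk hw u hu)
  have cw : ContinuousOn (fun τ => (g' τ, w τ)) (closedBall 0 1) := uE.continuousOn
    (Frequently.of_forall fun k => cE.comp_continuousOn (hφ k).1.1)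
  have ex : ∀ τ, ∃ y, τ ∈ closedBall (0 : ℂ) 1 → y ∈ K' ∧ (y.1, G' y) = (g' τ, w τ) := fun τ => by
    by_cases hτ : τ ∈ closedBall (0 : ℂ) 1
    · obtain ⟨y, hy⟩ := (hK'.image cE).isClosed.mem_of_tendsto (uE.tendsto_at hτ)
        (m'.mono fun k hk => ⟨_, hk τ hτ, rfl⟩)
      exact ⟨y, fun _ => hy⟩
    · exact ⟨φ 0 0, fun h => absurd h hτ⟩
  choose ψ hψ using ex
  have cψ : ContinuousOn ψ (closedBall 0 1) := fun x hx =>
    tends hK' cE iE (eventually_mem_nhdsWithin.mono fun τ hτ => (hψ τ hτ).1) (hψ x hx).1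
      ((cw.congr fun τ hτ => (hψ τ hτ).2) x hx)
  refine ⟨ψ, ⟨cψ, hol isOpen_ball (fun k => (hφ k).1.2) (cψ.mono ball_subset_closedBall)
    fun x hx => ?_⟩, fun τ hτ => tends hK' cE iE (m'.mono fun k hk => hk τ hτ) (hψ τ hτ).1
      ((hψ τ hτ).2 ▸ uE.tendsto_at hτ),
    (a1.congr _ _ fun τ hτ => congrArg Prod.fst (hψ τ hτ).2).trans_le lsc⟩
  have hx' := ball_subset_closedBall hx
  have n1 : closedBall (0 : ℂ) 1 ∈ 𝓝 x := closedBall_mem_nhds_of_mem hx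
  refine tends hK' cE iE ((m'.prod_mk n1).mono fun p hp => hp.1 _ hp.2) (hψ x hx').1 ?_
  rw [(hψ x hx').2]
  exact TendstoUniformlyOn.tendsto_comp (F := fun (p : ℕ × ℂ) τ => ((φ p.1 τ).1, G' (φ p.1 τ)))
    (fun u hu => tendsto_fst.eventually (uE u hu)) (cw x hx')
    (by rw [nhdsWithin_eq_nhds.2 n1]; exact tendsto_snd)

end Vale.Agent.P253W.A
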