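import Vale.Agent.P253W.A.Defs2

/-! P253W, row A.LB: the walls and the Levi form of the density. -/

open scoped Manifold Bundle ContDiff Topology Matrix
open Bundle Set Metric Filter Vale.Agent.P253Z
open Vale.Agent.P272.K (Cm cHess Chart)
open Vale.Agent.P272.K.C2 (cHess_add cHess_congr cHess_const_mul)

noncomputable section

namespace Vale.Agent.P253W.A

variable {n : ℕ} {M : Type} [MetricSpace M] [ChartedSpace (Cm n) M]
  [RiemannianBundle fun x : M => TangentSpace 𝓘(ℝ, Cm n) x] {F : Flow n M}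

namespace Lb

theorem cz : ContDiff ℝ ∞ (zc : Cm (n + n) → Cm n) :=
  contDiff_pi.2 fun _ => contDiff_apply ℝ ℂ _

theorem pos (h : Cx F) {y : TS n M} : 0 < HT F 0 y ↔ y.2 ≠ 0 :=
  ⟨fun k e => by simp [HT, Flow.H, hq, e] at k, h.b2.H_pos 0 le_rfl _ _⟩

theorem cH (r : REG F) : Continuous (HT F 0) := by
  have := r.cH.comp (f := fun y : TS n M => ((0 : ℝ), y)) (s := univ)
    (Continuous.prodMk_right 0).continuousOn fun _ _ => ⟨self_mem_Ici, trivial⟩
  exact continuousOn_univ.1 this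

theorem cw (w : WB) {x : ℝ} (hx : x < 1) : ContDiffAt ℝ ∞ wb x := w.sm.contDiffAt (Iio_mem_nhds hx)

variable {e : Chart n M} {c : Chart (n + n) (TS n M)} {v : Cm (n + n)}

omit [RiemannianBundle fun x : M => TangentSpace 𝓘(ℝ, Cm n) x] in
theorem fst (k : Tc e c) (v : Cm (n + n)) : (c.symm v).1 = e.symm (zc v) := by
  rw [k.inv]
  rfl

omit [RiemannianBundle fun x : M => TangentSpace 𝓘(ℝ, Cm n) x] in
theorem tgt (k : Tc e c) (hv : v ∈ c.target) : zc v ∈ e.target := by rwa [k.tgt] at hv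

omit [RiemannianBundle fun x : M => TangentSpace 𝓘(ℝ, Cm n) x] in
theorem sm (k : Tc e c) (hv : v ∈ c.target) {f : M → ℝ} (hf : Sm n f) :
    ContDiffAt ℝ ∞ (fun v => f (c.symm v).1) v := by
  simp only [fst k]
  exact (hf e k.he _ (tgt k hv)).comp v cz.contDiffAt

theorem sH (r : REG F) (k : Tc e c) (hv : v ∈ c.target) :
    ContDiffAt ℝ ∞ (fun v => HT F 0 (c.symm v)) v :=
  ((r.sm e c k).comp (contDiff_const.prodMk contDiff_id).contDiffOn
    fun _ hx => ⟨self_mem_Ici, hx⟩).contDiffAt (c.open_target.mem_nhds hv)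

theorem sL (h : Cx F) (r : REG F) (k : Tc e c) (hv : v ∈ c.target) (h0 : (c.symm v).2 ≠ 0) :
    ContDiffAt ℝ ∞ (fun v => Real.log (HT F 0 (c.symm v))) v :=
  (sH r k hv).log ((pos h).2 h0).ne'

/-- a function of `log u` -/
theorem hess_log (m : HOM) {q : ℕ} {u : Cm q → ℝ} {z : Cm q} {g : ℝ → ℝ} (hu : ContDiffAt ℝ 2 u z)
    (h0 : 0 < u z) (hg : ContDiffAt ℝ 2 g (Real.log (u z))) :
    cHess (fun y => g (Real.log (u y))) z =
      ((deriv g (Real.log (u z)) - deriv (deriv g) (Real.log (u z)) : ℝ) : ℂ) •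
        cHess (fun y => Real.log (u y)) z +
      ((deriv (deriv g) (Real.log (u z)) / u z : ℝ) : ℂ) • cHess u z := by
  have a := (m q).2.2.2.2.2.2 g _ z (hu.log h0.ne') hg
  have b := (m q).2.2.2.2.2.2 Real.exp _ z (hu.log h0.ne') Real.contDiff_exp.contDiffAt
  rw [cHess_congr (v := u) ((hu.continuousAt.eventually (lt_mem_nhds h0)).mono fun y hy =>
    Real.exp_log hy), Real.deriv_exp, Real.deriv_exp, Real.exp_log h0] at b
  have : (u z : ℂ) ≠ 0 := Complex.ofReal_ne_zero.2 h0.ne'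
  rw [a, b, smul_add, smul_smul, smul_smul]
  push_cast
  rw [div_mul_cancel₀ _ this]
  module

end Lb

open Lb

theorem lb (h : Cx F) (t : TOP n M) (r : REG F) (w : WB) (m : HOM) : LB F := by
  intro p S κ η₁ o hη
  have c1 : Continuous (p.x₁ (n := n)) := ((h.a.sm_cont _ o.sm).comp t.fst).sub continuous_const
  have c2 : ContinuousOn (Pd.x₂ F η₁) {y | y.2 ≠ 0} := continuousOn_const.mul
    (((cH r).continuousOn.log fun y hy => ((pos h).2 hy).ne').pow 2)
  have s1 : ∀ {e c v}, Tc e c → v ∈ c.target → ContDiffAt ℝ ∞ (fun v => p.x₁ (c.symm v)) v :=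
    fun k hv => (sm k hv o.sm).sub contDiffAt_const
  have s2 : ∀ {e c v}, Tc e c → v ∈ c.target → (c.symm v).2 ≠ 0 →
      ContDiffAt ℝ ∞ (fun v => Pd.x₂ F η₁ (c.symm v)) v :=
    fun k hv h0 => contDiffAt_const.mul ((sL h r k hv h0).pow 2)
  obtain ⟨-, cP, -, sP, -⟩ := r.dt _ _ o.smP
  obtain ⟨-, cX, -, sX, -⟩ := r.dt _ _ o.smX
  refine ⟨?_, ?_, ?_, ?_, ?_, ?_⟩
  · have e : p.K F η₁ = {y | p.x₁ y ≤ 1} ∩
        HT F 0 ⁻¹' Icc (Real.exp (-√η₁⁻¹)) (Real.exp √η₁⁻¹) := by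
      ext y
      refine ⟨fun ⟨a, b, d⟩ => ⟨b, ?_⟩, fun ⟨b, d⟩ => ?_⟩
      · have := abs_le.1 (Real.abs_le_sqrt ((le_inv_mul_iff₀ hη).2 d |>.trans_eq (mul_one _)))
        exact ⟨(Real.le_log_iff_exp_le ((pos h).2 a)).1 this.1,
          (Real.log_le_iff_le_exp ((pos h).2 a)).1 this.2⟩
      · have a := (Real.exp_pos _).trans_le d.1
        have := sq_le_sq' ((Real.le_log_iff_exp_le a).2 d.1) ((Real.log_le_iff_le_exp a).2 d.2)
        rw [Real.sq_sqrt (by positivity)] at this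
        exact ⟨(pos h).1 a, b, (le_inv_mul_iff₀ hη).1 (this.trans_eq (mul_one _).symm)⟩
    rw [e]
    exact (r.cpt _ (Real.exp √η₁⁻¹) o.cpt).of_isClosed_subset
      ((isClosed_le c1 continuous_const).inter (isClosed_Icc.preimage (cH r)))
      fun y hy => ⟨show p.ϱ y.1 ≤ _ from sub_le_iff_le_add'.1 hy.1, hy.2.2⟩
  · convert (c2.isOpen_inter_preimage t.opn (isOpen_Iio (a := 1))).inter
      (isOpen_lt c1 (continuous_const (y := 1))) using 1
    ext y
    exact ⟨fun ⟨a, b, d⟩ => ⟨⟨a, d⟩, b⟩, fun ⟨⟨a, d⟩, b⟩ => ⟨a, b, d⟩⟩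
  · have q : Continuous fun x : ℝ × TS n M => (x.1, x.2.1) :=
      continuous_fst.prodMk (t.fst.comp continuous_snd)
    exact (((continuousOn_const.mul (cP.comp q.continuousOn fun x hx => ⟨hx.1, trivial⟩)).add
      (cX.comp q.continuousOn fun x hx => ⟨hx.1, trivial⟩)).add (w.sm.continuousOn.comp
        (c1.comp continuous_snd).continuousOn fun x hx => hx.2.2.1)).add (w.sm.continuousOn.comp
          (c2.comp continuous_snd.continuousOn fun x hx => hx.2.1) fun x hx => hx.2.2.2)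
  · rintro c ⟨e, k⟩
    have q : ∀ {f : ℝ → M → ℝ}, SmT n (Ico 0 (S + 1)) f →
        ContDiffOn ℝ ∞ (fun x : ℝ × Cm (n + n) => f x.1 (c.symm x.2).1)
          {x | x.2 ∈ c.target ∧ (x.1, c.symm x.2) ∈ Ioo 0 (S + 1) ×ˢ p.W F η₁} := fun hf => by
      simp only [fst k]
      exact (hf e k.he).comp (contDiff_fst.prodMk (cz.comp contDiff_snd)).contDiffOn
        fun x hx => ⟨Ioo_subset_Ico_self hx.2.1, tgt k hx.1⟩
    refine ((((contDiffOn_const.mul (q o.smP)).add (q o.smX)).add fun x hx => ?_).add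
      fun x hx => ?_).of_le (by norm_cast)
    · exact ((cw w hx.2.2.2.1).comp x ((s1 k hx.1).comp x contDiffAt_snd)).contDiffWithinAt
    · exact ((cw w hx.2.2.2.2).comp x
        ((s2 k hx.1 hx.2.2.1).comp x contDiffAt_snd)).contDiffWithinAt
  · rintro y hy c ⟨e, k⟩ hc
    exact ⟨(s1 k (c.map_source hc)).of_le (by norm_cast),
      (s2 k (c.map_source hc) (by rw [c.left_inv hc]; exact hy.1)).of_le (by norm_cast)⟩
  · intro e c k s hs y hy hc
    have hv := c.map_source hc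
    have ey := c.left_inv hc
    have ez : zc (c y) = e y.1 := funext fun j => by rw [k.map, zc, tq, Fin.append_left]
    have hz : e y.1 ∈ e.target := ez ▸ tgt k hv
    have ex : e.symm (e y.1) = y.1 := by rw [← ez, ← fst k, ey]
    have two : (2 : WithTop ℕ∞) ≤ ∞ := by norm_cast
    have a1 := (sP s hs e k.he _ hz).of_le two
    have a2 := (sX s hs e k.he _ hz).of_le two
    have a3 := (o.sm e k.he _ hz).of_le two
    have a4 : ContDiffAt ℝ 2 (fun x => wb (x - p.R)) (p.ϱ (e.symm (e y.1))) :=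
      ((cw w (by rw [ex]; exact hy.2.1)).of_le two).comp _ (contDiffAt_id.sub contDiffAt_const)
    have a5 := ((contDiffAt_const (c := p.η)).mul a1).add a2
    have a6 : ContDiffAt ℝ 2 (fun x => wb (p.ϱ (e.symm x) - p.R)) (e y.1) :=
      a4.comp (f := fun x => p.ϱ (e.symm x)) _ a3
    have a7 := (sH r k hv).of_le two
    have a8 : ContDiffAt ℝ 2 (fun s => wb (η₁ * s ^ 2)) (Real.log (HT F 0 (c.symm (c y)))) :=
      ((cw w (by rw [ey]; exact hy.2.2)).of_le two).comp _
        (contDiffAt_const.mul (contDiffAt_id.pow 2))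
    have a0 : 0 < HT F 0 (c.symm (c y)) := (pos h).2 (by rw [ey]; exact hy.1)
    have b1 := (m n).2.2.2.2.2.1 _ (c y) (ez ▸ a5.add a6)
    have b2 := (m n).2.2.2.2.2.2 _ _ _ a3 a4
    have b3 := hess_log m a7 a0 a8
    rw [ez, cHess_add a5 a6, cHess_add (contDiffAt_const.mul a1) a2, cHess_const_mul _ a1] at b1
    have b4 : (deriv fun x => wb (x - p.R)) = fun x => deriv wb (x - p.R) :=
      funext fun x => deriv_comp_sub_const _ _ _
    rw [b4, deriv_comp_sub_const (deriv wb), ex] at b2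
    rw [ey] at b3
    have b5 : (fun v => p.b F η₁ s (c.symm v)) = fun v => (p.η * p.P s (e.symm (zc v)) +
        p.X s (e.symm (zc v)) + wb (p.ϱ (e.symm (zc v)) - p.R)) +
        wb (η₁ * Real.log (HT F 0 (c.symm v)) ^ 2) := funext fun v => by
      simp only [Pd.b, Pd.x₁, Pd.x₂, fst k]
    have b6 := cHess_add ((ez ▸ a5.add a6 :).comp (c y) (cz.contDiffAt.of_le two))
      (a8.comp (f := fun v => Real.log (HT F 0 (c.symm v))) _ (a7.log a0.ne'))
    rw [lm, b5]
    refine (congrArg Matrix.transpose b6).trans ((Matrix.transpose_add _ _).trans ?_)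
    refine congrArg₂ (· + ·) (b1.trans ?_) ((congrArg Matrix.transpose b3).trans ?_)
    · rw [b2, add_assoc (_ + _)]
      rfl
    · rw [Matrix.transpose_add, Matrix.transpose_smul, Matrix.transpose_smul]
      rfl

end Vale.Agent.P253W.A
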