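import Vale.Agent.P253W.A.Defs2

/-!
# P253W, block A: the choice of the parameters of the penalty
-/

open scoped Manifold ContDiff Bundle Topology ComplexOrder Matrix
open Bundle Set Metric Filter Vale.Agent.P253Z
open Vale.Agent.P272.K (Cm Chart)

noncomputable section

namespace Vale.Agent.P253W.A

namespace Par

theorem radius {D q : ℝ} (hD : 0 ≤ D) (hq : 0 < q) : ∃ ρ : ℝ, 1 ≤ ρ ∧ ∀ r, ρ ≤ r →
    Real.log (1 + D * r ^ 2) + 6 * Real.log 2 ≤ q * r ^ 2 := by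
  have h1 : 0 ≤ Real.log (1 + D) := Real.log_nonneg (by linarith)
  have h2 : 0 ≤ Real.log 2 := Real.log_nonneg (by norm_num)
  refine ⟨max 1 ((Real.log (1 + D) + 6 * Real.log 2 + 2) / q), le_max_left _ _, fun r hr => ?_⟩
  have r1 : 1 ≤ r := (le_max_left _ _).trans hr
  have r2 := (div_le_iff₀ hq).1 ((le_max_right _ _).trans hr)
  have h3 : Real.log (1 + D * r ^ 2) ≤ Real.log (1 + D) + 2 * r := by
    have : Real.log (1 + D * r ^ 2) ≤ Real.log ((1 + D) * r ^ 2) :=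
      Real.log_le_log (by positivity) (by nlinarith)
    rw [Real.log_mul (by positivity) (by positivity), Real.log_pow] at this
    have := Real.log_le_sub_one_of_pos (by linarith : 0 < r)
    push_cast at *
    linarith
  nlinarith

theorem wall (w : WB) {x : ℝ} (h1 : x < 1) :
    Real.log ((1 - x) ^ 6)⁻¹ ≤ 6 * Real.log 2 + 2 * wb x := by
  have hd : 0 < 1 - x := by linarith
  have h2 : 0 ≤ Real.log 2 := Real.log_nonneg (by norm_num)
  have e : ∀ k : ℕ, Real.log ((1 - x) ^ k)⁻¹ = k * Real.log (1 - x)⁻¹ := fun k => by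
    rw [← inv_pow, Real.log_pow]
  rcases le_total x (1 / 2) with h | h
  · have : Real.log (1 - x)⁻¹ ≤ Real.log 2 :=
      Real.log_le_log (by positivity) ((inv_le_comm₀ hd two_pos).2 (by linarith))
    rw [e]
    push_cast
    linarith [w.nn x]
  · have h3 := Real.log_le_sub_one_of_pos (by positivity : 0 < ((1 - x) ^ 4)⁻¹)
    have h4 := w.nn x
    rw [← w.big x h] at h3
    have h5 := e 4
    rw [← w.big x h] at h5
    rw [e]
    push_cast at *
    linarith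

theorem split {a b y v : ℝ} (ha : 0 ≤ a) (hb : 1 ≤ b) (hy : 0 ≤ y) (hv : 0 ≤ v)
    (h : v ≤ a * b * y) :
    Real.log (1 + v) ≤ Real.log (1 + a) + Real.log b + Real.log (1 + y) := by
  rw [← Real.log_mul (by positivity) (by positivity), ← Real.log_mul (by positivity) (by positivity)]
  refine Real.log_le_log (by positivity) ?_
  have : 0 ≤ a * b := by positivity
  nlinarith

end Par

variable {n : ℕ} {M : Type} [MetricSpace M] [ChartedSpace (Cm n) M]
  [RiemannianBundle fun x : M => TangentSpace 𝓘(ℝ, Cm n) x] {F : Flow n M}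

/-- **PAR** -/
theorem par (h : Cx F) (r : REG F) (w : WB) : PAR F := by
  intro S σ ε ρ₁ A hS hσ hε
  obtain ⟨P, c, hc, smP, lo, supP, hX⟩ := h.sup S hS
  obtain ⟨-, cP, -⟩ := r.dt (S + 1) P smP
  obtain ⟨B, hB⟩ := (isCompact_Icc.prod (h.proper ρ₁)).bddAbove_image
    (cP.mono (prod_mono (fun t (ht : t ∈ Icc 0 S) => ⟨ht.1, by linarith [ht.2]⟩) (subset_univ _)))
  obtain ⟨K, ϱ, hK, hϱ⟩ := h.rho
  obtain ⟨Cw, hC0, hCw, -⟩ := w.bd
  set η := ε / (2 * (|A| + |B| + 1)) with hη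
  have η0 : 0 < η := by positivity
  have ηe : η * (2 * (|A| + |B| + 1)) = ε := div_mul_cancel₀ _ (by positivity)
  have ηA : η * A ≤ ε := by nlinarith [le_abs_self A, abs_nonneg A, abs_nonneg B]
  have ηB : η * B ≤ ε / 2 := by nlinarith [le_abs_self B, abs_nonneg A, abs_nonneg B]
  have ηε : η ≤ ε / 2 := by nlinarith [abs_nonneg A, abs_nonneg B]
  obtain ⟨ρ, ρ1, hρ⟩ := Par.radius (D := S * (2 + 16 * K) * Cw / σ) (q := η * c) (by positivity)
    (by positivity)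
  obtain ⟨r₀, hr₀, X, smX, X0, supX, Xs, Xb⟩ := hX (max ρ ρ₁) 1 η η0
  have a1 : ρ ≤ r₀ := (le_max_left _ _).trans hr₀
  have a2 : ρ₁ ≤ r₀ := (le_max_right _ _).trans hr₀
  have a3 : 1 ≤ r₀ := ρ1.trans a1
  have r0 : ∀ x, 0 ≤ F.r x := fun x => dist_nonneg
  have nr : ∀ x, F.r x ^ 2 - 1 ≤ ϱ x ∧ ϱ x ≤ F.r x ^ 2 + 1 := fun x => by
    have := abs_le.1 (hϱ.near x)
    unfold Flow.r
    constructor <;> linarith
  have up : ∀ x, ϱ x ≤ 4 * r₀ ^ 2 + 1 → F.r x ≤ 3 * r₀ := fun x hx =>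
    le_of_sq_le_sq (by nlinarith [(nr x).1]) (by linarith)
  have P0 : ∀ t ∈ Icc 0 S, ∀ x, 0 ≤ P t x := fun t ht x => le_trans (by positivity) (lo t ht x)
  refine ⟨⟨η, 4 * r₀ ^ 2, P, X, ϱ⟩, K * (1 + 3 * r₀) ^ 2, ⟨η0, by positivity, smP, smX, hϱ.sm,
    (h.proper (3 * r₀)).of_isClosed_subset (isClosed_le (h.a.sm_cont _ hϱ.sm) continuous_const)
      fun x hx => up x hx, fun t ht x hx => ⟨supP t ht x, supX t ht x (up x hx)⟩,
    fun e he z hz hx => ⟨hϱ.hess e he z hz, ?_⟩⟩, ηA,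
    fun t ht x => ⟨P0 t ht x, X0 t ht x, fun hx => ⟨?_, ?_⟩⟩, fun t ht x hx => ?_⟩
  · have h1 : (hm e z).PosSemidef := h.b1.g_zero e z ▸ (h.is.pos 0 le_rfl e he z hz).posSemidef
    have h2 : 0 ≤ K * (1 + 3 * r₀) ^ 2 - K * (1 + dist (e.symm z) F.o) ^ 2 := by
      have h3 : dist (e.symm z) F.o ≤ 3 * r₀ := up _ hx
      rw [sub_nonneg]
      gcongr
    have h4 := (h1.smul (Complex.zero_le_real.2 h2)).add (hϱ.grad e he z hz)
    convert h4 using 1
    rw [Complex.ofReal_sub, sub_smul]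
    abel
  · have := (nr x).2
    have := r0 x
    show ϱ x ≤ 4 * r₀ ^ 2
    nlinarith
  · have h1 : P t x ≤ B := hB ⟨(t, x), ⟨ht, hx⟩, rfl⟩
    have h2 := Xs t ht x (hx.trans (le_max_right _ _))
    have h3 := mul_le_mul_of_nonneg_left h1 η0.le
    show η * P t x + X t x ≤ ε
    linarith
  · dsimp only at hx ⊢
    set x₁ := ϱ x - 4 * r₀ ^ 2 with hx₁
    have b1 := mul_nonneg η0.le (P0 t ht x)
    have b2 := X0 t ht x
    have b3 := w.nn x₁
    rcases le_or_gt x₁ 0 with h0 | h0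
    · rw [(w.zero x₁ h0).2]
      simp only [mul_zero, zero_mul, zero_div, add_zero, Real.log_one]
      linarith
    have y0 : 0 ≤ F.y t x := (Nat.cast_nonneg n).trans (h.b2.y_ge t ht.1 x)
    have l1 : r₀ ≤ F.r x := le_of_sq_le_sq (by nlinarith [(nr x).2]) (r0 x)
    have l2 := Xb t ht x l1 (up x (by linarith))
    have l3 : η * c * r₀ ^ 2 ≤ η * P t x := by
      rw [mul_assoc]
      refine mul_le_mul_of_nonneg_left (le_trans ?_ (lo t ht x)) η0.le
      gcongr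
      linarith
    have l4 := hρ r₀ a1
    have l5 := Par.wall w hx
    have l6 := hCw x₁ hx
    rw [min_eq_right (by linarith)] at l6
    have d0 : 0 < 1 - x₁ := by linarith
    have l7 : 1 ≤ ((1 - x₁) ^ 6)⁻¹ :=
      (one_le_inv₀ (by positivity)).2 (pow_le_one₀ d0.le (by linarith))
    have w0 : 0 ≤ wd wb x₁ := add_nonneg (abs_nonneg _) (abs_nonneg _)
    have l8 : 2 + K * (1 + 3 * r₀) ^ 2 ≤ (2 + 16 * K) * r₀ ^ 2 := by
      have : K * (1 + 3 * r₀) ^ 2 ≤ K * (4 * r₀) ^ 2 := by gcongr; linarith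
      nlinarith
    have l9 := Par.split (a := S * (2 + 16 * K) * Cw / σ * r₀ ^ 2) (by positivity) l7 y0
      (v := S * (2 + K * (1 + 3 * r₀) ^ 2) * wd wb x₁ * F.y t x / σ) (by positivity) (by
        calc _ ≤ S * ((2 + 16 * K) * r₀ ^ 2) * (Cw * ((1 - x₁) ^ 6)⁻¹) * F.y t x / σ := by gcongr
          _ = _ := by ring)
    linarith

end Vale.Agent.P253W.A
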