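import Vale.Agent.P253W.A.Defs2
import Vale.Agent.P253W.A.Lin
import Vale.Agent.P272.K.C2.ChernLu

/-!
# P253W, block A, row PDE0: the complex Hessian of the norm on the cotangent bundle
-/

open scoped ContDiff Topology ComplexConjugate ComplexOrder Matrix
open Set Filter Complex Matrix
open Vale.Agent.P272.K (Cm dz dzb cHess)
open Vale.Agent.P272.K.C2

noncomputable section

namespace Vale.Agent.P253W.A

namespace Pde0

variable {n : ℕ}

/-! ### algebra -/

theorem qf_sub (c : Mx (n + n)) : Qf (pz n) c =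
    Qf (fromBlocks 0 1 (-1) 0) (c.submatrix finSumFinEquiv finSumFinEquiv) := by
  conv_lhs => rw [← (reindex finSumFinEquiv finSumFinEquiv).apply_symm_apply c]
  simp only [Qf, pz, reindex_apply, conjTranspose_submatrix, transpose_submatrix,
    submatrix_mul_equiv, reindex_symm, Equiv.symm_symm]
  rw [Lin.tr_equiv]

theorem qf_shear (P D M : Mx n) (h : Mᵀ = M) : Qf (fromBlocks 0 1 (-1) 0)
    (fromBlocks Pᵀ 0 0 0 + (fromCols (-M) (1 : Mx n))ᴴ * D * fromCols (-M) (1 : Mx n)) =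
      (D * P).trace.re := by
  have e1 : fromBlocks Pᵀ 0 0 0 + (fromCols (-M) (1 : Mx n))ᴴ * D * fromCols (-M) (1 : Mx n) =
      (fromBlocks 1 0 (-M) 1)ᴴ * fromBlocks Pᵀ 0 0 D * fromBlocks 1 0 (-M) 1 := by
    simp [conjTranspose_fromCols_eq_fromRows_conjTranspose, fromRows_mul,
      fromBlocks_conjTranspose, fromBlocks_multiply, fromBlocks_add]
  have e2 : fromBlocks (1 : Mx n) 0 (-M) (1 : Mx n) * fromBlocks (0 : Mx n) (1 : Mx n) (-1) 0 *
      (fromBlocks (1 : Mx n) 0 (-M) (1 : Mx n))ᵀ = fromBlocks 0 1 (-1) 0 := by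
    simp [fromBlocks_transpose, fromBlocks_multiply, h]
  have e3 : (Pᵀ * Dᵀ).trace = (D * P).trace := by rw [← transpose_mul, trace_transpose]
  rw [e1, ← Lin.qf_conj, e2]
  simp [Qf, fromBlocks_conjTranspose, fromBlocks_multiply, fromBlocks_transpose, Lin.tr_blocks, e3]

/-! ### calculus -/

section core

variable {m : ℕ} {κ : Type*} {z : Cm m} {W : Cm m → Mx n} {C : Cm m → Matrix (Fin n) κ ℂ}
  {B : Fin m → Matrix (Fin n) κ ℂ}

theorem two [Finite κ] (hW : MC 2 W z) (hH : ∀ᶠ y in 𝓝 z, (W y).IsHermitian) (h0 : (W z).det ≠ 0)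
    (hC : ∀ y, MC 1 C y) (h1 : ∀ k y, DM k C y = B k) (h2 : ∀ k y, DMb k C y = 0) (k l : Fin m) :
    DM k (DMb l fun y => (C y)ᴴ * (W y)⁻¹ * C y) z =
      ((W z)⁻¹ * C z)ᴴ * RM k l W z * ((W z)⁻¹ * C z) +
        (B l - DM l W z * (W z)⁻¹ * C z)ᴴ * (W z)⁻¹ * (B k - DM k W z * (W z)⁻¹ * C z) := by
  have o : (1 : WithTop ℕ∞) ≠ 0 := by simp
  have e : (DMb l fun y => (C y)ᴴ * (W y)⁻¹ * C y) =ᶠ[𝓝 z] fun y =>
      (B l)ᴴ * (W y)⁻¹ * C y - (C y)ᴴ * (W y)⁻¹ * DMb l W y * (W y)⁻¹ * C y := by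
    filter_upwards [MC.eventually (q := 1) (hW.mono (by norm_num)),
      det_ne_zero_eventually (hW.mono (by norm_num)) h0] with y a b
    rw [DMb_mul (((hC y).conjTranspose.mul (a.inv b)).md o) ((hC y).md o),
      DMb_mul ((hC y).conjTranspose.md o) ((a.inv b).md o), DMb_conjTranspose ((hC y).md o), h1, h2,
      DMb_inv a b]
    simp only [Matrix.mul_zero, add_zero, Matrix.mul_neg, Matrix.neg_mul, Matrix.add_mul,
      Matrix.mul_assoc, sub_eq_add_neg]
  have w : MC 1 W z := hW.mono (by norm_num)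
  have p := w.inv h0
  have b : MC 1 (fun _ : Cm m => (B l)ᴴ) z := fun _ _ => contDiffAt_const
  have c := (hC z).conjTranspose
  have d : MC 1 (DMb l W) z := hW.DMb (by norm_num)
  rw [DM_congr e,
    DM_sub (((b.mul p).mul (hC z)).md o) (((((c.mul p).mul d).mul p).mul (hC z)).md o),
    DM_mul ((b.mul p).md o) ((hC z).md o), DM_mul (b.md o) (p.md o),
    DM_mul ((((c.mul p).mul d).mul p).md o) ((hC z).md o), DM_mul (((c.mul p).mul d).md o) (p.md o),
    DM_mul ((c.mul p).md o) (d.md o), DM_mul (c.md o) (p.md o), DM_conjTranspose ((hC z).md o), h1,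
    h2, DM_const, DM_inv w h0, RM]
  simp only [conjTranspose_sub, conjTranspose_mul, conjTranspose_nonsing_inv,
    hH.self_of_nhds.eq, ← DMb_of_isHermitian (w.md o) hH, conjTranspose_zero,
    Matrix.zero_mul, zero_add, Matrix.mul_neg, Matrix.neg_mul, Matrix.mul_sub, Matrix.sub_mul,
    Matrix.mul_add, Matrix.add_mul, Matrix.mul_assoc]
  abel

end core

variable {w : Cm (n + n)} {W : Cm n → Mx n}

/-- the projection to the base -/
def zL (n : ℕ) : Cm (n + n) →L[ℝ] Cm n := .pi fun i => .proj (Fin.castAdd n i)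

theorem fd_zc {f : Cm n → ℂ} (hf : DifferentiableAt ℝ f (zc w)) (v : Cm (n + n)) :
    fderiv ℝ (fun y => f (zc y)) w v = fderiv ℝ f (zc w) (zc v) :=
  congrArg (fun T : Cm (n + n) →L[ℝ] ℂ => T v)
    (HasFDerivAt.comp (f := zL n) w hf.hasFDerivAt (zL n).hasFDerivAt).fderiv

theorem ne_add (i j : Fin n) : Fin.castAdd n i ≠ Fin.natAdd n j := fun h => by
  have := congrArg Fin.val h
  simp only [Fin.val_castAdd, Fin.val_natAdd] at this
  omega

theorem zc_l (j : Fin n) (c : ℂ) : zc (Pi.single (Fin.castAdd n j) c) = Pi.single j c := by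
  ext i
  simp [zc, Pi.single_apply, (Fin.castAdd_injective n n).eq_iff]

theorem zc_r (j : Fin n) (c : ℂ) : zc (Pi.single (Fin.natAdd n j) c) = 0 := by
  ext i
  exact Pi.single_eq_of_ne (M := fun _ => ℂ) (ne_add i j) c

theorem MC_zc {r : WithTop ℕ∞} (h : MC r W (zc w)) : MC r (fun y => W (zc y)) w := fun i j =>
  ContDiffAt.comp (f := zL n) w (h i j) (zL n).contDiff.contDiffAt

theorem DM_l (h : MD W (zc w)) (j : Fin n) :
    DM (Fin.castAdd n j) (fun y => W (zc y)) w = DM j W (zc w) := by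
  ext a b
  simp only [DM_apply, dz, fd_zc (h a b), zc_l]

theorem DM_r (h : MD W (zc w)) (j : Fin n) : DM (Fin.natAdd n j) (fun y => W (zc y)) w = 0 := by
  ext a b
  simp [-Fin.natAdd_eq_addNat, dz, fd_zc (h a b), zc_r]

theorem DMb_l (h : MD W (zc w)) (j : Fin n) :
    DMb (Fin.castAdd n j) (fun y => W (zc y)) w = DMb j W (zc w) := by
  ext a b
  simp only [DMb_apply, dzb, fd_zc (h a b), zc_l]

theorem DMb_r (h : MD W (zc w)) (j : Fin n) : DMb (Fin.natAdd n j) (fun y => W (zc y)) w = 0 := by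
  ext a b
  simp [-Fin.natAdd_eq_addNat, dzb, fd_zc (h a b), zc_r]

theorem ev_md (h : MC 2 W (zc w)) : ∀ᶠ y in 𝓝 w, MD W (zc y) :=
  ((zL n).continuous.tendsto w).eventually
    ((MC.eventually (q := 2) h).mono fun _ k => k.md (by simp))

/-- the curvature is horizontal -/
theorem RM_zc (h : MC 2 W (zc w)) (q : Cm n) (k l : Fin n ⊕ Fin n) :
    star q ⬝ᵥ RM (finSumFinEquiv k) (finSumFinEquiv l) (fun y => W (zc y)) w *ᵥ q =
      fromBlocks (of fun i j => star q ⬝ᵥ RM i j W (zc w) *ᵥ q)ᵀ 0 0 0 l k := by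
  have d : MD W (zc w) := h.md (by simp)
  have d' : ∀ j, MD (DMb j W) (zc w) := fun j => (h.DMb (m' := 1) (by norm_num)).md (by simp)
  have e1 : ∀ j, DMb (Fin.castAdd n j) (fun y => W (zc y)) =ᶠ[𝓝 w] fun y => DMb j W (zc y) :=
    fun j => (ev_md h).mono fun y hy => DMb_l hy j
  have e2 : ∀ j, DMb (Fin.natAdd n j) (fun y => W (zc y)) =ᶠ[𝓝 w] fun _ => 0 :=
    fun j => (ev_md h).mono fun y hy => DMb_r hy j
  rcases k with k | k <;> rcases l with l | l <;>
    simp [-Fin.natAdd_eq_addNat, RM, D2, DM_congr (e1 _), DM_congr (e2 _), DM_l d, DM_r d, DMb_l d,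
      DMb_r d, DM_l (d' _), DM_r (d' _), DM_const]

/-- column matrices -/
abbrev col (a : Cm n) : Matrix (Fin n) Unit ℂ := replicateCol Unit a

theorem col_mul (A : Mx n) (a b : Cm n) : ((col a)ᴴ * A * col b) () () = star a ⬝ᵥ (A *ᵥ b) := by
  rw [Matrix.mul_assoc, ← replicateCol_mulVec]
  rfl

theorem col_sub (A P : Mx n) (a b : Cm n) : col b - A * P * col a = col (b - A *ᵥ (P *ᵥ a)) := by
  rw [Matrix.mul_assoc, ← replicateCol_mulVec, ← replicateCol_mulVec]
  rfl

theorem col_fd (i : Fin n) (y u : Cm (n + n)) : fderiv ℝ (fun y => vc y i) y u = vc u i :=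
  congrArg (fun T : Cm (n + n) →L[ℝ] ℂ => T u) (hasFDerivAt_apply (Fin.natAdd n i) y).fderiv

theorem vc_I (k : Fin (n + n)) (i : Fin n) : vc (Pi.single k I) i = I * vc (Pi.single k 1) i := by
  simp [vc, Pi.single_apply]

theorem col_DM (k : Fin (n + n)) (y : Cm (n + n)) :
    DM k (fun y => col (vc y)) y = col (vc (Pi.single k 1)) := by
  ext i j
  simp only [DM_apply, dz, replicateCol_apply, col_fd, vc_I]
  linear_combination -vc (Pi.single k 1) i / 2 * I_mul_I

theorem col_DMb (k : Fin (n + n)) (y : Cm (n + n)) : DMb k (fun y => col (vc y)) y = 0 := by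
  ext i j
  simp only [DMb_apply, dzb, replicateCol_apply, col_fd, vc_I, Matrix.zero_apply]
  linear_combination vc (Pi.single k 1) i / 2 * I_mul_I

theorem col_S (d : MD W (zc w)) (q : Cm n) (k : Fin n ⊕ Fin n) :
    vc (Pi.single (finSumFinEquiv k) 1) - DM (finSumFinEquiv k) (fun y => W (zc y)) w *ᵥ q =
      fun a => fromCols (-of fun a j => (DM j W (zc w) *ᵥ q) a) (1 : Mx n) a k := by
  ext a
  rcases k with k | k
  · simp [-Fin.natAdd_eq_addNat, DM_l d, vc, Pi.single_eq_of_ne (ne_add k a).symm]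
  · simp [-Fin.natAdd_eq_addNat, DM_r d, vc, Pi.single_apply, one_apply]

/-- the Hessian in the form of a Schur complement -/
theorem hess (h : MC 2 W (zc w)) (hP : ∀ᶠ y in 𝓝 (zc w), (W y).PosDef) {q : Cm n}
    (hq' : q = (W (zc w))⁻¹ *ᵥ vc w) {S : Matrix (Fin n) (Fin n ⊕ Fin n) ℂ}
    (hS : S = fromCols (-of fun a j => (DM j W (zc w) *ᵥ q) a) 1) :
    (cHess (Hq W) w)ᵀ.submatrix finSumFinEquiv finSumFinEquiv =
      fromBlocks (of fun i j => star q ⬝ᵥ RM i j W (zc w) *ᵥ q)ᵀ 0 0 0 +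
        Sᴴ * (W (zc w))⁻¹ * S := by
  have hH : ∀ᶠ y in 𝓝 w, (W (zc y)).IsHermitian :=
    ((zL n).continuous.tendsto w).eventually (hP.mono fun _ k => k.1)
  have e : (fun y => (Hq W y : ℂ)) =ᶠ[𝓝 w]
      fun y => ((col (vc y))ᴴ * (W (zc y))⁻¹ * col (vc y)) () () := hH.mono fun y k => by
    simp only [col_mul]
    exact Complex.ext rfl (k.inv.im_star_dotProduct_mulVec_self _).symm
  ext l k
  have b := congrFun₂ (two (C := fun y => col (vc y)) (MC_zc h) hH
    (posDef_det_ne_zero hP.self_of_nhds) (fun y i _ => (contDiff_apply ℝ ℂ _).contDiffAt)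
    col_DM col_DMb (finSumFinEquiv k) (finSumFinEquiv l)) () ()
  rw [col_sub, col_sub, Matrix.add_apply, col_mul, ← replicateCol_mulVec, col_mul, ← hq',
    RM_zc h, col_S (h.md (by simp)), col_S (h.md (by simp)), ← hS] at b
  rw [submatrix_apply, transpose_apply, cHess_apply, dz_congr _ (dzb_eventuallyEq _ e),
    Matrix.add_apply, Matrix.mul_assoc]
  exact b

end Pde0

open Pde0 in
theorem pde0 : PDE0 := by
  intro n W z ξ h1 hP hK
  have ez : zc (Fin.append z ξ) = z := funext fun i => Fin.append_left z ξ i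
  have ev : vc (Fin.append z ξ) = ξ := funext fun i => Fin.append_right z ξ i
  have h : MC 2 W z := fun j k => contDiffAt_infty.1 (h1 j k) 2
  have e := hess (w := Fin.append z ξ) (ez.symm ▸ h) (ez.symm ▸ hP) rfl rfl
  rw [ez, ev] at e
  obtain ⟨q, hq⟩ : ∃ q, q = (W z)⁻¹ *ᵥ ξ := ⟨_, rfl⟩
  rw [← hq] at e ⊢
  obtain ⟨R, hR⟩ : ∃ R : Mx n, R = of fun i j => star q ⬝ᵥ RM i j W z *ᵥ q := ⟨_, rfl⟩
  obtain ⟨M, hM⟩ : ∃ M : Mx n, M = of fun a j => (DM j W z *ᵥ q) a := ⟨_, rfl⟩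
  rw [← hR, ← hM] at e
  have sy : Mᵀ = M := by
    ext a j
    simp only [hM, transpose_apply, of_apply, mulVec, dotProduct, DM_apply,
      hK.self_of_nhds a _ j]
  have k : ∀ (a : Mx n) (c : ℝ), Qf (pz n) ((c : ℂ) • (cHess (Hq W) (Fin.append z ξ))ᵀ + hb a) =
      c ^ 2 * ((W z)⁻¹ * R).trace.re + c * trg (W z) a := fun a c => by
    have := qf_shear ((c : ℂ) • R + a) ((c : ℂ) • (W z)⁻¹) M sy
    rw [qf_sub, submatrix_add, submatrix_smul]
    simp only [Pi.add_apply, Pi.smul_apply]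
    rw [e, hb, reindex_apply, submatrix_submatrix, Equiv.symm_comp_self, submatrix_id_id]
    convert this using 2
    · simp [fromBlocks_smul, fromBlocks_add, add_right_comm]
    · simp only [trg, Matrix.mul_add, Matrix.smul_mul, Matrix.mul_smul, trace_add, trace_smul,
        smul_eq_mul, add_re, re_ofReal_mul]
      ring
  have k0 : Qf (pz n) (cHess (Hq W) (Fin.append z ξ))ᵀ = ((W z)⁻¹ * R).trace.re := by
    simpa [hb, trg] using k 0 1
  refine ⟨?_, fun a c _ => by rw [k, k0]⟩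
  have c2 : ContDiffAt ℝ 2 (fun y => Real.log (W y).det.re) z :=
    (reCLM.contDiff.contDiffAt.comp z h.det).log (det_re_pos hP.self_of_nhds).ne'
  rw [k0, cHess_neg c2, ← ricci_identity h hP hK]
  simp only [hR, trace, diag_apply, mul_apply, of_apply, sum_mulVec, dotProduct_sum, smul_mulVec,
    dotProduct_smul, smul_eq_mul]

end Vale.Agent.P253W.A
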