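import Vale.Agent.P253W.A.Defs2
import Vale.Agent.P253W.A.Lipk
import Vale.Agent.P253W.FG.Lam

/-!
# P253W, block A, row PDE1: the differential inequality for the symbol
-/

set_option linter.unusedSectionVars false

open scoped Manifold ContDiff Bundle Topology ComplexConjugate ComplexOrder Matrix
open Bundle Set Metric Filter Vale.Agent.P253Z
open Vale.Agent.P272.K (Cm dz cHess jacM Chart)
open Vale.Agent.P272.K.C2 (contDiffAt_dz contDiffAt_ofReal contDiffAt_cHess cHess_isHermitian)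

noncomputable section

namespace Vale.Agent.P253W.A

namespace Pde1

variable {n : ℕ}

theorem two_le : (2 : WithTop ℕ∞) ≤ ∞ := WithTop.coe_le_coe.2 (le_top (a := (2 : ℕ∞)))

theorem hb_add (a b : Mx n) : hb (a + b) = hb a + hb b := by
  ext i j
  simp only [hb, Matrix.reindex_apply, Matrix.submatrix_apply, Matrix.add_apply]
  rcases finSumFinEquiv.symm i with i | i <;> rcases finSumFinEquiv.symm j with j | j <;> simp

theorem hb_smul (c : ℂ) (a : Mx n) : hb (c • a) = c • hb a := by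
  ext i j
  simp only [hb, Matrix.reindex_apply, Matrix.submatrix_apply, Matrix.smul_apply]
  rcases finSumFinEquiv.symm i with i | i <;> rcases finSumFinEquiv.symm j with j | j <;> simp

theorem wt_add {A B : ℝ} {p : Cm n} {a b : Mx (n + n)} (ha : Wt A p a) (hb : Wt B p b) :
    Wt (A + B) p (a + b) := fun i j => by
  obtain ⟨a1, a2, a3, a4⟩ := ha i j
  obtain ⟨b1, b2, b3, b4⟩ := hb i j
  simp only [Matrix.add_apply, add_div]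
  exact ⟨norm_add_le_of_le a1 b1, norm_add_le_of_le a2 b2, norm_add_le_of_le a3 b3,
    norm_add_le_of_le a4 b4⟩

theorem wt_smul {A r s : ℝ} {p : Cm n} {a : Mx (n + n)} (ha : Wt A p a) (hr : |r| ≤ s) :
    Wt (s * A) p ((r : ℂ) • a) := fun i j => by
  obtain ⟨a1, a2, a3, a4⟩ := ha i j
  have hs : 0 ≤ s := (abs_nonneg r).trans hr
  simp only [Matrix.smul_apply, norm_smul, Complex.norm_real, Real.norm_eq_abs, mul_div_assoc]
  exact ⟨mul_le_mul hr a1 (norm_nonneg _) hs, mul_le_mul hr a2 (norm_nonneg _) hs,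
    mul_le_mul hr a3 (norm_nonneg _) hs, mul_le_mul hr a4 (norm_nonneg _) hs⟩

theorem wt_mono {A B : ℝ} {p : Cm n} {a : Mx (n + n)} (ha : Wt A p a) (h : A ≤ B) : Wt B p a :=
  fun i j => by
  obtain ⟨a1, a2, a3, a4⟩ := ha i j
  exact ⟨a1.trans h, a2.trans (by gcongr), a3.trans (by gcongr), a4.trans (by gcongr)⟩

theorem bd_add {A B : ℝ} {a b : Mx n} (ha : Bd A a) (hb : Bd B b) : Bd (A + B) (a + b) :=
  fun i j => norm_add_le_of_le (ha i j) (hb i j)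

theorem bd_smul {A r s : ℝ} {a : Mx n} (ha : Bd A a) (hr : |r| ≤ s) : Bd (s * A) ((r : ℂ) • a) :=
  fun i j => by
  simp only [Matrix.smul_apply, norm_smul, Complex.norm_real, Real.norm_eq_abs]
  exact mul_le_mul hr (ha i j) (norm_nonneg _) ((abs_nonneg r).trans hr)

theorem herm_smul (r : ℝ) {a : Mx n} (ha : a.IsHermitian) : ((r : ℂ) • a).IsHermitian := by
  rw [Matrix.IsHermitian, Matrix.conjTranspose_smul, ha.eq]
  simp

theorem trg_add (g a b : Mx n) : trg g (a + b) = trg g a + trg g b := by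
  simp [trg, Matrix.mul_add]

theorem trg_smul (g a : Mx n) (r : ℝ) : trg g ((r : ℂ) • a) = r * trg g a := by
  simp [trg]

theorem trg_mono {g a b : Mx n} (hg : g.PosDef) (h : (b - a).PosSemidef) : trg g a ≤ trg g b :=
  (FG.eig n).mono g a b hg h

theorem gg_psd (f : Cm n → ℝ) (z : Cm n) : (FG.gg f z).PosSemidef :=
  Matrix.posSemidef_vecMulVec_self_star fun j => dz j (fun y => (f y : ℂ)) z

/-- uniform bounds for the entries of a continuous family of matrices -/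
theorem ex_bd {X : Type*} [TopologicalSpace X] {K : Set X} (hK : IsCompact K) {a : X → Mx n}
    (h : ∀ j k, ContinuousOn (fun x => a x j k) K) : ∃ B, 0 ≤ B ∧ ∀ x ∈ K, Bd B (a x) := by
  have h1 : ContinuousOn (fun x => ∑ j, ∑ k, ‖a x j k‖) K :=
    continuousOn_finsetSum _ fun j _ => continuousOn_finsetSum _ fun k _ => (h j k).norm
  obtain ⟨B, hB⟩ := hK.exists_bound_of_continuousOn h1
  refine ⟨|B|, abs_nonneg _, fun x hx j k => ?_⟩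
  calc ‖a x j k‖ ≤ ∑ k, ‖a x j k‖ :=
        Finset.single_le_sum (f := fun k => ‖a x j k‖) (fun _ _ => norm_nonneg _) (Finset.mem_univ k)
    _ ≤ ∑ j, ∑ k, ‖a x j k‖ := Finset.single_le_sum (f := fun j => ∑ k, ‖a x j k‖)
        (fun _ _ => Finset.sum_nonneg fun _ _ => norm_nonneg _) (Finset.mem_univ j)
    _ ≤ |B| := ((le_abs_self _).trans (hB x hx)).trans (le_abs_self _)

/-- the trace of the horizontal part -/
theorem tr_le {η κ lP lX dP dX y w₁ w₂ a b : ℝ} (hη : 0 < η) (hκ : 0 ≤ κ) (hy : 0 ≤ y)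
    (hP : y / 2 + lP ≤ dP) (hX : lX ≤ dX) (h1 : 0 ≤ w₁) (ha : a ≤ 2 * y) (hb0 : 0 ≤ b)
    (hb : b ≤ κ * y) : η * lP + lX + w₁ * a + w₂ * b + η / 2 * y ≤
      η * dP + dX + (2 + κ) * (|w₁| + |w₂|) * y := by
  have e1 : w₁ * a ≤ |w₁| * (2 * y) := by
    rw [abs_of_nonneg h1]; exact mul_le_mul_of_nonneg_left ha h1
  have e2 : w₂ * b ≤ |w₂| * (κ * y) :=
    mul_le_mul (le_abs_self _) hb hb0 (abs_nonneg _)
  have e3 := mul_le_mul_of_nonneg_left hP hη.le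
  have e4 : 0 ≤ |w₁| * (κ * y) := by positivity
  have e5 : 0 ≤ |w₂| * y := by positivity
  nlinarith

/-- the error terms -/
theorem err_le {k k₀ N A₁ A₂ s D r e₁ e₂ e₃ : ℝ} (hk0 : 0 ≤ k) (hk : k ≤ k₀ * r) (hr : 0 < r)
    (hN : 0 ≤ N) (h1 : 0 ≤ A₁) (h2 : 0 ≤ A₂) (hs0 : 0 ≤ s) (hs : s ≤ 1) (hD : 1 ≤ D)
    (b1 : |e₁| ≤ N * (A₁ * D) * (A₂ * s * D) / r) (b2 : |e₂| ≤ N * (A₂ * s * D) * (A₁ * D) / r)
    (b3 : |e₃| ≤ N * (A₂ * s * D) * (A₂ * s * D) / r) :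
    k * (e₁ + e₂ + e₃) ≤ k₀ * (N * (2 * A₁ * A₂ + A₂ ^ 2)) * s * D ^ 3 := by
  have hD0 : 0 ≤ D := by linarith
  have c1 : N * (A₂ * s * D) * (A₂ * s * D) ≤ N * (A₂ * s * D) * (A₂ * D) := by
    gcongr
    exact mul_le_of_le_one_right h2 hs
  have c2 : e₁ + e₂ + e₃ ≤ N * (2 * A₁ * A₂ + A₂ ^ 2) * s * D ^ 2 / r := by
    have := div_le_div_of_nonneg_right c1 hr.le
    have e : N * (2 * A₁ * A₂ + A₂ ^ 2) * s * D ^ 2 / r = N * (A₁ * D) * (A₂ * s * D) / r +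
        N * (A₂ * s * D) * (A₁ * D) / r + N * (A₂ * s * D) * (A₂ * D) / r := by ring
    linarith [le_abs_self e₁, le_abs_self e₂, le_abs_self e₃]
  have c3 : D ^ 2 ≤ D ^ 3 := pow_le_pow_right₀ hD (by norm_num)
  have hk₀ : 0 ≤ k₀ := nonneg_of_mul_nonneg_left (hk0.trans hk) hr
  calc k * (e₁ + e₂ + e₃) ≤ k * (N * (2 * A₁ * A₂ + A₂ ^ 2) * s * D ^ 2 / r) :=
        mul_le_mul_of_nonneg_left c2 hk0
    _ ≤ k₀ * r * (N * (2 * A₁ * A₂ + A₂ ^ 2) * s * D ^ 2 / r) :=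
        mul_le_mul_of_nonneg_right hk (by positivity)
    _ = k₀ * (N * (2 * A₁ * A₂ + A₂ ^ 2)) * s * D ^ 2 := by field_simp
    _ ≤ _ := by gcongr

/-- the inequality for matrices -/
theorem core (m : HOM) {W a₀ : Mx n} {α s₁ : Mx (n + n)} {ξ : Cm n} {H Ht t S l l₀ g A B A₂ s D : ℝ}
    (hξ : ξ ≠ 0) (hH : 0 < H) (ht : t ∈ Ioc 0 S) (hl₀ : 0 < l₀) (hl : l ∈ Icc l₀ 1)
    (hg : g ∈ Icc (0 : ℝ) 1) (ha₀ : a₀.IsHermitian) (hA : 0 ≤ A) (hB : 0 ≤ B) (hA₂ : 0 ≤ A₂)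
    (hs0 : 0 ≤ s) (hs : s ≤ 1) (hD : 1 ≤ D)
    (hQ : ∀ (a : Mx n) (c : ℝ), a.IsHermitian →
      Qf (pz n) ((c : ℂ) • α + hb a) = c ^ 2 * Ht + c * trg W a)
    (h1 : H ≤ A * ‖ξ‖ ^ 2) (h2 : Wt A ξ (((H⁻¹ : ℝ) : ℂ) • α)) (h3 : Bd (B * D) a₀)
    (h4 : Wt (A₂ * s * D) ξ s₁) :
    t * (H / l) * Qf (pz n) (((l / H : ℝ) : ℂ) • α + (g : ℂ) • (hb a₀ + s₁)) ≤
      l * (t * Ht / H) + g * (t * trg W a₀) +
        S * A / l₀ * (2 * n ^ 2 * (2 * (A + B) * A₂ + A₂ ^ 2)) * s * D ^ 3 := by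
  obtain ⟨-, m2, m3, m4, -⟩ := m n
  have hl0 : 0 < l := hl₀.trans_le hl.1
  have hg1 : |g| ≤ 1 := by rw [abs_of_nonneg hg.1]; exact hg.2
  have e : ((l / H : ℝ) : ℂ) • α + (g : ℂ) • (hb a₀ + s₁) =
      (((l / H : ℝ) : ℂ) • α + hb ((g : ℂ) • a₀)) + (g : ℂ) • s₁ := by
    rw [hb_smul, smul_add, add_assoc]
  have w1 : Wt ((A + B) * D) ξ (((l / H : ℝ) : ℂ) • α + hb ((g : ℂ) • a₀)) := by
    have a1 := wt_smul (r := l) h2 (s := 1) (by rw [abs_of_pos hl0]; exact hl.2)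
    rw [smul_smul, ← Complex.ofReal_mul, ← div_eq_mul_inv] at a1
    refine wt_mono (wt_add a1 (m3 _ ξ _ (bd_smul h3 hg1) (by positivity))) ?_
    nlinarith
  have w2 : Wt (A₂ * s * D) ξ ((g : ℂ) • s₁) := by simpa using wt_smul h4 hg1
  have hr : 0 < ‖ξ‖ ^ 2 := by positivity
  have hk : t * (H / l) ≤ S * A / l₀ * ‖ξ‖ ^ 2 := by
    calc t * (H / l) ≤ S * (A * ‖ξ‖ ^ 2 / l₀) :=
          mul_le_mul ht.2 (div_le_div₀ (by positivity) h1 hl₀ hl.1) (by positivity)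
            (ht.1.le.trans ht.2)
      _ = _ := by ring
  have := err_le (N := 2 * n ^ 2) (mul_nonneg ht.1.le (by positivity)) hk hr (by positivity)
    (add_nonneg hA hB) hA₂ hs0 hs hD (m2 _ _ ξ _ _ hξ w1 w2) (m2 _ _ ξ _ _ hξ w2 w1)
    (m2 _ _ ξ _ _ hξ w2 w2)
  rw [e, m4, hQ _ _ (herm_smul g ha₀), trg_smul]
  have e2 : t * (H / l) * ((l / H) ^ 2 * Ht + l / H * (g * trg W a₀)) =
      l * (t * Ht / H) + g * (t * trg W a₀) := by field_simp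
  linarith

theorem inv_le {d a : ℝ} (hd : 0 < d) (h : d ≤ a) : (a ^ 6)⁻¹ ≤ (d ^ 6)⁻¹ := by gcongr

variable {M : Type} [MetricSpace M] [ChartedSpace (Cm n) M] [IsManifold 𝓘(ℂ, Cm n) 1 M]
  [RiemannianBundle fun x : M => TangentSpace 𝓘(ℝ, Cm n) x] {F : Flow n M}

/-- the left side does not depend on the chart -/
theorem chg (h : Cx F) (t : TOP n M) (s : SYP n M) (r : REG F) (lb : LB F) {p : Pd M}
    {S κ η₁ : ℝ} (hp : p.Ok F S κ) (hη : 0 < η₁) {τ : ℝ} (hτ : τ ∈ Ioc 0 S) {y : TS n M}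
    (hy : y ∈ p.W F η₁) {e e' : Chart n M} {c c' : Chart (n + n) (TS n M)} (hc : Tc e c)
    (hc' : Tc e' c') (h1 : y ∈ c.source) (h2 : y ∈ c'.source) (a g : ℂ) :
    Qf (pz n) (a • lm (HT F τ) c y + g • p.L F η₁ e c τ y) =
      Qf (pz n) (a • lm (HT F τ) c' y + g • p.L F η₁ e' c' τ y) := by
  obtain ⟨s1, -, s3⟩ := s e e' c c' hc hc' y h1 h2
  have ht : c' y ∈ c'.target := c'.map_source h2
  have a1 : ContDiffAt ℝ 2 (fun w => HT F τ (c'.symm w)) (c' y) := by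
    have := (r.sm e' c' hc').comp (contDiff_const.prodMk contDiff_id).contDiffOn
      (s := c'.target) fun w hw => (⟨hτ.1.le, hw⟩ : (τ, w) ∈ Ici (0 : ℝ) ×ˢ c'.target)
    exact (this.contDiffAt (c'.open_target.mem_nhds ht)).of_le two_le
  have a2 : ContDiffAt ℝ 2 (fun w => p.b F η₁ τ (c'.symm w)) (c' y) := by
    obtain ⟨-, l2, -, l4, -⟩ := lb p S κ η₁ hp hη
    have := (l4 c' ⟨e', hc'⟩).comp (contDiff_const.prodMk contDiff_id).contDiffOn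
      (s := c'.target ∩ c'.symm ⁻¹' p.W F η₁) fun w hw =>
        (⟨hw.1, ⟨hτ.1, by linarith [hτ.2]⟩, hw.2⟩ : (τ, w) ∈ {q : ℝ × Cm (n + n) |
          q.2 ∈ c'.target ∧ (q.1, c'.symm q.2) ∈ Ioo 0 (S + 1) ×ˢ p.W F η₁})
    exact this.contDiffAt ((c'.isOpen_inter_preimage_symm l2).mem_nhds
      ⟨ht, by rwa [mem_preimage, c'.left_inv h2]⟩)
  have x1 : y.1 ∈ e.source := by simpa [hc.src] using h1
  have x2 : y.1 ∈ e'.source := by simpa [hc'.src] using h2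
  conv_rhs => rw [← s1, Lin.qf_conj]
  rw [Pd.L, Pd.L, Lipk.lm_chg t.atl ⟨e, hc⟩ ⟨e', hc'⟩ h1 h2 a1,
    Lipk.lm_chg t.atl ⟨e, hc⟩ ⟨e', hc'⟩ h1 h2 a2, h.b.wch e e' hc.he hc'.he _ x1 x2, ← s3]
  simp only [Matrix.mul_add, Matrix.add_mul, Matrix.mul_smul, Matrix.smul_mul]

/-- the inequality over a compact piece of a chart -/
theorem loc (h : Cx F) (t : TOP n M) (r : REG F) (w : WB) (m : HOM) (p0 : PDE0) (lb : LB F)
    {p : Pd M} {S κ l₀ : ℝ} (hp : p.Ok F S κ) (hl₀ : 0 < l₀) {e : Chart n M}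
    {c : Chart (n + n) (TS n M)} (hc : Tc e c) {K : Set (Cm n)} (hK : IsCompact K)
    (hKe : K ⊆ e.target) : ∃ C : ℝ, ∀ η₁ ∈ Ioc (0 : ℝ) 1, ∀ τ ∈ Ioc 0 S, ∀ y ∈ p.W F η₁,
      y ∈ c.source → e y.1 ∈ K → ∀ l ∈ Icc l₀ 1, ∀ g ∈ Icc (0 : ℝ) 1, τ * (HT F τ y / l) * Qf (pz n)
      (((l / HT F τ y : ℝ) : ℂ) • lm (HT F τ) c y + (g : ℂ) • p.L F η₁ e c τ y) ≤
        l * (τ * Ht F τ y / HT F τ y) + g * (τ * (p.η * dt p.P τ y.1 + dt p.X τ y.1)) +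
          (S * (2 + κ) * wd wb (p.x₁ y) * F.y τ y.1 + C * √η₁ * (p.d F η₁ y ^ 18)⁻¹) := by
  have he := hc.he
  obtain ⟨A, hA, m1⟩ := (m n).1 e.target K (fun t => F.g t e) S e.open_target hK hKe
    (h.b1.g_sm e he) fun t ht => h.is.pos t ht e he
  obtain ⟨Cw, hCw, w1, w2⟩ := w.bd
  obtain ⟨_, -, -, sP, cP, -⟩ := r.dt _ _ hp.smP
  obtain ⟨_, -, -, sX, cX, -⟩ := r.dt _ _ hp.smX
  have hsub : Icc 0 S ×ˢ K ⊆ Ico 0 (S + 1) ×ˢ e.target :=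
    prod_mono (Icc_subset_Ico_right (lt_add_one S)) hKe
  obtain ⟨B₁, hB₁, b1⟩ := ex_bd (isCompact_Icc.prod hK) fun j k => (cP e he j k).mono hsub
  obtain ⟨B₂, hB₂, b2⟩ := ex_bd (isCompact_Icc.prod hK) fun j k => (cX e he j k).mono hsub
  obtain ⟨B₃, hB₃, b3⟩ := ex_bd hK (a := hs p.ϱ e) fun j k z hz =>
    (contDiffAt_cHess (m := 0) (hp.sm e he z (hKe hz)) (by norm_cast) j
      k).continuousAt.continuousWithinAt
  obtain ⟨B₄, hB₄, b4⟩ := ex_bd hK (a := FG.gg fun w => p.ϱ (e.symm w)) fun j k z hz => by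
    have a1 := fun j => (contDiffAt_dz (m := 0) j (contDiffAt_ofReal (hp.sm e he z (hKe hz)))
      (by norm_cast)).continuousAt
    exact ((a1 j).mul (Complex.continuous_conj.continuousAt.comp (a1 k))).continuousWithinAt
  obtain ⟨B₅, hB₅, b5⟩ := ex_bd hK (a := hm e) fun j k z hz =>
    (h.b.wsm e he z (hKe hz) j k).continuousAt.continuousWithinAt
  have hη := hp.η_pos
  refine ⟨S * A / l₀ * (2 * n ^ 2 * (2 * (A + (p.η * B₁ + B₂ + Cw * B₃ + Cw * B₄ + p.η / 2 * B₅)) *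
    (2 * Cw * A) + (2 * Cw * A) ^ 2)), fun η₁ hη₁ τ hτ y hy hyc hyK l hl g hg => ?_⟩
  have x1 : y.1 ∈ e.source := by simpa [hc.src] using hyc
  have z1 : e y.1 ∈ e.target := hKe hyK
  have li : e.symm (e y.1) = y.1 := e.left_inv x1
  have hτ' : τ ∈ Ico 0 (S + 1) := ⟨hτ.1.le, by linarith [hτ.2]⟩
  have hτS : τ ∈ Icc 0 S := ⟨hτ.1.le, hτ.2⟩
  have h0S : (0 : ℝ) ∈ Icc 0 S := ⟨le_rfl, hτ.1.le.trans hτ.2⟩
  have hcy : c y = Fin.append (e y.1) (cv e y.1 y.2) := hc.map y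
  have hξ : cv e y.1 y.2 ≠ 0 := fun h0 => hy.1 ((t.vc_ne e he y x1).1 (by
    funext i
    rw [vc, tq, Fin.append_right, h0]))
  have hH : ∀ σ, 0 ≤ σ → HT F σ y = hq (F.g σ e (e y.1)) (cv e y.1 y.2) := fun σ hσ =>
    h.b1.H_eq σ hσ e he _ x1 _
  have hd1 : 0 < min 1 (1 - p.x₁ y) := lt_min one_pos (by linarith [hy.2.1])
  have hd2 : 0 < min 1 (1 - Pd.x₂ F η₁ y) := lt_min one_pos (by linarith [hy.2.2])
  have hd : 0 < p.d F η₁ y := lt_min hd1 hd2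
  have hD : 1 ≤ (p.d F η₁ y ^ 6)⁻¹ := (one_le_inv₀ (by positivity)).2
    (pow_le_one₀ hd.le ((min_le_left _ _).trans (min_le_left _ _)))
  set D := (p.d F η₁ y ^ 6)⁻¹ with hDd
  have v1 : wd wb (p.x₁ y) ≤ Cw * D :=
    (w1 _ hy.2.1).trans (mul_le_mul_of_nonneg_left (inv_le hd (min_le_left _ _)) hCw)
  have v2 : wd (fun s => wb (η₁ * s ^ 2)) (Real.log (HT F 0 y)) ≤ Cw * √η₁ * D :=
    (w2 η₁ hη₁ _ hy.2.2).trans
      (mul_le_mul_of_nonneg_left (inv_le hd (min_le_right _ _)) (by positivity))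
  have hρ : p.ϱ y.1 ≤ p.R + 1 := by linarith [show p.ϱ y.1 - p.R < 1 from hy.2.1]
  have pos := h.is.pos τ hτ.1.le e he _ z1
  have c2 : ∀ {f : M → ℝ}, Sm n f → ContDiffAt ℝ 2 (fun w => f (e.symm w)) (e y.1) :=
    fun hf => (hf e he _ z1).of_le two_le
  set a₀ : Mx n := (p.η : ℂ) • hs (p.P τ) e (e y.1) + hs (p.X τ) e (e y.1) +
    ((deriv wb (p.x₁ y) : ℝ) : ℂ) • hs p.ϱ e (e y.1) +
    ((deriv (deriv wb) (p.x₁ y) : ℝ) : ℂ) • FG.gg (fun w => p.ϱ (e.symm w)) (e y.1) +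
    ((p.η / 2 : ℝ) : ℂ) • hm e (e y.1) with ha₀
  have herm : a₀.IsHermitian :=
    ((((herm_smul _ (cHess_isHermitian (c2 (sP τ hτ')))).add
      (cHess_isHermitian (c2 (sX τ hτ')))).add (herm_smul _ (cHess_isHermitian (c2 hp.sm)))).add
      (herm_smul _ (gg_psd _ _).isHermitian)).add (herm_smul _ (h.b.wpos e he _ z1).isHermitian)
  have u1 : |deriv wb (p.x₁ y)| ≤ Cw * D := (le_add_of_nonneg_right (abs_nonneg _)).trans v1
  have u2 : |deriv (deriv wb) (p.x₁ y)| ≤ Cw * D :=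
    (le_add_of_nonneg_left (abs_nonneg _)).trans v1
  have bd : Bd ((p.η * B₁ + B₂ + Cw * B₃ + Cw * B₄ + p.η / 2 * B₅) * D) a₀ := fun i j => by
    refine (bd_add (bd_add (bd_add (bd_add (bd_smul (b1 (τ, e y.1) ⟨hτS, hyK⟩) (abs_of_pos hη).le)
      (b2 (τ, e y.1) ⟨hτS, hyK⟩)) (bd_smul (b3 _ hyK) u1)) (bd_smul (b4 _ hyK) u2))
      (bd_smul (b5 _ hyK) (abs_of_pos (half_pos hη)).le) i j).trans ?_
    have : 0 ≤ (p.η * B₁ + B₂ + p.η / 2 * B₅) * (D - 1) := mul_nonneg (by positivity) (by linarith)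
    linarith
  obtain ⟨-, n2, n3⟩ := m1 0 h0S _ hyK _ hξ
  obtain ⟨n4, n5, -⟩ := m1 τ hτS _ hyK _ hξ
  obtain ⟨-, -, -, -, -, l6⟩ := lb p S κ η₁ hp hη₁.1
  rw [← hcy, ← hH 0 le_rfl, ← (r.lm_eq e c hc 0 le_rfl y hyc).1] at n2
  rw [← hcy, ← (r.lm_eq e c hc 0 le_rfl y hyc).2] at n3
  rw [← hcy, ← hH τ hτ.1.le, ← (r.lm_eq e c hc τ hτ.1.le y hyc).1] at n5
  rw [← hH τ hτ.1.le] at n4
  have u3 := wt_add (wt_smul n3 ((abs_sub _ _).trans v2))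
    (wt_smul n2 ((le_add_of_nonneg_left (abs_nonneg _)).trans v2))
  rw [smul_smul, ← Complex.ofReal_mul, ← div_eq_mul_inv _ (HT F 0 y)] at u3
  have hQ := (p0 n (F.g τ e) (e y.1) (cv e y.1 y.2) (h.b1.g_at τ hτ.1.le e he _ z1)
    (by filter_upwards [e.open_target.mem_nhds z1] with z hz using h.is.pos τ hτ.1.le e he z hz)
    (by filter_upwards [e.open_target.mem_nhds z1] with z hz using h.b1.g_cl τ hτ.1.le e he z hz)).2
  rw [← hcy, ← (r.lm_eq e c hc τ hτ.1.le y hyc).1, r.pde c ⟨e, hc⟩ τ hτ.1.le y hyc] at hQ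
  have key := core m hξ (h.b2.H_pos τ hτ.1.le _ _ hy.1) hτ hl₀ hl hg herm hA (by positivity)
    (A₂ := 2 * Cw * A) (by positivity) (Real.sqrt_nonneg η₁) (Real.sqrt_le_one.2 hη₁.2) hD hQ n4 n5 bd
    (wt_mono u3 (le_of_eq (by ring)))
  rw [show F.H τ y.1 y.2 = HT F τ y from rfl] at key
  have hy0 : 0 ≤ F.y τ y.1 := (Nat.cast_nonneg n).trans (h.b2.y_ge τ hτ.1.le _)
  have ey : trg (F.g τ e (e y.1)) (hm e (e y.1)) = F.y τ y.1 := by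
    rw [← h.b1.y_eq τ hτ.1.le e he _ z1, li]
  have el : ∀ {f : M → ℝ}, Sm n f → trg (F.g τ e (e y.1)) (hs f e (e y.1)) = F.lap τ f y.1 :=
    fun hf => by rw [← h.b1.lap_eq τ hτ.1.le _ e he _ z1 (c2 hf), li]
  obtain ⟨k1, k2⟩ := hp.hess e he _ z1 (by rwa [li])
  have k3 : trg (F.g τ e (e y.1)) a₀ ≤ p.η * dt p.P τ y.1 + dt p.X τ y.1 +
      (2 + κ) * wd wb (p.x₁ y) * F.y τ y.1 := by
    have a1 := trg_mono pos k1
    have a2 := trg_mono pos k2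
    have a3 := trg_mono pos (a := 0) (by simpa using gg_psd (fun w => p.ϱ (e.symm w)) (e y.1))
    rw [← Complex.ofReal_ofNat, trg_smul, ey] at a1
    rw [trg_smul, ey] at a2
    simp only [ha₀, trg_add, trg_smul, ey, el (sP τ hτ'), el (sX τ hτ')]
    exact tr_le hη hp.κ_nn hy0 (hp.sup τ hτ _ hρ).1 (hp.sup τ hτ _ hρ).2 (w.mono _ hy.2.1) a1
      (by simpa [trg] using a3) a2
  have k4 : g * (τ * ((2 + κ) * wd wb (p.x₁ y) * F.y τ y.1)) ≤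
      S * (2 + κ) * wd wb (p.x₁ y) * F.y τ y.1 := by
    have a1 : 0 ≤ (2 + κ) * wd wb (p.x₁ y) * F.y τ y.1 :=
      mul_nonneg (mul_nonneg (by linarith [hp.κ_nn])
        (add_nonneg (abs_nonneg _) (abs_nonneg _))) hy0
    have a2 : g * τ ≤ S := (mul_le_of_le_one_left hτ.1.le hg.2).trans hτ.2
    nlinarith
  have k5 := mul_le_mul_of_nonneg_left (mul_le_mul_of_nonneg_left k3 hτ.1.le) hg.1
  have e3 : (p.d F η₁ y ^ 18)⁻¹ = D ^ 3 := by rw [hDd, inv_pow, ← pow_mul]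
  rw [Pd.L, l6 e c hc τ hτ' y hy hyc, add_right_comm (hb _), ← hb_smul, ← hb_add, e3]
  linarith

end Pde1

variable {n : ℕ} {M : Type} [MetricSpace M] [ChartedSpace (Cm n) M] [IsManifold 𝓘(ℂ, Cm n) 1 M]
  [RiemannianBundle fun x : M => TangentSpace 𝓘(ℝ, Cm n) x] {F : Flow n M}

theorem pde1 (h : Cx F) (t : TOP n M) (s : SYP n M) (r : REG F) (w : WB) (m : HOM) (p0 : PDE0)
    (lb : LB F) : PDE1 F := by
  intro p S κ l₀ hp hl₀
  have key : ∃ C : ℝ, 0 ≤ C ∧ ∀ η₁ ∈ Ioc (0 : ℝ) 1, ∀ τ ∈ Ioc 0 S, ∀ y ∈ p.W F η₁,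
      y.1 ∈ {x | p.ϱ x ≤ p.R + 1} → ∀ e c, Tc e c → y ∈ c.source →
      ∀ l ∈ Icc l₀ 1, ∀ g ∈ Icc (0 : ℝ) 1, τ * (HT F τ y / l) * Qf (pz n)
      (((l / HT F τ y : ℝ) : ℂ) • lm (HT F τ) c y + (g : ℂ) • p.L F η₁ e c τ y) ≤
        l * (τ * Ht F τ y / HT F τ y) + g * (τ * (p.η * dt p.P τ y.1 + dt p.X τ y.1)) +
          (S * (2 + κ) * wd wb (p.x₁ y) * F.y τ y.1 + C * √η₁ * (p.d F η₁ y ^ 18)⁻¹) := by
    have mono : ∀ {C C' η d : ℝ}, C ≤ C' → C * √η * (d ^ 18)⁻¹ ≤ C' * √η * (d ^ 18)⁻¹ :=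
      fun h => by gcongr
    refine hp.cpt.induction_on (p := fun T => ∃ C : ℝ, 0 ≤ C ∧ ∀ η₁ ∈ Ioc (0 : ℝ) 1,
      ∀ τ ∈ Ioc 0 S, ∀ y ∈ p.W F η₁, y.1 ∈ T → ∀ e c, Tc e c → y ∈ c.source →
      ∀ l ∈ Icc l₀ 1, ∀ g ∈ Icc (0 : ℝ) 1, τ * (HT F τ y / l) * Qf (pz n)
      (((l / HT F τ y : ℝ) : ℂ) • lm (HT F τ) c y + (g : ℂ) • p.L F η₁ e c τ y) ≤
        l * (τ * Ht F τ y / HT F τ y) + g * (τ * (p.η * dt p.P τ y.1 + dt p.X τ y.1)) +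
          (S * (2 + κ) * wd wb (p.x₁ y) * F.y τ y.1 + C * √η₁ * (p.d F η₁ y ^ 18)⁻¹))
      ⟨0, le_rfl, fun _ _ _ _ _ _ h => h.elim⟩
      (fun _ _ hs ⟨C, a, b⟩ => ⟨C, a, fun η₁ h1 τ h2 y h3 h4 => b η₁ h1 τ h2 y h3 (hs h4)⟩)
      (fun _ _ ⟨C, a, b⟩ ⟨C', a', b'⟩ => ⟨max C C', le_max_of_le_left a,
        fun η₁ h1 τ h2 y h3 h4 e c h5 h6 l h7 g h8 => ?_⟩) fun x _ => ?_
    · rcases h4 with h4 | h4
      · linarith [b η₁ h1 τ h2 y h3 h4 e c h5 h6 l h7 g h8,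
          mono (η := η₁) (d := p.d F η₁ y) (le_max_left C C')]
      · linarith [b' η₁ h1 τ h2 y h3 h4 e c h5 h6 l h7 g h8,
          mono (η := η₁) (d := p.d F η₁ y) (le_max_right C C')]
    obtain ⟨c₀, hc₀⟩ := t.ex _ (h.a.chart x)
    have hx := mem_chart_source (Cm n) x
    obtain ⟨K, hK1, hK2, hK3⟩ := local_compact_nhds
      ((pc n x).open_target.mem_nhds ((pc n x).map_source hx))
    obtain ⟨C, hC⟩ := Pde1.loc h t r w m p0 lb hp hl₀ hc₀ hK3 hK2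
    refine ⟨(pc n x).source ∩ pc n x ⁻¹' K, mem_nhdsWithin_of_mem_nhds (inter_mem
      ((pc n x).open_source.mem_nhds hx) ((pc n x).continuousAt hx hK1)), max C 0, le_max_right _ _,
      fun η₁ h1 τ h2 y h3 h4 e c h5 h6 l h7 g h8 => ?_⟩
    have h9 : y ∈ c₀.source := by rw [hc₀.src]; exact h4.1
    rw [Pde1.chg h t s r lb hp h1.1 h2 h3 h5 hc₀ h6 h9]
    linarith [hC η₁ h1 τ h2 y h3 h9 h4.2 l h7 g h8,
      mono (η := η₁) (d := p.d F η₁ y) (le_max_left C 0)]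
  obtain ⟨C, hC, h1⟩ := key
  exact ⟨C, hC, fun η₁ a1 τ a2 y a3 => h1 η₁ a1 τ a2 y a3
    (show p.ϱ y.1 ≤ p.R + 1 by linarith [show p.ϱ y.1 - p.R < 1 from a3.2.1])⟩

end Vale.Agent.P253W.A
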