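import Vale.Agent.P253W.A.Top
import Vale.Agent.P253W.A.Hom

/-!
# P253W, block A, row REG: regularity of the norm on the cotangent bundle
-/

open scoped Manifold ContDiff Bundle Topology ComplexConjugate ComplexOrder Matrix
open Bundle Set Metric Filter Matrix Vale.Agent.P253Z
open Vale.Agent.P272.K (Cm dz cHess jacM Chart)
open Vale.Agent.P272.K.C2 (cHess_congr posDef_det_ne_zero)

noncomputable section

namespace Vale.Agent.P253W.A

namespace RegA

open TopA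

variable {n : ℕ}

/-- the form `a (g⁻¹ ξ, g⁻¹ ξ)` -/
def hr (g a : Mx n) (ξ : Cm n) : ℝ := (star (g⁻¹ *ᵥ ξ) ⬝ᵥ (a *ᵥ (g⁻¹ *ᵥ ξ))).re

theorem hr_ch (g a J : Mx n) (hJ : J.det ≠ 0) (ξ : Cm n) :
    hr (pb J g) (pb J a) (ξ ᵥ* J) = hr g a ξ := by
  have e : ∀ A : Mx n, pb J A = (J.map (starRingEnd ℂ))ᴴ * A * J.map (starRingEnd ℂ) := fun A => by
    have : (J.map (starRingEnd ℂ))ᴴ = Jᵀ := by ext i j; simp
    rw [this, pb]
  have h1 : IsUnit (J.map (starRingEnd ℂ)).det := by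
    have : (J.map (starRingEnd ℂ)).det = conj J.det := by rw [RingHom.map_det]; rfl
    rw [this]; exact ((map_ne_zero _).2 hJ).isUnit
  have h2 : IsUnit Jᵀ.det := by rw [det_transpose]; exact hJ.isUnit
  have h3 : J.map (starRingEnd ℂ) *ᵥ ((pb J g)⁻¹ *ᵥ (ξ ᵥ* J)) = g⁻¹ *ᵥ ξ := by
    rw [← mulVec_transpose, mulVec_mulVec, mulVec_mulVec, pb, Matrix.mul_inv_rev,
      Matrix.mul_inv_rev, Matrix.mul_nonsing_inv_cancel_left _ _ h1, Matrix.mul_assoc,
      Matrix.nonsing_inv_mul _ h2, Matrix.mul_one]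
  rw [hr, hr, e a, ← mulVec_mulVec, ← mulVec_mulVec, h3, dotProduct_mulVec, ← star_mulVec, h3]

theorem hq_sc (g : Mx n) (a : ℂ) (p : Cm n) : hq g (a • p) = ‖a‖ ^ 2 * hq g p := by
  simp only [hq, star_smul, mulVec_smul, smul_dotProduct, dotProduct_smul, smul_eq_mul,
    RCLike.star_def]
  rw [← mul_assoc, Complex.mul_conj', ← Complex.ofReal_pow, Complex.re_ofReal_mul]

theorem cz : ContDiff ℝ ∞ (zc (n := n)) := contDiff_pi.2 fun _ => contDiff_apply ℝ ℂ _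

theorem cvv : ContDiff ℝ ∞ (vc (n := n)) := contDiff_pi.2 fun _ => contDiff_apply ℝ ℂ _

theorem cont_of {N X : Type} [TopologicalSpace N] [TopologicalSpace X] {q : ℕ} {f : ℝ → N → X}
    {I : Set ℝ} (h : ∀ y, ∃ c : Chart q N, y ∈ c.source ∧
      ContinuousOn (fun p : ℝ × Cm q => f p.1 (c.symm p.2)) (I ×ˢ c.target)) :
    ContinuousOn (Function.uncurry f) (I ×ˢ univ) := by
  rintro ⟨t, y⟩ ⟨ht, -⟩
  obtain ⟨c, hy, hc⟩ := h y
  have h1 : ContinuousOn (Function.uncurry f) (I ×ˢ c.source) :=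
    (hc.comp (f := fun p : ℝ × N => (p.1, c p.2)) (continuousOn_fst.prodMk
      (c.continuousOn.comp continuousOn_snd fun p hp => hp.2))
      fun p hp => ⟨hp.1, c.map_source hp.2⟩).congr fun p hp => by
        simp only [Function.comp, Function.uncurry, c.left_inv hp.2]
  refine (h1 (t, y) ⟨ht, hy⟩).mono_of_mem_nhdsWithin ?_
  refine mem_of_superset (inter_mem_nhdsWithin _ (continuous_snd.continuousAt.preimage_mem_nhds
    (c.open_source.mem_nhds hy))) fun p hp => ⟨hp.1.1, hp.2⟩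

variable {M : Type} [MetricSpace M] [ChartedSpace (Cm n) M]
  [RiemannianBundle fun x : M => TangentSpace 𝓘(ℝ, Cm n) x] {F : Flow n M}
  {e : Chart n M} {c : Chart (n + n) (TS n M)}

omit [RiemannianBundle fun x : M => TangentSpace 𝓘(ℝ, Cm n) x] in
theorem tg (h : Tc e c) {w : Cm (n + n)} : w ∈ c.target ↔ zc w ∈ e.target := by rw [h.tgt]; rfl

omit [RiemannianBundle fun x : M => TangentSpace 𝓘(ℝ, Cm n) x] in
theorem sr (h : Tc e c) {y : TS n M} : y ∈ c.source ↔ y.1 ∈ e.source := by rw [h.src]; rfl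

theorem eq (h : Cx F) (hc : Tc e c) {t : ℝ} (ht : 0 ≤ t) {w : Cm (n + n)} (hw : w ∈ c.target) :
    HT F t (c.symm w) = Hq (F.g t e) w := by
  have hz := (tg hc).1 hw
  rw [hc.inv, HT, h.b1.H_eq t ht e hc.he (tqi e w).1 (e.map_target hz), cv_tqi h.a hc.he hz]
  show hq (F.g t e (e (e.symm (zc w)))) (vc w) = _
  rw [e.right_inv hz, Hq]

omit [RiemannianBundle fun x : M => TangentSpace 𝓘(ℝ, Cm n) x] in
theorem lift (hc : Tc e c) {Φ : ℝ × Cm n → ℂ} (hΦ : ContDiffOn ℝ ∞ Φ (Ici 0 ×ˢ e.target)) :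
    ContDiffOn ℝ ∞ (fun q : ℝ × Cm (n + n) => Φ (q.1, zc q.2)) (Ici 0 ×ˢ c.target) :=
  hΦ.comp (contDiff_fst.prodMk (cz.comp contDiff_snd)).contDiffOn
    fun _ hq => ⟨hq.1, (tg hc).1 hq.2⟩

theorem inv_sm (h : Cx F) (hc : Tc e c) (j k : Fin n) : ContDiffOn ℝ ∞
    (fun q : ℝ × Cm (n + n) => (F.g q.1 e (zc q.2))⁻¹ j k) (Ici 0 ×ˢ c.target) :=
  lift hc (Φ := fun q => (F.g q.1 e q.2)⁻¹ j k) (FG.sm_inv (h.b1.g_sm e hc.he)
    (fun _ hq => posDef_det_ne_zero (h.is.pos _ hq.1 e hc.he _ hq.2)) j k)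

theorem sm (h : Cx F) (hc : Tc e c) : ContDiffOn ℝ ∞
    (fun q : ℝ × Cm (n + n) => HT F q.1 (c.symm q.2)) (Ici 0 ×ˢ c.target) := by
  have h2 : ∀ i, ContDiffOn ℝ ∞ (fun q : ℝ × Cm (n + n) => vc q.2 i) (Ici 0 ×ˢ c.target) :=
    fun i => ((contDiff_pi.1 cvv i).comp contDiff_snd).contDiffOn
  refine ContDiffOn.congr (f := fun q : ℝ × Cm (n + n) => Hq (F.g q.1 e) q.2) ?_
    fun q hq => eq h hc hq.1 hq.2
  exact Complex.reCLM.contDiff.comp_contDiffOn (ContDiffOn.sum fun i _ =>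
    (Complex.conjCLE.contDiff.comp_contDiffOn (h2 i)).mul
      (ContDiffOn.sum (s := Finset.univ) fun k _ => (inv_sm h hc i k).mul (h2 k)))

theorem Ht_eq (h : Cx F) (he : Hc e) {t : ℝ} (ht : 0 ≤ t) {y : TS n M} (hy : y.1 ∈ e.source) :
    Ht F t y = hr (F.g t e (e y.1)) (hs (F.u t) e (e y.1)) (cv e y.1 y.2) := by
  have h0 := mem_chart_source (Cm n) y.1
  have h1 := h.a.chart y.1
  rw [h.b1.g_ch t ht e _ he h1 _ hy h0, h.b1.hs_ch _ e _ he h1 _ hy h0
    ((h.b1.sm_at _ h.b1.u_sm t ht _ h1 _ ((pc n y.1).map_source h0)).of_le FG.Calc.two_le), cv,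
    hr_ch _ _ _ (h.a.jac_ne e _ he h1 _ hy h0)]
  rfl

theorem ev_eq (h : Cx F) (hc : Tc e c) {t : ℝ} (ht : 0 ≤ t) {y : TS n M} (hy : y ∈ c.source) :
    (fun w => HT F t (c.symm w)) =ᶠ[𝓝 (c y)] Hq (F.g t e) :=
  (c.open_target.eventually_mem (c.map_source hy)).mono fun _ hw => eq h hc ht hw

theorem cH (h : Cx F) (T : TOP n M) :
    ContinuousOn (Function.uncurry (HT F)) (Ici 0 ×ˢ univ) := cont_of fun y => by
  obtain ⟨c, hc⟩ := T.ex _ (h.a.chart y.1)
  exact ⟨c, (sr hc).2 (mem_chart_source _ _), (sm h hc).continuousOn⟩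

theorem cHt (h : Cx F) (T : TOP n M) :
    ContinuousOn (Function.uncurry (Ht F)) (Ici 0 ×ˢ univ) := cont_of fun y => by
  obtain ⟨c, hc⟩ := T.ex _ (h.a.chart y.1)
  refine ⟨c, (sr hc).2 (mem_chart_source _ _), ?_⟩
  generalize chartAt (Cm n) y.1 = e at hc
  have h1 : ∀ j k, ContinuousOn (fun q : ℝ × Cm (n + n) => hs (F.u q.1) e (zc q.2) j k)
      (Ici 0 ×ˢ c.target) := fun j k =>
    (lift hc (Φ := fun q => hs (F.u q.1) e q.2 j k)
      (FG.Calc.hess (uniqueDiffOn_Ici 0) e.open_target (h.b1.u_sm e hc.he) j k)).continuousOn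
  have h2 : ∀ i, ContinuousOn (fun q : ℝ × Cm (n + n) =>
      ((F.g q.1 e (zc q.2))⁻¹ *ᵥ vc q.2) i) (Ici 0 ×ˢ c.target) := fun i =>
    continuousOn_finsetSum Finset.univ fun k _ => (inv_sm h hc i k).continuousOn.mul
      ((continuous_apply k).comp (vc_cont.comp continuous_snd)).continuousOn
  refine ContinuousOn.congr (f := fun q : ℝ × Cm (n + n) =>
    hr (F.g q.1 e (zc q.2)) (hs (F.u q.1) e (zc q.2)) (vc q.2)) ?_ fun q hq => ?_
  · exact Complex.continuous_re.comp_continuousOn (continuousOn_finsetSum Finset.univ fun i _ =>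
      (h2 i).star.mul (continuousOn_finsetSum Finset.univ fun k _ => (h1 i k).mul (h2 k)))
  · have hz := (tg hc).1 hq.2
    simp only
    rw [hc.inv, Ht_eq h hc.he hq.1 (y := tqi e q.2) (e.map_target hz), cv_tqi h.a hc.he hz]
    show hr (F.g q.1 e (e (e.symm (zc q.2)))) (hs (F.u q.1) e (e (e.symm (zc q.2)))) _ = _
    rw [e.right_inv hz]

theorem pde (h : Cx F) (p : PDE0) (hc : Tc e c) {t : ℝ} (ht : 0 ≤ t) {y : TS n M}
    (hy : y ∈ c.source) : Qf (pz n) (lm (HT F t) c y) = Ht F t y := by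
  have hx := (sr hc).1 hy
  have hz := e.map_source hx
  have ev := e.open_target.eventually_mem hz
  rw [lm, cHess_congr (ev_eq h hc ht hy), Ht_eq h hc.he ht hx, hc.map, tq,
    (p n (F.g t e) (e y.1) (cv e y.1 y.2) (h.b1.g_at t ht e hc.he _ hz)
      (ev.mono fun w hw => h.is.pos t ht e hc.he w hw)
      (ev.mono fun w hw => h.b1.g_cl t ht e hc.he w hw)).1, h.b2.u_hs t ht e hc.he _ hz]
  rfl

theorem cpt (h : Cx F) (T : TOP n M) (K : Set M) (A : ℝ) (hK : IsCompact K) :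
    IsCompact {y : TS n M | y.1 ∈ K ∧ HT F 0 y ≤ A} := by
  have := T.t2
  have c0 : Continuous (HT F 0) := continuousOn_univ.1
    ((cH h T).comp (f := fun y : TS n M => ((0 : ℝ), y)) (by fun_prop)
      fun _ _ => ⟨self_mem_Ici, mem_univ _⟩)
  have key : ∃ C : Set (TS n M), IsCompact C ∧ {y | y.1 ∈ K ∧ HT F 0 y ≤ A} ⊆ C := by
    refine hK.induction_on (p := fun S => ∃ C : Set (TS n M), IsCompact C ∧
      {y | y.1 ∈ S ∧ HT F 0 y ≤ A} ⊆ C) ⟨∅, isCompact_empty, fun y hy => hy.1⟩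
      (fun S S' hS ⟨C, h1, h2⟩ => ⟨C, h1, fun y hy => h2 ⟨hS hy.1, hy.2⟩⟩)
      (fun S S' ⟨C, h1, h2⟩ ⟨C', h1', h2'⟩ => ⟨C ∪ C', h1.union h1', fun y hy =>
        hy.1.elim (fun h => Or.inl (h2 ⟨h, hy.2⟩)) fun h => Or.inr (h2' ⟨h, hy.2⟩)⟩) fun x _ => ?_
    obtain ⟨c, hc⟩ := T.ex _ (h.a.chart x)
    have hx := mem_chart_source (Cm n) x
    generalize chartAt (Cm n) x = e at hc hx
    obtain ⟨ρ, ρ0, hρ⟩ := nhds_basis_closedBall.mem_iff.1 (e.open_target.mem_nhds (e.map_source hx))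
    have ca : Continuous fun q : Cm n × Cm n => (Fin.append q.1 q.2 : Cm (n + n)) := by fun_prop
    have ms : ∀ (R : Set (Cm n)), ∀ q ∈ closedBall (e x) ρ ×ˢ R,
        (Fin.append q.1 q.2 : Cm (n + n)) ∈ c.target := fun R q hq =>
      (tg hc).2 (by rw [zc_app]; exact hρ hq.1)
    have cq : ContinuousOn (fun q : Cm n × Cm n => hq (F.g 0 e q.1) q.2)
        (closedBall (e x) ρ ×ˢ sphere 0 1) := by
      have c1 : ContinuousOn (fun w => HT F 0 (c.symm w)) c.target :=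
        c0.comp_continuousOn c.continuousOn_symm
      refine (c1.comp ca.continuousOn (ms _)).congr fun q hq' => ?_
      have := eq h hc le_rfl (ms _ q hq')
      rw [Hq, zc_app, vc_app] at this
      exact this.symm
    obtain ⟨κ, κ0, hκ⟩ := ((isCompact_closedBall (e x) ρ).prod
      (isCompact_sphere (0 : Cm n) 1)).exists_forall_le' (a := 0) cq
      fun q hq' => Hom.hq_pos (h.is.pos 0 le_rfl e hc.he _ (hρ hq'.1))
        (ne_zero_of_mem_unit_sphere ⟨_, hq'.2⟩)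
    refine ⟨e.source ∩ e ⁻¹' closedBall (e x) ρ, mem_nhdsWithin_of_mem_nhds (inter_mem
      (e.open_source.mem_nhds hx) ((e.continuousAt hx).preimage_mem_nhds
        (closedBall_mem_nhds _ ρ0))), c.symm '' ((fun q : Cm n × Cm n => Fin.append q.1 q.2) ''
      (closedBall (e x) ρ ×ˢ closedBall 0 (1 + |A| / κ))),
      (((isCompact_closedBall _ _).prod (isCompact_closedBall _ _)).image ca).image_of_continuousOn
        (c.continuousOn_symm.mono (by rintro _ ⟨q, hq', rfl⟩; exact ms _ q hq')), fun y hy => ?_⟩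
    have hy1 := (sr hc).2 hy.1.1
    refine ⟨c y, ⟨(e y.1, cv e y.1 y.2), ⟨hy.1.2, mem_closedBall_zero_iff.2 ?_⟩,
      (hc.map y).symm⟩, c.left_inv hy1⟩
    have h1 : hq (F.g 0 e (e y.1)) (cv e y.1 y.2) ≤ A :=
      (h.b1.H_eq 0 le_rfl e hc.he _ hy.1.1 _).symm.trans_le hy.2
    generalize cv e y.1 y.2 = v at h1
    have a0 : 0 ≤ |A| / κ := by positivity
    by_contra h2
    have h3 : 1 + |A| / κ < ‖v‖ := not_le.1 h2
    have n0 : 0 < ‖v‖ := by linarith
    have h4 := hκ (e y.1, ((‖v‖ : ℝ) : ℂ)⁻¹ • v) ⟨hy.1.2, by simp [norm_smul, n0.ne']⟩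
    simp only [hq_sc, norm_inv, Complex.norm_real, norm_norm] at h4
    rw [inv_pow, ← div_eq_inv_mul, le_div_iff₀ (by positivity)] at h4
    have h5 : |A| < κ * ‖v‖ := by
      rw [mul_comm, ← div_lt_iff₀ κ0]; linarith
    have h6 : κ * ‖v‖ * 1 ≤ κ * ‖v‖ * ‖v‖ := mul_le_mul_of_nonneg_left (by linarith) (by positivity)
    nlinarith [le_abs_self A]
  obtain ⟨C, h1, h2⟩ := key
  exact h1.of_isClosed_subset ((hK.isClosed.preimage T.fst).inter (isClosed_le c0 continuous_const))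
    h2

omit [RiemannianBundle fun x : M => TangentSpace 𝓘(ℝ, Cm n) x] in
theorem dt (a : B1a n M) (T : ℝ) (f : ℝ → M → ℝ) (hf : SmT n (Ico 0 T) f) : ∃ f' : ℝ → M → ℝ,
    ContinuousOn (Function.uncurry f) (Ico 0 T ×ˢ univ) ∧
    ContinuousOn (Function.uncurry f') (Ico 0 T ×ˢ univ) ∧ (∀ t ∈ Ico 0 T, Sm n (f t)) ∧
    (∀ e : Chart n M, Hc e → ∀ j k, ContinuousOn (fun q : ℝ × Cm n => hs (f q.1) e q.2 j k)
      (Ico 0 T ×ˢ e.target)) ∧ ∀ t ∈ Ioo 0 T, ∀ x, HasDerivAt (fun s => f s x) (f' t x) t := by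
  have u := uniqueDiffOn_Ico (0 : ℝ) T
  have key : ∀ e : Chart n M, Hc e → ∀ q ∈ Ico 0 T ×ˢ e.target,
      HasDerivWithinAt (fun s => f s (e.symm q.2))
        (fderivWithin ℝ (ch e f) (Ico 0 T ×ˢ e.target) q (1, 0)) (Ico 0 T) q.1 := by
    intro e he q hq
    have h1 := ((hf e he).differentiableOn (by simp) q hq).hasFDerivWithinAt
    have h2 : HasDerivWithinAt (fun s : ℝ => (s, q.2)) ((1 : ℝ), (0 : Cm n)) (Ico 0 T) q.1 :=
      (hasDerivWithinAt_id _ _).prodMk (hasDerivWithinAt_const _ _ _)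
    exact h1.comp_hasDerivWithinAt q.1 h2 fun s hs => mk_mem_prod hs hq.2
  refine ⟨fun t x => derivWithin (fun s => f s x) (Ico 0 T) t,
    cont_of fun x => ⟨_, mem_chart_source (Cm n) x, (hf _ (a.chart x)).continuousOn⟩,
    cont_of fun x => ⟨_, mem_chart_source (Cm n) x, ?_⟩,
    fun t ht e he z hz => FG.Calc.slice e.open_target (hf e he) ht hz,
    fun e he j k => (FG.Calc.hess u e.open_target (hf e he) j k).continuousOn, fun t ht x => ?_⟩
  · exact (((hf _ (a.chart x)).continuousOn_fderivWithin (u.prod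
      (chartAt (Cm n) x).open_target.uniqueDiffOn) (by simp)).clm_apply continuousOn_const).congr
      fun q hq => (key _ (a.chart x) q hq).derivWithin (u _ hq.1)
  · have hx := mem_chart_source (Cm n) x
    have h1 := key _ (a.chart x) (t, chartAt (Cm n) x x)
      ⟨Ioo_subset_Ico_self ht, (chartAt (Cm n) x).map_source hx⟩
    simp only [(chartAt (Cm n) x).left_inv hx] at h1
    exact h1.differentiableWithinAt.hasDerivWithinAt.hasDerivAt (Ico_mem_nhds ht.1 ht.2)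

end RegA

open RegA TopA

variable {n : ℕ} {M : Type} [MetricSpace M] [ChartedSpace (Cm n) M]
  [RiemannianBundle fun x : M => TangentSpace 𝓘(ℝ, Cm n) x] {F : Flow n M}

/-- row REG -/
theorem reg (h : Cx F) (t : TOP n M) (p : PDE0) : REG F where
  eq _ _ hc _ ht _ hw := RegA.eq h hc ht hw
  sm _ _ hc := RegA.sm h hc
  cH := RegA.cH h t
  cHt := RegA.cHt h t
  pde _ hc _ ht _ hy := hc.elim fun _ hc => RegA.pde h p hc ht hy
  lm_eq _ _ hc _ ht _ hy := ⟨congrArg transpose (cHess_congr (ev_eq h hc ht hy)),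
    congrArg transpose (cHess_congr ((ev_eq h hc ht hy).mono fun _ hw => congrArg Real.log hw))⟩
  lm_hb e c hc f hf y hy := by
    have hz : zc (c y) = e y.1 := by rw [hc.map, zc_tq]
    have e1 : (fun w => f (c.symm w).1) = fun w => f (e.symm (zc w)) := by
      funext w; rw [hc.inv]; rfl
    rw [lm, e1, Hom.hom6 (fun z => f (e.symm z)) (c y) (by
      rw [hz]; exact (hf e hc.he _ (e.map_source ((sr hc).1 hy))).of_le FG.Calc.two_le), hz]
    rfl
  sc _ a y := hq_sc _ a y.2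
  cpt := RegA.cpt h t
  dt := RegA.dt h.a

/-- row OK -/
theorem ok (h : Cx F) (t : TOP n M) (s : SYP n M) (q : SEP F) (r : REG F) : OK F :=
  fun e c hc S => {
    npos := h.npos
    atl := t.atl
    he := ⟨e, hc⟩
    sym := fun _ ⟨_, h1⟩ _ ⟨_, h2⟩ y hy hy' =>
      ⟨(s _ _ _ _ h1 h2 y hy hy').1, (s _ _ _ _ h1 h2 y hy hy').2.1⟩
    sep := q.2.1
    tgt := fun _ => tg hc
    cl := fun C hC hK => by
      have h1 := (hK.image_of_continuousOn (e.continuousOn_symm.mono hC)).isClosed.preimage t.fst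
      convert h1 using 1
      ext y
      show (y ∈ c.source ∧ zc (c y) ∈ C) ↔ y.1 ∈ e.symm '' C
      rw [hc.map, zc_tq, sr hc]
      exact ⟨fun h => ⟨_, h.2, e.left_inv h.1⟩, fun ⟨z, hz, h⟩ => by
        rw [← h, e.right_inv (hC hz)]; exact ⟨e.map_target (hC hz), hz⟩⟩
    pos := fun τ hτ z hz => ⟨(h.is.pos τ hτ.1.le e hc.he z hz).inv, fun v => by
      have hw : Fin.append z v ∈ c.target := (tg hc).2 (by rwa [zc_app])
      refine ⟨(r.eq e c hc τ hτ.1.le _ hw).trans (by rw [Hq, zc_app, vc_app]; rfl), fun hv h0 => ?_⟩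
      have h1 := (t.vc_ne e hc.he _ ((sr hc).1 (c.map_target hw))).2 h0
      rw [← hc.map, c.right_inv hw, vc_app] at h1
      exact hv h1⟩
    cH := r.cH.mono (prod_mono Ico_subset_Ici_self subset_rfl)
    pH := fun τ hτ y hy => h.b2.H_pos τ hτ.1 y.1 y.2 hy }

end Vale.Agent.P253W.A
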