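import Vale.Agent.P253W.A.Top
import Vale.Agent.P253W.A.Lipk
import Vale.Agent.P253W.A.Frm
import Vale.Agent.P253W.A.Tub1

/-!
# P253W, block A, row SEP: holomorphic functions separate
-/

open scoped Manifold ContDiff Bundle Topology Matrix ComplexOrder
open Bundle Set Metric Filter Vale.Agent.P253Z
open Vale.Agent.P272.K (Cm dz cHess jacM Chart)

noncomputable section

namespace Vale.Agent.P253W.A

namespace Sp

section abs

variable {q : ℕ} {N : Type} [TopologicalSpace N] {𝒜 : Set (Chart q N)} {ι κ : Type}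

variable (𝒜) in
/-- an immersion at a point -/
def Im (F : N → ι → ℂ) (y : N) : Prop :=
  ∀ e ∈ 𝒜, y ∈ e.source → Function.Injective (dM F e y).mulVec

/-- `F` is a part of `G` -/
def Sub (F : N → ι → ℂ) (G : N → κ → ℂ) : Prop := ∃ σ : ι → κ, ∀ y l, G y (σ l) = F y l

omit [TopologicalSpace N] in
theorem Sub.eq {F : N → ι → ℂ} {G : N → κ → ℂ} (h : Sub F G) {y y' : N} (e : G y = G y') :
    F y = F y' := by
  obtain ⟨σ, hσ⟩ := h
  funext l
  rw [← hσ, ← hσ, e]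

omit [TopologicalSpace N] in
theorem Sub.norm [Fintype ι] [Fintype κ] {F : N → ι → ℂ} {G : N → κ → ℂ} (h : Sub F G) (y : N) :
    ‖F y‖ ≤ ‖G y‖ := by
  obtain ⟨σ, hσ⟩ := h
  refine (pi_norm_le_iff_of_nonneg (norm_nonneg _)).2 fun l => ?_
  rw [← hσ]
  exact norm_le_pi_norm _ _

theorem Sub.im {F : N → ι → ℂ} {G : N → κ → ℂ} (h : Sub F G) {y : N} (hF : Im 𝒜 F y) :
    Im 𝒜 G y := by
  obtain ⟨σ, hσ⟩ := h
  refine fun e he hy v w hvw => hF e he hy (funext fun l => ?_)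
  simpa only [Matrix.mulVec, dotProduct, dM, Matrix.of_apply, hσ] using congrFun hvw (σ l)

theorem ex_app {L L' : ℕ} {F : N → Fin L → ℂ} {G : N → Fin L' → ℂ} (hF : Ho 𝒜 F)
    (hG : Ho 𝒜 G) : Ho 𝒜 (fun y => Fin.append (F y) (G y)) ∧
      Sub F (fun y => Fin.append (F y) (G y)) ∧ Sub G fun y => Fin.append (F y) (G y) :=
  ⟨fun e he z hz l => Fin.addCases
    (fun l => by simpa only [Fin.append_left] using hF e he z hz l)
    (fun l => by simpa only [Fin.append_right] using hG e he z hz l) l,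
    ⟨_, fun _ l => Fin.append_left _ _ l⟩, ⟨_, fun _ l => Fin.append_right _ _ l⟩⟩

theorem cover {X : Type} [TopologicalSpace X] (Q : ∀ L : ℕ, (N → Fin L → ℂ) → X → Prop)
    (hQ : ∀ L L' F G x, Sub F G → Q L F x → Q L' G x) {K : Set X} (hK : IsCompact K)
    (h : ∀ x ∈ K, ∃ L F, Ho 𝒜 F ∧ ∀ᶠ a in 𝓝 x, Q L F a) :
    ∃ L F, Ho 𝒜 F ∧ ∀ a ∈ K, Q L F a := by
  refine hK.induction_on (p := fun T => ∃ L F, Ho 𝒜 F ∧ ∀ a ∈ T, Q L F a)
    ⟨0, fun _ => Fin.elim0, fun _ _ _ _ l => l.elim0, fun _ h => h.elim⟩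
    (fun s t hst ⟨L, F, a, b⟩ => ⟨L, F, a, fun p hp => b p (hst hp)⟩)
    (fun s t ⟨L, F, a, b⟩ ⟨L', G, a', b'⟩ => ?_) fun x hx => ?_
  · obtain ⟨c1, c2, c3⟩ := ex_app a a'
    exact ⟨_, _, c1, fun p hp => hp.elim (fun hp => hQ _ _ _ _ _ c2 (b p hp))
      fun hp => hQ _ _ _ _ _ c3 (b' p hp)⟩
  · obtain ⟨L, F, a, b⟩ := h x hx
    exact ⟨_, mem_nhdsWithin_of_mem_nhds b, L, F, a, fun _ hp => hp⟩

theorem im_of (hA : At 𝒜) {F : N → ι → ℂ} (hF : Ho 𝒜 F) {e : Chart q N} (he : e ∈ 𝒜) {y : N}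
    (hy : y ∈ e.source) (h : Function.Injective (dM F e y).mulVec) : Im 𝒜 F y := by
  intro e' he' hy'
  rw [Lipk.dM_chg hA hF he he' hy hy'] at h
  have h1 : Function.Surjective (jacM e e' y).mulVec :=
    Matrix.mulVec_surjective_iff_isUnit.2 (Matrix.mulVec_injective_iff_isUnit.1
      fun v w e => h (by simp only [← Matrix.mulVec_mulVec, e]))
  intro v w hvw
  obtain ⟨v, rfl⟩ := h1 v
  obtain ⟨w, rfl⟩ := h1 w
  rw [h (a₁ := v) (a₂ := w) (by simpa only [← Matrix.mulVec_mulVec] using hvw)]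

theorem im_ev [Fintype ι] (hA : At 𝒜) {F : N → ι → ℂ} (hF : Ho 𝒜 F) {e : Chart q N}
    (he : e ∈ 𝒜) {y : N} (hy : y ∈ e.source) (h : Function.Injective (dM F e y).mulVec) :
    ∀ᶠ a in 𝓝 y, Im 𝒜 F a := by
  obtain ⟨Y, hY⟩ := Fr.left_inv h
  have hc : ContinuousAt (fun a => (Y * dM F e a).det) y :=
    (continuous_const.matrix_mul continuous_id).matrix_det.continuousAt.comp
      ((Lipk.dM_cont hF he).continuousAt (e.open_source.mem_nhds hy))
  filter_upwards [hc.eventually_ne (show (Y * dM F e y).det ≠ 0 by simp [hY]),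
    e.open_source.mem_nhds hy] with a ha ha'
  refine im_of hA hF he ha' fun v w hvw => Matrix.mulVec_injective_iff_isUnit.2
    ((Matrix.isUnit_iff_isUnit_det _).2 ha.isUnit) ?_
  simp only [← Matrix.mulVec_mulVec, hvw]

theorem inj_ev [Fintype ι] {F : N → ι → ℂ} (hF : Ho 𝒜 F) {e : Chart q N}
    (he : e ∈ 𝒜) {y : N} (hy : y ∈ e.source) (h : Function.Injective (dM F e y).mulVec) :
    ∀ᶠ p : N × N in 𝓝 (y, y), F p.1 = F p.2 → p.1 = p.2 := by
  have k : ∀ k, ∃ C, ∀ᶠ p : N × N in 𝓝 (y, y), ‖e p.1 k - e p.2 k‖ ≤ C * ‖F p.1 - F p.2‖ :=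
    fun k => Lipk.diag hF he hy h (u := fun a => e a k)
      ((contDiff_apply ℝ ℂ k).contDiffAt.congr_of_eventuallyEq
        ((e.eventually_right_inverse (e.map_source hy)).mono fun _ hw => congrFun hw k))
  choose C hC using k
  have hs := e.open_source.mem_nhds hy
  filter_upwards [eventually_all.2 hC, continuous_fst.continuousAt.preimage_mem_nhds hs,
    continuous_snd.continuousAt.preimage_mem_nhds hs] with p a b c hp
  refine e.injOn b c (funext fun k => ?_)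
  simpa [hp, sub_eq_zero] using a k

theorem sep_of (hA : At 𝒜)
    (h1 : ∀ y, ∃ (L : ℕ) (F : N → Fin L → ℂ), Ho 𝒜 F ∧
      ∃ e ∈ 𝒜, y ∈ e.source ∧ Function.Injective (dM F e y).mulVec)
    (h2 : ∀ y y', y ≠ y' → ∃ (L : ℕ) (F : N → Fin L → ℂ), Ho 𝒜 F ∧ F y ≠ F y') : Sep 𝒜 := by
  intro K hK
  obtain ⟨L, F, a, b⟩ := cover (𝒜 := 𝒜) (fun _ F y => Im 𝒜 F y) (fun _ _ _ _ _ h => h.im) hK
    fun y _ => by
      obtain ⟨L, F, a, e, he, hy, b⟩ := h1 y
      exact ⟨L, F, a, im_ev hA a he hy b⟩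
  obtain ⟨L', G, a', b'⟩ := cover (𝒜 := 𝒜) (fun _ F (p : N × N) => F p.1 = F p.2 → p.1 = p.2)
    (fun _ _ _ _ _ h h' e => h' (h.eq e)) (hK.prod hK) fun p _ => by
      obtain ⟨y, y'⟩ := p
      rcases eq_or_ne y y' with rfl | hne
      · obtain ⟨L, F, a, e, he, hy, b⟩ := h1 y
        exact ⟨L, F, a, inj_ev a he hy b⟩
      · obtain ⟨L, F, a, b⟩ := h2 y y' hne
        have cF : Continuous F := continuous_iff_continuousAt.2 fun y =>
          let ⟨e, he, hy⟩ := hA.cov y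
          Lipk.cont_chart hy (continuousAt_pi.2 fun l =>
            (a e he _ (e.map_source hy) l).continuousAt)
        refine ⟨L, F, a, ?_⟩
        filter_upwards [(isOpen_ne_fun (cF.comp continuous_fst)
          (cF.comp continuous_snd)).mem_nhds (x := (y, y')) b] with p hp h using (hp h).elim
  obtain ⟨c1, c2, c3⟩ := ex_app a a'
  exact ⟨_, _, c1, fun y hy y' hy' e => b' (y, y') ⟨hy, hy'⟩ (c3.eq e),
    fun y hy => c2.im (b y hy)⟩

theorem line [Fintype ι] {F : N → ι → ℂ} (hF : Ho 𝒜 F) {e : Chart q N} (he : e ∈ 𝒜) {y : N}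
    (hy : y ∈ e.source) (v : Cm q) :
    HasDerivAt (fun s : ℂ => F (e.symm (e y + s • v))) (dM F e y *ᵥ v) 0 := by
  have hG : DifferentiableAt ℂ (fun w => F (e.symm w)) (e y) :=
    (analyticAt_pi_iff.2 (hF e he _ (e.map_source hy))).differentiableAt
  have h1 : HasDerivAt (fun s : ℂ => e y + s • v) v 0 := by
    simpa using ((hasDerivAt_id (0 : ℂ)).smul_const v).const_add (e y)
  have h2 := hG.hasFDerivAt.comp_hasDerivAt_of_eq (0 : ℂ) h1 (by simp)
  rwa [Lipk.fd_eq hG] at h2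

theorem hq_le {n : ℕ} (g B : Mx n) (v : Cm n) :
    hq g (v ᵥ* B) ≤ n * Tub1.n1 g⁻¹ * Tub1.n1 Bᵀ ^ 2 * ‖v‖ ^ 2 := by
  have h1 : ‖v ᵥ* B‖ ≤ Tub1.n1 Bᵀ * ‖v‖ := by
    rw [← Matrix.mulVec_transpose]
    exact Tub1.mv_le _ _
  generalize v ᵥ* B = w at h1
  have h2 := Tub1.mv_le g⁻¹ w
  have h3 := Tub1.n10 g⁻¹
  calc hq g w ≤ ‖∑ i, star w i * (g⁻¹ *ᵥ w) i‖ := Complex.re_le_norm _
    _ ≤ ∑ _i : Fin n, ‖w‖ * (Tub1.n1 g⁻¹ * ‖w‖) := norm_sum_le_of_le _ fun i _ => by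
        rw [norm_mul, Pi.star_apply, norm_star]
        exact mul_le_mul (norm_le_pi_norm w i) ((norm_le_pi_norm _ i).trans h2) (norm_nonneg _)
          (norm_nonneg _)
    _ = n * Tub1.n1 g⁻¹ * ‖w‖ ^ 2 := by
        simp only [Finset.sum_const, Finset.card_univ, Fintype.card_fin, nsmul_eq_mul]
        ring
    _ ≤ n * Tub1.n1 g⁻¹ * (Tub1.n1 Bᵀ * ‖v‖) ^ 2 := by gcongr
    _ = _ := by ring

theorem n1_cont {n : ℕ} : Continuous (Tub1.n1 : Mx n → ℝ) := by
  unfold Tub1.n1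
  fun_prop

end abs

variable {n : ℕ} {M : Type} [MetricSpace M] [ChartedSpace (Cm n) M]
  [RiemannianBundle fun x : M => TangentSpace 𝓘(ℝ, Cm n) x] {F : Flow n M}

variable (F) in
/-- the vector fields dual to the forms `dz_1 ∧ … ∧ dz_n` with one factor omitted -/
def Gm (z : M → Cm n) (e : Chart n M) (x : M) : Mx n :=
  (co 1 F.Ω e (e x))⁻¹ • (dM z e x).adjugate

variable (F) in
/-- the functions on the cotangent bundle -/
def GG (z : M → Cm n) (y : TS n M) : Cm n := y.2 ᵥ* Gm F z (pc n y.1) y.1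

variable (h : Cx F) (t : TOP n M) {z : M → Cm n} (hz : Ho (AM n M) z) {e : Chart n M} (he : Hc e)
include h he

theorem co_ne {x : M} (hx : x ∈ e.source) : co 1 F.Ω e (e x) ≠ 0 := by
  rw [co, e.left_inv hx, zpow_one]
  exact mul_ne_zero (h.a.jac_ne _ _ he (h.a.chart x) x hx (mem_chart_source _ _)) (h.is.ne x)

include t hz

theorem GG_eq {y : TS n M} (hy : y.1 ∈ e.source) :
    GG F z y = cv e y.1 y.2 ᵥ* Gm F z e y.1 := by
  have hx := mem_chart_source (Cm n) y.1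
  have h1 := h.a.jac_ne _ _ he (h.a.chart y.1) _ hy hx
  rw [GG, cv, Matrix.vecMul_vecMul, Gm, Gm, h.a.co_ch 1 F.Ω e _ he (h.a.chart y.1) _ hy hx,
    Lipk.dM_chg t.atm hz he (h.a.chart y.1) hy hx, Matrix.adjugate_mul_distrib, Matrix.mul_smul,
    ← Matrix.mul_assoc, Matrix.mul_adjugate, Matrix.smul_mul, Matrix.one_mul, smul_smul, zpow_one,
    mul_inv, mul_right_comm, inv_mul_cancel₀ h1, one_mul]

theorem GG_chart {c : Chart (n + n) (TS n M)} (hc : Tc e c) {w : Cm (n + n)}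
    (hw : zc w ∈ e.target) : GG F z (c.symm w) = vc w ᵥ* Gm F z e (e.symm (zc w)) := by
  rw [hc.inv, GG_eq h t hz he (y := tqi e w) (e.map_target hw), TopA.cv_tqi h.a he hw]
  rfl

omit t in
theorem Gm_an {w : Cm n} (hw : w ∈ e.target) (i j : Fin n) :
    AnalyticAt ℂ (fun w => Gm F z e (e.symm w) i j) w := by
  have h1 : AnalyticAt ℂ (fun w => (co 1 F.Ω e w)⁻¹) w := (h.is.sec e he w hw).inv (by
    simpa only [e.right_inv hw] using co_ne h he (e.map_target hw))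
  have h2 : AnalyticAt ℂ (fun w => (dM z e (e.symm w)).adjugate i j) w := by
    simp only [Matrix.adjugate_apply, Matrix.det_apply', Matrix.updateRow_apply]
    refine Finset.analyticAt_fun_sum _ fun σ _ => analyticAt_const.mul
      (Finset.analyticAt_fun_prod _ fun k _ => ?_)
    split_ifs
    · exact analyticAt_const
    · exact Fr.an_dM hz he hw _ _
  refine (h1.mul h2).congr ?_
  filter_upwards [e.open_target.mem_nhds hw] with w hw
  simp only [Gm, e.right_inv hw, Pi.mul_apply, Matrix.smul_apply, smul_eq_mul]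

omit he in
theorem GG_ho : Ho (AT n M) (GG F z) := by
  rintro c ⟨e, hc⟩ w hw l
  rw [hc.tgt] at hw
  have h1 : AnalyticAt ℂ (fun w => (vc w ᵥ* Gm F z e (e.symm (zc w))) l) w :=
    Finset.analyticAt_fun_sum Finset.univ fun p _ => (analyticAt_pi_iff.1 (TopA.vc_an w) p).mul
      ((Gm_an h hz hc.he hw p l).comp (TopA.zc_an w))
  refine h1.congr ?_
  filter_upwards [TopA.zc_cont.continuousAt.preimage_mem_nhds (e.open_target.mem_nhds hw)]
    with w hw
  rw [GG_chart h t hz hc.he hc hw]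

omit t hz in
theorem Gm_inv {x : M} (hx : x ∈ e.source) (hd : (dM z e x).det ≠ 0) :
    Gm F z e x * ((co 1 F.Ω e (e x) / (dM z e x).det) • dM z e x) = 1 := by
  rw [Gm, Matrix.smul_mul, Matrix.mul_smul, Matrix.adjugate_mul, smul_smul, smul_smul,
    mul_assoc, div_mul_cancel₀ _ hd, inv_mul_cancel₀ (co_ne h he hx), one_smul]

theorem cv_eq {y : TS n M} (hy : y.1 ∈ e.source) (hd : (dM z e y.1).det ≠ 0) :
    cv e y.1 y.2 = GG F z y ᵥ* ((co 1 F.Ω e (e y.1) / (dM z e y.1).det) • dM z e y.1) := by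
  rw [GG_eq h t hz he hy, Matrix.vecMul_vecMul, Gm_inv h he hy hd, Matrix.vecMul_one]

theorem GG_inj {y y' : TS n M} (hy : y.1 ∈ e.source) (hd : (dM z e y.1).det ≠ 0)
    (h1 : y.1 = y'.1) (h2 : GG F z y = GG F z y') : y = y' := by
  have a := cv_eq h t hz he hy hd
  have b := cv_eq h t hz he (y := y') (h1 ▸ hy) (h1 ▸ hd)
  rw [← h1, ← h2, ← a, cv, cv, ← sub_eq_zero, ← Matrix.sub_vecMul] at b
  exact Prod.ext h1 (sub_eq_zero.1 (Matrix.eq_zero_of_vecMul_eq_zero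
    (h.a.jac_ne _ _ he (h.a.chart _) _ hy (mem_chart_source _ _)) b)).symm

theorem GG_bd {x : M} (hx : x ∈ e.source) (hd : (dM z e x).det ≠ 0) : ∃ C : ℝ, 0 < C ∧
    ∀ᶠ a in 𝓝 x, a ∈ e.source ∧ (dM z e a).det ≠ 0 ∧
      ∀ y : TS n M, y.1 = a → HT F 0 y ≤ C * ‖GG F z y‖ ^ 2 := by
  have hs := e.open_source.mem_nhds hx
  have c1 : ContinuousAt (dM z e) x := (Lipk.dM_cont hz he).continuousAt hs
  have c2 : ContinuousAt (fun a => (dM z e a).det) x :=
    continuous_id.matrix_det.continuousAt.comp c1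
  have c3 : ContinuousAt (fun a => co 1 F.Ω e (e a)) x :=
    (h.is.sec e he _ (e.map_source hx)).continuousAt.comp (e.continuousAt hx)
  have c4 : ContinuousAt (fun a => F.g 0 e (e a)) x :=
    continuousAt_pi.2 fun j => continuousAt_pi.2 fun k =>
      (h.b1.g_at 0 le_rfl e he _ (e.map_source hx) j k).continuousAt.comp (e.continuousAt hx)
  have c5 : ContinuousAt (fun a => (F.g 0 e (e a))⁻¹) x := by
    refine (continuousAt_matrix_inv _ ?_).comp c4
    rw [Ring.inverse_eq_inv']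
    exact continuousAt_inv₀ (h.is.pos 0 le_rfl e he _ (e.map_source hx)).det_pos.ne'
  have c6 : ContinuousAt (fun a => (n : ℝ) * Tub1.n1 (F.g 0 e (e a))⁻¹ *
      Tub1.n1 ((co 1 F.Ω e (e a) / (dM z e a).det) • dM z e a)ᵀ ^ 2) x :=
    (continuousAt_const.mul (n1_cont.continuousAt.comp c5)).mul
      ((n1_cont.continuousAt.comp (continuous_id.matrix_transpose.continuousAt.comp
        ((c3.div c2 hd).smul c1))).pow 2)
  obtain ⟨C, hC⟩ := c6.tendsto.isBoundedUnder_le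
  refine ⟨max C 1, lt_max_of_lt_right one_pos, ?_⟩
  filter_upwards [hs, c2.eventually_ne hd, eventually_map.1 hC] with a h1 h2 h3
  refine ⟨h1, h2, ?_⟩
  rintro y rfl
  rw [HT, h.b1.H_eq 0 le_rfl e he _ h1, cv_eq h t hz he h1 h2]
  exact (hq_le _ _ _).trans (mul_le_mul_of_nonneg_right (h3.trans (le_max_left _ _))
    (sq_nonneg _))

theorem im_T {c : Chart (n + n) (TS n M)} (hc : Tc e c) {y : TS n M} (hy : y.1 ∈ e.source)
    (hd : (dM z e y.1).det ≠ 0) (hz' : Ho (AT n M) fun y => z y.1) :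
    Function.Injective (dM (fun y => Fin.append (z y.1) (GG F z y)) c y).mulVec := by
  have hy' : y ∈ c.source := by rwa [hc.src]
  refine (injective_iff_map_eq_zero (Matrix.mulVecLin _)).2 fun V hV => ?_
  have h0 := line (ex_app hz' (GG_ho h t hz)).1 ⟨e, hc⟩ hy' V
  rw [show dM _ c y *ᵥ V = 0 from hV] at h0
  have zl : ∀ s : ℂ, zc (c y + s • V) = e y.1 + s • zc V := fun s => by
    rw [hc.map, ← TopA.zc_tq]
    rfl
  have vl : ∀ s : ℂ, vc (c y + s • V) = vc (c y) + s • vc V := fun s => rfl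
  have a1 : HasDerivAt (fun s : ℂ => z (e.symm (e y.1 + s • zc V))) 0 0 :=
    hasDerivAt_pi.2 fun i => by
      have := hasDerivAt_pi.1 h0 (Fin.castAdd n i)
      simp only [Fin.append_left, hc.inv, tqi, zl] at this
      exact this
  have a2 : zc V = 0 := Matrix.eq_zero_of_mulVec_eq_zero hd ((line hz he hy _).unique a1)
  have a3 : HasDerivAt (fun s : ℂ => (vc (c y) + s • vc V) ᵥ* Gm F z e y.1) 0 0 :=
    hasDerivAt_pi.2 fun i => by
      have := hasDerivAt_pi.1 h0 (Fin.natAdd n i)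
      simp only [Fin.append_right] at this
      refine this.congr_of_eventuallyEq (Eventually.of_forall fun s => ?_)
      simp only
      rw [GG_chart h t hz he hc (by
        rw [zl, a2, smul_zero, add_zero]; exact e.map_source hy), zl, vl, a2, smul_zero, add_zero,
        e.left_inv hy]
  have a4 : HasDerivAt (fun s : ℂ => (vc (c y) + s • vc V) ᵥ* Gm F z e y.1)
      (vc V ᵥ* Gm F z e y.1) 0 := by
    simpa [Matrix.add_vecMul, Matrix.smul_vecMul] using ((hasDerivAt_id (0 : ℂ)).smul_const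
      (vc V ᵥ* Gm F z e y.1)).const_add (vc (c y) ᵥ* Gm F z e y.1)
  have a5 : vc V = 0 := by
    rw [← Matrix.vecMul_one (vc V), ← Gm_inv h he hy hd, ← Matrix.vecMul_vecMul, a4.unique a3,
      Matrix.zero_vecMul]
  rw [← TopA.app_zv V, a2, a5]
  exact funext fun i => Fin.addCases (fun i => Fin.append_left _ _ i)
    (fun i => Fin.append_right _ _ i) i

end Sp

open Sp in
theorem sep {n : ℕ} {M : Type} [MetricSpace M] [ChartedSpace (Cm n) M]
    [RiemannianBundle fun x : M => TangentSpace 𝓘(ℝ, Cm n) x] {F : Flow n M} (h : Cx F)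
    (t : TOP n M) : SEP F := by
  have k1 : ∀ x : M, ∃ z : M → Cm n, Ho (AM n M) z ∧ (Ho (AT n M) fun y => z y.1) ∧
      (dM z (pc n x) x).det ≠ 0 := fun x => by
    obtain ⟨z, h1, h2⟩ := h.eta x
    obtain ⟨a, b⟩ := t.ho _ (fun x i => z i x) h1
    exact ⟨_, a, b, (div_ne_zero_iff.1 h2).1⟩
  have k2 : ∀ x x' : M, x ≠ x' → ∃ z : M → Cm 1, Ho (AM n M) z ∧ (Ho (AT n M) fun y => z y.1) ∧
      z x ≠ z x' := fun x x' hx => by
    obtain ⟨u, h1, h2⟩ := h.sep x x' hx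
    obtain ⟨a, b⟩ := t.ho _ (fun x (_ : Fin 1) => u x) fun _ => h1
    exact ⟨_, a, b, fun e => h2 (congrFun e 0)⟩
  refine ⟨sep_of t.atm (fun x => ?_) fun x x' hx => ?_,
    sep_of t.atl (fun y => ?_) fun y y' hy => ?_, fun K hK => ?_⟩
  · obtain ⟨z, a, -, b⟩ := k1 x
    exact ⟨_, z, a, _, h.a.chart x, mem_chart_source _ _, Matrix.mulVec_injective_iff_isUnit.2
      ((Matrix.isUnit_iff_isUnit_det _).2 b.isUnit)⟩
  · obtain ⟨z, a, -, b⟩ := k2 x x' hx
    exact ⟨_, z, a, b⟩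
  · obtain ⟨z, a, a', b⟩ := k1 y.1
    obtain ⟨c, hc⟩ := t.ex _ (h.a.chart y.1)
    exact ⟨_, _, (ex_app a' (GG_ho h t a)).1, c, ⟨_, hc⟩, hc.src ▸ mem_chart_source _ _,
      im_T h t a hc.he hc (mem_chart_source _ _) b a'⟩
  · rcases eq_or_ne y.1 y'.1 with h1 | h1
    · obtain ⟨z, a, -, b⟩ := k1 y.1
      exact ⟨_, _, GG_ho h t a, fun e =>
        hy (GG_inj h t a (h.a.chart y.1) (mem_chart_source _ _) b h1 e)⟩
    · obtain ⟨z, -, a, b⟩ := k2 _ _ h1
      exact ⟨_, _, a, b⟩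
  · obtain ⟨L, G, a, b⟩ := cover (𝒜 := AT n M) (fun _ G (x : M) => ∀ y : TS n M, y.1 = x →
      HT F 0 y ≤ 1 * ‖G y‖ ^ 2 ∧ ∀ y' : TS n M, y.1 = y'.1 → G y = G y' → y = y')
      (fun _ _ G G' x s q y hy => ⟨(q y hy).1.trans (by have := s.norm y; gcongr),
        fun y' h1 h2 => (q y hy).2 y' h1 (s.eq h2)⟩) hK fun x _ => by
        obtain ⟨z, a, -, b⟩ := k1 x
        obtain ⟨C, hC, c⟩ := GG_bd h t a (h.a.chart x) (mem_chart_source _ _) b
        have hs : ((√C : ℝ) : ℂ) ≠ 0 := by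
          exact_mod_cast (Real.sqrt_pos.2 hC).ne'
        refine ⟨n, fun y => ((√C : ℝ) : ℂ) • GG F z y, fun e he w hw l =>
          analyticAt_const.mul (GG_ho h t a e he w hw l), ?_⟩
        filter_upwards [c] with x' hx'
        rintro y rfl
        refine ⟨(hx'.2.2 y rfl).trans_eq ?_, fun y' h1 h2 =>
          GG_inj h t a (h.a.chart x) hx'.1 hx'.2.1 h1 (smul_right_injective _ hs h2)⟩
        rw [norm_smul, mul_pow, Complex.norm_real, Real.norm_eq_abs, sq_abs, Real.sq_sqrt hC.le,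
          one_mul]
    exact ⟨L, G, 1, a, fun y hy => (b _ hy y rfl).1, fun y y' hy => (b _ hy y rfl).2 y'⟩

end Vale.Agent.P253W.A
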