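import Vale.Agent.P253W.A.Top

/-!
# P253W, block A, row STA: regular discs with boundary in the unit sphere bundle
-/

open scoped Manifold ContDiff Topology Matrix
open IsManifold Set Metric Filter Bundle Vale.Agent.P253Z
open Vale.Agent.P272.K (Cm Chart)

noncomputable section

namespace Vale.Agent.P253W.A

open WM

namespace StaA

variable {n : ℕ} {M : Type} [MetricSpace M] [ChartedSpace (Cm n) M] {e : Chart n M}
  {c : Chart (n + n) (TS n M)} {φ : ℂ → TS n M}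

theorem sr (hc : Tc e c) {y : TS n M} : y ∈ c.source ↔ y.1 ∈ e.source := by rw [hc.src]; rfl

theorem ssc (hc : Tc e c) (a : ℂ) {y : TS n M} : sc a y ∈ c.source ↔ y ∈ c.source :=
  (sr hc).trans (sr hc (y := y)).symm

theorem c_sc (t : TOP n M) (hc : Tc e c) (a : ℂ) (y : TS n M) :
    c (sc a y) = Fin.append (zc (c y)) (a • vc (c y)) := by
  rw [hc.map, hc.map, t.tq_sc]

theorem opn (hφ : HolOn (AT n M) φ (ball 0 1)) {σ : ℂ} (hσ : σ ∈ ball (0 : ℂ) 1)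
    (hs : φ σ ∈ c.source) : ball 0 1 ∩ φ ⁻¹' c.source ∈ 𝓝 σ :=
  (hφ.1.isOpen_inter_preimage isOpen_ball c.open_source).mem_nhds ⟨hσ, hs⟩

/-- the scaled disc in a chart -/
theorem an (t : TOP n M) (hc : Tc e c) (hφ : HolOn (AT n M) φ (ball 0 1)) {σ : ℂ}
    (hσ : σ ∈ ball (0 : ℂ) 1) (hs : φ σ ∈ c.source) (a : ℂ) :
    AnalyticAt ℂ (fun p : ℂ × ℂ => c (sc p.2 (φ p.1))) (σ, a) := by
  have h1 : AnalyticAt ℂ (fun p : ℂ × ℂ => c (φ p.1)) (σ, a) :=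
    AnalyticAt.comp (g := fun τ => c (φ τ)) (f := Prod.fst)
      ((hφ.2 c ⟨e, hc⟩).analyticAt (opn hφ hσ hs)) analyticAt_fst
  simp only [c_sc t hc]
  exact TopA.app_an ((TopA.zc_an _).comp h1) (analyticAt_snd.smul ((TopA.vc_an _).comp h1))

theorem w12 {V : Type} [NormedAddCommGroup V] [NormedSpace ℝ V] (t : TOP n M)
    (hφ : HolOn (AT n M) φ (ball 0 1)) {ρ : ℂ} (hρ : ‖ρ‖ < 1) {a : ℂ → ℂ} (ha : W12 a)
    (f : TS n M → V) (hf : ∀ τ ∈ sphere (0 : ℂ) 1, ∀ e c, Tc e c → φ (ρ * τ) ∈ c.source →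
      ContDiffAt ℝ 1 (fun w => f (c.symm w)) (c (sc (a τ) (φ (ρ * τ))))) :
    W12 fun τ => f (sc (a τ) (φ (ρ * τ))) := by
  refine ((hw_const ρ).mul hw_id).w.prodMk ha |>.comp_contDiff
    (Φ := fun p : ℂ × ℂ => f (sc p.2 (φ p.1))) fun τ hτ => ?_
  obtain ⟨c, ⟨e, hc⟩, hs⟩ := t.atl.cov (φ (ρ * τ))
  have hσ := mul_mem_ball' hρ (sphere_subset_closedBall hτ)
  have h1 := (hf τ hτ e c hc hs).comp (ρ * τ, a τ)
    (((an t hc hφ hσ hs (a τ)).contDiffAt (n := 1)).restrict_scalars ℝ)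
  refine h1.congr_of_eventuallyEq ?_
  filter_upwards [continuousAt_fst.preimage_mem_nhds (x := (ρ * τ, a τ)) (opn hφ hσ hs)] with p hp
  rw [Function.comp_apply, c.left_inv ((ssc hc _).2 hp.2)]

theorem dns (t : TOP n M) (hφ : Dn (AT n M) φ) {ρ : ℂ} (hρ : ‖ρ‖ < 1) {a : ℂ → ℂ} (ha : DA a) :
    Dn (AT n M) fun τ => sc (a τ) (φ (ρ * τ)) := by
  have h1 : ContinuousOn (fun τ => sc (a τ) (φ (ρ * τ))) (closedBall 0 1) :=
    t.sc.comp_continuousOn (ha.cb.prodMk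
      (hφ.1.comp (by fun_prop) fun _ hτ => mul_mem_cb hρ.le hτ))
  refine ⟨h1, h1.mono ball_subset_closedBall, ?_⟩
  rintro c ⟨e, hc⟩ τ ⟨hτ, hs⟩
  have h2 : DifferentiableAt ℂ (fun τ => (ρ * τ, a τ)) τ :=
    DifferentiableAt.prodMk (by fun_prop)
      (ha.differentiableOn.differentiableAt (isOpen_ball.mem_nhds hτ))
  exact ((an t hc hφ.2 (mul_mem_ball hρ.le hτ) ((ssc hc (a τ)).1 hs)
    (a τ)).differentiableAt.comp τ h2).differentiableWithinAt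

/-- the choice of the dilation -/
theorem dil {G : ℂ → ℝ} {ε : ℝ} (hG : ContinuousOn G (closedBall 0 1))
    (h0 : ∀ τ ∈ sphere (0 : ℂ) 1, 0 < G τ) (hε : 0 < ε) {P : ℂ → Prop}
    (hP : ∀ τ ∈ sphere (0 : ℂ) 1, ∀ᶠ σ in 𝓝[closedBall 0 1] τ, P σ) :
    ∃ ρ : ℝ, ‖(ρ : ℂ)‖ < 1 ∧ ∀ τ ∈ sphere (0 : ℂ) 1,
      P (ρ * τ) ∧ Real.log (G (ρ * τ)) ≤ Real.log (G τ) + ε := by
  have key : ∀ᶠ ρ : ℝ in 𝓝 1, ∀ τ ∈ sphere (0 : ℂ) 1, (ρ, τ) ∈ Ioo 0 1 ×ˢ sphere (0 : ℂ) 1 →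
      P (ρ * τ) ∧ Real.log (G (ρ * τ)) < Real.log (G τ) + ε := by
    refine (isCompact_sphere _ _).eventually_forall_of_forall_eventually fun τ hτ => ?_
    have hl : ContinuousWithinAt (fun σ => Real.log (G σ)) (closedBall 0 1) τ :=
      (hG τ (sphere_subset_closedBall hτ)).log (h0 τ hτ).ne'
    have t1 : Tendsto (fun z : ℝ × ℂ => (z.1 : ℂ) * z.2) (𝓝[Ioo 0 1 ×ˢ sphere 0 1] (1, τ))
        (𝓝[closedBall 0 1] τ) := by
      refine tendsto_nhdsWithin_iff.2 ⟨?_, eventually_mem_nhdsWithin.mono fun z hz => mul_mem_cb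
        (by simpa [abs_of_pos hz.1.1] using hz.1.2.le) (sphere_subset_closedBall hz.2)⟩
      have : Continuous fun z : ℝ × ℂ => (z.1 : ℂ) * z.2 := by fun_prop
      simpa using (this.tendsto (1, τ)).mono_left nhdsWithin_le_nhds
    have t2 : Tendsto (fun z : ℝ × ℂ => z.2) (𝓝[Ioo 0 1 ×ˢ sphere 0 1] (1, τ))
        (𝓝[closedBall 0 1] τ) :=
      tendsto_nhdsWithin_iff.2 ⟨(continuous_snd.tendsto (1, τ)).mono_left nhdsWithin_le_nhds,
        eventually_mem_nhdsWithin.mono fun z hz => sphere_subset_closedBall hz.2⟩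
    exact eventually_nhdsWithin_iff.1 ((t1.eventually (hP τ hτ)).and
      ((hl.tendsto.comp t1).eventually_lt ((hl.tendsto.comp t2).add_const ε) (by simpa using hε)))
  obtain ⟨ρ, h1, h2⟩ :=
    ((key.filter_mono nhdsWithin_le_nhds).and (Ioo_mem_nhdsLT (one_pos (α := ℝ)))).exists
  exact ⟨ρ, by simpa [abs_of_pos h2.1] using h2.2, fun τ hτ =>
    ⟨(h1 τ hτ ⟨h2, hτ⟩).1, (h1 τ hτ ⟨h2, hτ⟩).2.le⟩⟩

theorem nexp (z : ℂ) : ‖Complex.exp z‖ ^ 2 = Real.exp (2 * z.re) := by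
  rw [Complex.norm_exp, two_mul, Real.exp_add, sq]

end StaA

open StaA in
theorem sta {n : ℕ} {M : Type} [MetricSpace M] [ChartedSpace (Cm n) M]
    [IsManifold 𝓘(ℂ, Cm n) 1 M] [RiemannianBundle fun x : M => TangentSpace 𝓘(ℝ, Cm n) x]
    {F : Flow n M} (h : Cx F) (t : TOP n M) (r : REG F) (o : OUT) : STA F := by
  intro e c hc S D q ε hq hε
  have hdn : Dn (AT n M) D.φ := D.dn
  have hne : ∀ τ ∈ sphere (0 : ℂ) 1, (D.φ τ).2 ≠ 0 := D.ne
  have tp : ∀ z, 0 ≤ tm z := fun z => (Real.exp_pos _).le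
  have hp : ∀ s, 0 ≤ s → ∀ y : TS n M, y.2 ≠ 0 → 0 < HT F s y := fun s hs y =>
    h.b2.H_pos s hs y.1 y.2
  have hG : ContinuousOn (fun σ => HT F (tm (D.ζ σ)) (D.φ σ)) (closedBall 0 1) :=
    r.cH.comp (f := fun σ => (tm (D.ζ σ), D.φ σ))
      (((continuous_const.mul Complex.continuous_re).rexp.comp_continuousOn D.da.cb).prodMk hdn.1)
      fun σ _ => ⟨tp _, mem_univ _⟩
  obtain ⟨ρ, hρ, H⟩ := dil hG (fun τ hτ => hp _ (tp _) _ (hne τ hτ)) hε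
    (P := fun σ => (D.φ σ).2 ≠ 0) fun τ hτ =>
      (hdn.1 τ (sphere_subset_closedBall hτ)).eventually (t.opn.mem_nhds (hne τ hτ))
  have s1 : ∀ y : TS n M, sc 1 y = y := fun y => Prod.ext rfl (one_smul _ _)
  obtain ⟨A, hA⟩ := w12 t hdn.2 hρ (w12_const 1) (fun y => -(1 / 2) * Real.log (HT F 0 y))
    fun τ hτ e' c' hc' hs => by
      have h1 : ContDiffOn ℝ ∞ (fun w => HT F 0 (c'.symm w)) c'.target :=
        (r.sm e' c' hc').comp (f := fun w => ((0 : ℝ), w)) (by fun_prop)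
          fun w hw => ⟨self_mem_Ici, hw⟩
      rw [s1]
      refine contDiffAt_const.mul (((h1.contDiffAt
        (c'.open_target.mem_nhds (c'.map_source hs))).of_le (by simp)).log ?_)
      rw [c'.left_inv hs]
      exact (hp 0 le_rfl _ (H τ hτ).1).ne'
  obtain ⟨k, hk, -, -, hre⟩ := o _ A hA
  simp only [s1] at hre
  have z0 : sc (Complex.exp (k 0)) (D.φ (ρ * 0)) = sc (Complex.exp (k 0)) (D.φ 0) := by
    rw [mul_zero]
  refine ⟨⟨fun τ => sc (Complex.exp (k τ)) (D.φ (ρ * τ)), fun τ => D.ζ (ρ * τ),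
    dns t hdn hρ hk.exp.da, D.da.dil hρ.le, fun τ hτ => D.le _ (mul_mem_cb hρ.le hτ),
    fun τ hτ => smul_ne_zero (Complex.exp_ne_zero _) (H τ hτ).1⟩, Complex.exp (k 0),
    Complex.exp_ne_zero _, ⟨?_, ?_, ?_⟩, ?_, ?_,
    ⟨(hw_of_ball D.da.differentiableOn hρ).w, fun L G hG l => ?_⟩, fun τ hτ => ?_⟩
  · show sc _ _ ∈ c.source
    rw [z0]
    exact (ssc hc _).2 hq.1
  · show zc (c (sc _ _)) = q.2
    rw [z0, c_sc t hc, TopA.zc_app]
    exact hq.2.1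
  · show tm (D.ζ (ρ * 0)) = q.1
    rw [mul_zero]
    exact hq.2.2
  · show vc (c (sc _ _)) = _ • vc (c (D.φ 0))
    rw [z0, c_sc t hc, TopA.vc_app]
  · have c1 : ContinuousOn (fun τ => Real.log (HT F (tm (D.ζ τ)) (D.φ τ))) (sphere 0 1) :=
      (hG.mono sphere_subset_closedBall).log fun τ hτ => (hp _ (tp _) _ (hne τ hτ)).ne'
    have c2 : ContinuousOn (fun τ => Real.log (HT F (tm (D.ζ (ρ * τ))) (D.φ (ρ * τ))))
        (sphere 0 1) := (hG.comp (f := fun τ => (ρ : ℂ) * τ) (by fun_prop) fun τ hτ =>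
          mul_mem_cb hρ.le (sphere_subset_closedBall hτ)).log
            fun τ hτ => (hp _ (tp _) _ (H τ hτ).1).ne'
    have c3 : ContinuousOn (fun τ => 2 * (k τ).re) (sphere 0 1) :=
      continuousOn_const.mul (Complex.continuous_re.comp_continuousOn hk.cs)
    show av (fun τ => Real.log (HT F (tm (D.ζ (ρ * τ))) (sc (Complex.exp (k τ)) (D.φ (ρ * τ))))) ≤
      av (fun τ => Real.log (HT F (tm (D.ζ τ)) (D.φ τ))) + _ + ε
    rw [av_congr (v := fun τ => 2 * (k τ).re +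
      Real.log (HT F (tm (D.ζ (ρ * τ))) (D.φ (ρ * τ)))) fun τ hτ => by
        rw [r.sc, nexp, Real.log_mul (Real.exp_pos _).ne' (hp _ (tp _) _ (H τ hτ).1).ne',
          Real.log_exp], av_add c3 c2, av_mul_real, av_re hk.cs, hk.da.av_eq, nexp, Real.log_exp]
    have := (av_mono c2 (c1.add continuousOn_const) fun τ hτ => (H τ hτ).2).trans_eq
      (av_add c1 continuousOn_const)
    rw [av_const] at this
    linarith
  · exact w12 t hdn.2 hρ hk.exp.w (fun y => G y l) fun τ hτ e' c' hc' hs =>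
      ((hG c' ⟨e', hc'⟩ _ (c'.map_source ((ssc hc' _).2 hs)) l).contDiffAt
        (n := 1)).restrict_scalars ℝ
  · show HT F 0 (sc _ _) = 1
    have h0 := hp 0 le_rfl _ (H τ hτ).1
    rw [r.sc, nexp, hre τ hτ, ← mul_assoc, show (2 : ℝ) * -(1 / 2) = -1 by norm_num, neg_one_mul,
      Real.exp_neg, Real.exp_log h0, inv_mul_cancel₀ h0.ne']

end Vale.Agent.P253W.A
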