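import Vale.Agent.P253W.A.Hom
import Vale.Agent.P253W.FG.Calc

/-!
# P253W, block A: the symbols in ambient coordinates
-/

open scoped Manifold ContDiff Bundle ENNReal Topology ComplexConjugate ComplexOrder Matrix
open Bundle MeasureTheory Set Metric Filter Vale.Agent.P253Z
open Vale.Agent.P272.K (Cm dz cHess jacM Chart)

noncomputable section

namespace Vale.Agent.P253W.A

open WM

variable {n : ℕ} {M : Type} [MetricSpace M] [ChartedSpace (Cm n) M]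

namespace Syb

variable (n M) in
/-- fields of forms in charts -/
abbrev Fo : Type := Chart n M → Chart (n + n) (TS n M) → ℝ → TS n M → Mx (n + n)

variable {L : ℕ} (G : TS n M → Fin L → ℂ) (S : ℝ) (K W : Set (TS n M)) (d : TS n M → ℝ)

/-- the field has a continuous representative in the ambient coordinates -/
def Gk (f : Fo n M) : Prop := ∃ a : ℝ → TS n M → Mx L,
  (∀ i j, ContinuousOn (fun q : ℝ × TS n M => a q.1 q.2 i j) (Icc 0 S ×ˢ K)) ∧
  ∀ t ∈ Icc 0 S, ∀ y ∈ K, (a t y).IsHermitian ∧ ∀ e c, Tc e c → y ∈ c.source →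
    (dM G c y)ᴴ * a t y * dM G c y = f e c t y

/-- the same with a bound near the walls -/
def Gw (f : Fo n M) : Prop := ∃ (a : ℝ → TS n M → Mx L) (C : ℝ),
  (∀ i j, ContinuousOn (fun q : ℝ × TS n M => a q.1 q.2 i j) (Icc 0 S ×ˢ W)) ∧
  ∀ t ∈ Icc 0 S, ∀ y ∈ W, (a t y).IsHermitian ∧ Bd (C * (d y ^ 6)⁻¹) (a t y) ∧
    ∀ e c, Tc e c → y ∈ c.source → (dM G c y)ᴴ * a t y * dM G c y = f e c t y

variable {G S K W d}

theorem herm {a : Mx L} (h : a.IsHermitian) (k : ℝ) : ((k : ℂ) • a).IsHermitian := by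
  rw [Matrix.IsHermitian, Matrix.conjTranspose_smul, h.eq]; simp

theorem Gw.add {f g : Fo n M} (hf : Gw G S W d f) (hg : Gw G S W d g) :
    Gw G S W d fun e c t y => f e c t y + g e c t y := by
  obtain ⟨a, C, a1, a2⟩ := hf
  obtain ⟨b, D, b1, b2⟩ := hg
  refine ⟨fun t y => a t y + b t y, C + D, fun i j => (a1 i j).add (b1 i j), fun t ht y hy => ?_⟩
  obtain ⟨p1, p2, p3⟩ := a2 t ht y hy
  obtain ⟨q1, q2, q3⟩ := b2 t ht y hy
  refine ⟨p1.add q1, fun i j => (norm_add_le _ _).trans ?_, fun e c hc h => ?_⟩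
  · rw [add_mul]; exact add_le_add (p2 i j) (q2 i j)
  · rw [Matrix.mul_add, Matrix.add_mul, p3 e c hc h, q3 e c hc h]

theorem Gk.smul {f : Fo n M} (hf : Gk G S K f) {k : ℝ → TS n M → ℝ}
    (ck : ContinuousOn (fun q : ℝ × TS n M => k q.1 q.2) (Icc 0 S ×ˢ K)) :
    Gk G S K fun e c t y => (k t y : ℂ) • f e c t y := by
  obtain ⟨a, a1, a2⟩ := hf
  refine ⟨fun t y => (k t y : ℂ) • a t y, fun i j =>
    (Complex.continuous_ofReal.comp_continuousOn ck).mul (a1 i j), fun t ht y hy =>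
    ⟨herm (a2 t ht y hy).1 _, fun e c hc h => ?_⟩⟩
  rw [Matrix.mul_smul, Matrix.smul_mul, (a2 t ht y hy).2 e c hc h]

theorem Gk.gw {f : Fo n M} (hf : Gk G S K f) (hK : IsCompact K) (WK : W ⊆ K) {k : TS n M → ℝ}
    (ck : ContinuousOn k W) {C : ℝ} (bk : ∀ y ∈ W, |k y| ≤ C * (d y ^ 6)⁻¹) :
    Gw G S W d fun e c t y => (k y : ℂ) • f e c t y := by
  obtain ⟨a, a1, a2⟩ := hf
  obtain ⟨A, hA⟩ := (isCompact_Icc.prod hK).exists_bound_of_continuousOn
    (f := fun q : ℝ × TS n M => fun i j => a q.1 q.2 i j)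
    (continuousOn_pi.2 fun i => continuousOn_pi.2 fun j => a1 i j)
  refine ⟨fun t y => (k y : ℂ) • a t y, A * C, fun i j =>
    (Complex.continuous_ofReal.comp_continuousOn (ck.comp continuousOn_snd fun q hq => hq.2)).mul
      ((a1 i j).mono (prod_mono_right WK)), fun t ht y hy =>
    ⟨herm (a2 t ht y (WK hy)).1 _, fun i j => ?_, fun e c hc h => ?_⟩⟩
  · have h1 : ‖a t y i j‖ ≤ A :=
      ((norm_le_pi_norm _ j).trans (norm_le_pi_norm (fun i j => a t y i j) i)).trans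
        (hA (t, y) ⟨ht, WK hy⟩)
    change ‖(k y : ℂ) * a t y i j‖ ≤ _
    rw [norm_mul, Complex.norm_real, Real.norm_eq_abs, mul_comm, mul_assoc]
    exact mul_le_mul h1 (bk y hy) (abs_nonneg _) ((norm_nonneg _).trans h1)
  · rw [Matrix.mul_smul, Matrix.smul_mul, (a2 t ht y (WK hy)).2 e c hc h]

/-- from `AMB` -/
theorem gk (t : TOP n M) (am : AMB) (hG : Ho (AT n M) G) (hE : Em (AT n M) G K) {f : Fo n M}
    (h1 : ∀ s ∈ Icc 0 S, ∀ y ∈ K, ∀ e c, Tc e c → y ∈ c.source → (f e c s y).IsHermitian ∧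
      ∀ e' c', Tc e' c' → y ∈ c'.source →
        f e c s y = (jacM c c' y)ᴴ * f e' c' s y * jacM c c' y)
    (h2 : ∀ e c, Tc e c → ∀ i j, ContinuousOn (fun q : ℝ × TS n M => f e c q.1 q.2 i j)
      (Icc 0 S ×ˢ (K ∩ c.source))) : Gk G S K f := by
  classical
  set a : Chart (n + n) (TS n M) → ℝ → TS n M → Mx (n + n) := fun c =>
    if h : ∃ e, Tc e c then f h.choose c else 0 with ha
  have e1 : ∀ e c, Tc e c → a c = f e c := fun e c hc => by
    have h : ∃ e, Tc e c := ⟨e, hc⟩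
    rw [ha]
    simp only [dif_pos h]
    rw [t.uniq _ _ _ h.choose_spec hc]
  obtain ⟨b, b1, b2⟩ := am (n + n) (TS n M) (AT n M) (Fin L) G (Icc 0 S ×ˢ K) a t.atl hG
    (fun p hp c ⟨e, hc⟩ h => ⟨hE.2 _ hp.2 c ⟨e, hc⟩ h, by
      rw [e1 e c hc]; exact (h1 _ hp.1 _ hp.2 e c hc h).1, fun c' ⟨e', hc'⟩ h' => by
      rw [e1 e c hc, e1 e' c' hc']; exact (h1 _ hp.1 _ hp.2 e c hc h).2 e' c' hc' h'⟩)
    (fun c ⟨e, hc⟩ i j => by
      rw [e1 e c hc]; exact (h2 e c hc i j).mono fun q hq => ⟨hq.1.1, hq.1.2, hq.2⟩)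
  exact ⟨b, b1, fun s hs y hy => ⟨(b2 (s, y) ⟨hs, hy⟩).1, fun e c hc h => by
    rw [← e1 e c hc]; exact (b2 (s, y) ⟨hs, hy⟩).2 c ⟨e, hc⟩ h⟩⟩

/-- Levi forms -/
theorem gk_lm (t : TOP n M) (am : AMB) (li : LIPK) (hG : Ho (AT n M) G) (hE : Em (AT n M) G K)
    (hK : ∀ y ∈ K, y.2 ≠ 0) {u : ℝ → TS n M → ℝ}
    (hu : ∀ e c, Tc e c → ContDiffOn ℝ ∞ (fun q : ℝ × Cm (n + n) => u q.1 (c.symm q.2))
      (Ico 0 (S + 1) ×ˢ (c.target ∩ c.symm ⁻¹' {y | y.2 ≠ 0}))) :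
    Gk G S K fun _ c s y => lm (u s) c y := by
  have := t.t2
  have op : ∀ c : Chart (n + n) (TS n M), IsOpen (c.target ∩ c.symm ⁻¹' {y | y.2 ≠ 0}) := fun c =>
    c.symm.isOpen_inter_preimage t.opn
  have mm : ∀ (c : Chart (n + n) (TS n M)), ∀ y ∈ K, y ∈ c.source →
      c y ∈ c.target ∩ c.symm ⁻¹' {y | y.2 ≠ 0} := fun c y hy h =>
    ⟨c.map_source h, by rw [mem_preimage, c.left_inv h]; exact hK y hy⟩
  have sI : ∀ s ∈ Icc 0 S, s ∈ Ico 0 (S + 1) := fun s hs => ⟨hs.1, lt_add_of_le_of_pos hs.2 one_pos⟩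
  have c2 : ∀ s ∈ Icc 0 S, ∀ y ∈ K, ∀ e c, Tc e c → y ∈ c.source →
      ContDiffAt ℝ 2 (fun w => u s (c.symm w)) (c y) := fun s hs y hy e c hc h =>
    (FG.Calc.slice (op c) (hu e c hc) (sI s hs) (mm c y hy h)).of_le FG.Calc.two_le
  refine gk t am hG hE (fun s hs y hy e c hc h => ⟨?_, fun e' c' hc' h' => ?_⟩) fun e c hc i j => ?_
  · exact (P272.K.C2.cHess_isHermitian (c2 s hs y hy e c hc h)).transpose
  · exact ((li _ _ _ _ G t.atl hG).2.2.1 c ⟨e, hc⟩ c' ⟨e', hc'⟩ y h h').2 _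
      (c2 s hs y hy e' c' hc' h')
  · exact (FG.Calc.hess (uniqueDiffOn_Ico _ _) (op c) (hu e c hc) j i).continuousOn.comp
      (f := fun q : ℝ × TS n M => (q.1, c q.2))
      (continuousOn_fst.prodMk (c.continuousOn.comp continuousOn_snd fun q hq => hq.2.2))
      fun q hq => ⟨sI _ hq.1, mm c _ hq.2.1 hq.2.2⟩

theorem hb_add (a b : Mx n) : hb (a + b) = hb a + hb b := by
  ext i j
  refine Fin.addCases (fun i => ?_) (fun i => ?_) i <;>
    refine Fin.addCases (fun j => ?_) (fun j => ?_) j <;>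
    simp only [Matrix.add_apply, Hom.hb_cc, Hom.hb_cn, Hom.hb_nc, Hom.hb_nn, add_zero]

theorem hb_smul (k : ℂ) (a : Mx n) : hb (k • a) = k • hb a := by
  ext i j
  refine Fin.addCases (fun i => ?_) (fun i => ?_) i <;>
    refine Fin.addCases (fun j => ?_) (fun j => ?_) j <;>
    simp only [Matrix.smul_apply, Hom.hb_cc, Hom.hb_cn, Hom.hb_nc, Hom.hb_nn, smul_zero]

theorem hb_herm {a : Mx n} (h : a.IsHermitian) : (hb a).IsHermitian := by
  ext i j
  refine Fin.addCases (fun i => ?_) (fun i => ?_) i <;>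
    refine Fin.addCases (fun j => ?_) (fun j => ?_) j <;>
    simp only [Matrix.conjTranspose_apply, Hom.hb_cc, Hom.hb_cn, Hom.hb_nc, Hom.hb_nn, h.apply,
      star_zero]

theorem zc_sm : ContDiff ℝ ∞ (zc (n := n)) := contDiff_pi.2 fun _ => contDiff_apply _ _ _

/-- functions on the base -/
theorem base {I : Set ℝ} {f : ℝ → M → ℝ} (hf : SmT n I f) {e c} (hc : Tc e c) (V : Set (Cm (n + n))) :
    ContDiffOn ℝ ∞ (fun q : ℝ × Cm (n + n) => f q.1 (c.symm q.2).1) (I ×ˢ (c.target ∩ V)) := by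
  refine ((hf e hc.he).comp (f := fun q : ℝ × Cm (n + n) => (q.1, zc q.2))
    (contDiff_fst.prodMk (zc_sm.comp contDiff_snd)).contDiffOn fun q hq => ⟨hq.1, ?_⟩).congr
    fun q _ => by rw [hc.inv]; rfl
  have := hq.2.1
  rwa [hc.tgt] at this

theorem smT {I : Set ℝ} {f : M → ℝ} (hf : Sm n f) : SmT n I fun _ => f := fun e he q hq =>
  ((hf e he q.2 hq.2).comp q contDiffAt_snd).contDiffWithinAt

theorem d2 {f : ℝ → ℝ} {V : Set ℝ} (hV : IsOpen V) (hf : ContDiffOn ℝ ∞ f V) :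
    ContinuousOn (deriv f) V ∧ ContinuousOn (deriv (deriv f)) V :=
  have h := hf.deriv_of_isOpen (m := ∞) hV (by simp)
  ⟨h.continuousOn, (h.deriv_of_isOpen (m := ∞) hV (by simp)).continuousOn⟩

end Syb

open Syb

variable [RiemannianBundle fun x : M => TangentSpace 𝓘(ℝ, Cm n) x] {F : Flow n M}

theorem syb (h : Cx F) (t : TOP n M) (s : SYP n M) (r : REG F) (w : WB) (lb : LB F) (am : AMB)
    (li : LIPK) : SYB F := by
  intro p S κ η₁ L G hp hη hG hE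
  obtain ⟨cK, -, -, -, -, hL⟩ := lb p S κ η₁ hp hη.1
  have hK : ∀ y ∈ p.K F η₁, y.2 ≠ 0 := fun y hy => hy.1
  have WK : p.W F η₁ ⊆ p.K F η₁ := fun y hy => ⟨hy.1, hy.2.1.le, hy.2.2.le⟩
  have Hp : ∀ t, 0 ≤ t → ∀ y : TS n M, y.2 ≠ 0 → 0 < HT F t y := fun t ht y hy =>
    h.b2.H_pos t ht _ _ hy
  have sq : Sm n fun x => p.ϱ x ^ 2 := fun e he z hz => (hp.sm e he z hz).pow 2
  have H0 : ∀ e c, Tc e c → ContDiffOn ℝ ∞ (fun q : ℝ × Cm (n + n) => HT F 0 (c.symm q.2))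
      (Ico 0 (S + 1) ×ˢ (c.target ∩ c.symm ⁻¹' {y | y.2 ≠ 0})) := fun e c hc =>
    (r.sm e c hc).comp (f := fun q : ℝ × Cm (n + n) => ((0 : ℝ), q.2))
      (contDiff_const.prodMk contDiff_snd).contDiffOn fun q hq => ⟨le_refl (0 : ℝ), hq.2.1⟩
  have g1 := gk_lm (S := S) t am li hG hE hK (u := fun t y => p.P t y.1) fun e c hc =>
    base hp.smP hc _
  have g2 := gk_lm (S := S) t am li hG hE hK (u := fun t y => p.X t y.1) fun e c hc =>
    base hp.smX hc _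
  have g3 := gk_lm (S := S) t am li hG hE hK (u := fun _ y => p.ϱ y.1) fun e c hc =>
    base (smT hp.sm) hc _
  have g4 := gk_lm (S := S) t am li hG hE hK (u := fun _ y => p.ϱ y.1 ^ 2) fun e c hc =>
    base (smT sq) hc _
  have g5 := gk_lm (S := S) t am li hG hE hK (u := fun _ y => Real.log (HT F 0 y)) fun e c hc =>
    (H0 e c hc).log fun q hq => (Hp 0 le_rfl _ hq.2.2).ne'
  have g6 := gk_lm (S := S) t am li hG hE hK (u := fun _ y => HT F 0 y) H0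
  have g7 := gk_lm (S := S) t am li hG hE hK (u := HT F) fun e c hc =>
    (r.sm e c hc).mono fun q hq => ⟨hq.1.1, hq.2.1⟩
  have src : ∀ {e c} {y : TS n M}, Tc e c → y ∈ c.source → y.1 ∈ e.source := fun hc hy => by
    rwa [hc.src] at hy
  have g8 : Gk G S (p.K F η₁) fun e _ _ y => hb (hm e (e y.1)) := by
    refine gk t am hG hE (fun _ _ y _ e c hc hy => ⟨hb_herm (h.b.wpos e hc.he _
      (e.map_source (src hc hy))).1, fun e' c' hc' hy' => ?_⟩) fun e c hc i j => ?_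
    · rw [(s e e' c c' hc hc' y hy hy').2.2, ← h.b.wch e e' hc.he hc'.he _ (src hc hy) (src hc' hy')]
    · have c1 : ∀ j k, ContinuousOn (fun q : ℝ × TS n M => hm e (e q.2.1) j k)
          (Icc 0 S ×ˢ (p.K F η₁ ∩ c.source)) := fun j k q hq =>
        (((h.b.wsm e hc.he _ (e.map_source (src hc hq.2.2)) j k).continuousAt.comp
          (f := fun x => e x) (e.continuousAt (src hc hq.2.2))).comp
          (f := fun q : ℝ × TS n M => q.2.1) (t.fst.comp continuous_snd).continuousAt).continuousWithinAt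
      refine Fin.addCases (fun i => ?_) (fun i => ?_) i <;>
        refine Fin.addCases (fun j => ?_) (fun j => ?_) j <;>
        simp only [Hom.hb_cc, Hom.hb_cn, Hom.hb_nc, Hom.hb_nn, c1, continuousOn_const]
  have cH : ContinuousOn (fun q : ℝ × TS n M => (HT F q.1 q.2)⁻¹) (Icc 0 S ×ˢ p.K F η₁) :=
    (r.cH.mono fun q hq => ⟨hq.1.1, trivial⟩).inv₀ fun q hq => (Hp _ hq.1.1 _ hq.2.1).ne'
  have cH0 : Continuous (HT F 0) := continuousOn_univ.1 <|
    r.cH.comp (f := fun y => ((0 : ℝ), y)) (by fun_prop) fun y _ => ⟨le_refl (0 : ℝ), trivial⟩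
  have cϱ : Continuous fun y : TS n M => p.ϱ y.1 := (h.a.sm_cont _ hp.sm).comp t.fst
  have cx1 : Continuous p.x₁ := cϱ.sub continuous_const
  obtain ⟨aH, a1, a2⟩ := g7.smul (k := fun t y => (HT F t y)⁻¹) cH
  obtain ⟨C, hC, w1, w2⟩ := w.bd
  set f : ℝ → ℝ := fun s => wb (η₁ * s ^ 2) with hf
  have dpos : ∀ y ∈ p.W F η₁, 0 < p.d F η₁ y := fun y hy =>
    lt_min (lt_min one_pos (sub_pos.2 hy.2.1)) (lt_min one_pos (sub_pos.2 hy.2.2))
  have b0 : ∀ k : ℝ, ∀ y ∈ p.W F η₁, |k| ≤ |k| * (p.d F η₁ y ^ 6)⁻¹ := fun k y hy =>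
    le_mul_of_one_le_right (abs_nonneg _) (one_le_inv_iff₀.2 ⟨pow_pos (dpos y hy) _,
      pow_le_one₀ (dpos y hy).le ((min_le_left _ _).trans (min_le_left _ _))⟩)
  have b1 : ∀ y ∈ p.W F η₁, wd wb (p.x₁ y) ≤ C * (p.d F η₁ y ^ 6)⁻¹ := fun y hy =>
    (w1 _ hy.2.1).trans (by have := dpos y hy; gcongr; exact min_le_left _ _)
  have b2 : ∀ y ∈ p.W F η₁, wd f (Real.log (HT F 0 y)) ≤ C * (p.d F η₁ y ^ 6)⁻¹ := fun y hy =>
    (w2 η₁ hη _ hy.2.2).trans (by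
      have := dpos y hy
      have h1 : √η₁ ≤ 1 := Real.sqrt_le_one.2 hη.2
      exact mul_le_mul (mul_le_of_le_one_right hC h1) (by gcongr; exact min_le_right _ _)
        (by positivity) hC)
  obtain ⟨f1, f2⟩ := d2 (f := f) (V := {s | η₁ * s ^ 2 < 1})
    (isOpen_lt (by fun_prop) continuous_const) (w.sm.comp (by fun_prop) fun s hs => hs)
  have cs : ContinuousOn (fun y => Real.log (HT F 0 y)) (p.W F η₁) :=
    cH0.continuousOn.log fun y hy => (Hp 0 le_rfl y hy.1).ne'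
  have k1 := w.cont.1.comp (s := p.W F η₁) cx1.continuousOn fun y hy => hy.2.1
  have k2 := w.cont.2.comp (s := p.W F η₁) cx1.continuousOn fun y hy => hy.2.1
  have k3 := f1.comp cs fun y hy => hy.2.2
  have k4 := f2.comp cs fun y hy => hy.2.2
  have l1 : ∀ (g : ℝ → ℝ) x, |deriv g x| ≤ wd g x := fun g x =>
    le_add_of_nonneg_right (abs_nonneg _)
  have l2 : ∀ (g : ℝ → ℝ) x, |deriv (deriv g) x| ≤ wd g x := fun g x =>
    le_add_of_nonneg_left (abs_nonneg _)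
  obtain ⟨ab, C', q1, q2⟩ :=
    ((((((((g1.gw cK WK (k := fun _ => p.η) continuousOn_const (b0 _)).add
      (g2.gw cK WK (k := fun _ => 1) continuousOn_const (b0 _))).add
      (g3.gw cK WK k1 fun y hy => (l1 _ _).trans (b1 y hy))).add
      ((g4.smul (k := fun _ _ => 1 / 2) continuousOn_const).gw cK WK k2 fun y hy =>
        (l2 _ _).trans (b1 y hy))).add
      ((g3.smul (k := fun _ y => -p.ϱ y.1) (cϱ.comp continuous_snd).neg.continuousOn).gw cK WK k2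
        fun y hy => (l2 _ _).trans (b1 y hy))).add
      (g5.gw cK WK (k3.sub k4) fun y hy => (abs_sub _ _).trans (b2 y hy))).add
      ((g6.smul (k := fun _ y => (HT F 0 y)⁻¹) ((cH0.comp continuous_snd).continuousOn.inv₀
        fun q hq => (Hp 0 le_rfl _ hq.2.1).ne')).gw cK WK k4 fun y hy =>
        (l2 _ _).trans (b2 y hy))).add
      (g8.gw cK WK (k := fun _ => p.η / 2) continuousOn_const (b0 _)))
  refine ⟨aH, ab, C', a1, q1, fun τ hτ y hy => ⟨(a2 τ hτ y (WK hy)).1, (q2 τ hτ y hy).1,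
    (q2 τ hτ y hy).2.1, fun e c hc hy' => ⟨(a2 τ hτ y (WK hy)).2 e c hc hy', ?_⟩⟩⟩
  have hτ' : τ ∈ Ico 0 (S + 1) := ⟨hτ.1, lt_add_of_le_of_pos hτ.2 one_pos⟩
  obtain ⟨_, -, -, sP, -⟩ := r.dt _ _ hp.smP
  obtain ⟨_, -, -, sX, -⟩ := r.dt _ _ hp.smX
  have e4 : hs (fun x => p.ϱ x ^ 2) e (e y.1) = ((2 * p.ϱ y.1 : ℝ) : ℂ) • hs p.ϱ e (e y.1) +
      ((2 : ℝ) : ℂ) • FG.gg (fun w => p.ϱ (e.symm w)) (e y.1) := by
    have := Hom.hom7 (fun x => x ^ 2) (fun w => p.ϱ (e.symm w)) (e y.1)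
      ((hp.sm e hc.he _ (e.map_source (src hc hy'))).of_le FG.Calc.two_le) (by fun_prop)
    have d1 : deriv (fun x : ℝ => x ^ 2) = fun x => 2 * x := by funext x; simp
    rw [d1, e.left_inv (src hc hy')] at this
    simpa [hs] using this
  rw [(q2 τ hτ y hy).2.2 e c hc hy', Pd.L, hL e c hc τ hτ' y hy hy']
  beta_reduce
  rw [r.lm_hb e c hc _ (sP τ hτ') y hy', r.lm_hb e c hc _ (sX τ hτ') y hy',
    r.lm_hb e c hc _ hp.sm y hy', r.lm_hb e c hc _ sq y hy', e4]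
  simp only [hb_add, hb_smul, Function.comp, div_eq_mul_inv, Pi.sub_apply]
  push_cast
  module

end Vale.Agent.P253W.A
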