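import Vale.Agent.P253W.A.Top
import Vale.Agent.P253W.A.Frm
import Vale.Agent.P272.K.C2.Wirt

/-!
# P253W, block A, row SYP: the changes of charts of the cotangent bundle are symplectic
-/

open scoped Manifold ContDiff Topology Matrix
open IsManifold Set Metric Filter Vale.Agent.P253Z
open Vale.Agent.P272.K (Cm dz cHess jacM Chart)
open Vale.Agent.P272.K.C2

noncomputable section

namespace Vale.Agent.P253W.A

namespace SypA

open TopA

variable {n : ℕ}

theorem rd {q : ℕ} {f : Cm q → ℂ} {z : Cm q} (h : AnalyticAt ℂ f z) : DifferentiableAt ℝ f z :=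
  h.differentiableAt.restrictScalars ℝ

/-- the chain rule -/
theorem dz_chain {m q : ℕ} {f : Cm q → ℂ} {T : Cm m → Cm q} {z : Cm m} (hf : AnalyticAt ℂ f (T z))
    (hT : AnalyticAt ℂ T z) (k : Fin m) :
    dz k (fun y => f (T y)) z = ∑ i, dz i f (T z) * dz k (fun y => T y i) z := by
  have d := hT.differentiableAt
  rw [Fr.dz_eq (hf.differentiableAt.fun_comp' _ d), fderiv_fun_comp _ hf.differentiableAt d,
    ContinuousLinearMap.comp_apply, pi_eq_sum_univ' (fderiv ℂ T z _), map_sum]
  refine Finset.sum_congr rfl fun i _ => ?_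
  rw [map_smul, Fr.dz_eq hf.differentiableAt, Fr.dz_eq (differentiableAt_pi.1 d i), smul_eq_mul,
    mul_comm, fderiv_pi fun i => differentiableAt_pi.1 d i]
  rfl

theorem dz_proj {q : ℕ} (i k : Fin q) (w : Cm q) :
    dz k (fun w => w i) w = if i = k then 1 else 0 := by
  have h := (ContinuousLinearMap.proj (R := ℂ) (φ := fun _ : Fin q => ℂ) i).hasFDerivAt (x := w)
  rw [← Pi.single_apply k (1 : ℂ) i]
  exact (Fr.dz_eq h.differentiableAt k).trans (by rw [h.fderiv]; rfl)

theorem ne_cn (i k : Fin n) : Fin.castAdd n i ≠ Fin.natAdd n k := fun h => by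
  have := congrArg Fin.val h
  simp only [Fin.val_castAdd, Fin.val_natAdd] at this
  omega

theorem dz_zc {f : Cm n → ℂ} {w : Cm (n + n)} (hf : AnalyticAt ℂ f (zc w)) (k : Fin n) :
    dz (Fin.castAdd n k) (fun y => f (zc y)) w = dz k f (zc w) ∧
      dz (Fin.natAdd n k) (fun y => f (zc y)) w = 0 := by
  simp [dz_chain hf (zc_an w), zc, dz_proj, ne_cn, -Fin.natAdd_eq_addNat]

variable {M : Type} [MetricSpace M] [ChartedSpace (Cm n) M]

/-- the mixed block -/
def Km (e e' : Chart n M) (z v : Cm n) : Mx n :=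
  Matrix.of fun p i => ∑ j, v j * dz i (fun y => jacM e' e (e.symm y) j p) z

variable (a : B1a n M)
include a

theorem jac_blocks {e e' : Chart n M} {c c' : Chart (n + n) (TS n M)} (h : Tc e c) (h' : Tc e' c')
    {y : TS n M} (hy : y.1 ∈ e.source) (hy' : y.1 ∈ e'.source) :
    jacM c c' y = Matrix.reindex finSumFinEquiv finSumFinEquiv (Matrix.fromBlocks (jacM e e' y.1) 0
      (Km e e' (e y.1) (cv e y.1 y.2)) (jacM e' e y.1)ᵀ) := by
  have hz : zc (tq e y) ∈ e.target := by rw [zc_tq]; exact e.map_source hy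
  have hz' : e.symm (zc (tq e y)) ∈ e'.source := by rwa [zc_tq, e.left_inv hy]
  have ev : ∀ᶠ w in 𝓝 (tq e y), tq e' (tqi e w) =
      Fin.append (e' (e.symm (zc w))) (vc w ᵥ* jacM e' e (e.symm (zc w))) := by
    filter_upwards [zc_cont.continuousAt.preimage_mem_nhds (e.open_target.mem_nhds hz),
      zc_cont.continuousAt.preimage_mem_nhds ((e.continuousAt_symm hz).preimage_mem_nhds
        (e'.open_source.mem_nhds hz'))] with w hw hw'
    rw [tq, cv_ch a (x := (tqi e w).1) h.he h'.he (e.map_target hw) hw', cv_tqi a h.he hw]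
    rfl
  have k : ∀ P I, jacM c c' y P I = dz I (fun w => (Fin.append (e' (e.symm (zc w)))
      (vc w ᵥ* jacM e' e (e.symm (zc w))) : Cm (n + n)) P) (tq e y) := fun P I => by
    simp only [jacM, Matrix.of_apply, h.map, h.inv, h'.map]
    exact dz_congr I (ev.mono fun w hw => congrFun hw P)
  have k1 := fun p => dz_zc (analyticAt_pi_iff.1 (a.hol e e' h.he h'.he _ hz hz') p)
  have k2 := fun j p => jan' a h.he h'.he hz hz' j p
  have k3 : ∀ p I, jacM c c' y (Fin.natAdd n p) I = ∑ j, ((if Fin.natAdd n j = I then 1 else 0) *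
      jacM e' e y.1 j p + cv e y.1 y.2 j *
        dz I (fun w => jacM e' e (e.symm (zc w)) j p) (tq e y)) := fun p I => by
    have d1 := fun j => rd (analyticAt_pi_iff.1 (vc_an (tq e y)) j)
    have d2 := fun j => rd ((k2 j p).comp (zc_an _))
    simp only [k, Fin.append_right, Matrix.vecMul, dotProduct]
    refine (dz_sum I _ fun j _ => (d1 j).mul (d2 j)).trans
      (Finset.sum_congr rfl fun j _ => (dz_mul I (d1 j) (d2 j)).trans ?_)
    simp only [← vc_tq, vc, dz_proj, Function.comp_def, zc_tq, e.left_inv hy]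
  ext P I
  obtain ⟨P, rfl⟩ := finSumFinEquiv.surjective P
  obtain ⟨I, rfl⟩ := finSumFinEquiv.surjective I
  simp only [Matrix.reindex_apply, Matrix.submatrix_apply, Equiv.symm_apply_apply]
  rcases P with p | p <;> rcases I with i | i
  · simp only [finSumFinEquiv_apply_left, k, Fin.append_left, Matrix.fromBlocks_apply₁₁]
    rw [(k1 p i).1, zc_tq]
    rfl
  · simp only [finSumFinEquiv_apply_left, finSumFinEquiv_apply_right, k, Fin.append_left]
    exact (k1 p i).2
  · simp only [finSumFinEquiv_apply_left, finSumFinEquiv_apply_right, k3, (ne_cn _ _).symm,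
      (dz_zc (k2 _ p) i).1, if_false, zero_mul, zero_add, zc_tq]
    rfl
  · simp [k3, (dz_zc (k2 _ p) i).2, -Fin.natAdd_eq_addNat]

theorem K_symm {e e' : Chart n M} (he : Hc e) (he' : Hc e') {x : M} (hx : x ∈ e.source)
    (hx' : x ∈ e'.source) (v : Cm n) :
    (Km e e' (e x) v * jacM e' e x)ᵀ = Km e e' (e x) v * jacM e' e x := by
  have hz := e'.map_source hx'
  have hz' : e'.symm (e' x) ∈ e.source := by rwa [e'.left_inv hx']
  have an := a.hol e' e he' he _ hz hz'
  have k : ∀ p q, (Km e e' (e x) v * jacM e' e x) p q =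
      ∑ j, v j * dz q (dz p fun z => e (e'.symm z) j) (e' x) := fun p q => by
    simp only [Matrix.mul_apply, Km, Matrix.of_apply, Finset.sum_mul, mul_assoc]
    rw [Finset.sum_comm]
    refine Finset.sum_congr rfl fun j _ => ?_
    have := dz_chain (f := fun y => jacM e' e (e.symm y) j p) (by
      simpa only [e'.left_inv hx'] using jan' a he he' (e.map_source hx) (by rwa [e.left_inv hx]) j p)
      an q
    rw [e'.left_inv hx'] at this
    rw [← Finset.mul_sum]
    refine congrArg _ (this.symm.trans (dz_congr q ?_))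
    filter_upwards [e'.open_target.mem_nhds hz, (e'.continuousAt_symm hz).preimage_mem_nhds
      (e.open_source.mem_nhds hz')] with y hy hy'
    rw [e.left_inv hy', jacM, Matrix.of_apply, e'.right_inv hy]
  ext p q
  rw [Matrix.transpose_apply, k, k]
  exact Finset.sum_congr rfl fun j _ => congrArg _ (dz_dz_comm p q
    ((analyticAt_pi_iff.1 an j).contDiffAt.restrict_scalars ℝ))

end SypA

open SypA in
theorem syp {n : ℕ} {M : Type} [MetricSpace M] [ChartedSpace (Cm n) M] (a : B1a n M) :
    SYP n M := by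
  intro e e' c c' h h' y hy hy'
  rw [h.src] at hy
  rw [h'.src] at hy'
  have j1 : jacM e e' y.1 * jacM e' e y.1 = 1 := by
    rw [← a.jac_mul e' e e' h'.he h.he h'.he _ hy' hy hy', a.jac_self _ _ hy']
  have j2 : (jacM e' e y.1)ᵀ * (jacM e e' y.1)ᵀ = 1 := by
    rw [← Matrix.transpose_mul, j1, Matrix.transpose_one]
  have ks := K_symm a h.he h'.he hy hy' (cv e y.1 y.2)
  rw [Matrix.transpose_mul] at ks
  rw [jac_blocks a h h' hy hy']
  refine ⟨?_, ?_, fun b => ?_⟩
  · simp [pz, Matrix.fromBlocks_multiply, Matrix.fromBlocks_transpose, j1, j2, ks]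
  · rw [Matrix.det_reindex_self, Matrix.det_fromBlocks_zero₁₂, Matrix.det_transpose,
      ← Matrix.det_mul, j1, Matrix.det_one]
  · simp [hb, pb, Matrix.fromBlocks_multiply, Matrix.fromBlocks_conjTranspose, Matrix.mul_assoc]
    rfl

end Vale.Agent.P253W.A
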