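import Vale.Agent.P253W.A.Defs2

/-!
# P253W, block A, row TOP: the topology of the cotangent bundle
-/

open scoped Manifold ContDiff Topology Matrix
open IsManifold Set Metric Filter Vale.Agent.P253Z
open Vale.Agent.P272.K (Cm dz cHess jacM Chart)

noncomputable section

namespace Vale.Agent.P253W.A

namespace TopA

variable {n : ℕ}

theorem zc_app (z v : Cm n) : zc (Fin.append z v) = z := funext fun i => Fin.append_left _ _ i

theorem vc_app (z v : Cm n) : vc (Fin.append z v) = v := funext fun i => Fin.append_right _ _ i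

theorem app_zv (w : Cm (n + n)) : Fin.append (zc w) (vc w) = w := Fin.append_castAdd_natAdd

theorem zc_an (w : Cm (n + n)) : AnalyticAt ℂ zc w :=
  analyticAt_pi_iff.2 fun _ => (ContinuousLinearMap.proj (R := ℂ) _).analyticAt w

theorem vc_an (w : Cm (n + n)) : AnalyticAt ℂ vc w :=
  analyticAt_pi_iff.2 fun _ => (ContinuousLinearMap.proj (R := ℂ) _).analyticAt w

theorem zc_cont : Continuous (zc (n := n)) :=
  continuous_iff_continuousAt.2 fun w => (zc_an w).continuousAt

theorem vc_cont : Continuous (vc (n := n)) :=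
  continuous_iff_continuousAt.2 fun w => (vc_an w).continuousAt

theorem app_an {E : Type} [NormedAddCommGroup E] [NormedSpace ℂ E] {f g : E → Cm n} {x : E}
    (hf : AnalyticAt ℂ f x) (hg : AnalyticAt ℂ g x) :
    AnalyticAt ℂ (fun y => (Fin.append (f y) (g y) : Cm (n + n))) x :=
  analyticAt_pi_iff.2 fun i => Fin.addCases
    (fun i => by simpa only [Fin.append_left] using analyticAt_pi_iff.1 hf i)
    (fun i => by simpa only [Fin.append_right] using analyticAt_pi_iff.1 hg i) i

theorem app_tend {X : Type} {l : Filter X} {f g : X → Cm n} {z v : Cm n}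
    (hf : Tendsto f l (𝓝 z)) (hg : Tendsto g l (𝓝 v)) :
    Tendsto (fun y => (Fin.append (f y) (g y) : Cm (n + n))) l (𝓝 (Fin.append z v)) :=
  tendsto_pi_nhds.2 fun i => Fin.addCases
    (fun i => by simpa only [Fin.append_left] using tendsto_pi_nhds.1 hf i)
    (fun i => by simpa only [Fin.append_right] using tendsto_pi_nhds.1 hg i) i

variable {M : Type} [MetricSpace M] [ChartedSpace (Cm n) M]

theorem zc_tq (e : Chart n M) (y : TS n M) : zc (tq e y) = e y.1 := zc_app _ _

theorem vc_tq (e : Chart n M) (y : TS n M) : vc (tq e y) = cv e y.1 y.2 := vc_app _ _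

theorem opn_basic {e : Chart n M} (he : Hc e) {V : Set (Cm (n + n))} (hV : IsOpen V) :
    IsOpen {y : TS n M | y.1 ∈ e.source ∧ tq e y ∈ V} :=
  TopologicalSpace.isOpen_generateFrom_of_mem ⟨e, he, V, hV, rfl⟩

variable (a : B1a n M)
include a

theorem cv_pc (x : M) (ξ : Cm n) : cv (pc n x) x ξ = ξ := by
  rw [cv, a.jac_self _ _ (mem_chart_source _ _), Matrix.vecMul_one]

theorem cv_ch {e e' : Chart n M} (he : Hc e) (he' : Hc e') {x : M} (hx : x ∈ e.source)
    (hx' : x ∈ e'.source) (ξ : Cm n) : cv e' x ξ = cv e x ξ ᵥ* jacM e' e x := by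
  rw [cv, cv, Matrix.vecMul_vecMul, ← a.jac_mul e' e _ he' he (a.chart x) x hx' hx
    (mem_chart_source _ _)]

theorem cv_tqi {e : Chart n M} (he : Hc e) {w : Cm (n + n)} (hw : zc w ∈ e.target) :
    cv e (tqi e w).1 (tqi e w).2 = vc w := by
  have hx := e.map_target hw
  simp only [tqi]
  rw [cv, Matrix.vecMul_vecMul, ← a.jac_mul e _ e he (a.chart _) he _ hx (mem_chart_source _ _) hx,
    a.jac_self _ _ hx, Matrix.vecMul_one]

/-- the entries of the Jacobian matrix are holomorphic -/
theorem jan {e e' : Chart n M} (he : Hc e) (he' : Hc e') {z : Cm n} (hz : z ∈ e.target)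
    (hz' : e.symm z ∈ e'.source) (p i : Fin n) :
    AnalyticAt ℂ (fun y => jacM e e' (e.symm y) p i) z := by
  have h := (a.hol e e' he he' z hz hz').fderiv
  have h2 : AnalyticAt ℂ (fun y => fderiv ℂ (fun y => e' (e.symm y)) y (Pi.single i 1) p) z :=
    analyticAt_pi_iff.1 (((ContinuousLinearMap.apply ℂ (Cm n)
      (Pi.single i 1 : Cm n)).analyticAt _).comp h) p
  refine h2.congr ?_
  filter_upwards [e.open_target.mem_nhds hz, (e.continuousAt_symm hz).preimage_mem_nhds
    (e'.open_source.mem_nhds hz')] with y hy hy'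
  rw [a.jac_eq e e' he he' _ (e.map_target hy) hy', e.right_inv hy, LinearMap.toMatrix'_apply]
  rfl

/-- the same in the other chart -/
theorem jan' {e e' : Chart n M} (he : Hc e) (he' : Hc e') {z : Cm n} (hz : z ∈ e.target)
    (hz' : e.symm z ∈ e'.source) (p i : Fin n) :
    AnalyticAt ℂ (fun y => jacM e' e (e.symm y) p i) z := by
  have h := (jan a he' he (e'.map_source hz') (by rw [e'.left_inv hz']; exact e.map_target hz)
    p i).comp_of_eq (a.hol e e' he he' z hz hz') rfl
  refine h.congr ?_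
  filter_upwards [(e.continuousAt_symm hz).preimage_mem_nhds
    (e'.open_source.mem_nhds hz')] with y hy'
  simp only [Function.comp_apply, e'.left_inv hy']

theorem jcont {e e' : Chart n M} (he : Hc e) (he' : Hc e') {x : M} (hx : x ∈ e.source)
    (hx' : x ∈ e'.source) (p i : Fin n) : ContinuousAt (fun y => jacM e e' y p i) x := by
  have h := (jan a he he' (e.map_source hx) (by rwa [e.left_inv hx]) p i).continuousAt.comp_of_eq
    (e.continuousAt hx) rfl
  refine h.congr ?_
  filter_upwards [e.open_source.mem_nhds hx] with y hy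
  simp only [Function.comp_apply, e.left_inv hy]

/-- the change of charts of the cotangent bundle is holomorphic -/
theorem trans_an {e e' : Chart n M} (he : Hc e) (he' : Hc e') {w : Cm (n + n)}
    (hw : zc w ∈ e.target) (hw' : e.symm (zc w) ∈ e'.source) :
    AnalyticAt ℂ (fun w => tq e' (tqi e w)) w := by
  have h : AnalyticAt ℂ (fun w => vc w ᵥ* jacM e' e (e.symm (zc w))) w :=
    analyticAt_pi_iff.2 fun i => Finset.analyticAt_fun_sum Finset.univ fun p _ =>
      (analyticAt_pi_iff.1 (vc_an w) p).mul ((jan' a he he' hw hw' p i).comp (zc_an w))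
  refine (app_an ((a.hol e e' he he' _ hw hw').comp (zc_an w)) h).congr ?_
  filter_upwards [zc_cont.continuousAt.preimage_mem_nhds (e.open_target.mem_nhds hw),
    zc_cont.continuousAt.preimage_mem_nhds ((e.continuousAt_symm hw).preimage_mem_nhds
      (e'.open_source.mem_nhds hw'))] with y hy hy'
  rw [tq, cv_ch a (x := (tqi e y).1) he he' (e.map_target hy) hy', cv_tqi a he hy]
  rfl

variable {X : Type} {l : Filter X} {φ : X → TS n M} {y : TS n M}

theorem tend_fst (h : Tendsto φ l (𝓝 y)) : Tendsto (fun τ => (φ τ).1) l (𝓝 y.1) := by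
  refine tendsto_nhds.2 fun U hU hy => ?_
  have hx := mem_chart_source (Cm n) y.1
  refine mem_of_superset (h ((opn_basic (a.chart y.1) (((pc n y.1).isOpen_inter_preimage_symm
    hU).preimage zc_cont)).mem_nhds ⟨hx, ?_⟩)) fun τ hτ => ?_
  · rw [mem_preimage, zc_tq]
    exact ⟨(pc n y.1).map_source hx, by rwa [mem_preimage, (pc n y.1).left_inv hx]⟩
  · have := hτ.2.2
    rwa [zc_tq, mem_preimage, (pc n y.1).left_inv hτ.1] at this

omit a in
theorem tend_tq (h : Tendsto φ l (𝓝 y)) {e : Chart n M} (he : Hc e) (hy : y.1 ∈ e.source) :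
    Tendsto (fun τ => tq e (φ τ)) l (𝓝 (tq e y)) :=
  tendsto_nhds.2 fun _ hV hy' =>
    mem_of_superset (h ((opn_basic he hV).mem_nhds ⟨hy, hy'⟩)) fun _ hτ => hτ.2

omit a in
theorem tend_cv (h : Tendsto φ l (𝓝 y)) {e : Chart n M} (he : Hc e) (hy : y.1 ∈ e.source) :
    Tendsto (fun τ => cv e (φ τ).1 (φ τ).2) l (𝓝 (cv e y.1 y.2)) := by
  simpa only [Function.comp_def, vc_tq] using (vc_cont.tendsto _).comp (tend_tq h he hy)

/-- convergence can be checked in one chart -/
theorem tend_of {e : Chart n M} (he : Hc e) (hy : y.1 ∈ e.source)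
    (h1 : Tendsto (fun τ => (φ τ).1) l (𝓝 y.1))
    (h2 : Tendsto (fun τ => cv e (φ τ).1 (φ τ).2) l (𝓝 (cv e y.1 y.2))) : Tendsto φ l (𝓝 y) := by
  refine TopologicalSpace.tendsto_nhds_generateFrom_iff.2 ?_
  rintro _ ⟨e', he', V, hV, rfl⟩ hy'
  have ev := h1 (e'.open_source.mem_nhds hy'.1)
  have h3 : Tendsto (fun τ => cv e' (φ τ).1 (φ τ).2) l (𝓝 (cv e' y.1 y.2)) := by
    rw [cv_ch a he he' hy hy'.1]
    refine Tendsto.congr' (f₁ := fun τ => cv e (φ τ).1 (φ τ).2 ᵥ* jacM e' e (φ τ).1) ?_
      (tendsto_pi_nhds.2 fun i => tendsto_finsetSum Finset.univ fun p _ =>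
        (tendsto_pi_nhds.1 h2 p).mul ((jcont a he' he hy'.1 hy p i).tendsto.comp h1))
    filter_upwards [ev, h1 (e.open_source.mem_nhds hy)] with τ hτ hτ'
    exact (cv_ch a he he' hτ' hτ _).symm
  exact inter_mem ev (app_tend ((e'.continuousAt hy'.1).tendsto.comp h1) h3 (hV.mem_nhds hy'.2))

theorem ex {e : Chart n M} (he : Hc e) : ∃ c, Tc e c := by
  refine ⟨⟨⟨⟨tq e, tqi e, {y | y.1 ∈ e.source}, {w | zc w ∈ e.target}, fun y hy => ?_,
    fun w hw => e.map_target hw, fun y hy => ?_, fun w hw => ?_⟩, fun y hy => ?_, fun w hw => ?_⟩,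
    ?_, e.open_target.preimage zc_cont⟩, he, rfl, rfl, fun _ => rfl, fun _ => rfl⟩
  · rw [mem_ofPred_eq, zc_tq]
    exact e.map_source hy
  · simp only [tqi, zc_tq, vc_tq, e.left_inv hy]
    rw [← cv_ch a he (a.chart _) hy (mem_chart_source _ _), cv_pc a]
    rfl
  · rw [tq, cv_tqi a he hw]
    simp only [tqi, e.right_inv hw, app_zv]
  · exact (tend_tq tendsto_id he hy).mono_left nhdsWithin_le_nhds
  · refine tend_of a he (e.map_target hw) (((e.continuousAt_symm hw).comp
      zc_cont.continuousAt).mono_left nhdsWithin_le_nhds) ?_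
    rw [cv_tqi a he hw]
    exact (vc_cont.continuousAt.mono_left nhdsWithin_le_nhds).congr'
      (mem_of_superset self_mem_nhdsWithin fun y hy => (cv_tqi a he hy).symm)
  · simpa using opn_basic he isOpen_univ

theorem cont (X : Type) [TopologicalSpace X] (φ : X → TS n M) (U : Set X) : ContinuousOn φ U ↔
    ContinuousOn (fun τ => (φ τ).1) U ∧ ∀ e : Chart n M, Hc e → ContinuousOn
      (fun τ => cv e (φ τ).1 (φ τ).2) (U ∩ (fun τ => (φ τ).1) ⁻¹' e.source) :=
  ⟨fun h => ⟨fun τ hτ => tend_fst a (h τ hτ), fun _ he τ hτ =>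
    tend_cv ((h τ hτ.1).mono inter_subset_left) he hτ.2⟩, fun h τ hτ =>
    tend_of a (a.chart _) (mem_chart_source _ _) (h.1 τ hτ) ((continuousWithinAt_inter'
      (h.1 τ hτ ((pc n (φ τ).1).open_source.mem_nhds (mem_chart_source _ _)))).1
        (h.2 _ (a.chart _) τ ⟨hτ, mem_chart_source _ _⟩))⟩

end TopA

open TopA in
theorem top {n : ℕ} {M : Type} [MetricSpace M] [ChartedSpace (Cm n) M]
    [IsManifold 𝓘(ℂ, Cm n) 1 M] (a : B1a n M) : TOP n M where
  ex _ he := ex a he
  uniq e e' c h h' := by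
    refine OpenPartialHomeomorph.ext _ _ (fun x => ?_) (fun z => ?_) (Set.ext fun x => ?_)
    · exact (zc_tq e (x, 0)).symm.trans ((congrArg zc ((h.map _).symm.trans (h'.map _))).trans
        (zc_tq e' _))
    · have := congrArg Prod.fst ((h.inv (Fin.append z 0)).symm.trans (h'.inv _))
      simpa only [tqi, zc_app] using this
    · exact Set.ext_iff.1 (h.src.symm.trans h'.src) (x, 0)
  t2 := t2_iff_nhds.2 fun {x y} h => by
    have hx : Tendsto id (𝓝 x ⊓ 𝓝 y) (𝓝 x) := tendsto_id.mono_left inf_le_left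
    have hy : Tendsto id (𝓝 x ⊓ 𝓝 y) (𝓝 y) := tendsto_id.mono_left inf_le_right
    have e1 := tendsto_nhds_unique (tend_fst a hx) (tend_fst a hy)
    have e2 := tendsto_nhds_unique (tend_cv hx (a.chart x.1) (mem_chart_source _ _))
      (tend_cv hy (a.chart x.1) (e1 ▸ mem_chart_source _ _))
    rw [cv_pc a, e1, cv_pc a] at e2
    exact Prod.ext e1 e2
  atl := ⟨fun y => (ex a (a.chart y.1)).imp fun _ h => ⟨⟨_, h⟩, h.src ▸ mem_chart_source _ _⟩, by
    rintro c ⟨e, h⟩ c' ⟨e', h'⟩ w hw hw'
    rw [h.tgt] at hw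
    rw [h'.src, h.inv] at hw'
    simpa only [h.inv, h'.map] using trans_an a h.he h'.he hw hw'⟩
  atm := ⟨fun x => ⟨_, a.chart x, mem_chart_source _ _⟩, fun e he e' he' => a.hol e e' he he'⟩
  fst := continuous_iff_continuousAt.2 fun _ => tend_fst a tendsto_id
  opn := isOpen_iff_mem_nhds.2 fun y hy => by
    have h := tend_cv (tendsto_id (x := 𝓝 y)) (a.chart y.1) (mem_chart_source _ _)
    rw [cv_pc a] at h
    refine mem_of_superset (h.eventually_ne hy) fun y' hy' h0 => hy' ?_
    rw [id, h0, cv, Matrix.zero_vecMul]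
  sc := continuous_iff_continuousAt.2 fun q => by
    have h : Tendsto Prod.snd (𝓝 q) (𝓝 q.2) := continuous_snd.tendsto q
    refine tend_of a (a.chart q.2.1) (mem_chart_source _ _) (tend_fst a h :) ?_
    simpa only [sc, cv, Matrix.smul_vecMul] using (continuous_fst.tendsto q).smul
      (tend_cv h (a.chart q.2.1) (mem_chart_source _ _))
  tq_sc e c y := by simp only [tq, sc, zc_app, vc_app, cv, Matrix.smul_vecMul]
  vc_ne e he y hy := by
    rw [vc_tq, cv]
    exact ⟨Matrix.eq_zero_of_vecMul_eq_zero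
      (a.jac_ne _ _ he (a.chart _) _ hy (mem_chart_source _ _)), fun h => by
        rw [h, Matrix.zero_vecMul]⟩
  hol φ U _ := by
    refine ⟨fun h => ?_, fun h => ⟨(cont a ℂ φ U).2 ⟨h.1.1, fun e he => (h.2 e he).continuousOn⟩,
      ?_⟩⟩
    · have k : ∀ e : Chart n M, Hc e → DifferentiableOn ℂ (fun τ => tq e (φ τ))
          (U ∩ (fun τ => (φ τ).1) ⁻¹' e.source) := fun e he => by
        obtain ⟨c, hc⟩ := ex a he
        have := h.2 c ⟨e, hc⟩
        simp only [hc.map, hc.src] at this
        exact this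
      refine ⟨⟨((cont a ℂ φ U).1 h.1).1, fun e he τ hτ => ?_⟩, fun e he τ hτ => ?_⟩
      · simpa only [Function.comp_def, zc_tq] using
          (zc_an _).differentiableAt.comp_differentiableWithinAt τ (k e he τ hτ)
      · simpa only [Function.comp_def, vc_tq] using
          (vc_an _).differentiableAt.comp_differentiableWithinAt τ (k e he τ hτ)
    · rintro c ⟨e, hc⟩
      simp only [hc.map, hc.src, tq]
      exact differentiableOn_pi.2 fun i => Fin.addCases
        (fun i => by simp only [Fin.append_left]; exact differentiableOn_pi.1 (h.1.2 e hc.he) i)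
        (fun i => by simp only [Fin.append_right]; exact differentiableOn_pi.1 (h.2 e hc.he) i) i
  cont := cont a
  h1 f U _ := by
    refine ⟨fun h τ hτ => ?_, fun h => ⟨h.continuousOn, fun e he =>
      mdifferentiableOn_iff_differentiableOn.1
        (((contMDiffOn_of_mem_maximalAtlas he).mdifferentiableOn one_ne_zero).comp
          (h.mono inter_subset_left) inter_subset_right)⟩⟩
    have hx := mem_chart_source (Cm n) (f τ)
    have k := ((contMDiffOn_symm_of_mem_maximalAtlas (a.chart (f τ))).mdifferentiableOn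
      one_ne_zero).comp (mdifferentiableOn_iff_differentiableOn.2 (h.2 _ (a.chart (f τ))))
        (fun s hs => (pc n (f τ)).map_source hs.2) τ ⟨hτ, hx⟩
    exact (k.congr (fun s hs => ((pc n (f τ)).left_inv hs.2).symm)
      ((pc n (f τ)).left_inv hx).symm).mono_of_mem_nhdsWithin
        (inter_mem self_mem_nhdsWithin (h.1 τ hτ ((pc n (f τ)).open_source.mem_nhds hx)))
  ho ι f h := by
    have k : Ho (AM n M) f := fun e he z hz l => by
      have := h l e he z hz
      unfold co at this
      simpa only [zpow_zero, one_mul] using this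
    refine ⟨k, ?_⟩
    rintro c ⟨e, hc⟩ w hw l
    rw [hc.tgt] at hw
    simpa only [hc.inv, tqi, Function.comp_def] using (k e hc.he _ hw l).comp (zc_an w)

end Vale.Agent.P253W.A
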