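import Vale.Agent.P253W.A.Ar1
import Vale.Agent.P253W.A.Frm
import Vale.Agent.P253W.A.Hom
import Vale.Agent.P253W.A.Lin
import Vale.Agent.P253W.A.Mov
import Vale.Agent.P253W.A.Exb

/-!
# P253W, block A: the second variation of the penalty (VRB)
-/

open scoped Manifold ContDiff Bundle ENNReal Topology ComplexConjugate ComplexOrder Matrix
open Bundle MeasureTheory Set Metric Filter Vale.Agent.P253Z
open Vale.Agent.P272.K (Cm dz cHess jacM Chart)

noncomputable section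

namespace Vale.Agent.P253W.A

open WM

namespace Vrb

theorem hb_cont {n : ℕ} : Continuous fun a : Mx n => hb a :=
  (continuous_id.matrix_transpose.matrix_fromBlocks continuous_const continuous_const
    continuous_const).matrix_reindex _ _

theorem hb_herm {n : ℕ} {a : Mx n} (h : a.IsHermitian) : (hb a).IsHermitian :=
  (Matrix.IsHermitian.fromBlocks h.transpose (by simp) Matrix.isHermitian_zero).submatrix _

variable {n : ℕ} {M : Type} [MetricSpace M] [ChartedSpace (Cm n) M]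

theorem fam (t : TOP n M) {φ : ℂ → TS n M} {r : ℝ} {y : ℂ → ℂ → TS n M}
    (h : Fam (AT n M) φ r y) : Fam (AM n M) (fun τ => (φ τ).1) r fun s τ => (y s τ).1 :=
  ⟨h.pos, fun _ hτ => congrArg Prod.fst (h.zero hτ), t.fst.comp_continuousOn h.cont,
    fun s hs => ((t.hol _ _ isOpen_ball).1 (h.hτ s hs)).1,
    fun τ hτ => ((t.hol _ _ isOpen_ball).1 (h.hs τ hτ)).1⟩

variable [RiemannianBundle fun x : M => TangentSpace 𝓘(ℝ, Cm n) x] {F : Flow n M}

/-- the metric of the base in the ambient coordinates -/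
theorem amb (h : Cx F) (t : TOP n M) (s : SYP n M) (am : AMB) {L : ℕ} {G : TS n M → Fin L → ℂ}
    {K : Set (TS n M)} (hG : Ho (AT n M) G) (hE : Em (AT n M) G K) :
    ∃ a : ℝ → TS n M → Mx L,
      (∀ i j, ContinuousOn (fun p : ℝ × TS n M => a p.1 p.2 i j) (univ ×ˢ K)) ∧
      ∀ u, ∀ y ∈ K, ∀ e c, Tc e c → y ∈ c.source →
        (dM G c y)ᴴ * a u y * dM G c y = hb (hm e (e y.1)) := by
  classical
  set E : Chart (n + n) (TS n M) → Chart n M := fun c =>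
    if h : ∃ e, Tc e c then h.choose else pc n F.o with hdef
  have hE' : ∀ e c, Tc e c → E c = e := fun e c h => by
    have h' : ∃ e, Tc e c := ⟨e, h⟩
    simp only [hdef, dif_pos h']
    exact t.uniq _ _ c h'.choose_spec h
  obtain ⟨a, a1, a2⟩ := am (n + n) (TS n M) (AT n M) (Fin L) G (univ ×ˢ K)
    (fun c _ y => hb (hm (E c) (E c y.1))) t.atl hG
    (by
      rintro p hp c ⟨e, he⟩ hc
      have h1 : p.2.1 ∈ e.source := by simpa [he.src] using hc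
      refine ⟨hE.2 _ hp.2 c ⟨e, he⟩ hc, ?_, ?_⟩
      · rw [hE' e c he]
        exact hb_herm (h.b.wpos e he.he _ (e.map_source h1)).isHermitian
      · rintro c' ⟨e', he'⟩ hc'
        rw [hE' e c he, hE' e' c' he', (s e e' c c' he he' _ hc hc').2.2,
          h.b.wch e e' he.he he'.he _ h1 (by simpa [he'.src] using hc')])
    (by
      rintro c ⟨e, he⟩ i j p hp
      rw [hE' e c he]
      have h1 := (Ar1.hm_cont h he.he (x := p.2.1) (by simpa [he.src] using hp.2)).comp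
        (f := fun p : ℝ × TS n M => p.2.1) (t.fst.comp continuous_snd).continuousAt
      exact (((continuous_apply_apply i j).comp hb_cont).continuousAt.comp h1).continuousWithinAt)
  exact ⟨a, a1, fun u y hy e c he hc =>
    ((a2 (u, y) ⟨trivial, hy⟩).2 c ⟨e, he⟩ hc).trans (by rw [hE' e c he])⟩

theorem nv_amb (h : Cx F) {L : ℕ} {G : TS n M → Fin L → ℂ} (hG : Ho (AT n M) G) {a : Mx L}
    {γ : ℂ → TS n M} {r : ℝ} (hr : 0 < r) (hγ : HolOn (AT n M) γ (ball 0 r)) (t : TOP n M)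
    (ha : ∀ e c, Tc e c → γ 0 ∈ c.source →
      (dM G c (γ 0))ᴴ * a * dM G c (γ 0) = hb (hm e (e (γ 0).1))) :
    F.nv 0 (γ 0).1 (d1 n (fun s => (γ s).1) 0) = hf a (deriv (fun s => G (γ s)) 0) := by
  obtain ⟨c, ⟨e, he⟩, hc⟩ := t.atl.cov (γ 0)
  obtain ⟨h1, h2⟩ := Fr.HolOn.at hγ hr ⟨e, he⟩ hc
  have h3 : HasDerivAt (fun s => e (γ s).1) (zc (deriv (fun s => c (γ s)) 0)) 0 :=
    hasDerivAt_pi.2 fun i => by
      simpa [he.map, tq, zc] using hasDerivAt_pi.1 h2.hasDerivAt (Fin.castAdd n i)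
  rw [Fr.chain hG ⟨e, he⟩ hc h1 h2, ← Lin.hf_conj, ha e c he hc, Hom.hom5, ← h3.deriv]
  exact Ar1.nv_eq h (f := fun s => (γ s).1) he.he (by simpa [he.src] using hc)
    (t.fst.continuousAt.comp h1) h3.differentiableAt

end Vrb

open Vrb in
/-- **VRB** -/
theorem vrb {n : ℕ} {M : Type} [MetricSpace M] [ChartedSpace (Cm n) M]
    [RiemannianBundle fun x : M => TangentSpace 𝓘(ℝ, Cm n) x] {F : Flow n M} (h : Cx F)
    (tp : TOP n M) (s : SYP n M) (rg : REG F) (lb : LB F) (ta : TAY) (am : AMB) (_ex : EXB)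
    (a2 : AR2 F) : VRB F := by
  intro p S κ η₁ L G aH ab hp hη hG hE cH cb hs t φ r y ht hφ hy
  obtain ⟨-, hW, -, hC, -, -⟩ := lb p S κ η₁ hp hη.1
  have WK : p.W F η₁ ⊆ p.K F η₁ := fun y hy => ⟨hy.1, hy.2.1.le, hy.2.2.le⟩
  have hO : IsOpen (Ioo 0 (S + 1) ×ˢ p.W F η₁) := isOpen_Ioo.prod hW
  have sb : ∀ {τ : ℂ}, τ ∈ sphere (0 : ℂ) 1 → τ ∈ closedBall (0 : ℂ) 1 :=
    fun hτ => sphere_subset_closedBall hτ
  have cφ : ContinuousOn (fun τ => (t τ, φ τ)) (sphere 0 1) := ht.prodMk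
    ((hy.cont.comp (continuous_const.prodMk continuous_id).continuousOn fun τ hτ =>
      ⟨mem_ball_self hy.pos, sb hτ⟩).congr fun τ hτ => (hy.zero (sb hτ)).symm)
  have tI : ∀ τ ∈ sphere (0 : ℂ) 1, t τ ∈ Icc 0 S := fun τ hτ => Ioc_subset_Icc_self (hφ τ hτ).1
  have hO' : ∀ τ ∈ sphere (0 : ℂ) 1, (t τ, φ τ) ∈ Ioo 0 (S + 1) ×ˢ p.W F η₁ := fun τ hτ =>
    ⟨⟨(hφ τ hτ).1.1, (hφ τ hτ).1.2.trans_lt (lt_add_one S)⟩, (hφ τ hτ).2⟩
  have H0 : ∀ τ ∈ sphere (0 : ℂ) 1, 0 < HT F (t τ) (φ τ) := fun τ hτ =>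
    h.b2.H_pos _ (tI τ hτ).1 _ _ (hφ τ hτ).2.1
  have c2 : Cs fun τ => ab (t τ) (φ τ) := fun i j =>
    (cb i j).comp cφ fun τ hτ => ⟨tI τ hτ, (hφ τ hτ).2⟩
  constructor
  · obtain ⟨-, -, h3⟩ := ta (n + n) (TS n M) (AT n M) (Fin L) G _ (HT F) t φ r y
      (fun τ => (HT F (t τ) (φ τ) : ℂ) • aH (t τ) (φ τ)) tp.atl hG hO
      (fun c ⟨e, he⟩ => ((rg.sm e c he).of_le (WithTop.coe_le_coe.2 le_top)).mono
        fun q hq => ⟨hq.2.1.1.le, hq.1⟩) ht hy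
      (fun i j => (Complex.continuous_ofReal.comp_continuousOn (rg.cH.comp cφ fun τ hτ =>
        ⟨(tI τ hτ).1, trivial⟩)).mul ((cH i j).comp cφ fun τ hτ => ⟨tI τ hτ, WK (hφ τ hτ).2⟩))
      fun τ hτ => ⟨hO' τ hτ, fun c ⟨e, he⟩ hc => by
        rw [Matrix.mul_smul, Matrix.smul_mul, (hs _ (tI τ hτ) _ (hφ τ hτ).2 e c he hc).1,
          smul_smul, ← Complex.ofReal_mul, mul_inv_cancel₀ (H0 τ hτ).ne', Complex.ofReal_one,
          one_smul]⟩
    obtain ⟨c, hc⟩ := h3 H0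
    refine ⟨c, ?_⟩
    rwa [av_congr fun τ hτ => by rw [Lin.hf_smul, mul_div_cancel_left₀ _ (H0 τ hτ).ne']] at hc
  · obtain ⟨a, ca, ha⟩ := Vrb.amb h tp s am hG hE
    have c3 : Cs fun τ => a (t τ) (φ τ) := fun i j =>
      (ca i j).comp cφ fun τ hτ => ⟨trivial, WK (hφ τ hτ).2⟩
    obtain ⟨cV, ⟨c, hc⟩, -⟩ := ta (n + n) (TS n M) (AT n M) (Fin L) G _ (p.b F η₁) t φ r y
      (fun τ => ab (t τ) (φ τ) - ((p.η / 2 : ℝ) : ℂ) • a (t τ) (φ τ)) tp.atl hG hO hC ht hy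
      (fun i j => (c2 i j).sub (continuousOn_const.mul (c3 i j)))
      fun τ hτ => ⟨hO' τ hτ, fun c ⟨e, he⟩ hc => by
        rw [Matrix.mul_sub, Matrix.sub_mul, Matrix.mul_smul, Matrix.smul_mul,
          (hs _ (tI τ hτ) _ (hφ τ hτ).2 e c he hc).2, ha _ _ (WK (hφ τ hτ).2) e c he hc, Pd.L,
          add_sub_cancel_right]⟩
    refine (hc.snd.add ((a2 _ r _ (fam tp hy)).smul (half_pos hp.η_pos).le)).mono (le_of_eq ?_)
    have cV' := continuousOn_pi.1 cV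
    rw [av_congr fun τ hτ => nv_amb h hG (a := a (t τ) (φ τ)) hy.pos (hy.hs τ (sb hτ)) tp
      (by rw [hy.zero (sb hτ)]; exact ha _ _ (WK (hφ τ hτ).2))]
    simp only [Lin.hf_sub, Lin.hf_smul]
    rw [av_sub (MovAux.hf_cs c2 cV') ((MovAux.hf_cs c3 cV').const_mul _), av_mul_real,
      sub_add_cancel]

end Vale.Agent.P253W.A
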