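import Vale.Agent.P253W.A.Defs2

/-!
# P253W, block A: the wall
-/

open scoped ContDiff Topology
open Set Filter

noncomputable section

namespace Vale.Agent.P253W.A

namespace Wb

theorem sm : ContDiffOn ℝ ∞ wb (Iio 1) :=
  (Real.smoothTransition.contDiff.comp (contDiff_const.mul contDiff_id)).contDiffOn.div
    ((contDiff_const.sub contDiff_id).pow 4).contDiffOn fun _ h => pow_ne_zero _ (sub_pos.2 h).ne'

theorem sm1 : ContDiffOn ℝ ∞ (deriv wb) (Iio 1) := sm.deriv_of_isOpen isOpen_Iio le_rfl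

theorem sm2 : ContDiffOn ℝ ∞ (deriv (deriv wb)) (Iio 1) := sm1.deriv_of_isOpen isOpen_Iio le_rfl

theorem hd {f : ℝ → ℝ} (h : ContDiffOn ℝ ∞ f (Iio 1)) {x : ℝ} (hx : x < 1) :
    HasDerivAt f (deriv f x) x :=
  ((h.contDiffAt (Iio_mem_nhds hx)).differentiableAt (by simp)).hasDerivAt

theorem dz {f : ℝ → ℝ} (h : ContDiffOn ℝ ∞ f (Iio 1)) (e : ∀ x ≤ 0, f x = 0) :
    ∀ x ≤ 0, deriv f x = 0 := fun x hx =>
  (uniqueDiffOn_Iic 0 x hx).eq_deriv _ (hd h (hx.trans_lt one_pos)).hasDerivWithinAt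
    ((hasDerivWithinAt_const x _ 0).congr e (e x hx))

theorem z0 : ∀ x ≤ 0, wb x = 0 := fun x hx => by
  rw [wb, Real.smoothTransition.zero_of_nonpos (by linarith), zero_div]

theorem big (x : ℝ) (hx : 1 / 2 ≤ x) : wb x = ((1 - x) ^ 4)⁻¹ := by
  rw [wb, Real.smoothTransition.one_of_one_le (by linarith), one_div]

theorem hp (n : ℕ) {x : ℝ} (hx : x < 1) :
    HasDerivAt (fun x : ℝ => ((1 - x) ^ (n + 1))⁻¹) ((n + 1) * ((1 - x) ^ (n + 2))⁻¹) x := by
  have h := (sub_pos.2 hx).ne'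
  refine ((((hasDerivAt_id x).const_sub 1).fun_pow (n + 1)).fun_inv (pow_ne_zero _ h)).congr_deriv ?_
  simp only [id, Nat.add_sub_cancel]
  push_cast
  field_simp
  ring

theorem d1 {x : ℝ} (hx : x ∈ Ioo (1 / 2 : ℝ) 1) : deriv wb x = 4 * ((1 - x) ^ 5)⁻¹ := by
  rw [EventuallyEq.deriv_eq ((lt_mem_nhds hx.1).mono fun y h => big y h.le),
    (hp 3 hx.2).deriv]
  norm_num

theorem d2 {x : ℝ} (hx : x ∈ Ioo (1 / 2 : ℝ) 1) :
    deriv (deriv wb) x = 20 * ((1 - x) ^ 6)⁻¹ := by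
  rw [EventuallyEq.deriv_eq ((isOpen_Ioo.eventually_mem hx).mono fun y h => d1 h),
    ((hp 4 hx.2).const_mul 4).deriv]
  norm_num [← mul_assoc]

theorem bd : ∃ C : ℝ, 0 ≤ C ∧ ∀ x < 1, wd wb x ≤ C * (min 1 (1 - x) ^ 6)⁻¹ := by
  have s : Icc (0 : ℝ) (1 / 2) ⊆ Iio 1 := fun x hx => hx.2.trans_lt (by norm_num)
  obtain ⟨C, hC⟩ := isCompact_Icc.exists_bound_of_continuousOn (f := wd wb)
    ((sm1.continuousOn.abs.add sm2.continuousOn.abs).mono s)
  have C0 : 0 ≤ C := (norm_nonneg _).trans (hC 0 (by norm_num))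
  refine ⟨C + 24, by positivity, fun x hx => ?_⟩
  have p : 0 < 1 - x := sub_pos.2 hx
  have h1 : 1 ≤ (min 1 (1 - x) ^ 6)⁻¹ :=
    (one_le_inv₀ (by positivity)).2 (pow_le_one₀ (by positivity) (min_le_left _ _))
  rcases le_total x 0 with q | q
  · rw [wd, dz sm z0 x q, dz sm1 (dz sm z0) x q]
    simp only [abs_zero, add_zero]
    positivity
  rcases le_or_gt x (1 / 2) with q' | q'
  · nlinarith [le_of_abs_le (hC x ⟨q, q'⟩)]
  · rw [wd, d1 ⟨q', hx⟩, d2 ⟨q', hx⟩, min_eq_right (by linarith), abs_of_pos (by positivity),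
      abs_of_pos (by positivity)]
    have : ((1 - x) ^ 5)⁻¹ ≤ ((1 - x) ^ 6)⁻¹ :=
      inv_anti₀ (by positivity) (pow_le_pow_of_le_one p.le (by linarith) (by norm_num))
    nlinarith [inv_pos.2 (pow_pos p 6)]

theorem comp {η : ℝ} (hη : η ∈ Ioc (0 : ℝ) 1) {s : ℝ} (h : η * s ^ 2 < 1) :
    wd (fun s => wb (η * s ^ 2)) s ≤ 4 * √η * wd wb (η * s ^ 2) := by
  have a : ∀ s : ℝ, HasDerivAt (fun s : ℝ => η * s ^ 2) (2 * η * s) s := fun s =>
    ((hasDerivAt_pow 2 s).const_mul η).congr_deriv (by norm_num; ring)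
  have e1 : ∀ s, η * s ^ 2 < 1 → deriv (fun s => wb (η * s ^ 2)) s =
      deriv wb (η * s ^ 2) * (2 * η * s) := fun s h => by
    simpa only [Function.comp_def] using ((hd sm h).comp s (a s)).deriv
  have e2 := (((hd sm1 h).comp s (a s)).mul ((hasDerivAt_id s).const_mul (2 * η))).deriv
  have e3 : deriv (fun s => wb (η * s ^ 2)) =ᶠ[𝓝 s] _ :=
    ((a s).continuousAt.eventually (gt_mem_nhds h)).mono e1
  rw [wd, wd, e1 s h, e3.deriv_eq.trans e2]
  have r0 := Real.sqrt_nonneg η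
  have r1 : η ≤ √η := Real.le_sqrt_of_sq_le (by nlinarith [hη.1, hη.2])
  have r2 : |2 * η * s| ≤ 2 * √η :=
    abs_le_of_sq_le_sq' (by nlinarith [Real.sq_sqrt hη.1.le, hη.1]) (by positivity) |> abs_le.2
  have r3 : |2 * η * s| * |2 * η * s| ≤ 4 * √η := by
    rw [abs_mul_abs_self]; nlinarith [hη.1]
  refine (add_le_add_right (abs_add_le _ _) _).trans ?_
  simp only [Function.comp_apply, id, mul_one, abs_mul (deriv _ _), mul_assoc (deriv _ _),
    abs_mul (2 * η * s), abs_of_pos (show 0 < 2 * η by linarith [hη.1])]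
  nlinarith [mul_le_mul_of_nonneg_left r2 (abs_nonneg (deriv wb (η * s ^ 2))),
    mul_le_mul_of_nonneg_left r3 (abs_nonneg (deriv (deriv wb) (η * s ^ 2))),
    mul_le_mul_of_nonneg_left r1 (abs_nonneg (deriv wb (η * s ^ 2)))]

end Wb

open Wb in
/-- **WB** -/
theorem wb_spec : WB where
  sm := sm
  nn x := div_nonneg (Real.smoothTransition.nonneg _) (by positivity)
  zero x hx := ⟨z0 x hx, by simp [wd, dz sm z0 x hx, dz sm1 (dz sm z0) x hx]⟩
  mono x hx := by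
    rw [← derivWithin_of_isOpen isOpen_Iio hx]
    refine MonotoneOn.derivWithin_nonneg fun a _ b hb e => ?_
    have := sub_pos.2 (show b < 1 from hb)
    exact div_le_div₀ (Real.smoothTransition.nonneg _) (Real.smoothTransition.monotone (by linarith))
      (by positivity) (by gcongr)
  big := big
  cont := ⟨sm1.continuousOn, sm2.continuousOn⟩
  bd := by
    obtain ⟨C, C0, hC⟩ := bd
    refine ⟨4 * C, by positivity, fun x hx => (hC x hx).trans ?_, fun η hη s h =>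
      (comp hη h).trans ((mul_le_mul_of_nonneg_left (hC _ h) (by positivity)).trans_eq (by ring))⟩
    gcongr
    linarith

end Vale.Agent.P253W.A
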