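import Vale.Agent.P253W.Asm
import Vale.Agent.P253W.FG.Rbl
import Vale.Agent.P253W.A.Abs
import Vale.Agent.P253W.A.Ar1
import Vale.Agent.P253W.A.Ar2
import Vale.Agent.P253W.A.Cls
import Vale.Agent.P253W.A.Env0
import Vale.Agent.P253W.A.Env1
import Vale.Agent.P253W.A.Gr2
import Vale.Agent.P253W.A.Grn
import Vale.Agent.P253W.A.Hom
import Vale.Agent.P253W.A.Kn
import Vale.Agent.P253W.A.Lb
import Vale.Agent.P253W.A.Par
import Vale.Agent.P253W.A.Pde0
import Vale.Agent.P253W.A.Pde1
import Vale.Agent.P253W.A.Pent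
import Vale.Agent.P253W.A.Reg
import Vale.Agent.P253W.A.Sep
import Vale.Agent.P253W.A.Sta
import Vale.Agent.P253W.A.Syb
import Vale.Agent.P253W.A.Syp
import Vale.Agent.P253W.A.Top
import Vale.Agent.P253W.A.Vrb
import Vale.Agent.P253W.A.Wb

/-!
# P253W, block A: assembly
-/

open scoped Manifold ContDiff Bundle
open Bundle MeasureTheory Metric Vale.Agent.P253Z
open Vale.Agent.P272.K (Cm Chart)

namespace Vale.Agent.P253W

namespace A

variable {n : ℕ} {M : Type} [MetricSpace M] [ChartedSpace (Cm n) M] [IsManifold 𝓘(ℂ, Cm n) 1 M]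
  [RiemannianBundle fun x : M => TangentSpace 𝓘(ℝ, Cm n) x] {F : Flow n M}

theorem env (h : Cx F) : F.ENV := by
  have t := top h.a
  have s := syp h.a
  have q := sep h t
  have r := reg h t pde0
  have a1 := ar1 h t q grn
  have l := lb h t r wb_spec hom
  have pe := pent h t q r wb_spec lipk a1 (kn h t q r a1 (kn1 h t q a1)) l
    (pde1 h t s r wb_spec hom pde0 l) (syb h t s r wb_spec l amb lipk)
    (vrb h t s r l tay' amb exb (ar2 h t a1 cls (gr2 grn))) (par h r wb_spec)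
  refine env1 h t (env0 h ja js) (trn h t ja) fun e c hc S hS => ?_
  have := t.t2
  exact visA _ (ok h t s q r e c hc S) (sta h t r WM.out e c hc S) (pe e c hc S hS)

end A

variable {n : ℕ} {M : Type} [MetricSpace M] [ChartedSpace (Cm n) M] [IsManifold 𝓘(ℂ, Cm n) 1 M]
  [IsManifold 𝓘(ℝ, Cm n) ∞ M] [RiemannianBundle fun x : M => TangentSpace 𝓘(ℝ, Cm n) x]
  [IsContMDiffRiemannianBundle 𝓘(ℝ, Cm n) ∞ (Cm n) fun x : M => TangentSpace 𝓘(ℝ, Cm n) x]
  [IsRiemannianManifold 𝓘(ℝ, Cm n) M] [CompleteSpace M] [ConnectedSpace M] [NoncompactSpace M]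
  [MeasurableSpace M] [BorelSpace M] {μ : Measure M}

/-- **block A** -/
theorem blA : BlA n μ := fun F p T g0 lip sup => by
  have := Vale.Agent.P253.Mfd.properSpace_riemannian (Cm n) M
  exact A.env {
    npos := p.c.npos, a := b1a, b := b1b p.c.kahler b1a, is := p.is, b1 := p.b1, b2 := p.b2
    proper := fun r => isCompact_closedBall _ r
    eta := fun x => (T.eta x).imp fun z hz => ⟨fun i => ((T.mem _).1 (hz.1 i)).1, hz.2⟩
    sep := fun x y h => (T.sep x y h).imp fun a ha => ⟨((T.mem _).1 ha.1).1, ha.2⟩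
    kpa := T.kpa, rho := FG.rho p.c F.o, sup := sup, g0 := g0, lip := lip }

end Vale.Agent.P253W
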