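import Vale.Agent.P253W.A.Defs2

/-!
# P253W, block A: the penalty exists
-/

open scoped Manifold ContDiff Bundle ENNReal Topology ComplexConjugate ComplexOrder Matrix
open Bundle MeasureTheory Set Metric Filter Vale.Agent.P253Z
open Vale.Agent.P272.K (Cm dz cHess jacM Chart)

noncomputable section

namespace Vale.Agent.P253W.A

open WM

namespace Pt

theorem key (w : WB) {x₁ x₂ d : ℝ} (hd : d = min (min 1 (1 - x₁)) (min 1 (1 - x₂))) :
    1 / 2 ≤ d ∨ (d ^ 4)⁻¹ ≤ wb x₁ + wb x₂ := by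
  by_cases h : 1 / 2 ≤ d
  · exact Or.inl h
  right
  rw [not_le] at h
  have h1 := w.nn x₁
  have h2 := w.nn x₂
  have : d = 1 - x₁ ∨ d = 1 - x₂ := by
    simp only [min_def] at hd
    split_ifs at hd <;> first | (left; exact hd) | (right; exact hd) | linarith
  rcases this with e | e
  · rw [w.big x₁ (by linarith), ← e]; linarith
  · rw [w.big x₂ (by linarith), ← e]; linarith

theorem inv4 {d β : ℝ} (hβ : 0 ≤ β) (h : 1 / 2 ≤ d ∨ (d ^ 4)⁻¹ ≤ β) :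
    (d ^ 4)⁻¹ ≤ 16 * (1 + β) := by
  rcases h with h | h
  · have : (d ^ 4)⁻¹ ≤ ((1 / 2 : ℝ) ^ 4)⁻¹ := by gcongr
    norm_num at this
    nlinarith
  · linarith

theorem logb {σ w₀ d β : ℝ} (hσ : 0 < σ) (hw : 0 ≤ w₀) (hd : 0 < d) (hβ : 0 ≤ β)
    (h : 1 / 2 ≤ d ∨ (d ^ 4)⁻¹ ≤ β) :
    Real.log (1 + max (w₀ + σ * ((2 * d) ^ 18)⁻¹ - σ) 0 / σ) ≤ Real.log (1 + w₀ / σ) + 4 * β := by
  set u := ((2 * d) ^ 18)⁻¹ with hu
  have h0 : 0 ≤ w₀ / σ := by positivity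
  have hv : 1 ≤ max 1 u := le_max_left _ _
  have hv' : u ≤ max 1 u := le_max_right _ _
  have h1 : 1 + max (w₀ + σ * u - σ) 0 / σ ≤ (1 + w₀ / σ) * max 1 u := by
    have : max (w₀ + σ * u - σ) 0 / σ ≤ w₀ / σ + max 1 u - 1 := by
      rw [div_le_iff₀ hσ]
      have e : (w₀ / σ + max 1 u - 1) * σ = w₀ + σ * max 1 u - σ := by field_simp
      rw [e]
      exact max_le (by nlinarith) (by nlinarith)
    nlinarith
  have h2 : Real.log (max 1 u) ≤ 4 * β := by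
    rcases le_or_gt (1 / 2) d with h3 | h3
    · have : u ≤ 1 := inv_le_one_of_one_le₀ (one_le_pow₀ (by linarith))
      rw [max_eq_left this, Real.log_one]; positivity
    · have h4 : (d ^ 4)⁻¹ ≤ β := h.resolve_left (not_le.2 h3)
      have h5 : 1 ≤ u := one_le_inv_iff₀.2 ⟨by positivity, pow_le_one₀ (by linarith) (by linarith)⟩
      rw [max_eq_right h5, hu, ← inv_pow, Real.log_pow]
      have h6 : Real.log (2 * d)⁻¹ ≤ (2 * d)⁻¹ :=
        (Real.log_le_sub_one_of_pos (by positivity)).trans (by linarith)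
      have h7 : (2 * d)⁻¹ ≤ (d ^ 4)⁻¹ / 16 := by
        have h8 : d ^ 3 ≤ (1 / 2) ^ 3 := by gcongr
        rw [le_div_iff₀ (by norm_num), inv_mul_eq_div, ← one_div, div_le_div_iff₀ (by positivity)
          (by positivity)]
        nlinarith
      push_cast
      nlinarith
  calc _ ≤ Real.log ((1 + w₀ / σ) * max 1 u) := by
        have : 0 ≤ max (w₀ + σ * u - σ) 0 / σ := by positivity
        gcongr
    _ = Real.log (1 + w₀ / σ) + Real.log (max 1 u) := Real.log_mul (by positivity) (by positivity)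
    _ ≤ _ := by linarith

theorem lipd {a b a' b' : ℝ} : |min (min 1 (1 - a)) (min 1 (1 - b)) -
    min (min 1 (1 - a')) (min 1 (1 - b'))| ≤ |a - a'| + |b - b'| := by
  have h : ∀ x y : ℝ, |min 1 (1 - x) - min 1 (1 - y)| ≤ |x - y| := fun x y =>
    (abs_min_sub_min_le_max _ _ _ _).trans (max_le (by simp) (by
      rw [show 1 - x - (1 - y) = -(x - y) by ring, abs_neg]))
  refine (abs_min_sub_min_le_max _ _ _ _).trans (max_le ?_ ?_)
  · linarith [h a a', abs_nonneg (b - b')]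
  · linarith [h b b', abs_nonneg (a - a')]

end Pt

open Pt

variable {n : ℕ} {M : Type} [MetricSpace M] [ChartedSpace (Cm n) M]
  [RiemannianBundle fun x : M => TangentSpace 𝓘(ℝ, Cm n) x] {F : Flow n M}

theorem pent (h : Cx F) (t : TOP n M) (s : SEP F) (r : REG F) (w : WB) (li : LIPK) (a1 : AR1 F)
    (kn : KN F) (lb : LB F) (p1 : PDE1 F) (sy : SYB F) (vr : VRB F) (pa : PAR F) : PENT F := by
  intro e c hc S hS σ l₀ ε m φ hσ hl hε hφ
  have := t.t2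
  have base : ∀ ψ : ℂ → TS n M, Dn (AT n M) ψ → Dn (AM n M) fun τ => (ψ τ).1 := fun ψ hψ =>
    ⟨t.fst.comp_continuousOn hψ.1, ((t.hol ψ _ isOpen_ball).1 hψ.2).1⟩
  have fin : ∀ ψ : ℂ → TS n M, Dn (AT n M) ψ → T0 F (fun τ => (ψ τ).1) ≠ ⊤ := fun ψ hψ => by
    obtain ⟨C, hC⟩ := a1.bd _ ((isCompact_closedBall (0 : ℂ) 1).image_of_continuousOn (base ψ hψ).1)
    exact ne_top_of_le_ne_top ENNReal.ofReal_ne_top (hC _ (base ψ hψ) fun τ hτ => ⟨τ, hτ, rfl⟩)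
  obtain ⟨A, hA⟩ : ∃ A, ∀ i, (T0 F fun τ => (φ i τ).1).toReal ≤ A := by
    obtain ⟨A, hA⟩ := (Set.finite_range fun i => (T0 F fun τ => (φ i τ).1).toReal).bddAbove
    exact ⟨A, fun i => hA ⟨i, rfl⟩⟩
  obtain ⟨ρ₁, hρ⟩ : ∃ ρ₁, ∀ i, ∀ τ ∈ sphere (0 : ℂ) 1, F.r (φ i τ).1 ≤ ρ₁ := by
    have : ∀ i, ∃ ρ, ∀ τ ∈ sphere (0 : ℂ) 1, F.r (φ i τ).1 ≤ ρ := fun i => by
      obtain ⟨ρ, hρ⟩ := ((isCompact_sphere (0 : ℂ) 1).image_of_continuousOn
        (f := fun τ => F.r (φ i τ).1) ((continuous_id.dist continuous_const).comp_continuousOn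
          ((base _ (hφ i).1).1.mono sphere_subset_closedBall))).bddAbove
      exact ⟨ρ, fun τ hτ => hρ ⟨τ, hτ, rfl⟩⟩
    choose ρ hρ using this
    obtain ⟨B, hB⟩ := (Set.finite_range ρ).bddAbove
    exact ⟨B, fun i τ hτ => (hρ i τ hτ).trans (hB ⟨i, rfl⟩)⟩
  obtain ⟨p, κ, hp, hpA, hp1, hp2⟩ := pa S σ ε ρ₁ A hS hσ hε
  obtain ⟨C, hC, hpde⟩ := p1 p S κ l₀ hp hl
  obtain ⟨η₁, hη, hηC⟩ : ∃ η₁ ∈ Ioc (0 : ℝ) 1, C * √η₁ ≤ σ / 2 ^ 18 := by
    refine ⟨min 1 ((σ / 2 ^ 18 / (C + 1)) ^ 2), ⟨by positivity, min_le_left _ _⟩, ?_⟩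
    have h1 : √(min 1 ((σ / 2 ^ 18 / (C + 1)) ^ 2)) ≤ σ / 2 ^ 18 / (C + 1) :=
      Real.sqrt_le_iff.2 ⟨by positivity, min_le_right _ _⟩
    calc _ ≤ (C + 1) * (σ / 2 ^ 18 / (C + 1)) := by gcongr; linarith
      _ = _ := by field_simp
  obtain ⟨cK, oW, cb, -, cx, -⟩ := lb p S κ η₁ hp hη.1
  obtain ⟨L, G, hG, hE⟩ := s.2.1 _ cK
  obtain ⟨aH, ab, C₂, cH, ca, hs⟩ := sy p S κ η₁ L G hp hη hG hE
  obtain ⟨P', -, cP', -, -, dP⟩ := r.dt (S + 1) p.P hp.smP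
  obtain ⟨X', -, cX', -, -, dX⟩ := r.dt (S + 1) p.X hp.smX
  obtain ⟨cG, -, -, hL⟩ := li (n + n) (TS n M) (AT n M) (Fin L) G t.atl hG
  obtain ⟨C₃, h3, l3⟩ := (hL _ cK hE).1 (fun y => (p.x₁ y : ℂ)) fun y hy c hc hs =>
    Complex.ofRealCLM.contDiff.contDiffAt.comp _ (cx y hy c hc hs).1
  obtain ⟨C₄, h4, l4⟩ := (hL _ cK hE).1 (fun y => (Pd.x₂ F η₁ y : ℂ)) fun y hy c hc hs =>
    Complex.ofRealCLM.contDiff.contDiffAt.comp _ (cx y hy c hc hs).2
  have WK : p.W F η₁ ⊆ p.K F η₁ := fun y hy => ⟨hy.1, hy.2.1.le, hy.2.2.le⟩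
  have dpos : ∀ y ∈ p.W F η₁, 0 < p.d F η₁ y := fun y hy =>
    lt_min (lt_min one_pos (sub_pos.2 hy.2.1)) (lt_min one_pos (sub_pos.2 hy.2.2))
  have lipd' : ∀ y ∈ p.K F η₁, ∀ y' ∈ p.K F η₁,
      |p.d F η₁ y - p.d F η₁ y'| ≤ (C₃ + C₄) * ‖G y - G y'‖ := fun y hy y' hy' => by
    have a3 := l3 y hy y' hy'
    have a4 := l4 y hy y' hy'
    rw [← Complex.ofReal_sub, Complex.norm_real, Real.norm_eq_abs] at a3 a4
    exact lipd.trans (by linarith)
  have cd : ContinuousOn (p.d F η₁) (p.K F η₁) := fun y hy => by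
    rw [ContinuousWithinAt, tendsto_iff_dist_tendsto_zero]
    refine squeeze_zero' (Eventually.of_forall fun _ => dist_nonneg)
      (eventually_nhdsWithin_of_forall fun y' hy' => lipd' y' hy' y hy) ?_
    have : Tendsto (fun y' => (C₃ + C₄) * ‖G y' - G y‖) (𝓝 y) (𝓝 ((C₃ + C₄) * ‖G y - G y‖)) :=
      (by fun_prop : Continuous fun y' => (C₃ + C₄) * ‖G y' - G y‖).continuousAt
    simpa using this.mono_left nhdsWithin_le_nhds
  have cx1 : Continuous p.x₁ := ((h.a.sm_cont _ hp.sm).comp t.fst).sub continuous_const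
  have cf : ∀ {I : Set ℝ} {u : ℝ → M → ℝ} {D : Set (TS n M)},
      ContinuousOn (Function.uncurry u) (I ×ˢ univ) →
      ContinuousOn (fun q : ℝ × TS n M => u q.1 q.2.1) (I ×ˢ D) := fun hu =>
    hu.comp (f := fun q : ℝ × TS n M => (q.1, q.2.1))
      (continuous_fst.prodMk (t.fst.comp continuous_snd)).continuousOn fun q hq => ⟨hq.1, trivial⟩
  have Hp : ∀ t, 0 ≤ t → ∀ y ∈ p.K F η₁, 0 < HT F t y := fun t ht y hy => h.b2.H_pos t ht _ _ hy.1
  have bn : ∀ t ∈ Icc 0 S, ∀ y, wb (p.x₁ y) + wb (Pd.x₂ F η₁ y) ≤ p.b F η₁ t y := fun t ht y => by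
    have := hp1 t ht y.1
    have := mul_nonneg hp.η_pos.le this.1
    simp only [Pd.b]
    linarith
  have yn : ∀ t, 0 ≤ t → ∀ x, 0 ≤ F.y t x := fun t ht x =>
    (Nat.cast_nonneg n).trans (h.b2.y_ge t ht x)
  have hηp := hp.η_pos
  have hκ := hp.κ_nn
  refine ⟨{
    L := L, F := G, K := p.K F η₁, W := p.W F η₁, d := p.d F η₁, b := p.b F η₁
    T := fun ψ => p.η / 2 * (T0 F fun τ => (ψ τ).1).toReal
    h₁ := fun t y => t * Ht F t y / HT F t y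
    h₂ := fun t y => t * (p.η * P' t y.1 + X' t y.1)
    w := fun t y => S * (2 + κ) * wd wb (p.x₁ y) * F.y t y.1 + σ * ((2 * p.d F η₁ y) ^ 18)⁻¹
    aH := aH, ab := ab, C := max 16 (max C₂ (C₃ + C₄))
    ho := hG, cpt := cK, em := hE, op := oW, WK := WK, KO := fun y hy => hy.1
    mem := fun y hy => ⟨⟨dpos y, fun hd => ⟨hy.1, ?_, ?_⟩⟩, ?_⟩
    lip := fun y hy y' hy' => (lipd' y hy y' hy').trans (by gcongr; simp)
    cb := cb, c₁ := ?_, c₂ := ?_, cw := ?_, cH := cH, ca := ca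
    wall := fun t ht y hy => ?_
    dt := fun t ht y hy => ?_
    pde := fun t ht y hy c' hc' hy' l hl g hg => ?_
    T_nn := fun ψ => by positivity
    T_congr := fun ψ ψ' hψ => ?_
    var := vr p S κ η₁ L G aH ab hp hη hG hE cH ca fun t ht y hy => (hs t ht y hy).2.2.2
    kn := fun ψ g B hψ hg => ?_ }, fun i => ⟨?_, fun τ hτ => ?_⟩⟩
  · exact sub_pos.1 (hd.trans_le ((min_le_left _ _).trans (min_le_right _ _)))
  · exact sub_pos.1 (hd.trans_le ((min_le_right _ _).trans (min_le_right _ _)))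
  · exact (min_le_left _ _).trans (min_le_left _ _)
  · have hm : Ico 0 (S + 1) ×ˢ p.K F η₁ ⊆ Ici (0 : ℝ) ×ˢ univ := fun q hq => ⟨hq.1.1, trivial⟩
    exact (continuousOn_fst.mul (r.cHt.mono hm)).div (r.cH.mono hm) fun q hq =>
      (Hp _ hq.1.1 _ hq.2).ne'
  · exact continuousOn_fst.mul ((continuousOn_const.mul (cf cP')).add (cf cX'))
  · have c1 : ContinuousOn (wd wb) (Iio 1) := w.cont.1.abs.add w.cont.2.abs
    have c2 : ContinuousOn (fun q : ℝ × TS n M => wd wb (p.x₁ q.2)) (Icc 0 S ×ˢ p.W F η₁) :=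
      c1.comp (cx1.comp continuous_snd).continuousOn fun q hq => hq.2.2.1
    have c3 : ContinuousOn (fun q : ℝ × TS n M => F.y q.1 q.2.1) (Icc 0 S ×ˢ p.W F η₁) :=
      cf ((h.b1.sm_cont _ h.b1.y_sm).mono fun q hq => ⟨hq.1.1, trivial⟩)
    have c4 : ContinuousOn (fun q : ℝ × TS n M => p.d F η₁ q.2) (Icc 0 S ×ˢ p.W F η₁) :=
      cd.comp continuousOn_snd fun q hq => WK hq.2
    exact ((continuousOn_const.mul c2).mul c3).add (continuousOn_const.mul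
      (((continuousOn_const.mul c4).pow 18).inv₀ fun q hq =>
        pow_ne_zero _ (mul_ne_zero two_ne_zero (dpos _ hq.2).ne')))
  · have h1 := bn t ht y
    have h2 := w.nn (p.x₁ y)
    have h2' := w.nn (Pd.x₂ F η₁ y)
    have h5 := dpos y hy
    have h6 : 1 / 2 ≤ p.d F η₁ y ∨ (p.d F η₁ y ^ 4)⁻¹ ≤ p.b F η₁ t y :=
      (key w rfl).imp id fun h => h.trans h1
    have h7 : 0 ≤ p.b F η₁ t y := by linarith
    obtain ⟨s1, s2, s3, -⟩ := hs t ht y hy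
    refine ⟨h7, (inv4 h7 h6).trans (by gcongr; simp), s1, s2,
      fun i j => (s3 i j).trans (by gcongr; simp), ?_⟩
    have h8 : 0 ≤ wd wb (p.x₁ y) := by unfold wd; positivity
    have h9 := yn t ht.1 y.1
    refine (logb hσ (by positivity) h5 h7 h6).trans ?_
    have := hp2 t ht y.1 hy.2.1
    simp only [Pd.b, Pd.x₁] at *
    linarith
  · have h0 := ht.1.ne'
    refine ⟨((h.b2.H_t t ht.1 y.1 y.2).log (Hp t ht.1.le y (WK hy)).ne').congr_deriv ?_, ?_⟩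
    · change Ht F t y / HT F t y = t * Ht F t y / HT F t y / t
      field_simp
    · refine (((((dP t ht y.1).const_mul p.η).add (dX t ht y.1)).add_const _).add_const
        _).congr_deriv ?_
      field_simp
  · obtain ⟨e', he'⟩ := hc'
    have ht' : t ∈ Ioo 0 (S + 1) := ⟨ht.1, lt_add_of_le_of_pos ht.2 one_pos⟩
    obtain ⟨s1, s2⟩ := (hs t ⟨ht.1.le, ht.2⟩ y hy).2.2.2 e' c' he' hy'
    have h1 := hpde η₁ hη t ht y hy e' c' he' hy' l hl g hg
    have h2 : (dM G c' y)ᴴ * ((l : ℂ) • aH t y + (g : ℂ) • ab t y) * dM G c' y =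
        ((l / HT F t y : ℝ) : ℂ) • lm (HT F t) c' y + (g : ℂ) • p.L F η₁ e' c' t y := by
      rw [Matrix.mul_add, Matrix.add_mul, Matrix.mul_smul, Matrix.mul_smul, Matrix.smul_mul,
        Matrix.smul_mul, s1, s2, smul_smul, div_eq_mul_inv, Complex.ofReal_mul]
    have h5 := dpos y hy
    have h3 : C * √η₁ * (p.d F η₁ y ^ 18)⁻¹ ≤ σ * ((2 * p.d F η₁ y) ^ 18)⁻¹ :=
      calc _ ≤ σ / 2 ^ 18 * (p.d F η₁ y ^ 18)⁻¹ := by gcongr
        _ = _ := by rw [mul_pow]; field_simp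
    have e1 : dt p.P t y.1 = P' t y.1 := (dP t ht' y.1).deriv
    have e2 : dt p.X t y.1 = X' t y.1 := (dX t ht' y.1).deriv
    rw [e1, e2, ← h2] at h1
    exact h1.trans (by linarith)
  · rw [a1.congr (fun τ => (ψ τ).1) (fun τ => (ψ' τ).1) fun τ hτ => congrArg Prod.fst (hψ hτ)]
  · obtain ⟨χ, c1, c2, c3⟩ := kn _ L G ψ g (2 * B / p.η) cK hG hE.1 (fun k => ⟨(hψ k).1, by
      refine (ENNReal.le_ofReal_iff_toReal_le (fin _ (hψ k).1) ?_).2 ?_
      · have h1 : 0 ≤ p.η / 2 * (T0 F fun τ => (ψ k τ).1).toReal := by positivity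
        have h2 : 0 ≤ B := h1.trans (hψ k).2.1
        positivity
      · have := (hψ k).2.1
        rw [le_div_iff₀ hηp]
        linarith, (hψ k).2.2⟩) hg
    refine ⟨χ, c1, c2, fun δ hδ => ?_⟩
    set a := T0 F fun τ => (χ τ).1
    by_cases ha : a.toReal ≤ 2 * δ / p.η
    · refine Eventually.of_forall fun k => ?_
      have h1 : 0 ≤ p.η / 2 * (T0 F fun τ => (ψ k τ).1).toReal := by positivity
      rw [le_div_iff₀ hηp] at ha
      linarith
    · have hd : 0 < 2 * δ / p.η := by positivity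
      have h1 : ENNReal.ofReal (a.toReal - 2 * δ / p.η) < a :=
        (ENNReal.ofReal_lt_iff_lt_toReal (by linarith) (fin _ c1)).2 (by linarith)
      filter_upwards [eventually_lt_of_lt_liminf (h1.trans_le c3)] with k hk
      have h2 := (ENNReal.ofReal_lt_iff_lt_toReal (by linarith) (fin _ (hψ k).1)).1 hk
      have h3 : p.η / 2 * (2 * δ / p.η) = δ := by field_simp
      nlinarith
  · have h1 := hA i
    have h2 : 0 ≤ (T0 F fun τ => (φ i τ).1).toReal := ENNReal.toReal_nonneg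
    change p.η / 2 * (T0 F fun τ => (φ i τ).1).toReal ≤ ε
    nlinarith
  · have h1 : HT F 0 (φ i τ) = 1 := (hφ i).2 τ hτ
    have h2 : Pd.x₂ F η₁ (φ i τ) = 0 := by simp [Pd.x₂, h1]
    have h3 : p.x₁ (φ i τ) ≤ 0 :=
      sub_nonpos.2 ((hp1 0 ⟨le_rfl, hS.le⟩ _).2.2 (hρ i τ hτ)).1
    refine ⟨⟨fun h0 => ?_, by linarith, by rw [h2]; exact one_pos⟩, fun t ht => ?_⟩
    · simp [HT, Flow.H, hq, h0] at h1
    · change p.b F η₁ t (φ i τ) ≤ ε
      rw [Pd.b, h2, (w.zero _ h3).1, (w.zero _ le_rfl).1, add_zero, add_zero]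
      exact ((hp1 t ht _).2.2 (hρ i τ hτ)).2

end Vale.Agent.P253W.A
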