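import Vale.Agent.P253W.A.Defs0

/-!
# P253W, block A, row SYM: means of rotations
-/

open Complex Metric Set Filter Topology MeasureTheory
open scoped Matrix ComplexConjugate ComplexOrder ENNReal

noncomputable section

namespace Vale.Agent.P253W.A.Sy

open WM

variable {E : Type*} [NormedAddCommGroup E] [NormedSpace ℝ E]

/-- the normalised angle measure -/
def lam : Measure ℝ :=
  ENNReal.ofReal (2 * Real.pi)⁻¹ • volume.restrict (Ioc 0 (2 * Real.pi))

theorem lam_fin : IsFiniteMeasure lam := by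
  refine ⟨?_⟩
  rw [lam, Measure.smul_apply, Measure.restrict_apply_univ, Real.volume_Ioc, smul_eq_mul]
  exact ENNReal.mul_lt_top ENNReal.ofReal_lt_top ENNReal.ofReal_lt_top

theorem lam_ac : lam ≪ volume :=
  Measure.smul_absolutelyContinuous.trans Measure.absolutelyContinuous_restrict

theorem av_eq (u : ℂ → E) : av u = ∫ θ, u (circleMap 0 1 θ) ∂lam := by
  rw [lam, integral_smul_measure, ENNReal.toReal_ofReal (by positivity), av,
    Real.circleAverage_def, intervalIntegral.integral_of_le (by positivity)]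

omit [NormedSpace ℝ E] in
theorem ci_iff {u : ℂ → E} :
    CircleIntegrable u 0 1 ↔ Integrable (fun θ => u (circleMap 0 1 θ)) lam := by
  rw [lam, integrable_smul_measure (by simp [Real.pi_pos]) ENNReal.ofReal_ne_top, CircleIntegrable,
    intervalIntegrable_iff_integrableOn_Ioc_of_le (by positivity)]
  rfl

omit [NormedSpace ℝ E] in
theorem ci_all {u : ℂ → E} (hu : CircleIntegrable u 0 1) (a b : ℝ) :
    IntervalIntegrable (fun θ => u (circleMap 0 1 θ)) volume a b :=
  Function.Periodic.intervalIntegrable₀ (T := 2 * Real.pi)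
    (fun x => by simp only [periodic_circleMap 0 1 x]) (by positivity) hu a b

omit [NormedSpace ℝ E] in
theorem ci_rt {u : ℂ → E} (hu : CircleIntegrable u 0 1) (h : ℝ) :
    CircleIntegrable (fun τ => u (rt h τ)) 0 1 := by
  have := (ci_all hu (0 + h) (2 * Real.pi + h)).comp_add_right h
  simp only [add_sub_cancel_right] at this
  simpa only [CircleIntegrable, rt_cm] using this

omit [NormedSpace ℝ E] in
theorem ci_aesm {u : ℂ → E} (hu : CircleIntegrable u 0 1) :
    AEStronglyMeasurable (fun θ => u (circleMap 0 1 θ)) volume := by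
  refine LocallyIntegrable.aestronglyMeasurable fun x => ⟨Ioc (x - 1) (x + 1), ?_, ?_⟩
  · exact Ioc_mem_nhds (by linarith) (by linarith)
  · exact (ci_all hu (x - 1) (x + 1)).1

omit [NormedSpace ℝ E] in
theorem int_prod (ν : Measure ℝ) [IsFiniteMeasure ν] {u : ℂ → E} (hu : CircleIntegrable u 0 1) :
    Integrable (fun p : ℝ × ℝ => u (rt p.1 (circleMap 0 1 p.2))) (ν.prod lam) := by
  have := lam_fin
  have h1 : AEStronglyMeasurable (fun p : ℝ × ℝ => u (rt p.1 (circleMap 0 1 p.2)))
      (ν.prod lam) := by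
    have h2 := (ci_aesm hu).comp_quasiMeasurePreserving (quasiMeasurePreserving_add ν volume)
    refine (h2.mono_ac (Measure.AbsolutelyContinuous.rfl.prod lam_ac)).congr
      (Eventually.of_forall fun p => ?_)
    simp only [Function.comp, rt_cm, add_comm]
  refine (integrable_prod_iff h1).2 ⟨Eventually.of_forall fun h => ci_iff.1 (ci_rt hu h), ?_⟩
  refine (integrable_const (av fun τ => ‖u τ‖)).congr (Eventually.of_forall fun h => ?_)
  exact ((av_rt (fun τ => ‖u τ‖) h).symm.trans (av_eq _))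

/-- the mean of the rotations of a function -/
def cv (ν : Measure ℝ) (u : ℂ → E) (τ : ℂ) : E := ∫ h, u (rt h τ) ∂ν

theorem av_cv [CompleteSpace E] (ν : Measure ℝ) [IsProbabilityMeasure ν] {u : ℂ → E}
    (hu : CircleIntegrable u 0 1) : av (cv ν u) = av u := by
  have := lam_fin
  have h := integral_integral_swap (f := fun h θ => u (rt h (circleMap 0 1 θ))) (int_prod ν hu)
  rw [av_eq]
  refine h.symm.trans ?_
  have : ∀ h : ℝ, ∫ θ, u (rt h (circleMap 0 1 θ)) ∂lam = av u := fun h =>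
    ((av_rt u h).symm.trans (av_eq _)).symm
  simp only [this, integral_const, probReal_univ, one_smul]

omit [NormedSpace ℝ E] in
theorem cont_rt {u : ℂ → E} (hu : ContinuousOn u (sphere 0 1)) {τ : ℂ}
    (hτ : τ ∈ sphere (0 : ℂ) 1) : Continuous fun h => u (rt h τ) :=
  hu.comp_continuous (by unfold rt; fun_prop) fun h => rt_mem h hτ

omit [NormedSpace ℝ E] in
theorem int_rt (ν : Measure ℝ) [IsFiniteMeasure ν] {u : ℂ → E} (hu : ContinuousOn u (sphere 0 1))
    {τ : ℂ} (hτ : τ ∈ sphere (0 : ℂ) 1) : Integrable (fun h => u (rt h τ)) ν := by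
  obtain ⟨M, -, hM⟩ := exists_bound_cs hu
  exact Integrable.of_bound (cont_rt hu hτ).aestronglyMeasurable M
    (Eventually.of_forall fun h => hM _ (rt_mem h hτ))

theorem cs_cv (ν : Measure ℝ) [IsFiniteMeasure ν] {u : ℂ → E}
    (hu : ContinuousOn u (sphere 0 1)) : ContinuousOn (cv ν u) (sphere 0 1) := by
  obtain ⟨M, -, hM⟩ := exists_bound_cs hu
  exact continuousOn_of_dominated (bound := fun _ => M)
    (fun τ hτ => (cont_rt hu hτ).aestronglyMeasurable)
    (fun τ hτ => Eventually.of_forall fun h => hM _ (rt_mem h hτ)) (integrable_const M)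
    (Eventually.of_forall fun h => cs_rt hu h)

theorem cv_conv (ν₁ ν₂ : Measure ℝ) [IsProbabilityMeasure ν₁] [IsProbabilityMeasure ν₂]
    {u : ℂ → E} (hu : ContinuousOn u (sphere 0 1)) {τ : ℂ} (hτ : τ ∈ sphere (0 : ℂ) 1) :
    cv (ν₂ ∗ ν₁) u τ = cv ν₂ (cv ν₁ u) τ := by
  unfold cv
  rw [integral_conv (int_rt _ hu hτ)]
  simp only [rt_rt, add_comm]

/-! ### Hermitian forms -/

variable {q : Type*} [Fintype q]

theorem hf_eq (a : Matrix q q ℂ) (U : q → ℂ) :
    hf a U = ∑ i, ∑ j, (conj (U i) * a i j * U j).re := by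
  simp only [hf, dotProduct, Matrix.mulVec, Finset.mul_sum, Complex.re_sum, Pi.star_apply,
    RCLike.star_def, mul_assoc]

theorem hf_add (a b : Matrix q q ℂ) (U : q → ℂ) : hf (a + b) U = hf a U + hf b U := by
  simp only [hf, Matrix.add_mulVec, dotProduct_add, Complex.add_re]

theorem hf_sub (a b : Matrix q q ℂ) (U : q → ℂ) : hf (a - b) U = hf a U - hf b U := by
  simp only [hf, Matrix.sub_mulVec, dotProduct_sub, Complex.sub_re]

theorem hf_smul (t : ℝ) (a : Matrix q q ℂ) (U : q → ℂ) : hf ((t : ℂ) • a) U = t * hf a U := by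
  simp only [hf, Matrix.smul_mulVec, dotProduct_smul, smul_eq_mul, Complex.re_ofReal_mul]

theorem hf_one [DecidableEq q] (U : q → ℂ) : hf (1 : Matrix q q ℂ) U = ∑ j, ‖U j‖ ^ 2 := by
  simp only [hf, Matrix.one_mulVec, dotProduct, Complex.re_sum, Pi.star_apply, RCLike.star_def]
  refine Finset.sum_congr rfl fun j _ => ?_
  rw [← Complex.normSq_eq_conj_mul_self, Complex.ofReal_re, Complex.normSq_eq_norm_sq]

theorem hf_vsmul (a : Matrix q q ℂ) (c : ℂ) (U : q → ℂ) : hf a (c • U) = ‖c‖ ^ 2 * hf a U := by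
  simp only [hf, Matrix.mulVec_smul, dotProduct_smul, star_smul, smul_dotProduct,
    smul_eq_mul, RCLike.star_def]
  rw [← mul_assoc, Complex.mul_conj, Complex.re_ofReal_mul, Complex.normSq_eq_norm_sq]

theorem hf_conj {ι : Type*} [Fintype ι] (D : Matrix ι q ℂ) (a : Matrix ι ι ℂ) (v : q → ℂ) :
    hf (Dᴴ * a * D) v = hf a (D *ᵥ v) := by
  simp only [hf, ← Matrix.mulVec_mulVec, Matrix.dotProduct_mulVec (star v), Matrix.star_mulVec]

theorem hf_nonneg {a : Matrix q q ℂ} (ha : a.PosSemidef) (U : q → ℂ) : 0 ≤ hf a U :=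
  (Complex.nonneg_iff.1 (ha.dotProduct_mulVec_nonneg U)).1

theorem psd_of_hf {a : Matrix q q ℂ} (ha : a.IsHermitian) (h : ∀ U, 0 ≤ hf a U) :
    a.PosSemidef :=
  Matrix.PosSemidef.of_dotProduct_mulVec_nonneg ha fun U =>
    Complex.nonneg_iff.2 ⟨h U, (ha.im_star_dotProduct_mulVec_self U).symm⟩

omit [Fintype q] in
theorem herm_smul {a : Matrix q q ℂ} (ha : a.IsHermitian) (t : ℝ) : ((t : ℂ) • a).IsHermitian := by
  rw [Matrix.IsHermitian, Matrix.conjTranspose_smul, ha.eq, RCLike.star_def, Complex.conj_ofReal]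

theorem cs_hf {a : ℂ → Matrix q q ℂ} {U : ℂ → q → ℂ} (ha : Cs a)
    (hU : ∀ j, ContinuousOn (fun τ => U τ j) (sphere 0 1)) :
    ContinuousOn (fun τ => hf (a τ) (U τ)) (sphere 0 1) := by
  simp only [hf_eq]
  refine continuousOn_finsetSum _ fun i _ => continuousOn_finsetSum _ fun j _ => ?_
  exact Complex.continuous_re.comp_continuousOn
    (((Complex.continuous_conj.comp_continuousOn (hU i)).mul (ha i j)).mul (hU j))

variable {α : Type*} [MeasurableSpace α] {μ : Measure α}

theorem int_hf {F : α → Matrix q q ℂ} {V : α → q → ℂ} {M : ℝ}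
    (hF : ∀ i j, Integrable (fun x => F x i j) μ)
    (hV : ∀ j, AEStronglyMeasurable (fun x => V x j) μ) (hM : ∀ x j, ‖V x j‖ ≤ M) :
    Integrable (fun x => hf (F x) (V x)) μ := by
  simp only [hf_eq]
  refine integrable_finsetSum _ fun i _ => integrable_finsetSum _ fun j _ => ?_
  refine Integrable.re (𝕜 := ℂ) (Integrable.mul_bdd (c := M) (Integrable.bdd_mul (c := M) (hF i j)
    (Complex.continuous_conj.comp_aestronglyMeasurable (hV i)) ?_) (hV j) ?_)
  · exact Eventually.of_forall fun x => by simpa using hM x i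
  · exact Eventually.of_forall fun x => hM x j

theorem hf_int {F : α → Matrix q q ℂ} (hF : ∀ i j, Integrable (fun x => F x i j) μ) (w : q → ℂ) :
    hf (Matrix.of fun i j => ∫ x, F x i j ∂μ) w = ∫ x, hf (F x) w ∂μ := by
  have h : ∀ i j, Integrable (fun x => conj (w i) * F x i j * w j) μ := fun i j =>
    ((hF i j).const_mul _).mul_const _
  have h' : ∀ i j, Integrable (fun x => (conj (w i) * F x i j * w j).re) μ := fun i j =>
    (h i j).re
  simp only [hf_eq, Matrix.of_apply]
  rw [integral_finsetSum _ fun i _ => integrable_finsetSum _ fun j _ => h' i j]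
  refine Finset.sum_congr rfl fun i _ => ?_
  rw [integral_finsetSum _ fun j _ => h' i j]
  refine Finset.sum_congr rfl fun j _ => ?_
  rw [← integral_const_mul, ← integral_mul_const]
  exact (integral_re (h i j)).symm

omit [Fintype q] in
theorem herm_cvm (ν : Measure ℝ) {a : ℂ → Matrix q q ℂ}
    (ha : ∀ τ ∈ sphere (0 : ℂ) 1, (a τ).IsHermitian) {τ : ℂ} (hτ : τ ∈ sphere (0 : ℂ) 1) :
    (cvm ν a τ).IsHermitian := by
  ext i j
  simp only [cvm, Matrix.conjTranspose_apply, Matrix.of_apply, RCLike.star_def]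
  rw [← integral_conj]
  exact integral_congr_ae (Eventually.of_forall fun h => (ha _ (rt_mem h hτ)).apply i j)

theorem bd_vec {U : ℂ → q → ℂ} (hU : ∀ j, ContinuousOn (fun τ => U τ j) (sphere 0 1)) :
    ∃ M : ℝ, ∀ τ ∈ sphere (0 : ℂ) 1, ∀ j, ‖U τ j‖ ≤ M := by
  obtain ⟨M, -, hM⟩ := exists_bound_cs (continuousOn_pi.2 hU)
  exact ⟨M, fun τ hτ j => (norm_le_pi_norm (U τ) j).trans (hM τ hτ)⟩

theorem ci_hf {b : ℂ → Matrix q q ℂ} (hb : ∀ i j, CircleIntegrable (fun τ => b τ i j) 0 1)
    {U : ℂ → q → ℂ} (hU : ∀ j, ContinuousOn (fun τ => U τ j) (sphere 0 1)) :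
    CircleIntegrable (fun τ => hf (b τ) (U τ)) 0 1 := by
  obtain ⟨M, hM⟩ := bd_vec hU
  exact ci_iff.2 (int_hf (M := M) (fun i j => ci_iff.1 (hb i j))
    (fun j => ((hU j).comp_continuous (continuous_circleMap 0 1) cm_mem).aestronglyMeasurable)
    fun θ j => hM _ (cm_mem θ) j)

/-- some rotation is not worse than the mean -/
theorem avg (ν : Measure ℝ) [IsProbabilityMeasure ν] {b : ℂ → Matrix q q ℂ}
    (hb : ∀ i j, CircleIntegrable (fun τ => b τ i j) 0 1) {U : ℂ → q → ℂ}
    (hU : ∀ j, ContinuousOn (fun τ => U τ j) (sphere 0 1)) :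
    ∃ h : ℝ, av (fun τ => hf (b τ) (U (rt h τ))) ≤ av fun τ => hf (cvm ν b τ) (U τ) := by
  have := lam_fin
  obtain ⟨M, hM⟩ := bd_vec hU
  have hp := fun i j => int_prod ν (hb i j)
  have hI : Integrable (fun p : ℝ × ℝ => hf (b (rt p.1 (circleMap 0 1 p.2)))
      (U (circleMap 0 1 p.2))) (ν.prod lam) :=
    int_hf (M := M) hp (fun j => (((hU j).comp_continuous (continuous_circleMap 0 1)
      cm_mem).comp continuous_snd).aestronglyMeasurable) fun p j => hM _ (cm_mem _) j
  obtain ⟨h, hh⟩ := exists_le_integral hI.integral_prod_left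
  refine ⟨-h, ?_⟩
  have e1 : av (fun τ => hf (b τ) (U (rt (-h) τ))) =
      ∫ θ, hf (b (rt h (circleMap 0 1 θ))) (U (circleMap 0 1 θ)) ∂lam := by
    rw [← av_rt _ h, av_eq]
    simp only [rt_rt, neg_add_cancel, rt_zero]
  rw [e1]
  refine hh.trans (le_of_eq ?_)
  rw [integral_integral_swap (f := fun h θ => hf (b (rt h (circleMap 0 1 θ)))
    (U (circleMap 0 1 θ))) hI, av_eq]
  have ha : ∀ᵐ θ ∂lam, ∀ i j, Integrable (fun h => b (rt h (circleMap 0 1 θ)) i j) ν :=
    eventually_all.2 fun i => eventually_all.2 fun j => (hp i j).prod_left_ae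
  refine integral_congr_ae ?_
  filter_upwards [ha] with θ hθ using (hf_int hθ _).symm

end Vale.Agent.P253W.A.Sy
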