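import Vale.Agent.P253W.A.SymA

/-!
# P253W, block A, row SYM: the two kernels
-/

open Complex Metric Set Filter Topology MeasureTheory
open scoped Matrix ComplexConjugate ComplexOrder ENNReal

noncomputable section

namespace Vale.Agent.P253W.A.Sy

open WM

variable {E : Type*} [NormedAddCommGroup E] [NormedSpace ℝ E]

/-- a measure with a density -/
def wd (μ : Measure ℝ) (κ : ℝ → ℝ) : Measure ℝ := μ.withDensity fun s => ENNReal.ofReal (κ s)

section

variable {μ : Measure ℝ} {κ : ℝ → ℝ} (hc : Continuous κ) (h0 : ∀ s, 0 ≤ κ s)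
include hc h0

theorem wd_int (g : ℝ → E) : ∫ s, g s ∂wd μ κ = ∫ s, κ s • g s ∂μ := by
  rw [wd, integral_withDensity_eq_integral_toReal_smul hc.measurable.ennreal_ofReal
    (Eventually.of_forall fun _ => ENNReal.ofReal_lt_top)]
  simp only [ENNReal.toReal_ofReal (h0 _)]

theorem wd_integrable {g : ℝ → E} (h : Integrable (fun s => κ s • g s) μ) :
    Integrable g (wd μ κ) := by
  rw [wd, integrable_withDensity_iff_integrable_smul' hc.measurable.ennreal_ofReal
    (Eventually.of_forall fun _ => ENNReal.ofReal_lt_top)]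
  simpa only [ENNReal.toReal_ofReal (h0 _)] using h

theorem wd_prob (h1 : ∫ s, κ s ∂μ = 1) : IsProbabilityMeasure (wd μ κ) := by
  refine isProbabilityMeasure_iff_real.2 ?_
  have := wd_int (μ := μ) hc h0 fun _ => (1 : ℝ)
  simpa only [integral_const, smul_eq_mul, mul_one, h1] using this

omit h0 in
theorem wd_lint {g : ℝ → ℝ} (hg : Continuous g) (g0 : ∀ s, 0 ≤ g s) :
    ∫⁻ s, ENNReal.ofReal (g s) ∂wd μ κ = ∫⁻ s, ENNReal.ofReal (g s * κ s) ∂μ := by
  rw [wd, lintegral_withDensity_eq_lintegral_mul _ hc.measurable.ennreal_ofReal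
    hg.measurable.ennreal_ofReal]
  refine lintegral_congr fun s => ?_
  rw [Pi.mul_apply, mul_comm, ENNReal.ofReal_mul (g0 s)]

end

/-! ### the kernel of the bump -/

/-- the density of the first kernel -/
def k1 (k : ℂ → ℂ) (h : ℝ) : ℝ := (2 * Real.pi)⁻¹ * ‖k (circleMap 0 1 h)‖ ^ 2

/-- the first kernel -/
def nu1 (k : ℂ → ℂ) : Measure ℝ := wd (volume.restrict (Ioc (-Real.pi) Real.pi)) (k1 k)

theorem k1_nonneg (k : ℂ → ℂ) (h : ℝ) : 0 ≤ k1 k h := by unfold k1; positivity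

section

variable {k : ℂ → ℂ} (hk : ContinuousOn k (sphere 0 1))
include hk

theorem k1_cont : Continuous (k1 k) :=
  continuous_const.mul ((hk.comp_continuous (continuous_circleMap 0 1) cm_mem).norm.pow 2)

theorem nu1_int (g : ℂ → E) :
    ∫ h, g (circleMap 0 1 h) ∂nu1 k = av fun σ => ‖k σ‖ ^ 2 • g σ := by
  rw [nu1, wd_int (k1_cont hk) (k1_nonneg k), av, Real.circleAverage_eq_integral_add (-Real.pi),
    intervalIntegral.integral_comp_add_right
      (fun θ => ‖k (circleMap 0 1 θ)‖ ^ 2 • g (circleMap 0 1 θ)),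
    ← intervalIntegral.integral_of_le (by linarith [Real.pi_pos]),
    ← intervalIntegral.integral_smul]
  simp only [k1, mul_smul]
  congr 1 <;> ring

theorem nu1_prob (h1 : l2 k = 1) : IsProbabilityMeasure (nu1 k) := by
  refine isProbabilityMeasure_iff_real.2 ?_
  have := nu1_int hk fun _ => (1 : ℝ)
  simp only [integral_const, smul_eq_mul, mul_one] at this
  exact this.trans h1

theorem int_nu1 {u : ℂ → E} (hu : CircleIntegrable u 0 1) {τ : ℂ} (hτ : τ ∈ sphere (0 : ℂ) 1) :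
    Integrable (fun h => u (rt h τ)) (nu1 k) := by
  obtain ⟨θ, rfl⟩ := exists_cm hτ
  obtain ⟨M, -, hM⟩ := exists_bound_cs hk
  refine wd_integrable (k1_cont hk) (k1_nonneg k) ?_
  have h := (ci_all (ci_rt hu θ) (-Real.pi) Real.pi).1
  simp only [rt_cm] at h ⊢
  simp only [add_comm θ]
  refine Integrable.bdd_smul h ((2 * Real.pi)⁻¹ * M ^ 2) (k1_cont hk).aestronglyMeasurable
    (Eventually.of_forall fun s => ?_)
  rw [Real.norm_of_nonneg (k1_nonneg k s), k1]
  gcongr
  exact hM _ (cm_mem s)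

theorem cv_nu1 (u : ℂ → E) (θ : ℝ) :
    cv (nu1 k) u (circleMap 0 1 θ) = av fun τ => ‖k (rt (-θ) τ)‖ ^ 2 • u τ := by
  rw [← av_rt _ θ]
  simp only [rt_rt, neg_add_cancel, rt_zero]
  rw [← nu1_int hk]
  simp only [cv, rt_cm, add_comm]

theorem cs_cv_nu1 {u : ℂ → E} (hu : CircleIntegrable u 0 1) :
    ContinuousOn (cv (nu1 k) u) (sphere 0 1) := by
  obtain ⟨M, -, hM⟩ := exists_bound_cs hk
  have hm : ∀ ω ∈ sphere (0 : ℂ) 1, ∀ θ, conj ω * circleMap 0 1 θ ∈ sphere (0 : ℂ) 1 := by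
    intro ω hω θ
    simpa using hω
  have h : ContinuousOn (fun ω => ∫ θ, ‖k (conj ω * circleMap 0 1 θ)‖ ^ 2 •
      u (circleMap 0 1 θ) ∂lam) (sphere 0 1) := by
    refine continuousOn_of_dominated (bound := fun θ => M ^ 2 * ‖u (circleMap 0 1 θ)‖)
      (fun ω hω => ?_) (fun ω hω => Eventually.of_forall fun θ => ?_)
      ((ci_iff.1 hu).norm.const_mul _) (Eventually.of_forall fun θ => ?_)
    · exact ((hk.comp_continuous (continuous_const.mul (continuous_circleMap 0 1))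
        (hm ω hω)).norm.pow 2).aestronglyMeasurable.smul (ci_iff.1 hu).1
    · rw [norm_smul, Real.norm_of_nonneg (by positivity)]
      gcongr
      exact hM _ (hm ω hω θ)
    · exact ((hk.comp (Complex.continuous_conj.mul continuous_const).continuousOn
        fun ω hω => hm ω hω θ).norm.pow 2).smul continuousOn_const
  refine h.congr fun ω hω => ?_
  obtain ⟨θ, rfl⟩ := exists_cm hω
  rw [cv_nu1 hk, av_eq]
  have : ∀ τ, rt (-θ) τ = conj (circleMap 0 1 θ) * τ := fun τ => by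
    simp [rt, circleMap, ← Complex.exp_conj]
  simp only [this]

theorem nu1_mom {C N : ℝ} {p : ℕ} (hC : 0 ≤ C) (hN : 0 < N) (hb : ∀ θ : ℝ, |θ| ≤ Real.pi →
    ‖k (circleMap 0 1 θ)‖ ^ 2 ≤ C * N / (1 + N * |θ|) ^ (2 * (p + 1))) :
    ∫⁻ h, ENNReal.ofReal ((1 + N * |h|) ^ p) ∂nu1 k ≤ ENNReal.ofReal C := by
  have hi : Integrable fun s : ℝ => (2 * Real.pi)⁻¹ * C * N * (1 + (N * s) ^ 2)⁻¹ :=
    (integrable_inv_one_add_sq.comp_mul_left' hN.ne').const_mul _
  rw [nu1, wd_lint (k1_cont hk) (by fun_prop) fun s => by positivity]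
  calc _ ≤ ∫⁻ s in Ioc (-Real.pi) Real.pi,
        ENNReal.ofReal ((2 * Real.pi)⁻¹ * C * N * (1 + (N * s) ^ 2)⁻¹) := by
        refine setLIntegral_mono' measurableSet_Ioc fun s hs => ENNReal.ofReal_le_ofReal ?_
        have h1 := hb s (abs_le.2 ⟨hs.1.le, hs.2⟩)
        have h2 : 1 ≤ 1 + N * |s| := le_add_of_nonneg_right (by positivity)
        have h3 : (1 + N * |s|) ^ p * (1 + (N * s) ^ 2) ≤ (1 + N * |s|) ^ (2 * (p + 1)) := by
          calc _ ≤ (1 + N * |s|) ^ (2 * p) * (1 + N * |s|) ^ 2 := by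
                gcongr
                · omega
                · rw [mul_pow, ← sq_abs s]
                  nlinarith [mul_nonneg hN.le (abs_nonneg s)]
            _ = _ := by ring
        calc (1 + N * |s|) ^ p * k1 k s
            ≤ (1 + N * |s|) ^ p *
              ((2 * Real.pi)⁻¹ * (C * N / (1 + N * |s|) ^ (2 * (p + 1)))) := by
              unfold k1
              gcongr
          _ ≤ (1 + N * |s|) ^ p *
              ((2 * Real.pi)⁻¹ * (C * N / ((1 + N * |s|) ^ p * (1 + (N * s) ^ 2)))) := by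
              gcongr
          _ = _ := by field_simp
    _ ≤ ∫⁻ s, ENNReal.ofReal ((2 * Real.pi)⁻¹ * C * N * (1 + (N * s) ^ 2)⁻¹) :=
        setLIntegral_le_lintegral _ _
    _ ≤ _ := by
        rw [← ofReal_integral_eq_lintegral_ofReal hi (Eventually.of_forall fun s => by positivity),
          integral_const_mul, Measure.integral_comp_mul_left (fun x : ℝ => (1 + x ^ 2)⁻¹),
          integral_univ_inv_one_add_sq, abs_of_pos (inv_pos.2 hN), smul_eq_mul]
        refine ENNReal.ofReal_le_ofReal ?_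
        have : (2 * Real.pi)⁻¹ * C * N * (N⁻¹ * Real.pi) = C / 2 := by field_simp
        linarith

end

theorem conv_mom (ν₁ ν₂ : Measure ℝ) [SFinite ν₁] {C₁ C₂ N : ℝ} {p : ℕ} (hN : 0 ≤ N)
    (hC : 0 ≤ C₂) (h1 : ∫⁻ h, ENNReal.ofReal ((1 + N * |h|) ^ p) ∂ν₁ ≤ ENNReal.ofReal C₁)
    (h2 : ∫⁻ h, ENNReal.ofReal ((1 + N * |h|) ^ p) ∂ν₂ ≤ ENNReal.ofReal C₂) :
    ∫⁻ h, ENNReal.ofReal ((1 + N * |h|) ^ p) ∂(ν₂ ∗ ν₁) ≤ ENNReal.ofReal (C₂ * C₁) := by
  have hm : Measurable fun h : ℝ => ENNReal.ofReal ((1 + N * |h|) ^ p) := by fun_prop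
  rw [Measure.lintegral_conv hm]
  calc _ ≤ ∫⁻ x, ∫⁻ y, ENNReal.ofReal ((1 + N * |x|) ^ p) * ENNReal.ofReal ((1 + N * |y|) ^ p)
        ∂ν₁ ∂ν₂ := by
        refine lintegral_mono fun x => lintegral_mono fun y => ?_
        rw [← ENNReal.ofReal_mul (by positivity), ← mul_pow]
        refine ENNReal.ofReal_le_ofReal (pow_le_pow_left₀ (by positivity) ?_ _)
        nlinarith [mul_le_mul_of_nonneg_left (abs_add_le x y) hN,
          mul_nonneg (mul_nonneg hN (abs_nonneg x)) (mul_nonneg hN (abs_nonneg y))]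
    _ ≤ _ := by
        simp only [lintegral_const_mul _ hm]
        rw [lintegral_mul_const _ hm, ENNReal.ofReal_mul hC]
        exact mul_le_mul' h2 h1

/-! ### the semiconvex kernel -/

section

variable {κ : ℝ → ℝ} (hc : Continuous κ) (h0 : ∀ s, 0 ≤ κ s) (hi : Integrable κ)
  {u : ℂ → E} (hu : ContinuousOn u (sphere 0 1)) {τ : ℂ} (hτ : τ ∈ sphere (0 : ℂ) 1)

include hc h0 in
theorem cv_shift (u : ℂ → E) (τ : ℂ) (h : ℝ) :
    cv (wd volume κ) u (rt h τ) = ∫ s, κ (s - h) • u (rt s τ) := by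
  rw [cv, wd_int hc h0, ← integral_sub_right_eq_self _ h]
  simp only [rt_rt, sub_add_cancel]

include hi hu hτ in
theorem int_shift (h : ℝ) : Integrable fun s => κ (s - h) • u (rt s τ) := by
  obtain ⟨M, -, hM⟩ := exists_bound_cs hu
  exact Integrable.smul_bdd (hi.comp_sub_right h) M (cont_rt hu hτ).aestronglyMeasurable
    (Eventually.of_forall fun s => hM _ (rt_mem s hτ))

include hc h0 hi hτ in
theorem cv_semi {u : ℂ → ℝ} (hu : ContinuousOn u (sphere 0 1))
    (u0 : ∀ τ ∈ sphere (0 : ℂ) 1, 0 ≤ u τ) {h t : ℝ}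
    (hκ : ∀ s, κ (s + h) + κ (s - h) ≤ t * κ s) :
    cv (wd volume κ) u (rt h τ) + cv (wd volume κ) u (rt (-h) τ) ≤ t * cv (wd volume κ) u τ := by
  have e := cv_shift hc h0 u τ 0
  rw [rt_zero] at e
  rw [e, cv_shift hc h0, cv_shift hc h0, ← integral_add (int_shift hi hu hτ _)
    (int_shift hi hu hτ _), ← integral_const_mul]
  refine integral_mono ((int_shift hi hu hτ _).add (int_shift hi hu hτ _))
    ((int_shift hi hu hτ _).const_mul _) fun s => ?_
  simp only [smul_eq_mul, sub_neg_eq_add, sub_zero]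
  nlinarith [mul_le_mul_of_nonneg_right (hκ s) (u0 _ (rt_mem s hτ))]

include hc h0 hi hu in
theorem cv_w12 [CompleteSpace E] (h1 : ∫ s, κ s = 1) {C N : ℝ} (hC : 0 ≤ C) (hN : 0 < N)
    (hκ : ∀ s h : ℝ, |h| ≤ 1 / N → |κ (s + h) - κ s| ≤ C * N * |h| * κ s) :
    W12 (cv (wd volume κ) u) := by
  have := wd_prob hc h0 h1
  obtain ⟨M, hM0, hM⟩ := exists_bound_cs hu
  refine (dq_of_angle (L := (C + 2) * N * M) (by positivity) (cs_cv _ hu) fun τ hτ h => ?_).w12
  have hb : ∀ σ ∈ sphere (0 : ℂ) 1, ‖cv (wd volume κ) u σ‖ ≤ M := fun σ hσ => by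
    simpa [cv] using norm_integral_le_of_norm_le_const (μ := wd volume κ)
      (Eventually.of_forall fun s => hM _ (rt_mem s hσ))
  have hp : 0 ≤ N * M * |h| := by positivity
  rw [dist_eq_norm]
  by_cases hh : |h| ≤ 1 / N
  · have e := cv_shift hc h0 u τ 0
    rw [rt_zero] at e
    rw [e, cv_shift hc h0, ← integral_sub (int_shift hi hu hτ _) (int_shift hi hu hτ _)]
    refine (norm_integral_le_of_norm_le (hi.const_mul (C * N * |h| * M))
      (Eventually.of_forall fun s => ?_)).trans ?_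
    · rw [← sub_smul, norm_smul, sub_zero, Real.norm_eq_abs]
      have h2 := hκ s (-h) (by rwa [abs_neg])
      rw [abs_neg, ← sub_eq_add_neg] at h2
      calc _ ≤ C * N * |h| * κ s * M :=
            mul_le_mul h2 (hM _ (rt_mem s hτ)) (norm_nonneg _) (by have := h0 s; positivity)
        _ = _ := by ring
    · rw [integral_const_mul, h1]
      nlinarith
  · have h2 : 1 ≤ N * |h| := by
      rw [not_le, div_lt_iff₀ hN] at hh
      linarith
    have h3 := (norm_sub_le _ _).trans (add_le_add (hb _ (rt_mem h hτ)) (hb _ hτ))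
    nlinarith [mul_le_mul_of_nonneg_left h2 hM0, mul_nonneg hC hp]

end

end Vale.Agent.P253W.A.Sy
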