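import Vale.Agent.P253W.A.Defs1
import Vale.Agent.P253W.A.Lipk
import Vale.Agent.P253W.WM.Four

/-!
# P253W, block A: row VIS
-/

open Complex Metric Set Filter Topology
open scoped Matrix ComplexConjugate ComplexOrder
open Vale.Agent.P272.K (Cm cHess Chart cHess_isHermitian)

noncomputable section

namespace Vale.Agent.P253W.A

open WM Bs

namespace Vi

theorem small {g : ℝ → ℝ} {a : ℝ} (hg : Continuous g) (h : g 0 < a) :
    ∀ᶠ s in 𝓝[>] (0 : ℝ), g s ≤ a :=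
  ((hg.tendsto 0).eventually (eventually_le_nhds h)).filter_mono nhdsWithin_le_nhds

theorem hf_nn {ι : Type*} [Fintype ι] {a : Matrix ι ι ℂ} (h : a.PosSemidef) (u : ι → ℂ) :
    0 ≤ hf a u := (Complex.nonneg_iff.1 (h.dotProduct_mulVec_nonneg u)).1

variable {n : ℕ} {N : Type} [TopologicalSpace N] {B : Bs n N}

theorem zc_app (z v : Cm n) : zc (Fin.append z v) = z := funext fun i => Fin.append_left z v i

theorem vc_app (z v : Cm n) : vc (Fin.append z v) = v := funext fun i => Fin.append_right z v i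

theorem app0 : Fin.append (0 : Cm n) (0 : Cm n) = 0 :=
  funext fun i => Fin.addCases (fun i => Fin.append_left _ _ i) (fun i => Fin.append_right _ _ i) i

theorem tm_mem (D : B.Dk) {τ : ℂ} (h : τ ∈ sphere (0 : ℂ) 1) : tm (D.ζ τ) ∈ Icc 0 B.S :=
  ⟨(Real.exp_pos _).le, D.le τ (sphere_subset_closedBall h)⟩

/-- constant discs -/
theorem cst (hB : B.Ok) {q : ℝ × Cm n} (D : B.Dk) (hD : D.At q) (hq : q ∈ Ioo 0 B.S ×ˢ B.U)
    {v : Cm n} {g : ℝ} (hv : v ≠ 0) (hg : Real.exp g = hf (B.G q.1 q.2) v) :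
    ∃ E : B.Dk, E.At q ∧ E.γ = g ∧ E.p = v := by
  have h := (hB.pos q.1 (Ioo_subset_Ioc_self hq.1) q.2 hq.2).2 v
  have ht : Fin.append q.2 v ∈ B.e.target := (hB.tgt _).2 (by rw [zc_app]; exact hq.2)
  refine ⟨⟨fun _ => B.e.symm (Fin.append q.2 v), fun _ => D.ζ 0, ⟨continuousOn_const,
    continuousOn_const, fun _ _ => differentiableOn_const _⟩, diffContOnCl_const,
    fun _ _ => D.le 0 (mem_closedBall_self zero_le_one), fun _ _ => h.2 hv⟩,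
    ⟨B.e.map_target ht, ?_, hD.2.2⟩, ?_, ?_⟩
  · simp only [B.e.right_inv ht, zc_app]
  · simp only [Dk.γ, av_const, hD.2.2, h.1, ← hg, Real.log_exp]
  · simp only [Dk.p, B.e.right_inv ht, vc_app]

variable {σ l₀ : ℝ} {P : B.Pen σ l₀}

theorem pi_nn {D : B.Dk} (h : ∀ τ ∈ sphere (0 : ℂ) 1, D.φ τ ∈ P.W) : 0 ≤ P.Pi D :=
  add_nonneg (av_nonneg fun τ hτ => (P.wall _ (tm_mem D hτ) _ (h τ hτ)).1) (P.T_nn _)

theorem pi_le {D : B.Dk} {ε : ℝ} (h0 : P.T D.φ ≤ ε)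
    (h : ∀ τ ∈ sphere (0 : ℂ) 1, D.φ τ ∈ P.W ∧ ∀ t ∈ Icc 0 B.S, P.b t (D.φ τ) ≤ ε) :
    P.Pi D ≤ ε + ε :=
  add_le_add (av_le_const (P.cb.comp (f := fun τ => (tm (D.ζ τ), D.φ τ))
    ((Real.continuous_exp.comp_continuousOn (continuousOn_const.mul
      (continuous_re.comp_continuousOn D.da.cs))).prodMk (D.dn.1.mono sphere_subset_closedBall))
    fun τ hτ => ⟨⟨(tm_mem D hτ).1, (tm_mem D hτ).2.trans_lt (lt_add_one _)⟩, (h τ hτ).1⟩)
    fun τ hτ => (h τ hτ).2 _ (tm_mem D hτ)) h0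

theorem hw [T2Space N] (hB : B.Ok) {D : B.Dk} (h : D.Reg) : HWv (P.Y D) := by
  have k := lipk _ N B.𝒜 _ P.F hB.atl P.ho
  rintro (_ | l)
  · exact ⟨D.da, h.1⟩
  · exact ⟨DA.mk' (k.2.1 _ _ isOpen_ball D.dn.2 l) (((continuous_apply l).comp
      k.1).comp_continuousOn D.dn.1), h.2 _ _ P.ho l⟩

/-- the starting tuple -/
theorem start [T2Space N] (hB : B.Ok) (hs : B.START) (hp : B.PEN) (h8 : JS) {m : ℕ} (hm : 0 < m)
    {f : ℝ × Cm n → ℝ} {q₀ q : ℝ × Cm n} {δ e₀ e₁ : ℝ} (hσ : 0 < σ) (hl : 0 < l₀) (h0 : 0 < e₀)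
    (h1 : e₁ ∈ Icc (0 : ℝ) 1) (hq : q ∈ closedBall q₀ δ) {D : Fin m → B.Dk} (hD : ∀ i, (D i).At q)
    (hZ : (Z D).PosDef) : ∃ (P : B.Pen σ l₀) (x : P.Ad m q₀ δ),
      x.Fn f e₁ ≤ J D - f q + 2 * e₀ := by
  have n0 : (0 : ℝ) < n := Nat.cast_pos.2 hB.npos
  have m0 : (0 : ℝ) < m := Nat.cast_pos.2 hm
  choose E c k using fun i => hs (D i) q (e₀ / n) (hD i) (div_pos h0 n0)
  obtain ⟨P, hP⟩ := hp σ l₀ (e₀ / m / 2) m (fun i => (E i).φ) hσ hl (by positivity)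
    fun i => ⟨(E i).dn, (k i).2.2.2.2.2⟩
  have j := h8 n m (fun i => (D i).γ) (fun i => (E i).γ) (fun i => (D i).p) c (e₀ / n) hZ
    fun i => ⟨(k i).1, (k i).2.2.2.1⟩
  rw [← funext fun i => (k i).2.2.1, mul_div_cancel₀ _ n0.ne'] at j
  refine ⟨P, ⟨E, q, hq, fun i => (k i).2.1, j.1, fun i τ hτ => ((hP i).2 τ hτ).1,
    fun i => hw hB (k i).2.2.2.2.1⟩, ?_⟩
  have s : ∑ i, e₁ * Real.log (1 + P.Pi (E i)) ≤ ∑ _i : Fin m, e₀ / m :=
    Finset.sum_le_sum fun i _ => by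
      have a := pi_nn (P := P) fun τ hτ => ((hP i).2 τ hτ).1
      have b := pi_le (hP i).1 (hP i).2
      have c := Real.log_le_sub_one_of_pos (x := 1 + P.Pi (E i)) (by linarith)
      have d := mul_le_of_le_one_left (Real.log_nonneg (x := 1 + P.Pi (E i)) (by linarith)) h1.2
      linarith
  rw [Finset.sum_const, Finset.card_univ, Fintype.card_fin, nsmul_eq_mul,
    mul_div_cancel₀ _ m0.ne'] at s
  have := j.2
  simp only [Pen.Ad.Fn, J]
  linarith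

end Vi

open Vi

theorem vis {n : ℕ} {N : Type} [TopologicalSpace N] [T2Space N] (B : Bs n N) (hB : B.Ok)
    (hs : B.START) (hp : B.PEN) (h1 : B.MIN) (h2 : B.ONE) (h3 : B.VAR1) (h4 : B.VAR2)
    (h5 : B.VART) (h6 : NUM) (h7 : FIN) (h8 : JS) (h9 : JA) : B.VIS := fun θ t0 t1 => by
  obtain ⟨m₀, hm⟩ := h6 n θ hB.npos t1
  refine ⟨m₀, fun m hm' f q₀ δ c σ hδ hσ hc L ⟨q₁, hq₁, D₁, a₁, z₁, j₁⟩ => ?_⟩
  obtain ⟨nm, ξ, e₁, l₀, x0, e0, e1, l0, l1, Λ0, θ0, θ1⟩ := hm m hm'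
  have m0 : 0 < m := hB.npos.trans nm
  obtain ⟨Λ, hΛ⟩ : ∃ Λ : ℝ, Λ = Real.exp ξ / (1 - n / m) - 1 := ⟨_, rfl⟩
  rw [← hΛ] at Λ0 θ0 θ1
  obtain ⟨M, hM⟩ := (isCompact_closedBall q₀ δ).exists_bound_of_continuousOn
    (f := fun q => (fderiv ℝ f q (1, 0), q.1⁻¹)) fun q hq =>
      (((((L.sm q hq).fderiv_right (m := 0) (by norm_num)).continuousAt.clm_apply
        continuousAt_const).prodMk (continuousAt_fst.inv₀ (L.sub hq).1.1.ne')).continuousWithinAt)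
  obtain ⟨s, ⟨s1, s2⟩, s0 : 0 < s⟩ := (((small (g := fun s => ((1 + s) ^ 2 * Real.exp (2 * s) - 1) * M
    + (1 + s) ^ 2 * Real.exp (2 * s) * ((6 * m + 1) * s * M)) (a := σ) (by fun_prop)
    (by simpa)).and
    (small (a := 1 / 4) continuous_id (by norm_num))).and self_mem_nhdsWithin).exists
  obtain ⟨S, hS⟩ : ∃ S : Set ℝ, S = {r | ∃ q ∈ closedBall q₀ δ, ∃ D : Fin m → B.Dk,
    (∀ i, (D i).At q) ∧ (Z D).PosDef ∧ r = J D - f q} := ⟨_, rfl⟩
  have lo : -(n * Real.log (m / n)) ∈ lowerBounds S := by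
    rintro r (hr : r ∈ S)
    obtain ⟨q, hq, D, a, z, rfl⟩ := hS ▸ hr
    have := L.le q hq D a z
    have : 0 ≤ dist q q₀ ^ 4 := by positivity
    linarith
  have inf : ∀ q ∈ closedBall q₀ δ, ∀ D : Fin m → B.Dk, (∀ i, (D i).At q) → (Z D).PosDef →
      sInf S ≤ J D - f q := fun q hq D a z => csInf_le ⟨_, lo⟩ (hS ▸ ⟨q, hq, D, a, z, rfl⟩)
  have ne : S.Nonempty := hS ▸ ⟨_, q₁, hq₁, D₁, a₁, z₁, rfl⟩
  have i1 := inf q₁ hq₁ D₁ a₁ z₁
  have i0 := le_csInf ne lo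
  obtain ⟨e₀, ⟨⟨u1, u2⟩, u3⟩, u0 : 0 < e₀⟩ := ((((small (g := fun e => 3 * e) (a := ξ) (by fun_prop)
    (by simpa)).and (small (g := fun e => 3 * e) (a := c) (by fun_prop) (by simp; linarith))).and
    (small (g := fun e => 6 * (Real.exp (3 * e / e₁) - 1)) (a := s) (by fun_prop)
      (by simpa))).and self_mem_nhdsWithin).exists
  obtain ⟨r, hr, r1⟩ := exists_lt_of_csInf_lt ne (lt_add_of_pos_right _ u0)
  obtain ⟨q₂, hq₂, D₂, a₂, z₂, rfl⟩ := hS ▸ hr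
  obtain ⟨P, x₀, f0⟩ := start (f := f) hB hs hp h8 m0 s0 l0 u0 ⟨e0.le, e1⟩ hq₂ a₂ z₂
  obtain ⟨κ, C, k0, one⟩ := h2 s l₀ P s0 s2 l0
  obtain ⟨ε, ⟨⟨v1, v2⟩, v3⟩, v0 : 0 < ε⟩ := ((((small (g := fun e => 2 * e) (a := κ) (by fun_prop)
    (by simpa)).and (small (g := fun e => e * (κ / 2) ^ 2) (a := e₁) (by fun_prop)
      (by simpa))).and (small (g := fun e => e * (κ / 2) * √(m * C)) (a := s) (by fun_prop)
      (by simpa))).and self_mem_nhdsWithin).exists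
  obtain ⟨R, x, g, R1, mn, f1, g1, dq⟩ := h1 s l₀ P m f q₀ δ e₁ (κ / 2) ε x₀ e0 (half_pos k0) v0 L
  have R0 : 0 < R := one_pos.trans_le R1
  have p0 := fun i => pi_nn (x.bd i)
  have p1 : ∀ i, 0 ≤ e₁ * Real.log (1 + P.Pi (x.D i)) := fun i =>
    mul_nonneg e0.le (Real.log_nonneg (le_add_of_nonneg_right (p0 i)))
  have p2 := Finset.sum_nonneg fun i (_ : i ∈ Finset.univ) => p1 i
  have f2 : J x.D - f x.q + ∑ i, e₁ * Real.log (1 + P.Pi (x.D i)) ≤ sInf S + 3 * e₀ :=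
    f1.trans (by linarith)
  have lw := L.le x.q x.hq x.D x.ctr x.pd
  have d4 : dist x.q q₀ ^ 4 ≤ 2 * c := by linarith
  have d1 : x.q ∈ ball q₀ δ := lt_of_pow_lt_pow_left₀ 4 hδ.le (d4.trans_lt hc)
  have sb := L.sub x.hq
  have sm := L.sm _ x.hq
  have hG := (hB.pos _ (Ioo_subset_Ioc_self sb.1) _ sb.2).1
  have ex : ∀ i (E : B.Dk), E.At x.q → (Zm (Function.update (fun k => (x.D k).γ) i E.γ)
      (Function.update (fun k => (x.D k).p) i E.p)).PosDef → J x.D ≤ Jm (Function.update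
        (fun k => (x.D k).γ) i E.γ) (Function.update (fun k => (x.D k).p) i E.p) + ξ := by
    intro i E a z
    rw [← Function.comp_def Dk.γ, ← Function.comp_def Dk.p, ← Function.comp_update,
      ← Function.comp_update] at z ⊢
    have := inf _ x.hq (Function.update x.D i E)
      (fun k => Function.update_apply x.D i E k ▸ by split_ifs; exacts [a, x.ctr k]) z
    change _ ≤ J (Function.update x.D i E) + ξ
    linarith
  obtain ⟨lv1, lv2⟩ := h9.2.1 n m _ _ _ ξ x.pd hG nm x0.le fun i γ v h => by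
    obtain ⟨j, rfl, rfl⟩ | ⟨a, b⟩ := h
    · exact ex i _ (x.ctr j)
    · obtain ⟨E, k, rfl, rfl⟩ := cst hB _ (x.ctr i) sb a b
      exact ex i E k
  rw [← hΛ] at lv1 lv2
  have b0 : ∀ i, l₀ ≤ lv x.D i := fun i => l1.trans (lv1 i).1
  have b1 : ∀ i, lv x.D i ≤ Λ := fun i => (lv1 i).2
  have b2 : 0 ≤ 2 * e₁ / l₀ := by positivity
  have g2 : ε * gq R (x.Y - g) ≤ e₁ := (mul_le_mul_of_nonneg_left g1 v0.le).trans v2
  have var := fun i v y => h3 s l₀ P m f q₀ δ e₁ ε R x g i v y e0 v0 R0 mn g2 (l0.trans_le (b0 i))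
  choose p c' o1 o2 o3 o4 o5 o6 o7 o8 using fun i => one R (2 * ε) (lv x.D i) (x.g e₁ i) (x.D i)
    x.q R1 (by positivity) v1 ⟨b0 i, by linarith [b1 i]⟩ ⟨div_nonneg e0.le (by linarith [p0 i]),
      (div_le_self e0.le (le_add_of_nonneg_right (p0 i))).trans e1⟩ (x.ctr i) (x.bd i)
    (fun l => by simpa only [mul_div_cancel₀ κ two_ne_zero, Pen.Ad.Y] using dq (i, l)) (by
      have a := Finset.single_le_sum (fun i _ => p1 i) (Finset.mem_univ i)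
      have b := inf _ x.hq _ x.ctr x.pd
      have c : Real.log (1 + P.Pi (x.D i)) ≤ 3 * e₀ / e₁ := (le_div_iff₀' e0).2 (by linarith)
      have d := (Real.log_le_iff_le_exp (by linarith [p0 i])).1 c
      linarith) fun y hy => by simpa [hf] using var i 0 y (app0.symm ▸ hy)
  choose y o8 o9 using o8
  have vt := h5 s l₀ P m f q₀ δ e₁ ε R C x g p e0 v0 R0 mn d1 sm fun i => ⟨o1 i, o2 i, o3 i, o4 i⟩
  refine ⟨x.q, d4, fun A a1 a2 => (h7 n m _ _ _ _ _ A c' θ _ Λ s x.q.1 (Real.exp (2 * s)) _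
    hB.npos m0 x.pd hG (cHess_isHermitian (sm.comp x.q.2 (contDiffAt_const.prodMk contDiffAt_id)))
    a1 a2 lv2 Λ0 t0 θ0 θ1 ((le_add_of_nonneg_right (by positivity)).trans lw) sb.1.1 s0.le
    (Real.exp_pos _).le (fun i => ⟨b1 i, o5 i, o6 i, o7 i, fun v =>
      ((mul_le_mul_of_nonneg_right ?_ (mul_nonneg (Real.exp_pos _).le
        (hf_nn x.pd.inv.posSemidef v))).trans (var i v _ (o8 i _))).trans (o9 i _)⟩) fun v v' =>
    (h4 s l₀ P m f q₀ δ e₁ ε R x g v v' _ e0 v0 R0 mn d1 sm fun i => o8 i _).trans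
      (Finset.sum_le_sum fun i _ => o9 i _)).trans ?_⟩
  · linarith [b1 i, div_le_div_of_nonneg_left (a := 2 * e₁) (by positivity) l0 (b0 i)]
  have dv : deriv (fun s => f (s, x.q.2)) x.q.1 = fderiv ℝ f x.q (1, 0) :=
    ((sm.differentiableAt (by simp)).hasFDerivAt.comp_hasDerivAt x.q.1
      ((hasDerivAt_id _).prodMk (hasDerivAt_const _ _))).deriv
  have w1 : ε * √(gq R (x.Y - g)) * √(m * C) ≤ s := le_trans (by
    gcongr; exact Real.sqrt_le_iff.2 ⟨(half_pos k0).le, g1⟩) v3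
  have w2 := (le_abs_self _).trans ((norm_fst_le _).trans (hM _ x.hq))
  have w3 := (le_abs_self _).trans ((norm_snd_le _).trans (hM _ x.hq))
  have w4 : 1 ≤ (1 + s) ^ 2 * Real.exp (2 * s) := one_le_mul_of_one_le_of_one_le
    (one_le_pow₀ (le_add_of_nonneg_right s0.le)) (Real.one_le_exp (by positivity))
  rw [Finset.sum_add_distrib, Finset.sum_const, Finset.card_univ, Fintype.card_fin, nsmul_eq_mul]
  rw [dv] at vt ⊢
  generalize (1 + s) ^ 2 * Real.exp (2 * s) = E at *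
  have w5 : (_ + m * (6 * s)) / x.q.1 ≤ fderiv ℝ f x.q (1, 0) + (6 * m + 1) * s * M :=
    (div_le_iff₀ sb.1.1).2 ((add_le_add_left (vt.trans (add_le_add_right w1 _)) _).trans (by
      have := mul_le_mul_of_nonneg_left ((inv_le_iff_one_le_mul₀ sb.1.1).1 w3)
        (show 0 ≤ (6 * m + 1) * s by positivity)
      linarith))
  have := mul_le_mul_of_nonneg_left w5 (zero_le_one.trans w4)
  have := mul_le_mul_of_nonneg_left w2 (sub_nonneg.2 w4)
  rw [mul_div_assoc]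
  linarith

end Vale.Agent.P253W.A
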